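import Vale.Agent.P219.StmS

/-! Basic API of the analytic part. -/

open scoped ENNReal RealInnerProductSpace Topology
open MeasureTheory Set Filter

namespace Vale.Agent.P219

namespace Dat

variable {n : ℕ} {d : Dat n} {f g h k : Eu n → ℝ} {x z : Eu n} {γ : ℝ}

theorem Ok.cpt (o : d.Ok) : IsCompact d.K := o.proper _ _

theorem Ok.o_mem (o : d.Ok) : d.o ∈ d.K := by
  show d.Q d.o d.o ≤ d.a0
  rw [o.zero]; exact o.ha

theorem Ok.Q_nonneg (o : d.Ok) (z x : Eu n) : 0 ≤ d.Q z x := by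
  by_cases hx : x = z
  · rw [hx, o.zero]
  · exact (o.pos z x hx).le

theorem Ok.contQ (o : d.Ok) : Continuous fun p : Eu n × Eu n => d.Q p.1 p.2 := o.Qsm.continuous

theorem Ok.Q2 (o : d.Ok) (z : Eu n) : ContDiff ℝ 2 (d.Q z) :=
  o.Qsm.comp (contDiff_const.prodMk contDiff_id)

theorem Ok.Q1 (o : d.Ok) (z : Eu n) : ContDiff ℝ 1 (d.Q z) := (o.Q2 z).of_le (by norm_num)

theorem Ok.Qc (o : d.Ok) (z : Eu n) : Continuous (d.Q z) := (o.Q1 z).continuous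

theorem Ok.Qd (o : d.Ok) (z x : Eu n) : DifferentiableAt ℝ (d.Q z) x :=
  (o.Q1 z).differentiable one_ne_zero x

theorem Ok.Qmax (o : d.Ok) : ∃ M > 0, ∀ z ∈ d.K, ∀ x ∈ d.K, d.Q z x ≤ M := by
  obtain ⟨M, hM⟩ := ((o.cpt.prod o.cpt).image o.contQ).bddAbove
  exact ⟨max M 1, by positivity, fun z hz x hx =>
    (hM ⟨(z, x), ⟨hz, hx⟩, rfl⟩).trans (le_max_left _ _)⟩

theorem Ok.m3 (o : d.Ok) : (3 : ℝ) ≤ d.m := by exact_mod_cast o.hm

theorem Ok.m_pos (o : d.Ok) : (0 : ℝ) < d.m := by linarith [o.m3]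

theorem Ok.cm_pos (o : d.Ok) : 0 < d.cm := by
  have := o.m3
  unfold cm; nlinarith

theorem Ok.th_pos (o : d.Ok) : 0 < d.th := by
  have := o.m3
  unfold th; linarith

theorem Ok.two_lt_p (o : d.Ok) : 2 < d.p := by
  have := o.m3
  unfold p; rw [lt_div_iff₀ (by linarith)]; linarith

theorem Ok.mass_pos (o : d.Ok) : 0 < d.μ.real univ := by
  haveI := o.fin
  exact ENNReal.toReal_pos (by simpa using o.ne) (measure_ne_top _ _)

/-! ### Bounded measurable functions -/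

theorem BM.integrable (o : d.Ok) (hf : d.BM f) : Integrable f d.μ := by
  haveI := o.fin
  obtain ⟨C, hC⟩ := hf.2
  exact (integrable_const C).mono' hf.1.aestronglyMeasurable (o.supp.mono fun x hx => hC x hx)

theorem Ok.bm_cont (o : d.Ok) (hf : Continuous f) : d.BM f := by
  obtain ⟨C, hC⟩ := o.cpt.exists_bound_of_continuousOn hf.continuousOn
  exact ⟨hf.measurable, C, hC⟩

theorem bm_const (c : ℝ) : d.BM fun _ => c := ⟨measurable_const, |c|, fun _ _ => le_rfl⟩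

theorem BM.add (hf : d.BM f) (hg : d.BM g) : d.BM fun x => f x + g x := by
  obtain ⟨C, hC⟩ := hf.2
  obtain ⟨D, hD⟩ := hg.2
  exact ⟨hf.1.add hg.1, C + D, fun x hx => (abs_add_le _ _).trans (add_le_add (hC x hx) (hD x hx))⟩

theorem BM.neg (hf : d.BM f) : d.BM fun x => -f x := by
  obtain ⟨C, hC⟩ := hf.2
  exact ⟨hf.1.neg, C, fun x hx => by simpa using hC x hx⟩

theorem BM.sub (hf : d.BM f) (hg : d.BM g) : d.BM fun x => f x - g x := by
  simpa [sub_eq_add_neg] using hf.add hg.neg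

theorem BM.mul (hf : d.BM f) (hg : d.BM g) : d.BM fun x => f x * g x := by
  obtain ⟨C, hC⟩ := hf.2
  obtain ⟨D, hD⟩ := hg.2
  refine ⟨hf.1.mul hg.1, C * D, fun x hx => ?_⟩
  rw [abs_mul]
  exact mul_le_mul (hC x hx) (hD x hx) (abs_nonneg _) ((abs_nonneg _).trans (hC x hx))

theorem BM.const_mul (hf : d.BM f) (c : ℝ) : d.BM fun x => c * f x := (bm_const c).mul hf

theorem BM.comp (hf : d.BM f) {ψ : ℝ → ℝ} (hψ : Continuous ψ) : d.BM fun x => ψ (f x) := by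
  obtain ⟨C, hC⟩ := hf.2
  obtain ⟨D, hD⟩ := (isCompact_Icc (a := -C) (b := C)).exists_bound_of_continuousOn
    hψ.continuousOn
  exact ⟨hψ.measurable.comp hf.1, D, fun x hx => hD _ (abs_le.1 (hC x hx))⟩

theorem BM.pow (hf : d.BM f) (j : ℕ) : d.BM fun x => f x ^ j := hf.comp (continuous_pow j)

theorem BM.abs (hf : d.BM f) : d.BM fun x => |f x| := hf.comp continuous_abs

theorem BM.sqrt (hf : d.BM f) : d.BM fun x => √(f x) := hf.comp Real.continuous_sqrt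

theorem BM.rpow (hf : d.BM f) {r : ℝ} (hr : 0 ≤ r) : d.BM fun x => f x ^ r :=
  hf.comp (Real.continuous_rpow_const hr)

theorem bm_sum {ι : Type} (s : Finset ι) {F : ι → Eu n → ℝ} (hF : ∀ i ∈ s, d.BM (F i)) :
    d.BM fun x => ∑ i ∈ s, F i x := by
  classical
  induction s using Finset.induction_on with
  | empty => simpa using bm_const 0
  | insert a s ha ih =>
    simp only [Finset.sum_insert ha]
    exact (hF a (by simp)).add (ih fun i hi => hF i (by simp [hi]))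

theorem BM.ite {P : Eu n → Prop} [DecidablePred P] (hP : MeasurableSet {x | P x}) (hf : d.BM f)
    (hg : d.BM g) : d.BM fun x => if P x then f x else g x := by
  obtain ⟨C, hC⟩ := hf.2
  obtain ⟨D, hD⟩ := hg.2
  refine ⟨Measurable.ite hP hf.1 hg.1, max C D, fun x hx => ?_⟩
  beta_reduce
  split_ifs
  exacts [(hC x hx).trans (le_max_left _ _), (hD x hx).trans (le_max_right _ _)]

theorem BM.indicator {S : Set (Eu n)} (hS : MeasurableSet S) (hf : d.BM f) :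
    d.BM (S.indicator f) := by
  classical
  exact BM.ite (P := fun x => x ∈ S) hS hf (bm_const 0)

theorem Ok.bm_fderiv (o : d.Ok) (hf : ContDiff ℝ 1 f) {v : Eu n → Eu n} (hv : Measurable v)
    {C : ℝ} (hC : ∀ x ∈ d.K, ‖v x‖ ≤ C) : d.BM fun x => fderiv ℝ f x (v x) := by
  have hc : Continuous (fderiv ℝ f) := hf.continuous_fderiv one_ne_zero
  obtain ⟨D, hD⟩ := o.cpt.exists_bound_of_continuousOn hc.continuousOn
  refine ⟨?_, D * C, fun x hx => ?_⟩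
  · have : Continuous fun p : Eu n × Eu n => fderiv ℝ f p.1 p.2 :=
      (hc.comp continuous_fst).clm_apply continuous_snd
    exact this.measurable.comp (measurable_id.prodMk hv)
  · exact ((fderiv ℝ f x).le_opNorm _).trans
      (mul_le_mul (hD x hx) (hC x hx) (norm_nonneg _) ((norm_nonneg _).trans (hD x hx)))

theorem Ok.bm_Gam (o : d.Ok) (hf : ContDiff ℝ 1 f) (hh : ContDiff ℝ 1 h) : d.BM (d.Gam f h) := by
  obtain ⟨C, hC⟩ := o.bdd
  exact bm_sum _ fun i _ => (o.bm_fderiv hf (o.mτ i) fun x hx => (hC x hx).1 i).mul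
    (o.bm_fderiv hh (o.mτ i) fun x hx => (hC x hx).1 i)

theorem Ok.bm_q (o : d.Ok) (z : Eu n) : d.BM (d.q z) := by
  obtain ⟨C, hC⟩ := o.bdd
  exact o.bm_fderiv (o.Q1 z) o.mN fun x hx => (hC x hx).2

theorem Ok.bm_Q (o : d.Ok) (z : Eu n) : d.BM (d.Q z) := o.bm_cont (o.Qc z)

theorem Ok.int_mono (o : d.Ok) (hf : d.BM f) (hg : d.BM g) (hle : ∀ x ∈ d.K, f x ≤ g x) :
    ∫ x, f x ∂d.μ ≤ ∫ x, g x ∂d.μ :=
  integral_mono_ae (hf.integrable o) (hg.integrable o) (o.supp.mono hle)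

theorem Ok.int_nonneg (o : d.Ok) (hle : ∀ x ∈ d.K, 0 ≤ f x) : 0 ≤ ∫ x, f x ∂d.μ :=
  integral_nonneg_of_ae (o.supp.mono hle)

theorem Ok.setInt_mono (o : d.Ok) {S : Set (Eu n)} (hS : MeasurableSet S) (hf : d.BM f)
    (hg : d.BM g) (hle : ∀ x ∈ d.K, x ∈ S → f x ≤ g x) :
    ∫ x in S, f x ∂d.μ ≤ ∫ x in S, g x ∂d.μ :=
  setIntegral_mono_on_ae (hf.integrable o).integrableOn (hg.integrable o).integrableOn hS
    (o.supp.mono hle)

/-- Cauchy-Schwarz. -/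
theorem Ok.int_cs (o : d.Ok) (hf : d.BM f) (hg : d.BM g) :
    ∫ x, f x * g x ∂d.μ ≤ √((∫ x, f x ^ 2 ∂d.μ) * ∫ x, g x ^ 2 ∂d.μ) := by
  refine Real.le_sqrt_of_sq_le ?_
  have key : ∀ t : ℝ, 0 ≤ (∫ x, f x ^ 2 ∂d.μ) * (t * t) + (2 * ∫ x, f x * g x ∂d.μ) * t +
      ∫ x, g x ^ 2 ∂d.μ := fun t => by
    have e : ∫ x, (f x * t + g x) ^ 2 ∂d.μ = (∫ x, f x ^ 2 ∂d.μ) * (t * t) +
        (2 * ∫ x, f x * g x ∂d.μ) * t + ∫ x, g x ^ 2 ∂d.μ := by
      rw [← integral_mul_const, ← integral_const_mul, ← integral_mul_const, ← integral_add,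
        ← integral_add]
      · congr 1; ext x; ring
      · exact (((hf.pow 2).mul (bm_const _)).add
          (((hf.mul hg).const_mul 2).mul (bm_const _))).integrable o
      · exact (hg.pow 2).integrable o
      · exact ((hf.pow 2).mul (bm_const _)).integrable o
      · exact (((hf.mul hg).const_mul 2).mul (bm_const _)).integrable o
    rw [← e]
    exact integral_nonneg fun x => sq_nonneg _
  have := discrim_le_zero key
  unfold discrim at this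
  nlinarith

/-! ### Algebra of `Gam` -/

theorem Gam_comm (f h : Eu n → ℝ) (x : Eu n) : d.Gam f h x = d.Gam h f x :=
  Finset.sum_congr rfl fun _ _ => mul_comm _ _

theorem Gam_nonneg (f : Eu n → ℝ) (x : Eu n) : 0 ≤ d.Gam f f x :=
  Finset.sum_nonneg fun _ _ => mul_self_nonneg _

theorem Gam_sq_le (f h : Eu n → ℝ) (x : Eu n) : d.Gam f h x ^ 2 ≤ d.Gam f f x * d.Gam h h x := by
  simpa [Gam, sq] using Finset.sum_mul_sq_le_sq_mul_sq Finset.univ
    (fun i => fderiv ℝ f x (d.τ x i)) fun i => fderiv ℝ h x (d.τ x i)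

theorem abs_Gam_le (f h : Eu n → ℝ) (x : Eu n) :
    |d.Gam f h x| ≤ √(d.Gam f f x) * √(d.Gam h h x) := by
  rw [← Real.sqrt_mul (Gam_nonneg f x)]
  exact Real.abs_le_sqrt (Gam_sq_le f h x)

/-- If `df = a dg + c dk` at `x` then `Gam f h = a Gam g h + c Gam k h`. -/
theorem Gam_of_eq {a c : ℝ} (e : ∀ v, fderiv ℝ f x v = a * fderiv ℝ g x v + c * fderiv ℝ k x v)
    (h : Eu n → ℝ) : d.Gam f h x = a * d.Gam g h x + c * d.Gam k h x := by
  simp only [Gam, e, Finset.mul_sum, ← Finset.sum_add_distrib]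
  exact Finset.sum_congr rfl fun _ _ => by ring

theorem Gam_const (c : ℝ) (h : Eu n → ℝ) (x : Eu n) : d.Gam (fun _ => c) h x = 0 := by
  simp [Gam]

theorem Gam_add (hf : DifferentiableAt ℝ f x) (hg : DifferentiableAt ℝ g x) (h : Eu n → ℝ) :
    d.Gam (fun y => f y + g y) h x = d.Gam f h x + d.Gam g h x := by
  rw [Gam_of_eq (a := 1) (c := 1) (g := f) (k := g) fun v => by simp [fderiv_fun_add hf hg]]
  simp

theorem Gam_sub (hf : DifferentiableAt ℝ f x) (hg : DifferentiableAt ℝ g x) (h : Eu n → ℝ) :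
    d.Gam (fun y => f y - g y) h x = d.Gam f h x - d.Gam g h x := by
  rw [Gam_of_eq (a := 1) (c := -1) (g := f) (k := g) fun v => by
    rw [fderiv_fun_sub hf hg, ContinuousLinearMap.sub_apply]; ring]
  ring

theorem Gam_mul (hf : DifferentiableAt ℝ f x) (hg : DifferentiableAt ℝ g x) (h : Eu n → ℝ) :
    d.Gam (fun y => f y * g y) h x = f x * d.Gam g h x + g x * d.Gam f h x :=
  Gam_of_eq (fun v => by simp [fderiv_fun_mul hf hg]) h

theorem Gam_comp {ψ : ℝ → ℝ} {ψ' : ℝ} (hf : DifferentiableAt ℝ f x) (hψ : HasDerivAt ψ ψ' (f x))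
    (h : Eu n → ℝ) : d.Gam (fun y => ψ (f y)) h x = ψ' * d.Gam f h x := by
  have := (hψ.comp_hasFDerivAt x hf.hasFDerivAt).fderiv
  rw [Gam_of_eq (a := ψ') (c := 0) (g := f) (k := f) fun v => by
    rw [show (fun y => ψ (f y)) = ψ ∘ f from rfl, this]; simp]
  simp

theorem Gam_comp_self {ψ : ℝ → ℝ} {ψ' : ℝ} (hf : DifferentiableAt ℝ f x)
    (hψ : HasDerivAt ψ ψ' (f x)) :
    d.Gam (fun y => ψ (f y)) (fun y => ψ (f y)) x = ψ' ^ 2 * d.Gam f f x := by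
  rw [Gam_comp hf hψ, Gam_comm, Gam_comp hf hψ]; ring

theorem Gam_const_mul (c : ℝ) (hf : DifferentiableAt ℝ f x) (h : Eu n → ℝ) :
    d.Gam (fun y => c * f y) h x = c * d.Gam f h x :=
  Gam_comp (ψ := fun t => c * t) hf (by simpa using (hasDerivAt_id (f x)).const_mul c) h

theorem Ok.s2_nonneg (o : d.Ok) (z x : Eu n) : 0 ≤ d.s2 z x := by
  have := o.Q_nonneg z x
  unfold s2; positivity

theorem Ok.GamQ_le (o : d.Ok) (z x : Eu n) : d.Gam (d.Q z) (d.Q z) x ≤ d.s2 z x := by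
  nlinarith [o.eik z x, sq_nonneg (d.q z x)]

theorem Ok.abs_q_le (o : d.Ok) (z x : Eu n) : |d.q z x| ≤ √(d.s2 z x) :=
  Real.abs_le_sqrt (by linarith [o.eik z x, Gam_nonneg (d := d) (d.Q z) x])

theorem Ok.abs_GamQ_le (o : d.Ok) (h : Eu n → ℝ) (z x : Eu n) :
    |d.Gam h (d.Q z) x| ≤ √(d.Gam h h x) * √(d.s2 z x) :=
  (abs_Gam_le _ _ _).trans
    (mul_le_mul_of_nonneg_left (Real.sqrt_le_sqrt (o.GamQ_le z x)) (Real.sqrt_nonneg _))

/-! ### The functional `Lam` -/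

theorem Ok.bm_Lam (o : d.Ok) (z : Eu n) (hk : ContDiff ℝ 1 k) : d.BM fun x =>
    k x * (d.m * (1 + d.b ^ 2 * d.Q z x)) + d.Gam k (d.Q z) x - d.H * k x * d.q z x :=
  (((o.bm_cont hk.continuous).mul
    (((bm_const 1).add ((o.bm_Q z).const_mul _)).const_mul _)).add (o.bm_Gam hk (o.Q1 z))).sub
    (((o.bm_cont hk.continuous).const_mul _).mul (o.bm_q z))

theorem Ok.Lam_sub (o : d.Ok) (z : Eu n) (hk : ContDiff ℝ 1 k) (hg : ContDiff ℝ 1 g) :
    d.Lam z (fun x => k x - g x) = d.Lam z k - d.Lam z g := by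
  unfold Lam
  rw [← integral_sub ((o.bm_Lam z hk).integrable o) ((o.bm_Lam z hg).integrable o)]
  congr 1; ext x
  rw [Gam_sub (hk.differentiable one_ne_zero x) (hg.differentiable one_ne_zero x)]
  ring

theorem Lam_const_mul (z : Eu n) (c : ℝ) (hk : ContDiff ℝ 1 k) :
    d.Lam z (fun x => c * k x) = c * d.Lam z k := by
  unfold Lam
  rw [← integral_const_mul]
  congr 1; ext x
  rw [Gam_const_mul c (hk.differentiable one_ne_zero x)]
  ring

theorem Ok.Lam_anti (o : d.Ok) (hz : z ∈ d.K) (hk : ContDiff ℝ 1 k) (hg : ContDiff ℝ 1 g)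
    (hle : ∀ x ∈ d.K, g x ≤ k x) : d.Lam z k ≤ d.Lam z g := by
  have := o.fv z hz _ (hk.sub hg) fun x hx => sub_nonneg.2 (hle x hx)
  rw [o.Lam_sub z hk hg] at this
  linarith

/-! ### The conformal factor -/

theorem al_pos (hγ : 0 < γ) : 0 < d.al γ := by unfold al; positivity

theorem two_al (hγ : 0 < γ) : 2 * d.al γ * γ = 1 + d.b ^ 2 * γ ^ 2 := by
  unfold al; field_simp

theorem Ok.le_L (o : d.Ok) (hγ : 0 < γ) (z x : Eu n) : γ ≤ d.L z γ x :=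
  le_add_of_nonneg_right (mul_nonneg (al_pos hγ).le (o.Q_nonneg z x))

theorem Ok.L_pos (o : d.Ok) (hγ : 0 < γ) (z x : Eu n) : 0 < d.L z γ x := hγ.trans_le (o.le_L hγ z x)

theorem Ok.lam_pos (o : d.Ok) (hγ : 0 < γ) (z x : Eu n) : 0 < d.lam z γ x :=
  inv_pos.2 (o.L_pos hγ z x)

theorem Ok.lam_le (o : d.Ok) (hγ : 0 < γ) (z x : Eu n) : d.lam z γ x ≤ γ⁻¹ :=
  inv_anti₀ hγ (o.le_L hγ z x)

theorem Ok.ph_pos (o : d.Ok) (hγ : 0 < γ) (z x : Eu n) : 0 < d.ph z γ x :=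
  Real.rpow_pos_of_pos (o.L_pos hγ z x) _

theorem Ok.L1 (o : d.Ok) (z : Eu n) (γ : ℝ) : ContDiff ℝ 1 (d.L z γ) :=
  contDiff_const.add (contDiff_const.mul (o.Q1 z))

theorem Ok.lam1 (o : d.Ok) (hγ : 0 < γ) (z : Eu n) : ContDiff ℝ 1 (d.lam z γ) :=
  (o.L1 z γ).inv fun x => (o.L_pos hγ z x).ne'

theorem Ok.ph1 (o : d.Ok) (hγ : 0 < γ) (z : Eu n) : ContDiff ℝ 1 (d.ph z γ) :=
  (o.L1 z γ).rpow_const_of_ne fun x => (o.L_pos hγ z x).ne'

theorem Ok.bm_lam (o : d.Ok) (hγ : 0 < γ) (z : Eu n) : d.BM (d.lam z γ) :=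
  o.bm_cont (o.lam1 hγ z).continuous

theorem Ok.ph_sq (o : d.Ok) (hγ : 0 < γ) (z x : Eu n) :
    d.ph z γ x ^ 2 = d.lam z γ x ^ (d.m - 2) := by
  have hL := o.L_pos hγ z x
  have hm : 2 ≤ d.m := by have := o.hm; omega
  unfold ph lam th
  rw [← Real.rpow_natCast, ← Real.rpow_mul hL.le, inv_pow, ← Real.rpow_natCast,
    ← Real.rpow_neg hL.le, Nat.cast_sub hm]
  congr 1; push_cast; ring

theorem Ok.ph_p (o : d.Ok) (hγ : 0 < γ) (z x : Eu n) : d.ph z γ x ^ d.p = d.lam z γ x ^ d.m := by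
  have hL := o.L_pos hγ z x
  have hm : (d.m : ℝ) - 2 ≠ 0 := by linarith [o.m3]
  unfold ph lam th p
  rw [← Real.rpow_mul hL.le, inv_pow, ← Real.rpow_natCast, ← Real.rpow_neg hL.le]
  congr 1; field_simp

theorem Ok.kk1 (o : d.Ok) (hγ : 0 < γ) (z : Eu n) (hf : ContDiff ℝ 1 f) :
    ContDiff ℝ 1 (d.kk z γ f) :=
  contDiff_const.mul ((hf.pow 2).mul ((o.lam1 hγ z).pow _))

theorem Ok.kk_nonneg (o : d.Ok) (hγ : 0 < γ) (z : Eu n) (f : Eu n → ℝ) (x : Eu n) :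
    0 ≤ d.kk z γ f x := by
  have := o.th_pos
  have := al_pos (d := d) hγ
  have := o.lam_pos hγ z x
  unfold kk; positivity

theorem Ok.Uv_nonneg (o : d.Ok) (hγ : 0 < γ) (z : Eu n) (f : Eu n → ℝ) : 0 ≤ d.Uv z γ f :=
  integral_nonneg fun x => mul_nonneg (sq_nonneg _) (pow_nonneg (o.lam_pos hγ z x).le _)

theorem Ok.F2_nonneg (o : d.Ok) (hγ : 0 < γ) (z : Eu n) (f : Eu n → ℝ) : 0 ≤ d.F2 z γ f :=
  integral_nonneg fun x => mul_nonneg (sq_nonneg _) (pow_nonneg (o.lam_pos hγ z x).le _)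

theorem Ok.D1_nonneg (o : d.Ok) (hγ : 0 < γ) (z : Eu n) (f : Eu n → ℝ) : 0 ≤ d.D1 z γ f :=
  integral_nonneg fun x => mul_nonneg (pow_nonneg (o.lam_pos hγ z x).le _) (Gam_nonneg _ _)

theorem Ok.D2_nonneg (o : d.Ok) (hγ : 0 < γ) (z : Eu n) (f : Eu n → ℝ) : 0 ≤ d.D2 z γ f :=
  integral_nonneg fun x =>
    mul_nonneg (mul_nonneg (sq_nonneg _) (pow_nonneg (o.lam_pos hγ z x).le _)) (sq_nonneg _)

theorem Ok.Lam_kk (o : d.Ok) (hγ : 0 < γ) (hz : z ∈ d.K) (hf : ContDiff ℝ 1 f) :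
    d.Lam z (d.kk z γ f) ≤ 0 :=
  o.fv z hz _ (o.kk1 hγ z hf) fun x _ => o.kk_nonneg hγ z f x

/-- Each of the three parts of the deficit is bounded by the deficit. -/
theorem Ok.le_Df (o : d.Ok) (hγ : 0 < γ) (hz : z ∈ d.K) (hf : ContDiff ℝ 1 f) :
    0 ≤ d.Df z γ f ∧ d.D1 z γ f ≤ d.Df z γ f ∧ d.cm * d.D2 z γ f ≤ d.Df z γ f ∧
      -d.Lam z (d.kk z γ f) ≤ d.Df z γ f := by
  have h1 := o.D1_nonneg hγ z f
  have h2 := mul_nonneg o.cm_pos.le (o.D2_nonneg hγ z f)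
  have h3 := o.Lam_kk hγ hz hf
  unfold Df
  refine ⟨?_, ?_, ?_, ?_⟩ <;> linarith

/-- Each of the three parts of the error is bounded by the error. -/
theorem Ok.le_Er (o : d.Ok) (hγ : 0 < γ) (hz : z ∈ d.K) (hf : ContDiff ℝ 1 f) :
    0 ≤ d.Er z γ f ∧ d.Df z γ f ≤ d.Er z γ f ∧ √(d.Uv z γ f * d.D1 z γ f) ≤ d.Er z γ f ∧
      γ * d.Uv z γ f ≤ d.Er z γ f := by
  have h1 := (o.le_Df hγ hz hf).1
  have h2 := Real.sqrt_nonneg (d.Uv z γ f * d.D1 z γ f)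
  have h3 := mul_nonneg hγ.le (o.Uv_nonneg hγ z f)
  unfold Er
  refine ⟨?_, ?_, ?_, ?_⟩ <;> linarith

theorem Ok.meas_ker (o : d.Ok) : Measurable fun p : Eu n × Eu n => d.ker p.1 p.2 :=
  o.contQ.measurable.pow_const _

theorem Ok.ker_nonneg (o : d.Ok) (z x : Eu n) : 0 ≤ d.ker z x :=
  Real.rpow_nonneg (o.Q_nonneg z x) _

theorem Ok.ker_symm (o : d.Ok) (z x : Eu n) : d.ker z x = d.ker x z := by
  unfold ker; rw [o.symm]

end Dat

end Vale.Agent.P219
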