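import Vale.Agent.P219.Alg

/-! Averaging over the perturbations `f (1 ± ε Ξ_j)^(1/p)`. -/

open scoped ENNReal RealInnerProductSpace Topology
open MeasureTheory Set Filter

namespace Vale.Agent.P219

namespace AvgAux

open Dat

variable {n : ℕ}

theorem orth {ι : Type} [Fintype ι] (d : Dat n) (f : Eu n → ℝ) {Ξ : ι → Eu n → ℝ}
    (hΞ : ∀ j, ContDiff ℝ 1 (Ξ j)) (h1 : ∀ x, ∑ j, Ξ j x ^ 2 = 1) (x : Eu n) :
    ∑ j, Ξ j x * d.Gam f (Ξ j) x = 0 := by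
  have hd : HasFDerivAt (fun y => ∑ j, Ξ j y ^ 2) (∑ j, (2 * Ξ j x) • fderiv ℝ (Ξ j) x) x :=
    HasFDerivAt.fun_sum fun j _ => by
      simpa using ((hΞ j).differentiable one_ne_zero x).hasFDerivAt.pow 2
  have h0 : (∑ j, (2 * Ξ j x) • fderiv ℝ (Ξ j) x) = 0 := by
    rw [show (fun y => ∑ j, Ξ j y ^ 2) = fun _ => 1 from funext h1] at hd
    exact hd.unique (hasFDerivAt_const _ _)
  have h2 : ∀ v, ∑ j, Ξ j x * fderiv ℝ (Ξ j) x v = 0 := fun v => by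
    have h3 := congrArg (fun A : Eu n →L[ℝ] ℝ => A v) h0
    simp only [ContinuousLinearMap.sum_apply, ContinuousLinearMap.smul_apply, smul_eq_mul,
      ContinuousLinearMap.zero_apply, mul_assoc, ← Finset.mul_sum] at h3
    linarith
  simp only [Dat.Gam, Finset.mul_sum]
  rw [Finset.sum_comm]
  refine Finset.sum_eq_zero fun i _ => ?_
  have h4 := congrArg (fun c => fderiv ℝ f x (d.τ x i) * c) (h2 (d.τ x i))
  simp only [Finset.mul_sum, mul_zero] at h4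
  rw [← h4]
  exact Finset.sum_congr rfl fun _ _ => by ring

/-- the perturbed function -/
noncomputable def pert (f ξ : Eu n → ℝ) (r t : ℝ) (x : Eu n) : ℝ := f x * (1 + t * ξ x) ^ (r / 2)

theorem gam_pert (d : Dat n) {f ξ : Eu n → ℝ} {x : Eu n} {t : ℝ} (r W : ℝ)
    (hf : DifferentiableAt ℝ f x) (hξ : DifferentiableAt ℝ ξ x) (hp : 0 < 1 + t * ξ x) :
    d.Gam (pert f ξ r t) (pert f ξ r t) x + W * pert f ξ r t x ^ 2 =
      (1 + t * ξ x) ^ r * (d.Gam f f x + W * f x ^ 2) +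
        r * (1 + t * ξ x) ^ (r - 1) * (t * f x * d.Gam f ξ x) +
        (1 + t * ξ x) ^ (r - 2) * ((r / 2) ^ 2 * t ^ 2 * f x ^ 2 * d.Gam ξ ξ x) := by
  have hψ : HasDerivAt (fun u : ℝ => (1 + t * u) ^ (r / 2))
      (t * 1 * (r / 2) * (1 + t * ξ x) ^ (r / 2 - 1)) (ξ x) :=
    (((hasDerivAt_id' (ξ x)).const_mul t).const_add 1).rpow_const (Or.inl hp.ne')
  have ha : DifferentiableAt ℝ (fun y => (1 + t * ξ y) ^ (r / 2)) x :=
    hψ.differentiableAt.comp x hξ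
  have e1 : (1 + t * ξ x) ^ (r / 2) = (1 + t * ξ x) ^ (r / 2 - 1) * (1 + t * ξ x) := by
    rw [← Real.rpow_add_one hp.ne']; congr 1; ring
  have e2 : (1 + t * ξ x) ^ (r - 2) = ((1 + t * ξ x) ^ (r / 2 - 1)) ^ 2 := by
    rw [sq, ← Real.rpow_add hp]; congr 1; ring
  have e3 : (1 + t * ξ x) ^ (r - 1) = (1 + t * ξ x) ^ (r - 2) * (1 + t * ξ x) := by
    rw [← Real.rpow_add_one hp.ne']; congr 1; ring
  have e4 : (1 + t * ξ x) ^ r = (1 + t * ξ x) ^ (r - 1) * (1 + t * ξ x) := by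
    rw [← Real.rpow_add_one hp.ne']; congr 1; ring
  have g1 : ∀ h, d.Gam (pert f ξ r t) h x = f x * (t * 1 * (r / 2) * (1 + t * ξ x) ^ (r / 2 - 1) *
      d.Gam ξ h x) + (1 + t * ξ x) ^ (r / 2) * d.Gam f h x := fun h => by
    rw [← Gam_comp hξ hψ h]
    exact Gam_mul hf ha h
  rw [g1, Gam_comm ξ, g1, Gam_comm f (pert f ξ r t), g1, Gam_comm ξ f]
  unfold pert
  rw [e4, e3, e2, e1]
  ring

theorem pair {T1 T2 T3 G B E f W ξ ε C κ ρ : ℝ} (hG : 0 ≤ G) (hE : 0 ≤ E) (hB : B ^ 2 ≤ G * E)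
    (hξ : |ξ| ≤ 1) (hε : 0 < ε) (hC : 0 < C) (hρ : ρ ^ 2 ≤ 1)
    (h1 : |T1 - 2 + κ * (ε * ξ) ^ 2| ≤ C * |ε * ξ| ^ 3)
    (h2 : |T2 + 2 * κ * (ε * ξ)| ≤ C * (ε * ξ) ^ 2) (h3 : T3 ≤ 2 + C * |ε * ξ|) :
    T1 * (G + W * f ^ 2) + T2 * (ε * f * B) + T3 * (ρ ^ 2 * ε ^ 2 * f ^ 2 * E) ≤
      2 * (G + W * f ^ 2) - κ * ε ^ 2 * (G + W * f ^ 2) * ξ ^ 2 - 2 * κ * ε ^ 2 * f * (ξ * B) +
        (2 * ρ ^ 2 * ε ^ 2 * f ^ 2 + 2 * C * ε ^ 3 * f ^ 2) * E +
        C * ε ^ 3 * (2 * G + |W| * f ^ 2) := by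
  have hs : |ε * ξ| ≤ ε := by
    rw [abs_mul, abs_of_pos hε]; exact mul_le_of_le_one_right hε.le hξ
  have k1 : |T1 - 2 + κ * (ε * ξ) ^ 2| ≤ C * ε ^ 3 :=
    h1.trans (mul_le_mul_of_nonneg_left (pow_le_pow_left₀ (abs_nonneg _) hs 3) hC.le)
  have k2 : |T2 + 2 * κ * (ε * ξ)| ≤ C * ε ^ 2 := by
    refine h2.trans (mul_le_mul_of_nonneg_left ?_ hC.le)
    rw [← sq_abs]; exact pow_le_pow_left₀ (abs_nonneg _) hs 2
  have k3 : T3 ≤ 2 + C * ε := h3.trans (by gcongr)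
  have hfE : 0 ≤ f ^ 2 * E := by positivity
  have b1 : |G + W * f ^ 2| ≤ G + |W| * f ^ 2 := by
    refine (abs_add_le _ _).trans_eq ?_
    rw [abs_of_nonneg hG, abs_mul, abs_of_nonneg (sq_nonneg f)]
  have b2 : |ε * f * B| ≤ ε * (G + f ^ 2 * E) := by
    rw [mul_assoc, abs_mul, abs_of_pos hε]
    refine mul_le_mul_of_nonneg_left (abs_le_of_sq_le_sq' ?_ (by positivity) |> abs_le.2) hε.le
    have := mul_le_mul_of_nonneg_left hB (sq_nonneg f)
    have := mul_nonneg hG hfE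
    nlinarith [sq_nonneg G, sq_nonneg (f ^ 2 * E)]
  have c1 : (T1 - 2 + κ * (ε * ξ) ^ 2) * (G + W * f ^ 2) ≤ C * ε ^ 3 * (G + |W| * f ^ 2) := by
    refine (le_abs_self _).trans ?_
    rw [abs_mul]
    exact mul_le_mul k1 b1 (abs_nonneg _) (by positivity)
  have c2 : (T2 + 2 * κ * (ε * ξ)) * (ε * f * B) ≤ C * ε ^ 2 * (ε * (G + f ^ 2 * E)) := by
    refine (le_abs_self _).trans ?_
    rw [abs_mul]
    exact mul_le_mul k2 b2 (abs_nonneg _) (by positivity)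
  have c3 : T3 * (ρ ^ 2 * ε ^ 2 * f ^ 2 * E) ≤ (2 + C * ε) * (ρ ^ 2 * ε ^ 2 * f ^ 2 * E) :=
    mul_le_mul_of_nonneg_right k3 (by positivity)
  have c4 : ρ ^ 2 * (C * ε ^ 3 * (f ^ 2 * E)) ≤ 1 * (C * ε ^ 3 * (f ^ 2 * E)) :=
    mul_le_mul_of_nonneg_right hρ (by positivity)
  linarith

theorem pos_of {t a : ℝ} (ht : |t| ≤ 1 / 2) (ha : |a| ≤ 1) : |t * a| ≤ 1 / 2 ∧ 0 < 1 + t * a := by
  have h : |t * a| ≤ 1 / 2 := by
    rw [abs_mul]
    exact (mul_le_of_le_one_right (abs_nonneg t) ha).trans ht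
  exact ⟨h, by linarith [(abs_le.1 h).1]⟩

theorem adm {d : Dat n} (o : d.Ok) {f ξ : Eu n → ℝ} {r t : ℝ} (hr : r / 2 * d.p = 1) (hf : d.Adm f)
    (hξ : ContDiff ℝ 1 ξ) (h1 : ∀ x, |ξ x| ≤ 1) (h0 : ∫ x, f x ^ d.p * ξ x ∂d.μ = 0)
    (ht : |t| ≤ 1 / 2) : d.Adm (pert f ξ r t) := by
  have hp : ∀ x, 0 < 1 + t * ξ x := fun x => (pos_of ht (h1 x)).2
  refine ⟨hf.1.mul ((contDiff_const.add (contDiff_const.mul hξ)).rpow_const_of_ne
    fun x => (hp x).ne'), fun x => mul_pos (hf.2.1 x) (Real.rpow_pos_of_pos (hp x) _), ?_⟩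
  have e : ∀ x, pert f ξ r t x ^ d.p = f x ^ d.p + t * (f x ^ d.p * ξ x) := fun x => by
    unfold pert
    rw [Real.mul_rpow (hf.2.1 x).le (Real.rpow_nonneg (hp x).le _), ← Real.rpow_mul (hp x).le, hr,
      Real.rpow_one]
    ring
  have b1 : d.BM fun x => f x ^ d.p := (o.bm_cont hf.1.continuous).rpow (by linarith [o.two_lt_p])
  simp only [e]
  rw [integral_add (b1.integrable o)
    (((b1.mul (o.bm_cont hξ.continuous)).const_mul t).integrable o), integral_const_mul, h0, hf.2.2,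
    mul_zero, add_zero]

theorem bmY {d : Dat n} (o : d.Ok) {f : Eu n → ℝ} (W : ℝ) (hf : ContDiff ℝ 1 f) :
    d.BM fun x => d.Gam f f x + W * f x ^ 2 :=
  (o.bm_Gam hf hf).add (((o.bm_cont hf.continuous).pow 2).const_mul W)

end AvgAux

open AvgAux Dat in
theorem avg_pf (ht : TaylorStmt) : AvgStmt := by
  intro n d o
  have hm := o.m3
  obtain ⟨r, hr⟩ : ∃ r : ℝ, r = (d.m - 2) / d.m := ⟨_, rfl⟩
  have hr0 : 0 < r := by rw [hr]; exact div_pos (by linarith) (by linarith)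
  have hr1 : r < 1 := by rw [hr, div_lt_one (by linarith)]; linarith
  have hrp : r / 2 * d.p = 1 := by
    have : (d.m : ℝ) - 2 ≠ 0 := by linarith
    rw [hr]; unfold Dat.p; field_simp
  have hcm : 2 * (r / 2) ^ 2 * d.m = r * (1 - r) * d.cm := by
    rw [hr]; unfold Dat.cm; field_simp; ring
  obtain ⟨C, hC, hT⟩ := ht r
  obtain ⟨N, hN⟩ : ∃ N : ℝ, N = (Fintype.card (Option (Fin n)) : ℝ) := ⟨_, rfl⟩
  have hN1 : 1 ≤ N := by rw [hN]; exact_mod_cast Fintype.card_pos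
  have hκ : 0 < r * (1 - r) := mul_pos hr0 (by linarith)
  refine ⟨r * (1 - r) / (2 * N), by positivity, C * (N + d.m) / N, by positivity, ?_⟩
  intro W s f l Ξ hf hl hΞ h1 h2 h0 hs ε hε hε2
  have hΞ1 : ∀ j x, |Ξ j x| ≤ 1 := fun j x => by
    rw [← sq_le_one_iff_abs_le_one, ← h1 x]
    exact Finset.single_le_sum (f := fun j => Ξ j x ^ 2) (fun _ _ => sq_nonneg _) (Finset.mem_univ j)
  have hε' : |ε| ≤ 1 / 2 := by rwa [abs_of_pos hε]
  have hε'' : |-ε| ≤ 1 / 2 := by rwa [abs_neg]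
  have a1 := fun j => adm o hrp hf (hΞ j) (hΞ1 j) (h0 j) hε'
  have a2 := fun j => adm o hrp hf (hΞ j) (hΞ1 j) (h0 j) hε''
  have b1 := fun j => bmY o W (a1 j).1
  have b2 := fun j => bmY o W (a2 j).1
  have bf := o.bm_cont hf.1.continuous
  have bG := o.bm_Gam hf.1 hf.1
  have bl := (bf.mul (o.bm_cont hl)).pow 2
  have bY := bmY o W hf.1
  have s1 : 2 * N * s ≤ ∫ x, ∑ j,
      ((d.Gam (pert f (Ξ j) r ε) (pert f (Ξ j) r ε) x + W * pert f (Ξ j) r ε x ^ 2) +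
        (d.Gam (pert f (Ξ j) r (-ε)) (pert f (Ξ j) r (-ε)) x +
          W * pert f (Ξ j) r (-ε) x ^ 2)) ∂d.μ := by
    rw [integral_finsetSum _ fun j _ => ((b1 j).add (b2 j)).integrable o]
    have : 2 * N * s = ∑ _j : Option (Fin n), (s + s) := by
      rw [Finset.sum_const, Finset.card_univ, nsmul_eq_mul, ← hN]; ring
    rw [this]
    refine Finset.sum_le_sum fun j _ => ?_
    rw [integral_add ((b1 j).integrable o) ((b2 j).integrable o)]
    exact add_le_add (hs _ (a1 j)) (hs _ (a2 j))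
  have s2 := o.int_mono (bm_sum Finset.univ fun j _ => (b1 j).add (b2 j))
    (((bY.const_mul (2 * N - r * (1 - r) * ε ^ 2)).add
      (bl.const_mul (r * (1 - r) * d.cm * ε ^ 2))).add
      (((bG.add ((bf.pow 2).const_mul |W|)).add bl).const_mul (2 * C * (N + d.m) * ε ^ 3)))
    fun x _ => by
      have hfd := hf.1.differentiable one_ne_zero x
      have hG := Gam_nonneg (d := d) f x
      refine (Finset.sum_le_sum (g := fun j => 2 * (d.Gam f f x + W * f x ^ 2) -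
        r * (1 - r) * ε ^ 2 * (d.Gam f f x + W * f x ^ 2) * Ξ j x ^ 2 -
        2 * (r * (1 - r)) * ε ^ 2 * f x * (Ξ j x * d.Gam f (Ξ j) x) +
        (2 * (r / 2) ^ 2 * ε ^ 2 * f x ^ 2 + 2 * C * ε ^ 3 * f x ^ 2) * d.Gam (Ξ j) (Ξ j) x +
        C * ε ^ 3 * (2 * d.Gam f f x + |W| * f x ^ 2)) fun j _ => ?_).trans ?_
      · have hξd := (hΞ j).differentiable one_ne_zero x
        obtain ⟨p1, p2⟩ := pos_of hε' (hΞ1 j x)
        obtain ⟨t1, t2, t3⟩ := hT _ p1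
        rw [gam_pert d r W hfd hξd p2, gam_pert d r W hfd hξd (pos_of hε'' (hΞ1 j x)).2,
          show 1 + -ε * Ξ j x = 1 - ε * Ξ j x by ring]
        refine le_of_eq_of_le ?_ (pair (W := W) (f := f x) (ρ := r / 2) hG (Gam_nonneg (Ξ j) x)
          (Gam_sq_le f (Ξ j) x) (hΞ1 j x) hε hC (by nlinarith) t1 (by rwa [mul_assoc 2 r] at t2) t3)
        ring
      · simp only [Finset.sum_add_distrib, Finset.sum_sub_distrib, ← Finset.mul_sum,
          Finset.sum_const, Finset.card_univ, nsmul_eq_mul]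
        rw [← hN, h1 x, orth d f hΞ h1 x]
        have u1 : (2 * (r / 2) ^ 2 * ε ^ 2 * f x ^ 2 + 2 * C * ε ^ 3 * f x ^ 2) *
            ∑ j, d.Gam (Ξ j) (Ξ j) x ≤
            (2 * (r / 2) ^ 2 * ε ^ 2 * f x ^ 2 + 2 * C * ε ^ 3 * f x ^ 2) * (d.m * l x ^ 2) :=
          mul_le_mul_of_nonneg_left (h2 x) (by positivity)
        have u2 : 2 * (r / 2) ^ 2 * d.m * (ε ^ 2 * (f x * l x) ^ 2) =
            r * (1 - r) * d.cm * (ε ^ 2 * (f x * l x) ^ 2) := by rw [hcm]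
        have u3 : 0 ≤ C * ε ^ 3 * (d.m * d.Gam f f x) := by positivity
        have u4 : 0 ≤ C * ε ^ 3 * (d.m * (|W| * f x ^ 2)) := by positivity
        have u5 : 0 ≤ C * ε ^ 3 * (N * (|W| * f x ^ 2)) := by positivity
        have u6 : 0 ≤ C * ε ^ 3 * (N * (f x * l x) ^ 2) := by positivity
        linarith
  rw [integral_add (((bY.const_mul _).add (bl.const_mul _)).integrable o)
      ((((bG.add ((bf.pow 2).const_mul |W|)).add bl).const_mul _).integrable o),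
    integral_add ((bY.const_mul _).integrable o) ((bl.const_mul _).integrable o),
    integral_const_mul, integral_const_mul, integral_const_mul,
    integral_add ((bG.add ((bf.pow 2).const_mul |W|)).integrable o) (bl.integrable o),
    integral_add (bG.integrable o) (((bf.pow 2).const_mul |W|).integrable o),
    integral_const_mul] at s2
  have s3 := s1.trans s2
  refine le_of_mul_le_mul_left (s3.trans_eq ?_) (by positivity : 0 < 2 * N)
  unfold Dat.Y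
  field_simp
  ring

end Vale.Agent.P219
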