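import Vale.Agent.P219.BTool

/-! Derivatives of determinants and uniform first order expansions. -/

open scoped ContDiff ENNReal RealInnerProductSpace Topology Manifold Matrix
open MeasureTheory Set Filter Metric

namespace Vale.Agent.P219.B

variable {n : ℕ} {G : Met n}

theorem det_eq (T : Eu n →L[ℝ] Eu n) : T.det = (Matrix.of fun i j => T (ee j) i).det := by
  rw [ContinuousLinearMap.det, ← LinearMap.det_toMatrix (EuclideanSpace.basisFun (Fin n) ℝ).toBasis]
  congr 1

theorem contDiff_det : ContDiff ℝ 1 fun T : Eu n →L[ℝ] Eu n => T.det := by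
  simp only [det_eq, Matrix.det_apply', Matrix.of_apply]
  exact ContDiff.sum fun σ _ => contDiff_const.mul (contDiff_prod fun i _ =>
    (EuclideanSpace.proj (𝕜 := ℝ) (σ i)).contDiff.comp (contDiff_id.clm_apply contDiff_const))

theorem det_gram (g : Eu n →L[ℝ] Eu n →L[ℝ] ℝ) (T : Eu n →L[ℝ] Eu n) :
    (Matrix.of fun i j => g (T (ee i)) (T (ee j))).det =
      T.det ^ 2 * (Matrix.of fun i j => g (ee i) (ee j)).det := by
  have : (Matrix.of fun i j => g (T (ee i)) (T (ee j))) = (Matrix.of fun i j => T (ee j) i)ᵀ *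
      ((Matrix.of fun i j => g (ee i) (ee j)) * Matrix.of fun i j => T (ee j) i) := by
    ext i j
    rw [Matrix.of_apply, bil_eq_sum]
    simp only [Matrix.mul_apply, Matrix.transpose_apply, Matrix.of_apply, Finset.mul_sum]
  rw [this, Matrix.det_mul, Matrix.det_mul, Matrix.det_transpose, ← det_eq]
  ring

theorem hasDerivAt_det {M : ℝ → Fin n → Fin n → ℝ} {M' : Fin n → Fin n → ℝ}
    (h0 : Matrix.of (M 0) = 1) (h : ∀ i j, HasDerivAt (fun ε => M ε i j) (M' i j) 0) :
    HasDerivAt (fun ε => (Matrix.of (M ε)).det) (∑ i, M' i i) 0 := by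
  have hd : Differentiable ℝ fun A : Fin n → Fin n → ℝ => (Matrix.of A).det := by
    simp only [Matrix.det_apply', Matrix.of_apply]
    fun_prop
  have h1 := (hd (M 0)).hasFDerivAt.comp_hasDerivAt (0 : ℝ)
    (hasDerivAt_pi.2 fun i => hasDerivAt_pi.2 fun j => h i j)
  have h2 : HasDerivAt (fun ε : ℝ => M 0 + ε • M') M' 0 := by
    simpa using ((hasDerivAt_id (0 : ℝ)).smul_const M').const_add (M 0)
  have h3 := (hd (M 0)).hasFDerivAt.comp_hasDerivAt_of_eq (0 : ℝ) h2 (by simp)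
  have h4 : HasDerivAt (fun ε : ℝ => (Matrix.of (M 0 + ε • M')).det) (∑ i, M' i i) 0 := by
    obtain ⟨q, hq⟩ : ∃ q : Polynomial ℝ, ∀ ε : ℝ, (Matrix.of (M 0 + ε • M')).det =
        1 + (Matrix.of M').trace * ε + q.eval ε * ε ^ 2 :=
      ⟨_, fun ε => (congrArg Matrix.det (by rw [← h0]; rfl)).trans
        (Matrix.det_one_add_smul ε (Matrix.of M'))⟩
    simp only [hq]
    have := (((hasDerivAt_id (0 : ℝ)).const_mul (Matrix.of M').trace).const_add 1).fun_add
      ((q.hasDerivAt 0).fun_mul (hasDerivAt_pow 2 0))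
    simpa [Matrix.trace] using this
  exact h3.unique h4 ▸ h1

theorem hasDerivAt_det_one (M : Eu n →L[ℝ] Eu n) :
    HasDerivAt (fun ε : ℝ => (1 + ε • M).det) (∑ i, M (ee i) i) 0 := by
  simp only [det_eq]
  refine hasDerivAt_det (M := fun ε i j => (1 + ε • M) (ee j) i) (M' := fun i j => M (ee j) i)
    ?_ fun i j => ?_
  · ext i j
    simp [Matrix.one_apply]
  · simpa using ((hasDerivAt_id (0 : ℝ)).mul_const (M (ee j) i)).const_add (ee j i)

theorem hasDerivAt_line (x v : Eu n) : HasDerivAt (fun ε : ℝ => x + ε • v) v 0 := by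
  simpa using ((hasDerivAt_id (0 : ℝ)).smul_const v).const_add x

theorem hasDerivAt_J (h : Rm G) {X : Eu n → Eu n} (hX : ContDiff ℝ 1 X) (x : Eu n) :
    HasDerivAt (fun ε : ℝ => wt G (x + ε • X x) * (1 + ε • fderiv ℝ X x).det)
      (dvg (fun y => wt G y • X y) x) 0 := by
  have h1 := ((wt1 h).differentiable one_ne_zero x).hasFDerivAt.comp_hasDerivAt_of_eq (0 : ℝ)
    (hasDerivAt_line x (X x)) (by simp)
  refine (h1.fun_mul (hasDerivAt_det_one (fderiv ℝ X x))).congr_deriv ?_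
  rw [dvg_smul ((wt1 h).differentiable one_ne_zero x) (hX.differentiable one_ne_zero x)]
  simp [dvg, ContinuousLinearMap.det]

theorem hasDerivAt_g (h : Rm G) (x v : Eu n) (M : Eu n →L[ℝ] Eu n) (a b : Eu n) :
    HasDerivAt (fun ε : ℝ => G (x + ε • v) (a + ε • M a) (b + ε • M b))
      (fderiv ℝ G x v a b + G x (M a) b + G x a (M b)) 0 := by
  have h1 := (h.smooth.differentiable (by simp) x).hasFDerivAt.comp_hasDerivAt_of_eq (0 : ℝ)
    (hasDerivAt_line x v) (by simp)
  refine ((h1.clm_apply (hasDerivAt_line a (M a))).clm_apply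
    (hasDerivAt_line b (M b))).congr_deriv ?_
  simp

theorem hasDerivAt_lie (h : Rm G) (X : Eu n → Eu n) (x a : Eu n) :
    HasDerivAt (fun ε : ℝ => G (x + ε • X x) (a + ε • fderiv ℝ X x a) (a + ε • fderiv ℝ X x a))
      (lie G X x a) 0 := by
  refine (hasDerivAt_g h x (X x) (fderiv ℝ X x) a a).congr_deriv ?_
  rw [lie, h.symm x a]
  ring

theorem wt_sq (h : Rm G) (x : Eu n) :
    wt G x ^ 2 = (Matrix.of fun i j => G x (ee i) (ee j)).det := Real.sq_sqrt (h.det_pos x).le

/-- The Riemannian divergence in an orthonormal frame. -/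
theorem sum_lie (h : Rm G) {A : Eu n → Eu n →L[ℝ] Eu n} (hA : Frame G A) {X : Eu n → Eu n}
    (hX : ContDiff ℝ 1 X) (x : Eu n) :
    ∑ i, lie G X x (A x (ee i)) = 2 * (dvg (fun y => wt G y • X y) x * (wt G x)⁻¹) := by
  have h0 : (Matrix.of fun i j => G x (A x (ee i)) (A x (ee j))) = 1 := by
    ext i j
    simp [hA.iso, Matrix.one_apply, EuclideanSpace.inner_single_left]
  have h1 := hasDerivAt_det (M := fun ε i j => G (x + ε • X x)
    (A x (ee i) + ε • fderiv ℝ X x (A x (ee i))) (A x (ee j) + ε • fderiv ℝ X x (A x (ee j))))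
    (by simpa using h0) fun i j => hasDerivAt_g h x (X x) (fderiv ℝ X x) _ _
  have h2 := ((hasDerivAt_J h hX x).fun_pow 2).const_mul ((A x).det ^ 2)
  have e : ∀ ε : ℝ, (Matrix.of fun i j => G (x + ε • X x)
      (A x (ee i) + ε • fderiv ℝ X x (A x (ee i)))
      (A x (ee j) + ε • fderiv ℝ X x (A x (ee j)))).det =
      (A x).det ^ 2 * (wt G (x + ε • X x) * (1 + ε • fderiv ℝ X x).det) ^ 2 := fun ε => by
    have := det_gram (G (x + ε • X x)) ((1 + ε • fderiv ℝ X x) * A x)
    rw [← wt_sq h] at this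
    refine this.trans ?_
    have e2 : ((1 + ε • fderiv ℝ X x) * A x).det = (1 + ε • fderiv ℝ X x).det * (A x).det :=
      LinearMap.det_comp _ _
    rw [e2]
    ring
  simp only [e] at h1
  have h3 := h1.unique h2
  have h4 := det_gram (G x) (A x)
  rw [h0, Matrix.det_one, ← wt_sq h] at h4
  have h5 : ∑ i, lie G X x (A x (ee i)) = ∑ i, (fderiv ℝ G x (X x) (A x (ee i)) (A x (ee i)) +
      G x (fderiv ℝ X x (A x (ee i))) (A x (ee i)) +
      G x (A x (ee i)) (fderiv ℝ X x (A x (ee i)))) := Finset.sum_congr rfl fun i _ => by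
    rw [lie, h.symm x (A x (ee i))]
    ring
  have h6 := (h.wt_pos x).ne'
  rw [h5, h3]
  simp only [zero_smul, add_zero, ContinuousLinearMap.det]
  simp only [ContinuousLinearMap.det] at h4
  field_simp
  simp
  linear_combination (-dvg (fun y => wt G y • X y) x) * h4 * 2

/-- Uniform first order expansion on compact parameter sets. -/
theorem unif_exp {P : Type} [NormedAddCommGroup P] [NormedSpace ℝ P] {Φ : ℝ × P → ℝ}
    (hΦ : ContDiff ℝ 1 Φ) {S : Set P} (hS : IsCompact S) {η : ℝ} (hη : 0 < η) :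
    ∀ᶠ ε in 𝓝 (0 : ℝ), ∀ p ∈ S, ∀ d, HasDerivAt (fun ε => Φ (ε, p)) d 0 →
      |Φ (ε, p) - Φ (0, p) - ε * d| ≤ η * |ε| := by
  have hD : ∀ ε p, HasDerivAt (fun ε => Φ (ε, p)) (fderiv ℝ Φ (ε, p) (1, 0)) ε := fun ε p =>
    (hΦ.differentiable one_ne_zero (ε, p)).hasFDerivAt.comp_hasDerivAt ε
      ((hasDerivAt_id ε).prodMk (hasDerivAt_const ε p))
  have hc := hΦ.continuous_fderiv one_ne_zero
  have hc' : Continuous fun z : ℝ × P =>
      ‖fderiv ℝ Φ (z.1, z.2) (1, 0) - fderiv ℝ Φ (0, z.2) (1, 0)‖ := by fun_prop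
  have h1 := hS.eventually_forall_of_forall_eventually (x₀ := (0 : ℝ))
    (P := fun ε p => ‖fderiv ℝ Φ (ε, p) (1, 0) - fderiv ℝ Φ (0, p) (1, 0)‖ < η)
    fun p _ => hc'.continuousAt.eventually_lt continuousAt_const (by simpa using hη)
  obtain ⟨δ, hδ, h2⟩ := Metric.eventually_nhds_iff_ball.1 h1
  filter_upwards [ball_mem_nhds (0 : ℝ) hδ] with ε hε p hp d hd
  obtain rfl := (hD 0 p).unique hd
  have := (convex_ball (0 : ℝ) δ).norm_image_sub_le_of_norm_hasDerivWithin_le
    (f := fun ε => Φ (ε, p) - ε * fderiv ℝ Φ (0, p) (1, 0))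
    (fun t _ => ((hD t p).fun_sub (hasDerivAt_mul_const _)).hasDerivWithinAt)
    (fun t ht => (h2 t ht p hp).le) (mem_ball_self hδ) hε
  simp only [zero_mul, sub_zero, Real.norm_eq_abs] at this
  rwa [sub_right_comm]

end Vale.Agent.P219.B
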