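import Vale.Agent.P219.BTr

/-! Existence of minimisers. -/

open scoped ContDiff ENNReal RealInnerProductSpace Topology Manifold symmDiff
open MeasureTheory Set Filter Metric

namespace Vale.Agent.P219

namespace B

variable {n : ℕ} {G : Met n}

/-- points of `A` near which `A` misses a lot -/
def Bad (δ : ℝ) (A : Set (Eu n)) : Set (Eu n) :=
  {x | x ∈ A ∧ volume (ball (0 : Eu n) δ) / 2 ≤ volume (ball x (2 * δ) \ A)}

theorem bad_le {A : Set (Eu n)} (hA : MeasurableSet A) {δ : ℝ} (hδ : 0 < δ) {a : ℝ≥0∞}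
    (h : ∀ t ∈ ball (0 : Eu n) (2 * δ), volume (A \ (fun x => x - t) ⁻¹' A) ≤ a) :
    volume (Bad δ A) ≤ 2 * ENNReal.ofReal (2 ^ n) * a := by
  set S : Set (Eu n × Eu n) := {p | p.1 ∈ A ∧ p.2 ∈ ball (0 : Eu n) (2 * δ) ∧ p.1 - p.2 ∉ A}
    with hS
  have mS : MeasurableSet S := (measurable_fst hA).inter ((measurable_snd measurableSet_ball).inter
    ((measurable_fst.sub measurable_snd) hA.compl))
  set v := volume (ball (0 : Eu n) δ) with hv
  have v0 : v ≠ 0 := (measure_ball_pos _ _ hδ).ne'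
  have v1 : v ≠ ⊤ := measure_ball_lt_top.ne
  have h1 : Bad δ A ⊆ {x | v / 2 ≤ volume (Prod.mk x ⁻¹' S)} := by
    rintro x ⟨hx, h2⟩
    have : Prod.mk x ⁻¹' S = (fun t => x - t) ⁻¹' (ball x (2 * δ) \ A) := by
      ext t
      simp [hS, hx, dist_eq_norm]
    rw [mem_ofPred_eq, this, (Measure.measurePreserving_sub_left volume x).measure_preimage
      (measurableSet_ball.diff hA).nullMeasurableSet]
    exact h2
  have h2 : ∫⁻ x, volume (Prod.mk x ⁻¹' S) ≤ a * (ENNReal.ofReal (2 ^ n) * v) := by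
    rw [← Measure.prod_apply mS, Measure.prod_apply_symm mS]
    calc _ ≤ ∫⁻ t, (ball (0 : Eu n) (2 * δ)).indicator (fun _ => a) t := by
          refine lintegral_mono fun t => ?_
          by_cases ht : t ∈ ball (0 : Eu n) (2 * δ)
          · rw [indicator_of_mem ht]
            refine le_trans (measure_mono fun x hx => ?_) (h t ht)
            exact (mem_sdiff x).2 ⟨hx.1, hx.2.2⟩
          · have : (fun x => (x, t)) ⁻¹' S = ∅ := eq_empty_of_forall_notMem fun x hx => ht hx.2.1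
            simp [this]
      _ = _ := by
          rw [lintegral_indicator_const measurableSet_ball,
            Measure.addHaar_ball_mul_of_pos volume _ two_pos, finrank_euclideanSpace_fin]
  have h3 := (mul_le_mul_right (measure_mono h1) (v / 2)).trans
    ((mul_meas_ge_le_lintegral (measurable_measure_prodMk_left mS) (v / 2)).trans h2)
  have h4 : v * volume (Bad δ A) = 2 * (v / 2 * volume (Bad δ A)) := by
    rw [← mul_assoc, ENNReal.mul_div_cancel two_ne_zero ENNReal.ofNat_ne_top]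
  rw [← ENNReal.mul_le_mul_iff_right v0 v1, h4]
  exact (mul_le_mul_right h3 2).trans (le_of_eq (by ring))

theorem bad_compl_le {A : Set (Eu n)} (hA : MeasurableSet A) {δ : ℝ} (hδ : 0 < δ) {a : ℝ≥0∞}
    (h : ∀ t ∈ ball (0 : Eu n) (2 * δ), volume (A \ (fun x => x - t) ⁻¹' A) ≤ a) :
    volume (Bad δ Aᶜ) ≤ 2 * ENNReal.ofReal (2 ^ n) * a := by
  refine bad_le hA.compl hδ fun t ht => ?_
  have : Aᶜ \ (fun x => x - t) ⁻¹' Aᶜ = (fun x => x - t) ⁻¹' (A \ (fun x => x - -t) ⁻¹' A) := by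
    ext x
    simp [and_comm]
  rw [this, (measurePreserving_sub_right volume t).measure_preimage
    (hA.diff (measurable_sub_const _ hA)).nullMeasurableSet]
  exact h _ (by simpa using ht)

theorem sdiff_subset_bad {A B T : Set (Eu n)} (hA : MeasurableSet A) {δ : ℝ}
    (hT : A ⊆ ⋃ l ∈ T, ball l δ)
    (h : ∀ l ∈ T, (volume (ball (0 : Eu n) δ) / 2 ≤ volume (ball l δ ∩ A)) ↔
      volume (ball (0 : Eu n) δ) / 2 ≤ volume (ball l δ ∩ B)) :
    A \ B ⊆ Bad δ A ∪ Bad δ Bᶜ := by
  intro x hx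
  obtain ⟨l, hl, hxl⟩ := mem_iUnion₂.1 (hT hx.1)
  have hb : ball l δ ⊆ ball x (2 * δ) := ball_subset_ball' (by
    rw [mem_ball, dist_comm] at hxl
    linarith)
  by_cases hp : volume (ball (0 : Eu n) δ) / 2 ≤ volume (ball l δ ∩ A)
  · refine Or.inr ⟨hx.2, ((h l hl).1 hp).trans (measure_mono fun y hy => ⟨hb hy.1, ?_⟩)⟩
    exact fun h => h hy.2
  · refine Or.inl ⟨hx.1, le_trans ?_ (measure_mono (sdiff_subset_sdiff_left hb))⟩
    by_contra hn
    have := ENNReal.add_lt_add (not_le.1 hp) (not_le.1 hn)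
    rw [measure_inter_add_sdiff _ hA, ENNReal.add_halves, Measure.addHaar_ball_center] at this
    exact lt_irrefl _ this

theorem exists_lim {Ω : ℕ → Set (Eu n)} (hm : ∀ j, MeasurableSet (Ω j)) {R C : ℝ} (hC : 0 < C)
    (hR : ∀ j, Ω j ⊆ closedBall 0 R)
    (h : ∀ j t, ‖t‖ ≤ 1 → volume.real (Ω j \ (fun x => x - t) ⁻¹' Ω j) ≤ C * ‖t‖) :
    ∃ (φ : ℕ → ℕ) (A : Set (Eu n)), StrictMono φ ∧ MeasurableSet A ∧
      Tendsto (fun j => volume (Ω (φ j) ∆ A)) atTop (𝓝 0) := by
  have hf := fun j => vol_ne_top (hR j)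
  set u : ℕ → Eu n →₁[volume] ℝ := fun j => indicatorConstLp 1 (hm j) (hf j) (1 : ℝ) with hu
  have tb : TotallyBounded (range u) := by
    refine totallyBounded_of_finite_discretization fun ε hε => ?_
    obtain ⟨δ, hδ, h1, h2⟩ : ∃ δ : ℝ, 0 < δ ∧ 2 * δ ≤ 1 ∧ 16 * 2 ^ n * C * δ < ε := by
      refine ⟨min (1 / 2) (ε / (32 * 2 ^ n * C)), by positivity,
        by linarith [min_le_left (1 / 2) (ε / (32 * 2 ^ n * C))], ?_⟩
      refine (mul_le_mul_of_nonneg_left (min_le_right _ _) (by positivity)).trans_lt ?_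
      have : 16 * 2 ^ n * C * (ε / (32 * 2 ^ n * C)) = ε / 2 := by
        field_simp
        norm_num
      linarith
    obtain ⟨T, -, hT, hc⟩ := finite_cover_balls_of_compact (isCompact_closedBall (0 : Eu n) R) hδ
    have := hT.fintype
    classical
    refine ⟨T → Prop, inferInstance, fun x l =>
      volume (ball (0 : Eu n) δ) / 2 ≤ volume (ball l.1 δ ∩ Ω x.2.choose), fun x y hxy => ?_⟩
    rw [← x.2.choose_spec, ← y.2.choose_spec]
    beta_reduce at hxy
    generalize x.2.choose = i at hxy ⊢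
    generalize y.2.choose = j at hxy ⊢
    have hp : ∀ l ∈ T, (volume (ball (0 : Eu n) δ) / 2 ≤ volume (ball l δ ∩ Ω i)) ↔
        volume (ball (0 : Eu n) δ) / 2 ≤ volume (ball l δ ∩ Ω j) := fun l hl =>
      (congrFun hxy ⟨l, hl⟩).to_iff
    have ht : ∀ k, ∀ t ∈ ball (0 : Eu n) (2 * δ),
        volume (Ω k \ (fun x => x - t) ⁻¹' Ω k) ≤ ENNReal.ofReal (C * (2 * δ)) := by
      intro k t ht
      rw [mem_ball_zero_iff] at ht
      rw [← ofReal_measureReal (measure_ne_top_of_subset sdiff_subset (hf k))]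
      exact ENNReal.ofReal_le_ofReal ((h k t (by linarith)).trans
        (mul_le_mul_of_nonneg_left ht.le hC.le))
    have h3 : volume (Ω i ∆ Ω j) ≤ ENNReal.ofReal (16 * 2 ^ n * C * δ) := by
      refine (measure_mono (union_subset_union (sdiff_subset_bad (hm i) ((hR i).trans hc) hp)
        (sdiff_subset_bad (hm j) ((hR j).trans hc) fun l hl => (hp l hl).symm))).trans ?_
      refine (measure_union_le _ _).trans ((add_le_add (measure_union_le _ _)
        (measure_union_le _ _)).trans ((add_le_add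
          (add_le_add (bad_le (hm i) hδ (ht i)) (bad_compl_le (hm j) hδ (ht j)))
          (add_le_add (bad_le (hm j) hδ (ht j)) (bad_compl_le (hm i) hδ (ht i)))).trans
            (le_of_eq ?_)))
      rw [show 16 * 2 ^ n * C * δ = 8 * (2 ^ n * (C * (2 * δ))) by ring,
        ENNReal.ofReal_mul (p := 8) (by norm_num), ENNReal.ofReal_mul (p := 2 ^ n) (by positivity),
        ENNReal.ofReal_ofNat]
      ring
    rw [hu, dist_indicatorConstLp_eq_norm, norm_indicatorConstLp one_ne_zero ENNReal.one_ne_top]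
    simp only [norm_one, ENNReal.toReal_one, div_one, Real.rpow_one, one_mul]
    exact (ENNReal.toReal_le_of_le_ofReal (by positivity) h3).trans_lt h2
  obtain ⟨f, -, φ, hφ, hl⟩ := (tb.closure.isCompact_of_isClosed isClosed_closure).tendsto_subseq
    fun j => subset_closure (mem_range_self j)
  have mA : MeasurableSet {x | 1 / 2 < f x} :=
    measurableSet_lt measurable_const (Lp.stronglyMeasurable f).measurable
  refine ⟨φ, _, hφ, mA, ?_⟩
  have h1 : Tendsto (fun j => 2 * edist (u (φ j)) f) atTop (𝓝 0) := by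
    have := ENNReal.Tendsto.const_mul (a := 2) (tendsto_iff_edist_tendsto_0.1 hl)
      (Or.inr ENNReal.ofNat_ne_top)
    rwa [mul_zero] at this
  refine tendsto_of_tendsto_of_tendsto_of_le_of_le tendsto_const_nhds h1 (fun _ => zero_le)
    fun j => ?_
  rw [Lp.edist_def, eLpNorm_one_eq_lintegral_enorm, ← lintegral_const_mul' _ _ ENNReal.ofNat_ne_top,
    ← lintegral_indicator_one ((hm _).symmDiff mA)]
  refine lintegral_mono_ae ?_
  filter_upwards [indicatorConstLp_coeFn (p := 1) (hs := hm (φ j)) (hμs := hf (φ j))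
    (c := (1 : ℝ))] with x hx
  by_cases hs : x ∈ Ω (φ j) ∆ {x | 1 / 2 < f x}
  · rw [indicator_of_mem hs, Pi.sub_apply, hx, Pi.one_apply, ← ofReal_norm, two_mul,
      ← ENNReal.ofReal_add (norm_nonneg _) (norm_nonneg _), ENNReal.one_le_ofReal, Real.norm_eq_abs]
    rcases hs with hs | hs
    · have : ¬ 1 / 2 < f x := hs.2
      rw [indicator_of_mem hs.1]
      linarith [le_abs_self (1 - f x)]
    · have : 1 / 2 < f x := hs.1
      rw [indicator_of_notMem hs.2]
      linarith [neg_abs_le (0 - f x)]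
  · rw [indicator_of_notMem hs]
    exact zero_le

theorem tendsto_setIntegral {Ω : ℕ → Set (Eu n)} {A K : Set (Eu n)} (hm : ∀ j, MeasurableSet (Ω j))
    (hA : MeasurableSet A) (hK : IsCompact K) (h1 : ∀ j, Ω j ⊆ K) (h2 : A ⊆ K)
    (h : Tendsto (fun j => volume (Ω j ∆ A)) atTop (𝓝 0)) {f : Eu n → ℝ} (hf : Continuous f) :
    Tendsto (fun j => ∫ x in Ω j, f x) atTop (𝓝 (∫ x in A, f x)) := by
  have hi : IntegrableOn f K := hf.continuousOn.integrableOn_compact hK
  have h3 := (hi.integrable_indicator hK.measurableSet).norm.tendsto_setIntegral_nhds_zero h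
  rw [tendsto_iff_norm_sub_tendsto_zero]
  refine squeeze_zero (fun _ => norm_nonneg _) (fun j => ?_) h3
  have i1 := (hi.mono_set (h1 j)).integrable_indicator (hm j)
  have i2 := (hi.mono_set h2).integrable_indicator hA
  rw [← integral_indicator (hm j), ← integral_indicator hA, ← integral_sub i1 i2,
    ← integral_indicator ((hm j).symmDiff hA)]
  refine norm_integral_le_of_norm_le ((hi.integrable_indicator hK.measurableSet).norm.indicator
    ((hm j).symmDiff hA)) (Eventually.of_forall fun x => ?_)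
  have a1 := @h1 j x
  have a2 := @h2 x
  by_cases b1 : x ∈ Ω j <;> by_cases b2 : x ∈ A <;> simp_all [mem_symmDiff]

end B

open B

theorem min_pf : MinStmt := by
  intro n G K I hG hK hI
  obtain ⟨R, hR⟩ := hK.isBounded.subset_closedBall 0
  have hw : IntegrableOn (wt G) K := hG.wt_cont.continuousOn.integrableOn_compact hK
  have hv0 : ∀ Ω, 0 ≤ vol G Ω := fun Ω => integral_nonneg fun x => (hG.wt_pos x).le
  have hv1 : ∀ Ω ⊆ K, vol G Ω ≤ vol G K := fun Ω h =>
    setIntegral_mono_set hw (Eventually.of_forall fun x => (hG.wt_pos x).le) h.eventuallyLE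
  obtain ⟨M, hM⟩ := isCompact_Icc.exists_bound_of_continuousOn
    (hI.mono (Icc_subset_Ici_self : Icc 0 (vol G K) ⊆ _))
  set S : Set ℝ := {a | ∃ Ω, MeasurableSet Ω ∧ Ω ⊆ K ∧ per G Ω ≠ ⊤ ∧
    (per G Ω).toReal - I (vol G Ω) = a} with hS
  have hne : S.Nonempty := ⟨_, ∅, MeasurableSet.empty, empty_subset _,
    ne_top_of_le_ne_top ENNReal.ofReal_ne_top (per_le (a := 0) fun Y _ _ _ => by simp [flux]), rfl⟩
  have hb : ∀ Ω ⊆ K, I (vol G Ω) ≤ M := fun Ω h =>
    (le_abs_self _).trans (hM _ ⟨hv0 Ω, hv1 Ω h⟩)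
  have hbdd : BddBelow S := ⟨-M, by
    rintro _ ⟨Ω, -, h, -, rfl⟩
    linarith [hb Ω h, ENNReal.toReal_nonneg (a := per G Ω)]⟩
  obtain ⟨a, ha, hl, hs⟩ := exists_seq_tendsto_sInf hne hbdd
  choose Ω hm hsub hfin he using hs
  obtain ⟨C, hC, hT⟩ := transl hG R
  obtain ⟨φ, A, hφ, hA, hc⟩ := exists_lim hm (C := C * (|a 0 + M| + 1)) (by positivity)
    (fun j => (hsub j).trans hR) fun j t ht => by
      refine (hT _ (hm j) ((hsub j).trans hR) (hfin j) t ht).trans ?_
      have h1 : (per G (Ω j)).toReal ≤ |a 0 + M| + 1 := by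
        linarith [he j, ha (Nat.zero_le j), hb _ (hsub j), le_abs_self (a 0 + M)]
      exact (mul_le_mul_of_nonneg_left h1 (by positivity)).trans (le_of_eq (by ring))
  have hA' : MeasurableSet (A ∩ K) := hA.inter hK.measurableSet
  have hc' : Tendsto (fun j => volume (Ω (φ j) ∆ (A ∩ K))) atTop (𝓝 0) := by
    refine tendsto_of_tendsto_of_tendsto_of_le_of_le tendsto_const_nhds hc (fun _ => zero_le)
      fun j => measure_mono ?_
    rintro x (hx | hx)
    · exact Or.inl ⟨hx.1, fun h => hx.2 ⟨h, hsub _ hx.1⟩⟩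
    · exact Or.inr ⟨hx.1.1, hx.2⟩
  have key := fun f hf => tendsto_setIntegral (f := f) (fun j => hm (φ j)) hA' hK
    (fun j => hsub _) inter_subset_right hc' hf
  have h1 : Tendsto (fun j => (per G (Ω (φ j))).toReal) atTop
      (𝓝 (sInf S + I (vol G (A ∩ K)))) := by
    have := (hl.comp hφ.tendsto_atTop).add ((hI _ (hv0 (A ∩ K))).tendsto.comp
      (tendsto_nhdsWithin_iff.2 ⟨key _ hG.wt_cont, Eventually.of_forall fun j => hv0 _⟩))
    refine this.congr fun j => ?_
    have := he (φ j)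
    simp only [Function.comp, vol] at this ⊢
    linarith
  have h2 : per G (A ∩ K) ≤ ENNReal.ofReal (sInf S + I (vol G (A ∩ K))) :=
    per_le fun Y a1 a2 a3 => le_of_tendsto_of_tendsto'
      (key _ (continuous_dvg ((wt1 hG).smul a1))) h1 fun j =>
        (ENNReal.ofReal_le_iff_le_toReal (hfin _)).1 (flux_le_per a1 a2 a3)
  refine ⟨A ∩ K, hA', inter_subset_right, ne_top_of_le_ne_top ENNReal.ofReal_ne_top h2,
    fun Ω' a1 a2 a3 => ?_⟩
  have h3 := ENNReal.toReal_le_of_le_ofReal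
    (ge_of_tendsto' h1 fun j => ENNReal.toReal_nonneg) h2
  have h4 := csInf_le hbdd ⟨Ω', a1, a2, a3, rfl⟩
  linarith

end Vale.Agent.P219
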