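import Vale.Agent.P219.BTool

/-! The Gauss formula for continuous fields with a continuous weak divergence. -/

open scoped ContDiff ENNReal RealInnerProductSpace Topology Manifold Convolution
open MeasureTheory Set Filter Metric ContinuousLinearMap

namespace Vale.Agent.P219.B

variable {n : ℕ} {G : Met n} {Ω : Set (Eu n)} {μ : Measure (Eu n)} {N : Eu n → Eu n}

theorem dvg_conv {ρ : Eu n → ℝ} (hρ : ContDiff ℝ 1 ρ) (cρ : HasCompactSupport ρ)
    {W : Eu n → Eu n} {h : Eu n → ℝ} (hW : Continuous W) (hh : Continuous h)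
    (weak : ∀ ψ : Eu n → ℝ, ContDiff ℝ 1 ψ → HasCompactSupport ψ →
      ∫ x, (fderiv ℝ ψ x (W x) + ψ x * h x) = 0) (x : Eu n) :
    dvg (ρ ⋆[lsmul ℝ ℝ, volume] W) x = (ρ ⋆[lsmul ℝ ℝ, volume] h) x := by
  have hd := hρ.continuous_fderiv one_ne_zero
  have c1 : ∀ {V : Type} [NormedAddCommGroup V] {f : Eu n → V}, HasCompactSupport f →
      HasCompactSupport fun t => f (x - t) := fun hf => hf.comp_homeomorph (Homeomorph.subLeft x)
  have i1 : ∀ i, Integrable fun t => fderiv ℝ ρ (x - t) (ee i) • W t := fun i =>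
    Continuous.integrable_of_hasCompactSupport (by fun_prop)
      (c1 (cρ.fderiv_apply ℝ (ee i))).smul_right
  have h1 : ∀ i, fderiv ℝ (ρ ⋆[lsmul ℝ ℝ, volume] W) x (ee i) i =
      ∫ t, fderiv ℝ ρ (x - t) (ee i) * W t i := fun i => by
    rw [← convolution_flip, (cρ.hasFDerivAt_convolution_right _ hW.locallyIntegrable hρ x).fderiv,
      convolution_precompR_apply _ hW.locallyIntegrable (cρ.fderiv ℝ) hd, convolution_def]
    exact ((EuclideanSpace.proj (𝕜 := ℝ) i).integral_comp_comm (i1 i)).symm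
  have i2 : Integrable fun t => fderiv ℝ ρ (x - t) (W t) :=
    Continuous.integrable_of_hasCompactSupport (by fun_prop)
      ((c1 (cρ.fderiv ℝ)).mono fun t ht h0 => ht (by simp [h0]))
  have i3 : Integrable fun t => ρ (x - t) * h t :=
    Continuous.integrable_of_hasCompactSupport ((hρ.continuous.comp (by fun_prop)).mul hh)
      (c1 cρ).mul_right
  have h2 := weak (fun t => ρ (x - t)) (hρ.comp (contDiff_const.sub contDiff_id)) (c1 cρ)
  have h3 : ∀ t, fderiv ℝ (fun t => ρ (x - t)) t (W t) = -fderiv ℝ ρ (x - t) (W t) := fun t => by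
    have := ((hρ.differentiable one_ne_zero (x - t)).hasFDerivAt.comp t
      ((hasFDerivAt_id t).const_sub x)).fderiv
    rw [Function.comp_def] at this
    rw [this]
    simp
  simp only [h3] at h2
  rw [integral_add i2.fun_neg i3, integral_neg] at h2
  rw [convolution_lsmul_swap, dvg]
  simp only [h1, smul_eq_mul]
  rw [← integral_finsetSum (f := fun i t => fderiv ℝ ρ (x - t) (ee i) * W t i) _ fun i _ =>
    (EuclideanSpace.proj (𝕜 := ℝ) i).integrable_comp (i1 i)]
  simp only [clm_sum]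
  linarith

theorem meas_G (hG : Rm G) (hN : Measurable N) {Y : Eu n → Eu n} (hY : Continuous Y) :
    Measurable fun x => G x (N x) (Y x) := by
  have h1 := hG.smooth.continuous
  have : Continuous fun p : Eu n × Eu n => G p.1 p.2 (Y p.1) :=
    ((h1.comp continuous_fst).clm_apply continuous_snd).clm_apply (hY.comp continuous_fst)
  exact this.measurable.comp (measurable_id.prodMk hN)

theorem ae_closure (B : Bd G Ω μ N) : ∀ᵐ x ∂μ, x ∈ closure Ω := B.supp

theorem abs_G_le (hG : Rm G) {x u : Eu n} (hu : G x u u = 1) (v : Eu n) :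
    |G x u v| ≤ (1 + G x v v) / 2 := by
  have h1 := cauchy hG x u v
  have h2 := cauchy hG x u (-v)
  simp only [map_neg, neg_apply, neg_neg] at h2
  exact abs_le.2 ⟨by linarith, by linarith⟩

theorem norm_conv_le {V : Type} [NormedAddCommGroup V] [NormedSpace ℝ V] [CompleteSpace V]
    (φ : ContDiffBump (0 : Eu n)) {g : Eu n → V} (hg : Continuous g) {B : ℝ}
    (hB : ∀ x, ‖g x‖ ≤ B) (x : Eu n) : ‖(φ.normed volume ⋆[lsmul ℝ ℝ, volume] g) x‖ ≤ 3 * B := by
  have := φ.dist_normed_convolution_le (μ := volume) (x₀ := x) (ε := 2 * B)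
    hg.aestronglyMeasurable fun y _ => (dist_le_norm_add_norm _ _).trans (by linarith [hB x, hB y])
  rw [dist_eq_norm] at this
  linarith [hB x, norm_le_insert' ((φ.normed volume ⋆[lsmul ℝ ℝ, volume] g) x) (g x)]

theorem gauss_div (hG : Rm G) (B : Bd G Ω μ N) {Z : Eu n → Eu n} (hZ : ContDiff ℝ 1 Z)
    (cZ : HasCompactSupport Z) :
    ∫ x in Ω, dvg Z x = ∫ x, G x (N x) ((wt G x)⁻¹ • Z x) ∂μ :=
  (flux_div hG Ω Z).symm.trans
    (B.gauss (fun x => (wt G x)⁻¹ • Z x) ((wtinv1 hG).smul hZ)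
      (cZ.mono fun x hx h0 => hx (by simp [h0])))

theorem gauss_weak (hG : Rm G) (hb : Bornology.IsBounded Ω) (B : Bd G Ω μ N)
    {W : Eu n → Eu n} {h : Eu n → ℝ} (hW : Continuous W) (cW : HasCompactSupport W)
    (hh : Continuous h) (ch : HasCompactSupport h)
    (weak : ∀ ψ : Eu n → ℝ, ContDiff ℝ 1 ψ → HasCompactSupport ψ →
      ∫ x, (fderiv ℝ ψ x (W x) + ψ x * h x) = 0) :
    ∫ x in Ω, h x = ∫ x, G x (N x) ((wt G x)⁻¹ • W x) ∂μ := by
  have := B.fin
  have : IsFiniteMeasure (volume.restrict Ω) := isFiniteMeasure_restrict.2 hb.measure_lt_top.ne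
  let φ : ℕ → ContDiffBump (0 : Eu n) := fun k =>
    ⟨1 / ((k : ℝ) + 1) / 2, 1 / ((k : ℝ) + 1), by positivity, half_lt_self (by positivity)⟩
  have hφ : Tendsto (fun k => (φ k).rOut) atTop (𝓝 0) := tendsto_one_div_add_atTop_nhds_zero_nat
  obtain ⟨a, ha⟩ := hW.bounded_above_of_compact_support cW
  obtain ⟨b, hb'⟩ := hh.bounded_above_of_compact_support ch
  have s1 : ∀ k, ContDiff ℝ 1 ((φ k).normed volume ⋆[lsmul ℝ ℝ, volume] W) := fun k =>
    (φ k).hasCompactSupport_normed.contDiff_convolution_left (n := 1) _ (φ k).contDiff_normed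
      hW.locallyIntegrable
  have e1 : ∀ k, ∫ x in Ω, ((φ k).normed volume ⋆[lsmul ℝ ℝ, volume] h) x =
      ∫ x, G x (N x) ((wt G x)⁻¹ • ((φ k).normed volume ⋆[lsmul ℝ ℝ, volume] W) x) ∂μ := fun k => by
    rw [← gauss_div hG B (s1 k) ((φ k).hasCompactSupport_normed.convolution _ cW)]
    simp only [dvg_conv ((φ k).contDiff_normed (n := 1)) (φ k).hasCompactSupport_normed hW hh weak]
  have t1 := tendsto_integral_of_dominated_convergence (μ := volume.restrict Ω) (fun _ => 3 * b)
    (fun k => ((φ k).hasCompactSupport_normed.continuous_convolution_left (lsmul ℝ ℝ)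
      (φ k).continuous_normed hh.locallyIntegrable).aestronglyMeasurable) (integrable_const _)
    (fun k => Eventually.of_forall (norm_conv_le (φ k) hh hb'))
    (Eventually.of_forall (ContDiffBump.convolution_tendsto_right_of_continuous hφ hh))
  obtain ⟨C, hC, h1⟩ := hG.upper hb.isCompact_closure
  obtain ⟨D, hD⟩ := hb.isCompact_closure.exists_bound_of_continuousOn
    (wtinv1 hG).continuous.continuousOn
  have t2 := tendsto_integral_of_dominated_convergence (μ := μ)
    (F := fun k x => G x (N x) ((wt G x)⁻¹ • ((φ k).normed volume ⋆[lsmul ℝ ℝ, volume] W) x))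
    (f := fun x => G x (N x) ((wt G x)⁻¹ • W x))
    (fun _ => (1 + C * (D * (3 * a)) * (D * (3 * a))) / 2)
    (fun k => (meas_G hG B.meas ((wtinv1 hG).smul (s1 k)).continuous).aestronglyMeasurable)
    (integrable_const _) (fun k => (ae_closure B).mono fun x hx => ?_)
    (Eventually.of_forall fun x => ((G x (N x)).continuous.tendsto _).comp
      ((ContDiffBump.convolution_tendsto_right_of_continuous hφ hW x).const_smul _))
  · exact tendsto_nhds_unique (t1.congr e1) t2
  · refine (abs_G_le hG (B.unit x) _).trans ?_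
    have h2 : ‖(wt G x)⁻¹ • ((φ k).normed volume ⋆[lsmul ℝ ℝ, volume] W) x‖ ≤ D * (3 * a) := by
      rw [norm_smul]
      exact mul_le_mul (hD x hx) (norm_conv_le (φ k) hW ha x) (norm_nonneg _)
        ((norm_nonneg _).trans (hD x hx))
    have h3 := (le_abs_self _).trans ((h1 x hx _ _).trans (mul_le_mul
      (mul_le_mul_of_nonneg_left h2 hC.le) h2 (norm_nonneg _)
      (mul_nonneg hC.le ((norm_nonneg _).trans h2))))
    linarith

end Vale.Agent.P219.B
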