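import Vale.Agent.P219.BMol

/-! The flux through the image under a diffeomorphism. -/

open scoped ContDiff ENNReal RealInnerProductSpace Topology Manifold
open MeasureTheory Set Filter Metric

namespace Vale.Agent.P219.B

variable {n : ℕ} {G : Met n} {Ω : Set (Eu n)} {μ : Measure (Eu n)} {N : Eu n → Eu n}

theorem int_image {φ : Eu n → Eu n} (h1 : ContDiff ℝ 1 φ) (hi : Function.Injective φ)
    {s : Set (Eu n)} (hs : MeasurableSet s) (f : Eu n → ℝ) :
    ∫ y in φ '' s, f y = ∫ x in s, |(fderiv ℝ φ x).det| * f (φ x) :=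
  integral_image_eq_integral_abs_det_fderiv_smul volume hs
    (fun x _ => (h1.differentiable one_ne_zero x).hasFDerivAt.hasFDerivWithinAt) hi.injOn f

theorem piola (hG : Rm G) (hm : MeasurableSet Ω) (hb : Bornology.IsBounded Ω) (B : Bd G Ω μ N)
    (φ : Eu n ≃ₜ Eu n) (h1 : ContDiff ℝ 1 φ) (h2 : ContDiff ℝ 1 φ.symm) {Z : Eu n → Eu n}
    (hZ : ContDiff ℝ 1 Z) (cZ : HasCompactSupport Z) :
    ∫ y in φ '' Ω, dvg Z y = ∫ x, G x (N x)
      ((wt G x)⁻¹ • |(fderiv ℝ φ x).det| • fderiv ℝ φ.symm (φ x) (Z (φ x))) ∂μ := by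
  have c1 : Continuous fun x => |(fderiv ℝ φ x).det| :=
    (ContinuousLinearMap.continuous_det.comp (h1.continuous_fderiv one_ne_zero)).abs
  rw [int_image h1 φ.injective hm]
  refine gauss_weak hG hb B (c1.smul (((h2.continuous_fderiv one_ne_zero).comp
    φ.continuous).clm_apply (hZ.continuous.comp φ.continuous)))
    ((cZ.comp_homeomorph φ).mono fun x hx h0 => hx ?_)
    (c1.mul ((continuous_dvg hZ).comp φ.continuous))
    (((hasCompactSupport_dvg cZ).comp_homeomorph φ).mono fun x hx h0 => hx ?_) fun ψ s1 s2 => ?_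
  · simp [show Z (φ x) = 0 from h0]
  · simp [show dvg Z (φ x) = 0 from h0]
  have s3 : ContDiff ℝ 1 fun y => ψ (φ.symm y) := s1.comp h2
  have h3 := integral_dvg_eq_zero (Y := fun y => ψ (φ.symm y) • Z y) (s3.smul hZ)
    (cZ.mono fun x hx h0 => hx (by simp [h0]))
  rw [← setIntegral_univ, ← φ.surjective.range_eq, ← image_univ,
    int_image h1 φ.injective MeasurableSet.univ, setIntegral_univ] at h3
  rw [← h3]
  refine integral_congr_ae (Eventually.of_forall fun x => ?_)
  have h4 : fderiv ℝ (fun y => ψ (φ.symm y)) (φ x) =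
      (fderiv ℝ ψ x).comp (fderiv ℝ φ.symm (φ x)) := by
    have := fderiv_comp (φ x) (s1.differentiable one_ne_zero _) (h2.differentiable one_ne_zero _)
    rwa [φ.symm_apply_apply] at this
  beta_reduce
  rw [dvg_smul (s3.differentiable one_ne_zero _) (hZ.differentiable one_ne_zero _), h4,
    φ.symm_apply_apply, map_smul, smul_eq_mul, ContinuousLinearMap.comp_apply]
  ring

theorem fderiv_symm (φ : Eu n ≃ₜ Eu n) (h1 : ContDiff ℝ 1 φ) (h2 : ContDiff ℝ 1 φ.symm)
    (x v : Eu n) : fderiv ℝ φ x (fderiv ℝ φ.symm (φ x) v) = v := by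
  have := fderiv_comp (φ x) (h1.differentiable one_ne_zero _) (h2.differentiable one_ne_zero _)
  rw [φ.symm_apply_apply, φ.self_comp_symm, fderiv_id] at this
  exact (congrArg (fun L : Eu n →L[ℝ] Eu n => L v) this).symm

theorem fderiv_pert {X : Eu n → Eu n} (hX : ContDiff ℝ 1 X) (ε : ℝ) (x : Eu n) :
    fderiv ℝ (fun x => x + ε • X x) x = 1 + ε • fderiv ℝ X x :=
  ((hasFDerivAt_id x).add
    ((hX.differentiable one_ne_zero x).hasFDerivAt.const_smul ε)).fderiv

/-- Small perturbations of the identity are diffeomorphisms. -/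
theorem exists_diffeo {X : Eu n → Eu n} (hX : ContDiff ℝ 1 X) (cX : HasCompactSupport X) :
    ∀ᶠ ε : ℝ in 𝓝 0, (∀ x, ‖ε • fderiv ℝ X x‖ ≤ 1 / 2) ∧ ∃ φ : Eu n ≃ₜ Eu n,
      (φ : Eu n → Eu n) = (fun x => x + ε • X x) ∧ ContDiff ℝ 1 φ ∧ ContDiff ℝ 1 φ.symm := by
  obtain ⟨L, hL⟩ := (hX.continuous_fderiv one_ne_zero).bounded_above_of_compact_support
    (cX.fderiv ℝ)
  have h0 : ∀ᶠ ε : ℝ in 𝓝 0, ‖ε‖ * L < 1 / 2 :=
    (by fun_prop : Continuous fun ε : ℝ => ‖ε‖ * L).continuousAt.eventually_lt continuousAt_const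
      (by simp)
  filter_upwards [h0] with ε hε
  have h1 : ∀ x, ‖ε • fderiv ℝ X x‖ ≤ 1 / 2 := fun x => by
    rw [norm_smul]
    exact (mul_le_mul_of_nonneg_left (hL x) (norm_nonneg _)).trans hε.le
  have hd : ∀ x, HasFDerivAt (fun x => ε • X x) (ε • fderiv ℝ X x) x := fun x =>
    (hX.differentiable one_ne_zero x).hasFDerivAt.const_smul ε
  have ha : ApproximatesLinearOn (fun x => x + ε • X x)
      (ContinuousLinearEquiv.refl ℝ (Eu n) : Eu n →L[ℝ] Eu n) univ (1 / 2) := by
    intro x _ y _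
    have := convex_univ.norm_image_sub_le_of_norm_hasFDerivWithin_le
      (fun x _ => (hd x).hasFDerivWithinAt) (fun x _ => h1 x) (mem_univ y) (mem_univ x)
    have e : x + ε • X x - (y + ε • X y) -
        (ContinuousLinearEquiv.refl ℝ (Eu n) : Eu n →L[ℝ] Eu n) (x - y) = ε • X x - ε • X y := by
      simp only [ContinuousLinearEquiv.coe_refl, ContinuousLinearMap.id_apply]
      abel
    rw [e]
    simpa using this
  have hc : Subsingleton (Eu n) ∨ (1 / 2 : NNReal) <
      ‖((ContinuousLinearEquiv.refl ℝ (Eu n)).symm : Eu n →L[ℝ] Eu n)‖₊⁻¹ := by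
    rcases subsingleton_or_nontrivial (Eu n) with h | h
    · exact Or.inl h
    · right
      simp only [ContinuousLinearEquiv.refl_symm, ContinuousLinearEquiv.coe_refl,
        ContinuousLinearMap.nnnorm_id, inv_one]
      exact half_lt_self one_pos
  have s1 : ContDiff ℝ 1 fun x => x + ε • X x := contDiff_id.add (hX.const_smul ε)
  refine ⟨h1, ha.toHomeomorph _ hc, rfl, s1, ?_⟩
  refine (ha.toHomeomorph _ hc).contDiff_symm (f₀' := fun x =>
    ContinuousLinearEquiv.unitsEquiv ℝ (Eu n) (Units.oneSub (-(ε • fderiv ℝ X x))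
      (by rw [norm_neg]; linarith [h1 x]))) (fun x => ?_) s1
  refine ((hasFDerivAt_id x).add (hd x)).congr_fderiv ?_
  ext v
  simp

end Vale.Agent.P219.B
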