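import Vale.Agent.P219.Base

/-! P219 part B: Hahn-Banach and the Riesz representation on a compact space. -/

open scoped ENNReal Topology CompactlySupported
open MeasureTheory Set Filter

namespace Vale.Agent.P219.BR

variable {X : Type} [TopologicalSpace X] [CompactSpace X]

/-- the norm of the positive part -/
noncomputable def pp (f : C(X, ℝ)) : ℝ := ‖f ⊔ 0‖

theorem pp_nonneg (f : C(X, ℝ)) : 0 ≤ pp f := norm_nonneg _

theorem le_pp (f : C(X, ℝ)) (x : X) : f x ≤ pp f := by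
  have := (f ⊔ 0).norm_coe_le_norm x
  rw [ContinuousMap.sup_apply, Real.norm_eq_abs] at this
  exact (le_max_left _ _).trans ((le_abs_self _).trans this)

theorem pp_le {f : C(X, ℝ)} {c : ℝ} (hc : 0 ≤ c) (h : ∀ x, f x ≤ c) : pp f ≤ c := by
  refine (ContinuousMap.norm_le _ hc).2 fun x => ?_
  rw [ContinuousMap.sup_apply, Real.norm_eq_abs, abs_of_nonneg (le_max_right _ _)]
  exact max_le (h x) hc

theorem pp_add (f g : C(X, ℝ)) : pp (f + g) ≤ pp f + pp g :=
  pp_le (add_nonneg (pp_nonneg f) (pp_nonneg g)) fun x => add_le_add (le_pp f x) (le_pp g x)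

theorem pp_smul_le {c : ℝ} (hc : 0 < c) (f : C(X, ℝ)) : pp (c • f) ≤ c * pp f :=
  pp_le (mul_nonneg hc.le (pp_nonneg f)) fun x => mul_le_mul_of_nonneg_left (le_pp f x) hc.le

theorem pp_smul {c : ℝ} (hc : 0 < c) (f : C(X, ℝ)) : pp (c • f) = c * pp f := by
  refine le_antisymm (pp_smul_le hc f) ?_
  have := pp_smul_le (inv_pos.2 hc) (c • f)
  rw [smul_smul, inv_mul_cancel₀ hc.ne', one_smul] at this
  rwa [← le_inv_mul_iff₀ hc]

theorem exists_ext {W : Type} [AddCommGroup W] [Module ℝ W] (T : W →ₗ[ℝ] C(X, ℝ))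
    (L : W →ₗ[ℝ] ℝ) {P : ℝ}
    (h : ∀ (Y : W) (c : ℝ), 0 ≤ c → (∀ p, T Y p ≤ c) → L Y ≤ P * c) (hP : 0 ≤ P) :
    ∃ g : C(X, ℝ) →ₗ[ℝ] ℝ, (∀ Y, g (T Y) = L Y) ∧ ∀ f, g f ≤ P * pp f := by
  obtain ⟨R, hR⟩ := T.rangeRestrict.exists_rightInverse_of_surjective T.range_rangeRestrict
  have hR' : ∀ f : LinearMap.range T, T (R f) = f := fun f =>
    congrArg Subtype.val (LinearMap.congr_fun hR f)
  have hker : ∀ Y, T Y = 0 → L Y = 0 := fun Y hY => by
    have a := h Y 0 le_rfl fun p => by simp [hY]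
    have b := h (-Y) 0 le_rfl fun p => by simp [hY]
    rw [map_neg] at b
    linarith
  obtain ⟨g, h1, h2⟩ := exists_extension_of_le_sublinear ⟨LinearMap.range T, L ∘ₗ R⟩
    (fun f => P * pp f) (fun c hc f => by rw [pp_smul hc]; ring)
    (fun f g => by rw [← mul_add]; exact mul_le_mul_of_nonneg_left (pp_add f g) hP)
    (fun f => h (R f) _ (pp_nonneg _) fun p => by rw [hR']; exact le_pp _ p)
  refine ⟨g, fun Y => ?_, h2⟩
  have e := h1 ⟨T Y, LinearMap.mem_range_self T Y⟩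
  have e2 := hker (R ⟨T Y, LinearMap.mem_range_self T Y⟩ - Y) (by rw [map_sub, hR', sub_self])
  rw [map_sub, sub_eq_zero] at e2
  exact e.trans e2

theorem exists_meas [T2Space X] [MeasurableSpace X] [BorelSpace X]
    {W : Type} [AddCommGroup W] [Module ℝ W] (T : W →ₗ[ℝ] C(X, ℝ))
    (L : W →ₗ[ℝ] ℝ) {P : ℝ}
    (h : ∀ (Y : W) (c : ℝ), 0 ≤ c → (∀ p, T Y p ≤ c) → L Y ≤ P * c) (hP : 0 ≤ P) :
    ∃ V : Measure X, IsFiniteMeasure V ∧ V.real univ ≤ P ∧ ∀ Y, L Y = ∫ p, T Y p ∂V := by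
  obtain ⟨g, h1, h2⟩ := exists_ext T L h hP
  let J : C_c(X, ℝ) →ₗ[ℝ] C(X, ℝ) :=
    { toFun := fun f => f.toContinuousMap
      map_add' := fun _ _ => rfl
      map_smul' := fun _ _ => rfl }
  let Λ : C_c(X, ℝ) →ₚ[ℝ] ℝ := PositiveLinearMap.mk₀ (g ∘ₗ J) fun f hf => by
    have a := h2 (-J f)
    have b : pp (-J f) ≤ 0 := pp_le le_rfl fun x => neg_nonpos.2 (hf x)
    rw [map_neg, le_antisymm b (pp_nonneg _)] at a
    simpa using a
  have key : ∀ f : C(X, ℝ), ∫ p, f p ∂(RealRMK.rieszMeasure Λ) = g f := fun f =>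
    RealRMK.integral_rieszMeasure Λ (CompactlySupportedContinuousMap.continuousMapEquiv f)
  refine ⟨RealRMK.rieszMeasure Λ, inferInstance, ?_, fun Y => by rw [key, h1]⟩
  have a := key 1
  simp only [ContinuousMap.one_apply, integral_const, smul_eq_mul, mul_one] at a
  have b := h2 1
  have c : pp (1 : C(X, ℝ)) ≤ 1 := pp_le zero_le_one fun _ => le_rfl
  rw [a]
  nlinarith

/-- summable integrals give almost everywhere convergence -/
theorem ae_tendsto_zero {X : Type} [MeasurableSpace X] {V : Measure X} {f : ℕ → X → ℝ}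
    (h0 : ∀ k x, 0 ≤ f k x) (hi : ∀ k, Integrable (f k) V)
    (hb : ∀ k, ∫ x, f k x ∂V ≤ (1 / 2 : ℝ) ^ k) :
    ∀ᵐ x ∂V, Tendsto (fun k => f k x) atTop (𝓝 0) := by
  have h := summable_norm_of_tsum_eLpNorm_ne_top (p := 1) le_rfl
    (fun k => (hi k).aestronglyMeasurable) (by
      refine ne_top_of_le_ne_top ?_ (ENNReal.tsum_le_tsum (g := fun k => ENNReal.ofReal
        ((1 / 2 : ℝ) ^ k)) fun k => ?_)
      · rw [← ENNReal.ofReal_tsum_of_nonneg (fun k => by positivity) summable_geometric_two]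
        exact ENNReal.ofReal_ne_top
      · rw [eLpNorm_one_eq_lintegral_enorm, ← ofReal_integral_norm_eq_lintegral_enorm (hi k)]
        refine ENNReal.ofReal_le_ofReal ?_
        simpa only [Real.norm_eq_abs, abs_of_nonneg (h0 _ _)] using hb k)
  filter_upwards [h] with x hx
  simpa only [Real.norm_eq_abs, abs_of_nonneg (h0 _ _)] using hx.tendsto_atTop_zero

end Vale.Agent.P219.BR
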