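import Vale.Agent.P219.Base

/-! P219 part B: basic facts on the density, the divergence and the flux. -/

open scoped ContDiff ENNReal RealInnerProductSpace Topology
open MeasureTheory Set Filter

namespace Vale.Agent.P219.BR

variable {n : ℕ} {G : Met n}

theorem sum_ee (v : Eu n) : ∑ i, v i • (ee i : Eu n) = v := by
  ext j
  simp [ee, Finset.sum_apply, Pi.single_apply]

theorem G_nonneg (hG : Rm G) (x v : Eu n) : 0 ≤ G x v v := by
  by_cases hv : v = 0
  · simp [hv]
  · exact (hG.pos x v hv).le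

theorem det_pos (hG : Rm G) (x : Eu n) :
    0 < (Matrix.of fun i j => G x (ee i) (ee j)).det := by
  refine Matrix.PosDef.det_pos (Matrix.PosDef.of_dotProduct_mulVec_pos ?_ fun v hv => ?_)
  · ext i j
    simp [Matrix.conjTranspose_apply, hG.symm x (ee j) (ee i)]
  · have h := hG.pos x (WithLp.toLp 2 v) (by simpa using hv)
    rw [← sum_ee (WithLp.toLp 2 v)] at h
    simp only [map_sum, map_smul, _root_.sum_apply, _root_.smul_apply,
      smul_eq_mul] at h
    simp only [dotProduct, Matrix.mulVec, Matrix.of_apply, star_trivial]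
    refine h.trans_eq ?_
    simp only [Finset.mul_sum]
    rw [Finset.sum_comm]
    refine Finset.sum_congr rfl fun i _ => Finset.sum_congr rfl fun j _ => ?_
    ring

theorem wt_pos (hG : Rm G) (x : Eu n) : 0 < wt G x := Real.sqrt_pos.2 (det_pos hG x)

theorem wt_smooth (hG : Rm G) : ContDiff ℝ ∞ (wt G) := by
  refine ContDiff.sqrt ?_ fun x => (det_pos hG x).ne'
  simp only [Matrix.det_apply', Matrix.of_apply]
  refine ContDiff.sum fun σ _ => contDiff_const.mul (contDiff_prod fun i _ => ?_)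
  exact (hG.smooth.clm_apply contDiff_const).clm_apply contDiff_const

theorem wt_c1 (hG : Rm G) : ContDiff ℝ 1 (wt G) := (wt_smooth hG).of_le (by exact_mod_cast le_top)

theorem G_c1 (hG : Rm G) : ContDiff ℝ 1 G := hG.smooth.of_le (by exact_mod_cast le_top)

theorem dvg_cont {Y : Eu n → Eu n} (hY : ContDiff ℝ 1 Y) : Continuous (dvg Y) := by
  unfold dvg
  refine continuous_finsetSum _ fun i _ => ?_
  have := (hY.continuous_fderiv one_ne_zero).clm_apply (continuous_const (y := (ee i : Eu n)))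
  exact (EuclideanSpace.proj i : Eu n →L[ℝ] ℝ).continuous.comp this

theorem dvg_congr {Y Z : Eu n → Eu n} {x : Eu n} (h : Y =ᶠ[𝓝 x] Z) : dvg Y x = dvg Z x := by
  unfold dvg
  rw [h.fderiv_eq]

theorem dvg_supp {Y : Eu n → Eu n} (hc : HasCompactSupport Y) : HasCompactSupport (dvg Y) := by
  refine hc.mono' fun x hx => ?_
  by_contra h
  have : Y =ᶠ[𝓝 x] fun _ => 0 := notMem_tsupport_iff_eventuallyEq.1 h
  apply hx
  rw [dvg_congr this]
  simp [dvg]

theorem dvg_int {Y : Eu n → Eu n} (hY : ContDiff ℝ 1 Y) (hc : HasCompactSupport Y) :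
    Integrable (dvg Y) := (dvg_cont hY).integrable_of_hasCompactSupport (dvg_supp hc)

theorem dvg_add {Y Z : Eu n → Eu n} {x : Eu n} (hY : DifferentiableAt ℝ Y x)
    (hZ : DifferentiableAt ℝ Z x) : dvg (fun y => Y y + Z y) x = dvg Y x + dvg Z x := by
  unfold dvg
  rw [fderiv_fun_add hY hZ, ← Finset.sum_add_distrib]
  rfl

theorem dvg_smul {Y : Eu n → Eu n} {x : Eu n} (hY : DifferentiableAt ℝ Y x) (c : ℝ) :
    dvg (fun y => c • Y y) x = c * dvg Y x := by
  unfold dvg
  rw [fderiv_fun_const_smul hY, Finset.mul_sum]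
  rfl

theorem wY_c1 (hG : Rm G) {Y : Eu n → Eu n} (hY : ContDiff ℝ 1 Y) :
    ContDiff ℝ 1 fun y => wt G y • Y y := (wt_c1 hG).smul hY

theorem wY_supp {Y : Eu n → Eu n} (hc : HasCompactSupport Y) :
    HasCompactSupport fun y => wt G y • Y y :=
  hc.mono fun x hx h => hx (by simp [h])

theorem flux_add (hG : Rm G) (Ω : Set (Eu n)) {Y Z : Eu n → Eu n} (hY : ContDiff ℝ 1 Y)
    (cY : HasCompactSupport Y) (hZ : ContDiff ℝ 1 Z) (cZ : HasCompactSupport Z) :
    flux G Ω (fun y => Y y + Z y) = flux G Ω Y + flux G Ω Z := by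
  unfold flux
  rw [← integral_add (dvg_int (wY_c1 hG hY) (wY_supp cY)).integrableOn
    (dvg_int (wY_c1 hG hZ) (wY_supp cZ)).integrableOn]
  refine integral_congr_ae (Eventually.of_forall fun x => ?_)
  simp only [smul_add]
  exact dvg_add ((wY_c1 hG hY).differentiable one_ne_zero x)
    ((wY_c1 hG hZ).differentiable one_ne_zero x)

theorem flux_smul (hG : Rm G) (Ω : Set (Eu n)) {Y : Eu n → Eu n} (hY : ContDiff ℝ 1 Y) (c : ℝ) :
    flux G Ω (fun y => c • Y y) = c * flux G Ω Y := by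
  unfold flux
  rw [← integral_const_mul]
  refine integral_congr_ae (Eventually.of_forall fun x => ?_)
  simp only [smul_comm (wt G _) c]
  exact dvg_smul ((wY_c1 hG hY).differentiable one_ne_zero x) c

theorem flux_congr {Ω : Set (Eu n)} (hΩ : MeasurableSet Ω) {Y Z : Eu n → Eu n}
    (h : ∀ x ∈ Ω, Y =ᶠ[𝓝 x] Z) : flux G Ω Y = flux G Ω Z := by
  unfold flux
  refine setIntegral_congr_fun hΩ fun x hx => dvg_congr ?_
  filter_upwards [h x hx] with y hy
  rw [hy]

theorem flux_zero (G : Met n) (Ω : Set (Eu n)) : flux G Ω (fun _ => 0) = 0 := by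
  simp [flux, dvg]

theorem flux_le_per {Ω : Set (Eu n)} (hP : per G Ω ≠ ⊤) {Y : Eu n → Eu n} (hY : ContDiff ℝ 1 Y)
    (cY : HasCompactSupport Y) (h1 : ∀ x, G x (Y x) (Y x) ≤ 1) :
    flux G Ω Y ≤ (per G Ω).toReal := by
  rw [← ENNReal.ofReal_le_iff_le_toReal hP]
  exact le_iSup₂_of_le Y hY (le_iSup₂_of_le cY h1 le_rfl)

/-- the flux only sees the size of the field on `Ω` -/
theorem flux_le (hG : Rm G) {Ω : Set (Eu n)} (hΩ : MeasurableSet Ω) (hP : per G Ω ≠ ⊤)
    {Y : Eu n → Eu n} (hY : ContDiff ℝ 1 Y) (cY : HasCompactSupport Y) {c : ℝ} (hc : 0 ≤ c)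
    (h1 : ∀ x ∈ Ω, G x (Y x) (Y x) ≤ c ^ 2) : flux G Ω Y ≤ (per G Ω).toReal * c := by
  have hP0 : 0 ≤ (per G Ω).toReal := ENNReal.toReal_nonneg
  have key : ∀ d, c < d → flux G Ω Y ≤ (per G Ω).toReal * d := by
    intro d hd
    have hd0 : 0 < d := hc.trans_lt hd
    have hcd : c ^ 2 < d ^ 2 := by nlinarith
    let φ : ContDiffBump (0 : ℝ) := ⟨(c ^ 2 + d ^ 2) / 2, d ^ 2, by positivity, by linarith⟩
    have hq : ContDiff ℝ 1 fun x => G x (Y x) (Y x) := ((G_c1 hG).clm_apply hY).clm_apply hY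
    have hZ : ContDiff ℝ 1 fun x => φ (G x (Y x) (Y x)) • Y x := (φ.contDiff.comp hq).smul hY
    have e1 : flux G Ω Y = flux G Ω fun x => φ (G x (Y x) (Y x)) • Y x := by
      refine flux_congr hΩ fun x hx => ?_
      have : ∀ᶠ y in 𝓝 x, G y (Y y) (Y y) < (c ^ 2 + d ^ 2) / 2 :=
        hq.continuous.continuousAt.eventually_lt continuousAt_const (by linarith [h1 x hx])
      filter_upwards [this] with y hy
      rw [φ.one_of_mem_closedBall, one_smul]
      rw [mem_closedBall_zero_iff, Real.norm_eq_abs, abs_of_nonneg (G_nonneg hG _ _)]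
      exact hy.le
    have e2 := flux_le_per hP (Y := fun x => d⁻¹ • φ (G x (Y x) (Y x)) • Y x)
      (hZ.const_smul d⁻¹) (cY.mono fun x hx h => hx (by simp [h])) fun x => by
        simp only [map_smul, _root_.smul_apply, smul_eq_mul]
        have a0 := φ.nonneg (x := G x (Y x) (Y x))
        have a1 := φ.le_one (x := G x (Y x) (Y x))
        have g0 := G_nonneg hG x (Y x)
        have hb : φ (G x (Y x) (Y x)) * (φ (G x (Y x) (Y x)) * G x (Y x) (Y x)) ≤ d ^ 2 := by
          by_cases h : G x (Y x) (Y x) ≤ d ^ 2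
          · calc _ ≤ 1 * (1 * d ^ 2) := by gcongr
              _ = _ := by ring
          · rw [φ.zero_of_le_dist, zero_mul]
            · positivity
            · rw [dist_zero_right, Real.norm_eq_abs, abs_of_nonneg g0]
              exact (not_le.1 h).le
        have : d⁻¹ * (φ (G x (Y x) (Y x)) * (d⁻¹ * (φ (G x (Y x) (Y x)) * G x (Y x) (Y x)))) =
            φ (G x (Y x) (Y x)) * (φ (G x (Y x) (Y x)) * G x (Y x) (Y x)) / d ^ 2 := by
          field_simp
        rw [this, div_le_one (by positivity)]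
        exact hb
    rw [flux_smul hG Ω hZ, ← e1, inv_mul_le_iff₀ hd0] at e2
    linarith
  refine le_of_forall_pos_le_add fun ε hε => ?_
  have h := key (c + ε / ((per G Ω).toReal + 1)) (by
    have : 0 < ε / ((per G Ω).toReal + 1) := by positivity
    linarith)
  have h2 : (per G Ω).toReal * (ε / ((per G Ω).toReal + 1)) ≤ ε := by
    rw [← mul_div_assoc, div_le_iff₀ (by positivity)]
    nlinarith
  nlinarith

theorem exists_flux_ge {Ω : Set (Eu n)} (hP : per G Ω ≠ ⊤) {ε : ℝ} (hε : 0 < ε) :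
    ∃ Y : Eu n → Eu n, ContDiff ℝ 1 Y ∧ HasCompactSupport Y ∧ (∀ x, G x (Y x) (Y x) ≤ 1) ∧
      (per G Ω).toReal - ε ≤ flux G Ω Y := by
  by_cases h : (per G Ω).toReal - ε ≤ 0
  · exact ⟨fun _ => 0, contDiff_const, HasCompactSupport.zero, fun x => by simp,
      by rw [flux_zero]; exact h⟩
  · have h1 : ENNReal.ofReal ((per G Ω).toReal - ε) < per G Ω := by
      rw [ENNReal.ofReal_lt_iff_lt_toReal (not_le.1 h).le hP]
      linarith
    unfold per at h1
    simp only [lt_iSup_iff] at h1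
    obtain ⟨Y, a, b, c, d⟩ := h1
    exact ⟨Y, a, b, c, ((ENNReal.ofReal_lt_ofReal_iff'.1 d).1).le⟩

end Vale.Agent.P219.BR
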