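import Vale.Agent.P219.BRBas
import Vale.Agent.P219.BRAbs

/-! P219 part B: the perimeter measure and the normal. -/

open scoped ContDiff ENNReal RealInnerProductSpace Topology
open MeasureTheory Set Filter

namespace Vale.Agent.P219

namespace BR

variable {n : ℕ} {G : Met n} {A : Eu n → Eu n →L[ℝ] Eu n}

theorem A_surj (hA : Frame G A) (x v : Eu n) : ∃ z, A x z = v := by
  have hi : Function.Injective (A x : Eu n →ₗ[ℝ] Eu n) := by
    rw [← LinearMap.ker_eq_bot, LinearMap.ker_eq_bot']
    intro z hz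
    have h := hA.iso x z z
    rw [show A x z = 0 from hz] at h
    simp only [map_zero] at h
    exact inner_self_eq_zero.1 h.symm
  exact LinearMap.injective_iff_surjective.1 hi v

/-- coordinates in the frame -/
noncomputable def co (G : Met n) (A : Eu n → Eu n →L[ℝ] Eu n) (x v : Eu n) : Eu n :=
  WithLp.toLp 2 fun i => G x (A x (ee i)) v

theorem A_co (hA : Frame G A) (x v : Eu n) : A x (co G A x v) = v := by
  obtain ⟨z, rfl⟩ := A_surj hA x v
  congr 1
  ext i
  simp [co, hA.iso, ee, EuclideanSpace.inner_single_left]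

theorem inner_co (hA : Frame G A) (x u v : Eu n) : G x (A x u) v = ⟪u, co G A x v⟫ := by
  rw [← hA.iso x, A_co hA]

theorem norm_co (hA : Frame G A) (x v : Eu n) : ‖co G A x v‖ ^ 2 = G x v v := by
  rw [← real_inner_self_eq_norm_sq, ← hA.iso x, A_co hA]

theorem co_cont (hG : Rm G) (hA : Frame G A) {Y : Eu n → Eu n} (hY : Continuous Y) :
    Continuous fun x => co G A x (Y x) := by
  unfold co
  refine (PiLp.continuous_toLp 2 _).comp (continuous_pi fun i => ?_)
  exact (hG.smooth.continuous.clm_apply (hA.cont.clm_apply continuous_const)).clm_apply hY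

/-- compactly supported `C¹` fields -/
def WW (n : ℕ) : Submodule ℝ (Eu n → Eu n) where
  carrier := {Y | ContDiff ℝ 1 Y ∧ HasCompactSupport Y}
  add_mem' := fun a b => ⟨a.1.add b.1, a.2.add b.2⟩
  zero_mem' := ⟨contDiff_const, HasCompactSupport.zero⟩
  smul_mem' := fun c Y a => ⟨a.1.const_smul c, a.2.mono fun x hx h => hx (by simp [h])⟩

/-- the flux as a linear functional -/
noncomputable def LL (hG : Rm G) (Ω : Set (Eu n)) : WW n →ₗ[ℝ] ℝ where
  toFun := fun Y => flux G Ω Y.1
  map_add' := fun Y Z => flux_add hG Ω Y.2.1 Y.2.2 Z.2.1 Z.2.2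
  map_smul' := fun c Y => flux_smul hG Ω Y.2.1 c

/-- the sphere bundle over `K` -/
abbrev SB (K : Set (Eu n)) : Type := K × Metric.sphere (0 : Eu n) 1

/-- fields as functions on the sphere bundle -/
noncomputable def TT (hG : Rm G) (hA : Frame G A) (K : Set (Eu n)) : WW n →ₗ[ℝ] C(SB K, ℝ) where
  toFun := fun Y => ⟨fun p => G p.1 (A p.1 p.2) (Y.1 p.1), by
    have h1 : Continuous fun p : SB K => (p.1 : Eu n) := by fun_prop
    have h2 : Continuous fun p : SB K => (p.2 : Eu n) := by fun_prop
    exact ((hG.smooth.continuous.comp h1).clm_apply ((hA.cont.comp h1).clm_apply h2)).clm_apply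
      (Y.2.1.continuous.comp h1)⟩
  map_add' := fun Y Z => by ext p; simp
  map_smul' := fun c Y => by ext p; simp

theorem TT_apply (hG : Rm G) (hA : Frame G A) (K : Set (Eu n)) (Y : WW n) (p : SB K) :
    TT hG hA K Y p = G p.1 (A p.1 p.2) (Y.1 p.1) := rfl

theorem bound (hG : Rm G) (hA : Frame G A) {Ω : Set (Eu n)} (hΩ : MeasurableSet Ω)
    (hP : per G Ω ≠ ⊤) (Y : WW n) (c : ℝ) (hc : 0 ≤ c)
    (h : ∀ p, TT hG hA (closure Ω) Y p ≤ c) : LL hG Ω Y ≤ (per G Ω).toReal * c := by
  refine flux_le hG hΩ hP Y.2.1 Y.2.2 hc fun x hx => ?_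
  rw [← norm_co hA]
  by_cases hz : co G A x (Y.1 x) = 0
  · rw [hz, norm_zero]; nlinarith
  · have hn : 0 < ‖co G A x (Y.1 x)‖ := norm_pos_iff.2 hz
    have := h (⟨x, subset_closure hx⟩, ⟨‖co G A x (Y.1 x)‖⁻¹ • co G A x (Y.1 x), by
      rw [mem_sphere_zero_iff_norm, norm_smul, norm_inv, norm_norm, inv_mul_cancel₀ hn.ne']⟩)
    rw [TT_apply, inner_co hA, real_inner_smul_left, real_inner_self_eq_norm_mul_norm,
      inv_mul_cancel_left₀ hn.ne'] at this
    exact pow_le_pow_left₀ hn.le this 2

end BR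

open BR in
theorem riesz_pf (hf : FrameStmt) : RieszStmt := by
  intro n G Ω hn hG hΩ hb hP
  obtain ⟨A, hA⟩ := hf n G hG
  have : CompactSpace (closure Ω) := isCompact_iff_compactSpace.1 hb.isCompact_closure
  obtain ⟨V, hV, hm, hL⟩ := exists_meas (TT hG hA (closure Ω)) (LL hG Ω) (bound hG hA hΩ hP)
    ENNReal.toReal_nonneg
  choose Y Y1 Y2 Y3 Y4 using fun k : ℕ =>
    exists_flux_ge hP (ε := (1 / 2 : ℝ) ^ k / 2) (by positivity)
  have hy : ∀ k, Continuous fun x => co G A x (Y k x) := fun k => co_cont hG hA (Y1 k).continuous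
  have hy1 : ∀ k x, ‖co G A x (Y k x)‖ ^ 2 ≤ 1 := fun k x => by rw [norm_co hA]; exact Y3 k x
  have hs : ∀ p : SB (closure Ω), ‖(p.2 : Eu n)‖ = 1 := fun p => mem_sphere_zero_iff_norm.1 p.2.2
  have hint : ∀ f : SB (closure Ω) → ℝ, Continuous f → Integrable f V := fun f h =>
    h.integrable_of_hasCompactSupport (HasCompactSupport.of_compactSpace f)
  have hT : ∀ k, flux G Ω (Y k) = ∫ p : SB (closure Ω), ⟪(p.2 : Eu n), co G A p.1 (Y k p.1)⟫ ∂V :=
    fun k => by
      refine (hL ⟨Y k, Y1 k, Y2 k⟩).trans (integral_congr_ae (Eventually.of_forall fun p => ?_))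
      exact inner_co hA _ _ _
  have c1 : Continuous fun p : SB (closure Ω) => (p.1 : Eu n) := by fun_prop
  have c2 : Continuous fun p : SB (closure Ω) => (p.2 : Eu n) := by fun_prop
  have c3 : ∀ k, Continuous fun p : SB (closure Ω) => ⟪(p.2 : Eu n), co G A p.1 (Y k p.1)⟫ :=
    fun k => c2.inner ((hy k).comp c1)
  have hmass : V.real univ = (per G Ω).toReal := by
    refine le_antisymm hm (le_of_forall_pos_le_add fun ε hε => ?_)
    obtain ⟨k, hk⟩ := exists_pow_lt_of_lt_one hε (show (1 / 2 : ℝ) < 1 by norm_num)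
    have h1 : flux G Ω (Y k) ≤ V.real univ := by
      rw [hT]
      calc _ ≤ ∫ _ : SB (closure Ω), (1 : ℝ) ∂V := by
            refine integral_mono (hint _ (c3 k)) (integrable_const _) fun p => ?_
            have a := real_inner_le_norm (p.2 : Eu n) (co G A p.1 (Y k p.1))
            rw [hs, one_mul] at a
            exact a.trans ((sq_le_one_iff₀ (norm_nonneg _)).1 (hy1 k _))
        _ = _ := by simp
    have h2 := Y4 k
    have h3 : 0 < (1 / 2 : ℝ) ^ k := by positivity
    linarith
  have hae : ∀ᵐ p : SB (closure Ω) ∂V,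
      Tendsto (fun k => ‖(p.2 : Eu n) - co G A p.1 (Y k p.1)‖ ^ 2) atTop (𝓝 0) := by
    refine ae_tendsto_zero (fun k p => by positivity)
      (fun k => hint _ ((c2.sub ((hy k).comp c1)).norm.pow 2)) fun k => ?_
    calc _ ≤ ∫ p : SB (closure Ω), (2 - 2 * ⟪(p.2 : Eu n), co G A p.1 (Y k p.1)⟫) ∂V := by
          refine integral_mono (hint _ ((c2.sub ((hy k).comp c1)).norm.pow 2))
            (hint _ (continuous_const.sub (continuous_const.mul (c3 k)))) fun p => ?_
          have a := hy1 k p.1
          simp only [norm_sub_sq_real, hs]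
          linarith
      _ = 2 * V.real univ - 2 * flux G Ω (Y k) := by
          rw [integral_sub (integrable_const _) ((hint _ (c3 k)).const_mul 2), integral_const_mul,
            ← hT, integral_const, smul_eq_mul, mul_comm]
      _ ≤ _ := by
          have := Y4 k
          linarith
  obtain ⟨ν, hν, hν2⟩ : ∃ ν : Eu n → Eu n, Measurable ν ∧
      ∀ᵐ p : SB (closure Ω) ∂V, ν p.1 = p.2 := by
    refine ⟨fun x => limUnder atTop fun k => co G A x (Y k x),
      (StronglyMeasurable.limUnder fun k => (hy k).stronglyMeasurable).measurable, ?_⟩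
    filter_upwards [hae] with p hp
    refine Tendsto.limUnder_eq ?_
    rw [tendsto_iff_norm_sub_tendsto_zero]
    have := hp.sqrt
    simp only [Real.sqrt_sq (norm_nonneg _), Real.sqrt_zero] at this
    simpa only [norm_sub_rev] using this
  classical
  let ν' : Eu n → Eu n := fun x => if ‖ν x‖ = 1 then ν x else ee ⟨0, hn⟩
  have m1 : Measurable ν' :=
    Measurable.ite (measurableSet_eq_fun hν.norm measurable_const) hν measurable_const
  have n1 : ∀ x, ‖ν' x‖ = 1 := fun x => by
    simp only [ν']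
    split_ifs with h
    · exact h
    · simp [ee]
  have e1 : ∀ᵐ p : SB (closure Ω) ∂V, ν' p.1 = p.2 := by
    filter_upwards [hν2] with p hp
    simp only [ν', hp, hs, if_true]
  have m2 : Measurable fun x => A x (ν' x) :=
    (show Continuous fun q : Eu n × Eu n => A q.1 q.2 from
      (hA.cont.comp continuous_fst).clm_apply continuous_snd).measurable.comp
      (measurable_id.prodMk m1)
  refine ⟨V.map fun p => (p.1 : Eu n), fun x => A x (ν' x), inferInstance, m2, fun x => ?_,
    fun Z hZ cZ => ?_, ?_, ?_⟩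
  · rw [hA.iso, real_inner_self_eq_norm_sq, n1, one_pow]
  · have m3 : Measurable fun x => G x (A x (ν' x)) (Z x) :=
      (show Continuous fun q : Eu n × Eu n => G q.1 q.2 (Z q.1) from
        ((hG.smooth.continuous.comp continuous_fst).clm_apply continuous_snd).clm_apply
          (hZ.continuous.comp continuous_fst)).measurable.comp (measurable_id.prodMk m2)
    rw [integral_map c1.measurable.aemeasurable m3.aestronglyMeasurable]
    refine (hL ⟨Z, hZ, cZ⟩).trans (integral_congr_ae ?_)
    filter_upwards [e1] with p hp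
    rw [hp]
    rfl
  · rw [Measure.map_apply c1.measurable MeasurableSet.univ, preimage_univ,
      ← ENNReal.ofReal_toReal hP, ← hmass, ofReal_measureReal]
  · rw [Measure.map_apply c1.measurable isClosed_closure.measurableSet.compl]
    convert measure_empty (μ := V)
    ext p
    simp

end Vale.Agent.P219
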