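import Vale.Agent.P219.Wt

/-! Divergence calculus and the basic bound for the flux. -/

open scoped ContDiff ENNReal RealInnerProductSpace Topology Manifold
open MeasureTheory Set Filter Metric

namespace Vale.Agent.P219.B

variable {n : ℕ} {G : Met n}

theorem dvg_eq {Y : Eu n → Eu n} {x : Eu n} (hY : DifferentiableAt ℝ Y x) :
    dvg Y x = ∑ i, fderiv ℝ (fun y => Y y i) x (ee i) := by
  refine Finset.sum_congr rfl fun i _ => ?_
  have := ((EuclideanSpace.proj (𝕜 := ℝ) i).hasFDerivAt.comp x hY.hasFDerivAt).fderiv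
  exact (congrArg (fun L : Eu n →L[ℝ] ℝ => L (ee i)) this).symm

theorem clm_sum (L : Eu n →L[ℝ] ℝ) (v : Eu n) : ∑ i, L (ee i) * v i = L v := by
  conv_rhs => rw [← sum_ee v, map_sum]
  exact Finset.sum_congr rfl fun i _ => by rw [map_smul, smul_eq_mul, mul_comm]

theorem dvg_smul {f : Eu n → ℝ} {Y : Eu n → Eu n} {x : Eu n} (hf : DifferentiableAt ℝ f x)
    (hY : DifferentiableAt ℝ Y x) :
    dvg (fun y => f y • Y y) x = fderiv ℝ f x (Y x) + f x * dvg Y x := by
  unfold dvg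
  rw [fderiv_fun_smul hf hY, ← clm_sum (fderiv ℝ f x) (Y x), Finset.mul_sum,
    ← Finset.sum_add_distrib]
  refine Finset.sum_congr rfl fun i _ => ?_
  simp [add_comm]

theorem dvg_const (t x : Eu n) : dvg (fun _ => t) x = 0 := by simp [dvg]

theorem dvg_smul_const {f : Eu n → ℝ} {x : Eu n} (hf : DifferentiableAt ℝ f x) (t : Eu n) :
    dvg (fun y => f y • t) x = fderiv ℝ f x t := by
  rw [dvg_smul hf (differentiableAt_const t), dvg_const, mul_zero, add_zero]

theorem dvg_const_smul {Y : Eu n → Eu n} {x : Eu n} (c : ℝ) (hY : DifferentiableAt ℝ Y x) :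
    dvg (fun y => c • Y y) x = c * dvg Y x := by
  rw [dvg_smul (differentiableAt_const c) hY]
  simp

theorem continuous_dvg {Y : Eu n → Eu n} (hY : ContDiff ℝ 1 Y) : Continuous (dvg Y) := by
  have := hY.continuous_fderiv one_ne_zero
  unfold dvg
  fun_prop

theorem dvg_eq_zero {Y : Eu n → Eu n} {x : Eu n} (hx : x ∉ tsupport Y) : dvg Y x = 0 := by
  simp [dvg, fderiv_of_notMem_tsupport ℝ hx]

theorem hasCompactSupport_dvg {Y : Eu n → Eu n} (hc : HasCompactSupport Y) :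
    HasCompactSupport (dvg Y) := hc.mono' fun _ hx => by_contra fun h => hx (dvg_eq_zero h)

theorem integrable_dvg {Y : Eu n → Eu n} (hY : ContDiff ℝ 1 Y) (hc : HasCompactSupport Y) :
    Integrable (dvg Y) :=
  (continuous_dvg hY).integrable_of_hasCompactSupport (hasCompactSupport_dvg hc)

theorem integral_fderiv_zero {f : Eu n → ℝ} (hf : ContDiff ℝ 1 f) (hc : HasCompactSupport f)
    (v : Eu n) : ∫ x, fderiv ℝ f x v = 0 := by
  have h1 : Integrable fun x => fderiv ℝ f x v :=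
    ((hf.continuous_fderiv one_ne_zero).clm_apply continuous_const).integrable_of_hasCompactSupport
      (hc.fderiv_apply ℝ v)
  have := integral_mul_fderiv_eq_neg_fderiv_mul_of_integrable (μ := volume)
    (f := fun _ : Eu n => (1 : ℝ)) (g := f) (v := v) (by simp) (by simpa using h1)
    (by simpa using hf.continuous.integrable_of_hasCompactSupport hc)
    (fun _ _ => differentiableAt_const _) fun x _ => hf.differentiable one_ne_zero x
  simpa using this

theorem integral_dvg_eq_zero {Y : Eu n → Eu n} (hY : ContDiff ℝ 1 Y) (hc : HasCompactSupport Y) :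
    ∫ x, dvg Y x = 0 := by
  have h1 : ∀ i, ContDiff ℝ 1 fun y => Y y i := fun i =>
    (EuclideanSpace.proj (𝕜 := ℝ) i).contDiff.comp hY
  have h2 : ∀ i, HasCompactSupport fun y => Y y i := fun i =>
    hc.comp_left (g := fun v : Eu n => v i) rfl
  simp only [fun x => dvg_eq (hY.differentiable one_ne_zero x)]
  rw [integral_finsetSum _ fun i _ =>
    (((h1 i).continuous_fderiv one_ne_zero).clm_apply
      continuous_const).integrable_of_hasCompactSupport ((h2 i).fderiv_apply ℝ _)]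
  exact Finset.sum_eq_zero fun i _ => integral_fderiv_zero (h1 i) (h2 i) _

theorem wt1 (h : Rm G) : ContDiff ℝ 1 (wt G) := h.wt_smooth.of_le (by exact_mod_cast le_top)

theorem wtinv1 (h : Rm G) : ContDiff ℝ 1 fun x => (wt G x)⁻¹ :=
  (wt1 h).inv fun x => (h.wt_pos x).ne'

theorem flux_div (h : Rm G) (Ω : Set (Eu n)) (Z : Eu n → Eu n) :
    flux G Ω (fun y => (wt G y)⁻¹ • Z y) = ∫ x in Ω, dvg Z x := by
  unfold flux
  simp only [smul_inv_smul₀ (h.wt_pos _).ne']

theorem flux_smul (h : Rm G) (Ω : Set (Eu n)) {Y : Eu n → Eu n} (hY : ContDiff ℝ 1 Y) (c : ℝ) :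
    flux G Ω (fun y => c • Y y) = c * flux G Ω Y := by
  unfold flux
  rw [← integral_const_mul]
  refine integral_congr_ae (Eventually.of_forall fun x => ?_)
  simp only [smul_comm (wt G _) c]
  exact dvg_const_smul c (((wt1 h).smul hY).differentiable one_ne_zero x)

theorem flux_le_per {Ω : Set (Eu n)} {Y : Eu n → Eu n} (hY : ContDiff ℝ 1 Y)
    (hc : HasCompactSupport Y) (h1 : ∀ x, G x (Y x) (Y x) ≤ 1) :
    ENNReal.ofReal (flux G Ω Y) ≤ per G Ω :=
  le_iSup_of_le Y (le_iSup_of_le hY (le_iSup_of_le hc (le_iSup_of_le h1 le_rfl)))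

theorem per_le {Ω : Set (Eu n)} {a : ℝ} (h : ∀ Y, ContDiff ℝ 1 Y → HasCompactSupport Y →
    (∀ x, G x (Y x) (Y x) ≤ 1) → flux G Ω Y ≤ a) : per G Ω ≤ ENNReal.ofReal a :=
  iSup_le fun Y => iSup_le fun h1 => iSup_le fun h2 => iSup_le fun h3 =>
    ENNReal.ofReal_le_ofReal (h Y h1 h2 h3)

theorem abs_flux_le (h : Rm G) {Ω : Set (Eu n)} (hP : per G Ω ≠ ⊤) {Y : Eu n → Eu n}
    (hY : ContDiff ℝ 1 Y) (hc : HasCompactSupport Y) {c : ℝ} (h0 : 0 ≤ c)
    (h1 : ∀ x, G x (Y x) (Y x) ≤ c ^ 2) : |flux G Ω Y| ≤ c * (per G Ω).toReal := by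
  rcases h0.eq_or_lt with rfl | h0
  · have : Y = fun y => (0 : ℝ) • Y y := by
      funext y
      rw [zero_smul]
      by_contra hn
      have := h.pos y _ hn
      have := h1 y
      nlinarith
    rw [this, flux_smul h Ω hY]
    simp
  have key : ∀ a : ℝ, a ^ 2 * c ^ 2 = 1 → a * flux G Ω Y ≤ (per G Ω).toReal := fun a ha => by
    rw [← flux_smul h Ω hY, ← ENNReal.ofReal_le_iff_le_toReal hP]
    refine flux_le_per (hY.const_smul a) (hc.comp_left (g := fun v : Eu n => a • v)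
      (smul_zero a)) fun x => ?_
    have := mul_le_mul_of_nonneg_left (h1 x) (sq_nonneg a)
    simp only [map_smul, smul_apply, smul_eq_mul]
    nlinarith
  have a1 := key c⁻¹ (by field_simp)
  have a2 := key (-c⁻¹) (by field_simp)
  rw [inv_mul_le_iff₀ h0] at a1
  rw [neg_mul, ← mul_neg, inv_mul_le_iff₀ h0] at a2
  exact abs_le.2 ⟨by linarith, a1⟩

/-- The Euclidean form of the perimeter bound. -/
theorem int_dvg_le (h : Rm G) {K : Set (Eu n)} (hK : IsCompact K) : ∃ C > 0,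
    ∀ Ω : Set (Eu n), per G Ω ≠ ⊤ → ∀ Z : Eu n → Eu n, ContDiff ℝ 1 Z → (∀ x ∉ K, Z x = 0) →
      ∀ c : ℝ, (∀ x, ‖Z x‖ ≤ c) → |∫ x in Ω, dvg Z x| ≤ C * c * (per G Ω).toReal := by
  obtain ⟨C, hC, h1⟩ := h.upper hK
  obtain ⟨B, hB⟩ := hK.exists_bound_of_continuousOn (wtinv1 h).continuous.continuousOn
  refine ⟨(C + 1) * (|B| + 1), by positivity, fun Ω hP Z hZ h0 c hc => ?_⟩
  have hc0 : 0 ≤ c := (norm_nonneg _).trans (hc 0)
  rw [← flux_div h]
  refine abs_flux_le (Y := fun y => (wt G y)⁻¹ • Z y) h hP ((wtinv1 h).smul hZ)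
    (HasCompactSupport.intro hK fun x hx => by
    rw [h0 x hx, smul_zero]) (by positivity) fun x => ?_
  by_cases hx : x ∈ K
  · have h2 : ‖(wt G x)⁻¹ • Z x‖ ≤ (|B| + 1) * c := by
      rw [norm_smul]
      exact mul_le_mul ((hB x hx).trans (by linarith [le_abs_self B])) (hc x) (norm_nonneg _)
        (by positivity)
    refine ((le_abs_self _).trans (h1 x hx _ _)).trans ?_
    have h3 := mul_le_mul h2 h2 (norm_nonneg _) (by positivity)
    have h4 : C ≤ (C + 1) ^ 2 := by nlinarith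
    calc _ = C * (‖(wt G x)⁻¹ • Z x‖ * ‖(wt G x)⁻¹ • Z x‖) := by ring
      _ ≤ (C + 1) ^ 2 * ((|B| + 1) * c * ((|B| + 1) * c)) :=
        mul_le_mul h4 h3 (by positivity) (by positivity)
      _ = _ := by ring
  · rw [h0 x hx, smul_zero, map_zero]
    positivity

theorem cauchy (h : Rm G) (x u v : Eu n) : 2 * G x u v ≤ G x u u + G x v v := by
  have := h.nonneg x (u - v)
  simp only [map_sub, sub_apply] at this
  linarith [h.symm x u v]

theorem exists_cut {s t : Set (Eu n)} (hs : IsClosed s) (ht : IsClosed t) (hd : Disjoint s t) :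
    ∃ f : Eu n → ℝ, ContDiff ℝ 1 f ∧ (∀ x ∈ s, f x = 0) ∧ (∀ x ∈ t, f x = 1) ∧
      ∀ x, 0 ≤ f x ∧ f x ≤ 1 := by
  obtain ⟨f, h1, h2, h3⟩ := exists_contMDiffMap_zero_one_of_isClosed (n := 1) 𝓘(ℝ, Eu n) hs ht hd
  exact ⟨f, f.contMDiff.contDiff, h1, h2, h3⟩

end Vale.Agent.P219.B
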