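import Vale.Agent.P219.BTool

/-! The translation estimate for sets of finite perimeter. -/

open scoped ContDiff ENNReal RealInnerProductSpace Topology Manifold
open MeasureTheory Set Filter Metric

namespace Vale.Agent.P219.B

variable {n : ℕ} {G : Met n}

theorem hasDerivAt_transl {Ω : Set (Eu n)} (hΩ : volume Ω ≠ ⊤) {η : Eu n → ℝ}
    (hη : ContDiff ℝ 1 η) (hc : HasCompactSupport η) (t : Eu n) (s : ℝ) :
    HasDerivAt (fun s : ℝ => ∫ x in Ω, η (x + s • t)) (∫ x in Ω, fderiv ℝ η (x + s • t) t) s := by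
  have : IsFiniteMeasure (volume.restrict Ω) := isFiniteMeasure_restrict.2 hΩ
  have h1 : Continuous fun x => fderiv ℝ η x t :=
    (hη.continuous_fderiv one_ne_zero).clm_apply continuous_const
  obtain ⟨B, hB⟩ := h1.bounded_above_of_compact_support (hc.fderiv_apply ℝ t)
  obtain ⟨B', hB'⟩ := hη.continuous.bounded_above_of_compact_support hc
  have h2 : ∀ s : ℝ, Continuous fun x => η (x + s • t) := fun s =>
    hη.continuous.comp (continuous_add_const _)
  refine (hasDerivAt_integral_of_dominated_loc_of_deriv_le (s := univ) (bound := fun _ => B)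
    (F' := fun s x => fderiv ℝ η (x + s • t) t) univ_mem
    (Eventually.of_forall fun s => (h2 s).aestronglyMeasurable)
    (Integrable.of_bound (h2 s).aestronglyMeasurable B' (Eventually.of_forall fun _ => hB' _))
    (h1.comp (continuous_add_const _)).aestronglyMeasurable
    (Eventually.of_forall fun _ _ _ => hB _) (integrable_const B)
    (Eventually.of_forall fun x r _ => ?_)).2
  have := (hη.differentiable one_ne_zero (x + r • t)).hasFDerivAt.comp_hasDerivAt r
    (((hasDerivAt_id r).smul_const t).const_add x)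
  simpa [Function.comp_def] using this

/-- The translation estimate, tested against a function. -/
theorem transl_test (h : Rm G) (R : ℝ) : ∃ C > 0, ∀ Ω : Set (Eu n), volume Ω ≠ ⊤ →
    per G Ω ≠ ⊤ → ∀ η : Eu n → ℝ, ContDiff ℝ 1 η → (∀ x ∉ closedBall 0 R, η x = 0) →
      (∀ x, |η x| ≤ 1) → ∀ t : Eu n, ‖t‖ ≤ 1 →
        |(∫ x in Ω, η (x + t)) - ∫ x in Ω, η x| ≤ C * ‖t‖ * (per G Ω).toReal := by
  obtain ⟨C, hC, h1⟩ := int_dvg_le h (isCompact_closedBall (0 : Eu n) (R + 1))
  refine ⟨C, hC, fun Ω hΩ hP η hη h0 hb t ht => ?_⟩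
  have hc : HasCompactSupport η := HasCompactSupport.intro (isCompact_closedBall _ _) h0
  have := norm_image_sub_le_of_norm_deriv_le_segment_01'
    (fun s _ => (hasDerivAt_transl hΩ hη hc t s).hasDerivWithinAt)
    (C := C * ‖t‖ * (per G Ω).toReal) fun s hs => ?_
  · simpa using this
  have h2 : ContDiff ℝ 1 fun x => η (x + s • t) := hη.comp (contDiff_id.add contDiff_const)
  have h3 := h1 Ω hP (fun x => η (x + s • t) • t) (h2.smul contDiff_const) (fun x hx => ?_) ‖t‖
    fun x => ?_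
  · simp only [fun x => dvg_smul_const (h2.differentiable one_ne_zero x) t,
      fderiv_comp_add_right] at h3
    exact h3
  · rw [h0, zero_smul]
    rw [mem_closedBall_zero_iff] at hx ⊢
    have h4 : ‖s • t‖ ≤ 1 := by
      rw [norm_smul, Real.norm_of_nonneg hs.1]
      exact mul_le_one₀ hs.2.le (norm_nonneg _) ht
    have h5 := norm_sub_le (x + s • t) (s • t)
    rw [add_sub_cancel_right] at h5
    intro h6
    exact hx (by linarith)
  · rw [norm_smul]
    exact mul_le_of_le_one_left (norm_nonneg _) (hb _)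

theorem vol_ne_top {Ω : Set (Eu n)} {R : ℝ} (h : Ω ⊆ closedBall 0 R) : volume Ω ≠ ⊤ :=
  ((measure_mono h).trans_lt measure_closedBall_lt_top).ne

theorem ind_le {X : Type} {F F' Ω Ω' : Set X} {η : X → ℝ} {x : X} (a1 : 0 ≤ η x ∧ η x ≤ 1)
    (a2 : x ∈ F → x ∈ Ω \ Ω') (a3 : x ∈ F → η x = 1) (a4 : x ∈ F' → η x = 0) :
    F.indicator (1 : X → ℝ) x - ((Ω' \ Ω) \ F').indicator (1 : X → ℝ) x ≤
      Ω.indicator η x - Ω'.indicator η x := by
  by_cases b1 : x ∈ F <;> by_cases b2 : x ∈ Ω <;> by_cases b3 : x ∈ Ω' <;>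
    by_cases b4 : x ∈ F' <;> simp_all

/-- From test functions to the measure of the difference. -/
theorem real_sdiff_le {Ω Ω' : Set (Eu n)} (hm : MeasurableSet Ω) (hm' : MeasurableSet Ω') {R : ℝ}
    (hΩ : Ω ⊆ closedBall 0 R) (hΩ' : volume Ω' ≠ ⊤) {a : ℝ}
    (h : ∀ η : Eu n → ℝ, ContDiff ℝ 1 η → (∀ x ∉ closedBall 0 (R + 1), η x = 0) →
      (∀ x, |η x| ≤ 1) → (∫ x in Ω, η x) - ∫ x in Ω', η x ≤ a) : volume.real (Ω \ Ω') ≤ a := by
  refine le_of_forall_pos_le_add fun ε hε => ?_
  have hε' : ENNReal.ofReal (ε / 2) ≠ 0 := by simpa using hε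
  have f1 : volume (Ω \ Ω') ≠ ⊤ := measure_ne_top_of_subset sdiff_subset (vol_ne_top hΩ)
  have f2 : volume (Ω' \ Ω) ≠ ⊤ := measure_ne_top_of_subset sdiff_subset hΩ'
  obtain ⟨F, hF, hFc, hF1⟩ := (hm.diff hm').exists_isCompact_sdiff_lt f1 hε'
  obtain ⟨F', hF', hFc', hF1'⟩ := (hm'.diff hm).exists_isCompact_sdiff_lt f2 hε'
  obtain ⟨η, h1, h2, h3, h4⟩ := exists_cut (hFc'.isClosed.union isOpen_ball.isClosed_compl)
    hFc.isClosed (s := F' ∪ (ball 0 (R + 1))ᶜ) (by
      rw [disjoint_left]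
      rintro x (hx | hx) hx'
      · exact (hF' hx).2 (hF hx').1
      · exact hx (closedBall_subset_ball (lt_add_one R) (hΩ (hF hx').1)))
  have h0 : ∀ x ∉ closedBall (0 : Eu n) (R + 1), η x = 0 := fun x hx =>
    h2 x (Or.inr fun h => hx (ball_subset_closedBall h))
  have hi : Integrable η := h1.continuous.integrable_of_hasCompactSupport
    (HasCompactSupport.intro (isCompact_closedBall _ _) h0)
  have h5 := h η h1 h0 fun x => abs_le.2 ⟨by linarith [(h4 x).1], (h4 x).2⟩
  have mD : MeasurableSet ((Ω' \ Ω) \ F') := (hm'.diff hm).diff hFc'.measurableSet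
  have fD : volume ((Ω' \ Ω) \ F') ≠ ⊤ := hF1'.ne_top
  have i1 : Integrable (F.indicator (1 : Eu n → ℝ)) :=
    (integrableOn_const hFc.measure_lt_top.ne).integrable_indicator hFc.measurableSet
  have i2 : Integrable (((Ω' \ Ω) \ F').indicator (1 : Eu n → ℝ)) :=
    (integrableOn_const fD).integrable_indicator mD
  have h6 : volume.real F - volume.real ((Ω' \ Ω) \ F') ≤ (∫ x in Ω, η x) - ∫ x in Ω', η x := by
    rw [← integral_indicator hm, ← integral_indicator hm', ← integral_indicator_one mD,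
      ← integral_indicator_one hFc.measurableSet, ← integral_sub i1 i2,
      ← integral_sub (hi.indicator hm) (hi.indicator hm')]
    refine integral_mono (i1.sub i2) ((hi.indicator hm).sub (hi.indicator hm')) fun x => ?_
    exact ind_le (h4 x) (@hF x) (h3 x) fun h => h2 x (Or.inl h)
  have h7 : volume.real (Ω \ Ω') ≤ volume.real F + volume.real ((Ω \ Ω') \ F) := by
    refine le_trans (measureReal_mono (fun x hx => ?_)
      (measure_union_lt_top hFc.measure_lt_top (hF1.trans ENNReal.ofReal_lt_top)).ne)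
      (measureReal_union_le _ _)
    by_cases b : x ∈ F
    · exact Or.inl b
    · exact Or.inr ⟨hx, b⟩
  have h8 : volume.real ((Ω \ Ω') \ F) ≤ ε / 2 :=
    ENNReal.toReal_le_of_le_ofReal (by positivity) hF1.le
  have h9 : volume.real ((Ω' \ Ω) \ F') ≤ ε / 2 :=
    ENNReal.toReal_le_of_le_ofReal (by positivity) hF1'.le
  linarith

/-- The translation estimate. -/
theorem transl (h : Rm G) (R : ℝ) : ∃ C > 0, ∀ Ω : Set (Eu n), MeasurableSet Ω →
    Ω ⊆ closedBall 0 R → per G Ω ≠ ⊤ → ∀ t : Eu n, ‖t‖ ≤ 1 →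
      volume.real (Ω \ (fun x => x - t) ⁻¹' Ω) ≤ C * ‖t‖ * (per G Ω).toReal := by
  obtain ⟨C, hC, h1⟩ := transl_test h (R + 1)
  refine ⟨C, hC, fun Ω hm hΩ hP t ht => ?_⟩
  have hm' : MeasurableSet ((fun x => x - t) ⁻¹' Ω) := measurable_sub_const t hm
  refine real_sdiff_le hm hm' hΩ ?_ fun η a1 a2 a3 => ?_
  · rw [(measurePreserving_sub_right volume t).measure_preimage hm.nullMeasurableSet]
    exact vol_ne_top hΩ
  · have h2 := h1 Ω (vol_ne_top hΩ) hP η a1 a2 a3 t ht
    have h3 : ∫ x in (fun x => x - t) ⁻¹' Ω, η x = ∫ x in Ω, η (x + t) := by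
      rw [← integral_indicator hm', ← integral_indicator hm, ← integral_add_right_eq_self _ t]
      refine integral_congr_ae (Eventually.of_forall fun x => ?_)
      by_cases hx : x ∈ Ω <;> simp [hx]
    rw [h3]
    linarith [neg_abs_le ((∫ x in Ω, η (x + t)) - ∫ x in Ω, η x)]

end Vale.Agent.P219.B
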