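import Vale.Agent.P219.BPiola
import Vale.Agent.P219.BDet

/-! First variation of perimeter and volume. -/

open scoped ContDiff ENNReal RealInnerProductSpace Topology Manifold
open MeasureTheory Set Filter Metric

namespace Vale.Agent.P219

namespace B

variable {n : ℕ} {G : Met n} {Ω : Set (Eu n)} {μ : Measure (Eu n)} {N X : Eu n → Eu n}

theorem le_of_sq {c s : ℝ} (hc : 0 < c) (h : c * s ^ 2 ≤ 1) : s ≤ 1 / c + 1 := by
  have : s ^ 2 ≤ 1 / c := by rwa [le_div_iff₀' hc]
  nlinarith [sq_nonneg (s - 1), sq_nonneg s]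

theorem prod_le {J a α β ε η B : ℝ} (hε : 0 < ε) (hη : 0 < η) (hη1 : η ≤ 1) (hα : |α| ≤ B)
    (hβ : |β| ≤ B) (h1 : ε * (B + 1) ^ 2 ≤ η) (hJ : 0 ≤ J) (hJ1 : J ≤ 1 + ε * (α + η))
    (ha : a ≤ 1 - ε * (β - η)) : J * a ≤ 1 + ε * (α - β + 3 * η) := by
  have hB : 0 ≤ B := (abs_nonneg _).trans hα
  have h2 : |α + η| ≤ B + 1 := (abs_add_le _ _).trans (by rw [abs_of_pos hη]; linarith)
  have h3 : |β - η| ≤ B + 1 := (abs_sub _ _).trans (by rw [abs_of_pos hη]; linarith)
  have h4 : ε * (β - η) ≤ 1 := by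
    have := mul_le_mul_of_nonneg_left ((le_abs_self _).trans h3) hε.le
    nlinarith [mul_nonneg hε.le hB, mul_nonneg (mul_nonneg hε.le hB) hB]
  have h5 : -((α + η) * (β - η)) ≤ (B + 1) ^ 2 := by
    refine (neg_le_abs _).trans ?_
    rw [abs_mul, sq]
    exact mul_le_mul h2 h3 (abs_nonneg _) (by linarith)
  have h6 := mul_le_mul_of_nonneg_left h5 (mul_pos hε hε).le
  have h7 := mul_le_mul_of_nonneg_left h1 hε.le
  calc J * a ≤ J * (1 - ε * (β - η)) := mul_le_mul_of_nonneg_left ha hJ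
    _ ≤ (1 + ε * (α + η)) * (1 - ε * (β - η)) := mul_le_mul_of_nonneg_right hJ1 (by linarith)
    _ ≤ _ := by nlinarith

/-- the polar form of the Lie derivative -/
noncomputable def LB (G : Met n) (X : Eu n → Eu n) (x : Eu n) : Eu n →L[ℝ] Eu n →L[ℝ] ℝ :=
  fderiv ℝ G x (X x) + (2 : ℝ) • (G x).comp (fderiv ℝ X x)

theorem lie_eq (x u : Eu n) : lie G X x u = LB G X x u u := by simp [lie, LB]

theorem continuous_LB (hG : Rm G) (hX : ContDiff ℝ 1 X) : Continuous (LB G X) :=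
  have : ContinuousAdd (Eu n →L[ℝ] Eu n →L[ℝ] ℝ) :=
    ContinuousLinearMap.topologicalAddGroup.toContinuousAdd
  ((hG.smooth.continuous_fderiv (by simp)).clm_apply hX.continuous).add
    ((hG.smooth.continuous.clm_comp (hX.continuous_fderiv one_ne_zero)).fun_const_smul (2 : ℝ))

theorem continuous_par (hX : ContDiff ℝ 1 X) :
    Continuous fun x => (x, X x, fderiv ℝ X x) :=
  continuous_id.prodMk (hX.continuous.prodMk (hX.continuous_fderiv one_ne_zero))

theorem exp_J (hG : Rm G) (hX : ContDiff ℝ 1 X) {K : Set (Eu n)} (hK : IsCompact K) {η : ℝ}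
    (hη : 0 < η) : ∀ᶠ ε in 𝓝 (0 : ℝ), ∀ x ∈ K, 0 < (1 + ε • fderiv ℝ X x).det ∧
      |wt G (x + ε • X x) * (1 + ε • fderiv ℝ X x).det * (wt G x)⁻¹ - 1 -
        ε * (dvg (fun y => wt G y • X y) x * (wt G x)⁻¹)| ≤ η * |ε| := by
  have hd : ContDiff ℝ 1 fun z : ℝ × Eu n × Eu n × (Eu n →L[ℝ] Eu n) => (1 + z.1 • z.2.2.2).det :=
    contDiff_det.comp (f := fun z : ℝ × Eu n × Eu n × (Eu n →L[ℝ] Eu n) => 1 + z.1 • z.2.2.2)
      (by fun_prop)
  have s1 : ContDiff ℝ 1 fun z : ℝ × Eu n × Eu n × (Eu n →L[ℝ] Eu n) =>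
      wt G (z.2.1 + z.1 • z.2.2.1) :=
    (wt1 hG).comp (f := fun z : ℝ × Eu n × Eu n × (Eu n →L[ℝ] Eu n) => z.2.1 + z.1 • z.2.2.1)
      (by fun_prop)
  have s2 : ContDiff ℝ 1 fun z : ℝ × Eu n × Eu n × (Eu n →L[ℝ] Eu n) => (wt G z.2.1)⁻¹ :=
    (wtinv1 hG).comp (f := fun z : ℝ × Eu n × Eu n × (Eu n →L[ℝ] Eu n) => z.2.1) (by fun_prop)
  have h1 := unif_exp ((s1.mul hd).mul s2) (hK.image (continuous_par hX)) hη
  have h3 : ∀ p : Eu n × Eu n × (Eu n →L[ℝ] Eu n),
      ∀ᶠ z : ℝ × Eu n × Eu n × (Eu n →L[ℝ] Eu n) in 𝓝 (0, p), 0 < (1 + z.1 • z.2.2.2).det :=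
    fun p => (isOpen_lt continuous_const hd.continuous).mem_nhds (by simp [ContinuousLinearMap.det])
  have h2 := (hK.image (continuous_par hX)).eventually_forall_of_forall_eventually (x₀ := (0 : ℝ))
    (P := fun ε p => 0 < (1 + ε • p.2.2).det) fun p _ => h3 p
  filter_upwards [h1, h2] with ε a b x hx
  refine ⟨b (x, X x, fderiv ℝ X x) (mem_image_of_mem _ hx), ?_⟩
  have := a (x, X x, fderiv ℝ X x) (mem_image_of_mem _ hx) _
    ((hasDerivAt_J hG hX x).mul_const (wt G x)⁻¹)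
  simpa [ContinuousLinearMap.det, (hG.wt_pos x).ne'] using this

theorem exp_g (hG : Rm G) (hX : ContDiff ℝ 1 X) {K : Set (Eu n)} (hK : IsCompact K) (R : ℝ)
    {η : ℝ} (hη : 0 < η) : ∀ᶠ ε in 𝓝 (0 : ℝ), ∀ x ∈ K, ∀ T, ‖T‖ ≤ R →
      |G (x + ε • X x) (T + ε • fderiv ℝ X x T) (T + ε • fderiv ℝ X x T) - G x T T -
        ε * lie G X x T| ≤ η * |ε| := by
  have hv : ContDiff ℝ 1 fun z : ℝ × (Eu n × Eu n × (Eu n →L[ℝ] Eu n)) × Eu n =>
      z.2.2 + z.1 • z.2.1.2.2 z.2.2 := by fun_prop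
  have h1 := unif_exp (Φ := fun z : ℝ × (Eu n × Eu n × (Eu n →L[ℝ] Eu n)) × Eu n =>
    G (z.2.1.1 + z.1 • z.2.1.2.1) (z.2.2 + z.1 • z.2.1.2.2 z.2.2) (z.2.2 + z.1 • z.2.1.2.2 z.2.2))
    ((((hG.smooth.of_le (by exact_mod_cast le_top)).comp (by fun_prop)).clm_apply hv).clm_apply hv)
    ((hK.image (continuous_par hX)).prod (isCompact_closedBall (0 : Eu n) R)) hη
  filter_upwards [h1] with ε a x hx T hT
  have := a ((x, X x, fderiv ℝ X x), T) ⟨mem_image_of_mem _ hx, mem_closedBall_zero_iff.2 hT⟩ _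
    (hasDerivAt_lie hG X x T)
  simpa using this

theorem lie_bound (hG : Rm G) (hX : ContDiff ℝ 1 X) {K : Set (Eu n)} (hK : IsCompact K) :
    ∃ C > 0, ∀ x ∈ K, ∀ u v, |LB G X x u v| ≤ C * ‖u‖ * ‖v‖ := by
  obtain ⟨C, hC⟩ := hK.exists_bound_of_continuousOn (E := Eu n →L[ℝ] Eu n →L[ℝ] ℝ)
    (continuous_LB hG hX).continuousOn
  refine ⟨|C| + 1, by positivity, fun x hx u v => ((LB G X x).le_opNorm₂ u v).trans ?_⟩
  have : ‖LB G X x‖ ≤ |C| + 1 := (hC x hx).trans (by linarith [le_abs_self C])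
  gcongr

/-- the pointwise estimate for the pulled back field -/
theorem pt_est (hG : Rm G) (hX : ContDiff ℝ 1 X) (cX : HasCompactSupport X) (R : ℝ) {η : ℝ}
    (hη : 0 < η) : ∀ᶠ ε in 𝓝[>] (0 : ℝ), ∀ x ∈ closedBall (0 : Eu n) R, ∀ u T, G x u u = 1 →
      G (x + ε • X x) (T + ε • fderiv ℝ X x T) (T + ε • fderiv ℝ X x T) ≤ 1 →
      G x u T ≤ 1 - ε * (lie G X x u / 2 - η) := by
  obtain ⟨c, hc, h1⟩ := hG.coercive (isCompact_closedBall (0 : Eu n) (R + 1))
  obtain ⟨C, hC, h2⟩ := lie_bound hG hX (isCompact_closedBall (0 : Eu n) R)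
  obtain ⟨a, ha⟩ := hX.continuous.bounded_above_of_compact_support cX
  set r := 2 * (1 / c + 1) with hr
  have h3 : ∀ᶠ ε : ℝ in 𝓝 0, ‖ε‖ * a < 1 :=
    (by fun_prop : Continuous fun ε : ℝ => ‖ε‖ * a).continuousAt.eventually_lt continuousAt_const
      (by simp)
  have h4 : ∀ᶠ ε : ℝ in 𝓝 0, ε * (C * r) ^ 2 < η * c :=
    (by fun_prop : Continuous fun ε : ℝ => ε * (C * r) ^ 2).continuousAt.eventually_lt
      continuousAt_const (by simpa using mul_pos hη hc)
  filter_upwards [self_mem_nhdsWithin, nhdsWithin_le_nhds (exists_diffeo hX cX),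
    nhdsWithin_le_nhds h3, nhdsWithin_le_nhds h4,
    nhdsWithin_le_nhds (exp_g hG hX (isCompact_closedBall (0 : Eu n) R) r hη)]
    with ε (hε : 0 < ε) e1 e2 e3 e4 x hx u T hu hT
  have x1 : x ∈ closedBall (0 : Eu n) (R + 1) := closedBall_subset_closedBall (by linarith) hx
  have x2 : x + ε • X x ∈ closedBall (0 : Eu n) (R + 1) := by
    rw [mem_closedBall_zero_iff] at hx ⊢
    refine (norm_add_le _ _).trans (add_le_add hx ?_)
    rw [norm_smul]
    exact (mul_le_mul_of_nonneg_left (ha x) (norm_nonneg _)).trans e2.le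
  have c1 : 0 < 1 / c := by positivity
  have n1 : ‖u‖ ≤ r := by linarith [le_of_sq hc ((h1 x x1 u).trans hu.le)]
  have n2 : ‖T‖ ≤ r := by
    have a1 := le_of_sq hc ((h1 _ x2 _).trans hT)
    have a2 := ((ε • fderiv ℝ X x).le_opNorm T).trans
      (mul_le_mul_of_nonneg_right (e1.1 x) (norm_nonneg T))
    have a3 := norm_sub_le (T + ε • fderiv ℝ X x T) ((ε • fderiv ℝ X x) T)
    rw [smul_apply, add_sub_cancel_right] at a3
    rw [smul_apply] at a2
    linarith
  have b1 := (abs_le.1 (e4 x hx T n2)).1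
  rw [abs_of_pos hε] at b1
  have b2 := h1 x x1 (T - u)
  simp only [map_sub, sub_apply] at b2
  have b3 : lie G X x u - lie G X x T ≤ 2 * (C * r) * ‖T - u‖ := by
    have a1 := (neg_le_abs _).trans ((h2 x hx (T - u) T).trans
      (mul_le_mul_of_nonneg_left n2 (by positivity)))
    have a2 := (neg_le_abs _).trans ((h2 x hx u (T - u)).trans
      (mul_le_mul_of_nonneg_right (mul_le_mul_of_nonneg_left n1 hC.le) (norm_nonneg _)))
    simp only [map_sub, sub_apply] at a1 a2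
    rw [lie_eq, lie_eq]
    linarith
  have b4 := mul_le_mul_of_nonneg_left b3 hε.le
  have b5 : ε * (2 * (C * r) * ‖T - u‖) ≤ c * ‖T - u‖ ^ 2 + η * ε := by
    refine le_of_mul_le_mul_left ?_ hc
    nlinarith [sq_nonneg (c * ‖T - u‖ - ε * (C * r)), mul_lt_mul_of_pos_left e3 hε]
  linarith [hG.symm x u T]

theorem integrable_of_bd (B : Bd G Ω μ N) {f : Eu n → ℝ} (hf : Measurable f) {C : ℝ}
    (h : ∀ x ∈ closure Ω, |f x| ≤ C) : Integrable f μ :=
  have := B.fin
  Integrable.of_bound hf.aestronglyMeasurable C ((ae_closure B).mono h)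

theorem integrable_G (hG : Rm G) (hb : Bornology.IsBounded Ω) (B : Bd G Ω μ N) {V : Eu n → Eu n}
    (hV : Continuous V) : Integrable (fun x => G x (N x) (V x)) μ := by
  obtain ⟨C, hC⟩ := hb.isCompact_closure.exists_bound_of_continuousOn
    ((hG.smooth.continuous.clm_apply hV).clm_apply hV).continuousOn
  refine integrable_of_bd B (meas_G hG B.meas hV) (C := (1 + C) / 2) fun x hx => ?_
  linarith [abs_G_le hG (B.unit x) (V x), (le_abs_self _).trans (hC x hx)]

theorem vol_image (hG : Rm G) (hm : MeasurableSet Ω) (hb : Bornology.IsBounded Ω)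
    (hX : ContDiff ℝ 1 X) (cX : HasCompactSupport X) :
    HasDerivAt (fun ε : ℝ => vol G ((fun x => x + ε • X x) '' Ω)) (flux G Ω X) 0 := by
  have hK := hb.isCompact_closure
  have hi : ∀ {f : Eu n → ℝ}, Continuous f → IntegrableOn f Ω := fun hf =>
    (hf.continuousOn.integrableOn_compact hK).mono_set subset_closure
  have hv : 0 ≤ vol G Ω := integral_nonneg fun x => (hG.wt_pos x).le
  rw [hasDerivAt_iff_isLittleO_nhds_zero, Asymptotics.isLittleO_iff]
  intro η hη
  filter_upwards [exists_diffeo hX cX, exp_J hG hX hK (div_pos hη (by positivity : 0 < vol G Ω + 1))]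
    with ε ⟨_, φ, e1, e2, _⟩ e3
  have c1 : Continuous fun x => |(fderiv ℝ φ x).det| * wt G (φ x) :=
    (ContinuousLinearMap.continuous_det.comp (e2.continuous_fderiv one_ne_zero)).abs.mul
      (hG.wt_cont.comp φ.continuous)
  have c2 : Continuous (dvg fun y => wt G y • X y) := continuous_dvg ((wt1 hG).smul hX)
  have i1 : IntegrableOn (fun x => |(fderiv ℝ φ x).det| * wt G (φ x) - wt G x) Ω :=
    (hi c1).sub (hi hG.wt_cont)
  simp only [zero_add, zero_smul, add_zero, image_id', ← e1, smul_eq_mul]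
  unfold vol flux
  rw [int_image e2 φ.injective hm, ← integral_const_mul, ← integral_sub (hi c1) (hi hG.wt_cont),
    ← integral_sub i1 ((hi c2).const_mul ε)]
  refine (norm_integral_le_of_norm_le ((hi hG.wt_cont).const_mul (η / (vol G Ω + 1) * |ε|))
    ((ae_restrict_mem hm).mono fun x hx => ?_)).trans ?_
  · obtain ⟨a, b⟩ := e3 x (subset_closure hx)
    have w := hG.wt_pos x
    have := mul_le_mul_of_nonneg_right b w.le
    rw [← abs_of_pos w, ← abs_mul, abs_of_pos w] at this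
    rw [e1, fderiv_pert hX, abs_of_pos a]
    refine le_trans (le_of_eq ?_) this
    rw [Real.norm_eq_abs]
    congr 1
    field_simp
  · rw [integral_const_mul, Real.norm_eq_abs, mul_right_comm]
    refine mul_le_mul_of_nonneg_right ?_ (abs_nonneg _)
    rw [div_mul_eq_mul_div, div_le_iff₀ (by positivity)]
    exact mul_le_mul_of_nonneg_left (le_add_of_nonneg_right zero_le_one) hη.le

end B

open B

theorem var_pf : VarStmt := by
  intro n G A Ω μ N X hG hA hm hb B hX cX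
  refine ⟨(exists_diffeo hX cX).mono fun ε ⟨_, φ, e1, _⟩ => ?_, fun η hη => ?_,
    B.gauss X hX cX ▸ vol_image hG hm hb hX cX⟩
  · rw [← e1]
    exact φ.measurableEmbedding.measurableSet_image.2 hm
  have := B.fin
  obtain ⟨R, hR⟩ := hb.closure.subset_closedBall 0
  have hK := isCompact_closedBall (0 : Eu n) R
  set α := fun x => dvg (fun y => wt G y • X y) x * (wt G x)⁻¹ with hα
  have cα : Continuous α := (continuous_dvg ((wt1 hG).smul hX)).mul (wtinv1 hG).continuous
  obtain ⟨a, ha⟩ := hK.exists_bound_of_continuousOn cα.continuousOn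
  obtain ⟨c, hc, h1⟩ := hG.coercive hK
  obtain ⟨C, hC, h2⟩ := lie_bound hG hX hK
  have hβ : ∀ x ∈ closedBall (0 : Eu n) R,
      |lie G X x (N x) / 2| ≤ C * (1 / c + 1) * (1 / c + 1) := fun x hx => by
    have a1 := le_of_sq hc ((h1 x hx _).trans (B.unit x).le)
    have a2 := (h2 x hx _ _).trans (mul_le_mul (mul_le_mul_of_nonneg_left a1 hC.le) a1
      (norm_nonneg _) (by positivity))
    rw [lie_eq, abs_div, abs_two]
    linarith [abs_nonneg (LB G X x (N x) (N x))]
  have ht : ∀ x, tdiv G A N X x = α x - lie G X x (N x) / 2 := fun x => by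
    rw [tdiv, sum_lie hG hA hX]
    ring
  have mβ : Measurable fun x => lie G X x (N x) / 2 := by
    have : Continuous fun p : Eu n × Eu n => LB G X p.1 p.2 p.2 :=
      (((continuous_LB hG hX).comp continuous_fst).clm_apply continuous_snd).clm_apply
        continuous_snd
    simp only [lie_eq]
    exact (this.measurable.comp (measurable_id.prodMk B.meas)).div_const 2
  have it : Integrable (tdiv G A N X) μ := by
    rw [funext ht]
    exact (integrable_of_bd B cα.measurable fun x hx => ha x (hR hx)).sub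
      (integrable_of_bd B mβ fun x hx => hβ x (hR hx))
  set D := max a (C * (1 / c + 1) * (1 / c + 1)) with hD
  obtain ⟨θ, hθ, hθ1, hθ2⟩ : ∃ θ : ℝ, 0 < θ ∧ θ ≤ 1 ∧ 3 * θ * μ.real univ ≤ η := by
    refine ⟨min 1 (η / (3 * (μ.real univ + 1))), by positivity, min_le_left _ _, ?_⟩
    have a1 := min_le_right 1 (η / (3 * (μ.real univ + 1)))
    rw [le_div_iff₀ (by positivity)] at a1
    have a2 : 0 < min 1 (η / (3 * (μ.real univ + 1))) := by positivity
    linarith
  have h3 : ∀ᶠ ε : ℝ in 𝓝 0, ε * (D + 1) ^ 2 < θ :=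
    (by fun_prop : Continuous fun ε : ℝ => ε * (D + 1) ^ 2).continuousAt.eventually_lt
      continuousAt_const (by simpa using hθ)
  filter_upwards [self_mem_nhdsWithin, nhdsWithin_le_nhds (exists_diffeo hX cX),
    nhdsWithin_le_nhds h3, nhdsWithin_le_nhds (exp_J hG hX hK hθ), pt_est hG hX cX R hθ]
    with ε (hε : 0 < ε) ⟨_, φ, e1, e2, e2'⟩ e3 e4 e5
  refine per_le fun Y y1 y2 y3 => ?_
  have z1 : ContDiff ℝ 1 fun y => wt G y • Y y := (wt1 hG).smul y1
  rw [← e1, flux, piola hG hm hb B φ e2 e2' z1 (y2.mono fun x hx h0 => hx (by simp [h0]))]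
  have i1 := integrable_G hG hb B (V := fun x => (wt G x)⁻¹ • |(fderiv ℝ φ x).det| •
    fderiv ℝ φ.symm (φ x) (wt G (φ x) • Y (φ x))) ((wtinv1 hG).continuous.smul
      ((ContinuousLinearMap.continuous_det.comp (e2.continuous_fderiv one_ne_zero)).abs.smul
        (((e2'.continuous_fderiv one_ne_zero).comp φ.continuous).clm_apply
          (z1.continuous.comp φ.continuous))))
  have i2 : Integrable (fun x => ε * (tdiv G A N X x + 3 * θ)) μ :=
    (it.add (integrable_const (3 * θ))).const_mul ε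
  refine (integral_mono_ae i1 ((integrable_const 1).add i2)
    ((ae_closure B).mono fun x hx => ?_)).trans ?_
  · obtain ⟨a1, a2⟩ := e4 x (hR hx)
    have a3 := fderiv_symm φ e2 e2' x (Y (φ x))
    have a4 := y3 (φ x)
    have a5 : fderiv ℝ φ x = 1 + ε • fderiv ℝ X x := by rw [e1, fderiv_pert hX]
    have a6 : φ x = x + ε • X x := congrFun e1 x
    generalize hT : fderiv ℝ φ.symm (φ x) (Y (φ x)) = T at a3
    rw [← a3, a5, a6] at a4
    have a7 := prod_le hε hθ hθ1 ((ha x (hR hx)).trans (le_max_left _ _))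
      ((hβ x (hR hx)).trans (le_max_right _ _)) e3.le
      (J := wt G (x + ε • X x) * (1 + ε • fderiv ℝ X x).det * (wt G x)⁻¹)
      (mul_pos (mul_pos (hG.wt_pos _) a1) (inv_pos.2 (hG.wt_pos _))).le
      (by
        have := (abs_le.1 a2).2
        rw [abs_of_pos hε] at this
        simp only [hα]
        linarith)
      (e5 x (hR hx) _ T (B.unit x) a4)
    simp only [map_smul, hT, smul_eq_mul, Pi.add_apply, ht]
    rw [a5, a6, abs_of_pos a1]
    exact le_trans (le_of_eq (by ring)) a7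
  · simp only [Pi.add_apply]
    rw [integral_add (integrable_const 1) i2, integral_const_mul,
      integral_add it (integrable_const _)]
    simp only [integral_const, smul_eq_mul, mul_one]
    nlinarith

end Vale.Agent.P219
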