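import Vale.Agent.P219.Alg

/-! The conformal barycentre. -/

open scoped ENNReal RealInnerProductSpace Topology
open MeasureTheory Set Filter

namespace Vale.Agent.P219

namespace BalAux

open Dat

variable {n : ℕ} {d : Dat n} {ρ : Eu n → ℝ}

theorem cont_int (o : d.Ok) {F : Eu n × ℝ → Eu n → ℝ} (hF : Continuous F.uncurry) :
    Continuous fun p => ∫ x, F p x ∂d.μ := by
  have := o.fin
  have h := continuous_parametric_integral_of_continuous (μ := d.μ) hF o.cpt
  rwa [Measure.restrict_eq_self_of_ae_mem o.supp] at h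

theorem deriv_int (o : d.Ok) {F F' : ℝ → Eu n → ℝ} (hF : ∀ s, Continuous (F s))
    (hF' : Continuous F'.uncurry) (hd : ∀ s x, HasDerivAt (fun s => F s x) (F' s x) s) (s₀ : ℝ) :
    HasDerivAt (fun s => ∫ x, F s x ∂d.μ) (∫ x, F' s₀ x ∂d.μ) s₀ := by
  have := o.fin
  obtain ⟨C, hC⟩ := ((isCompact_closedBall s₀ 1).prod o.cpt).exists_bound_of_continuousOn
    hF'.continuousOn
  exact (hasDerivAt_integral_of_dominated_loc_of_deriv_le (bound := fun _ => C)
    (Metric.closedBall_mem_nhds s₀ one_pos)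
    (Eventually.of_forall fun s => (hF s).aestronglyMeasurable)
    ((o.bm_cont (hF s₀)).integrable o) (hF'.uncurry_left s₀).aestronglyMeasurable
    (o.supp.mono fun x hx s hs => hC (s, x) ⟨hs, hx⟩) (integrable_const C)
    (ae_of_all _ fun x s _ => hd s x)).2

theorem contQ' (o : d.Ok) {X : Type} [TopologicalSpace X] {z x : X → Eu n} (hz : Continuous z)
    (hx : Continuous x) : Continuous fun p => d.Q (z p) (x p) :=
  o.contQ.comp (hz.prodMk hx)

theorem contL (o : d.Ok) {X : Type} [TopologicalSpace X] {z x : X → Eu n} {t : X → ℝ}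
    (hz : Continuous z) (ht : Continuous t) (hx : Continuous x) :
    Continuous fun p => d.L (z p) (Real.exp (t p)) (x p) := by
  unfold Dat.L Dat.al
  exact (Real.continuous_exp.comp ht).add ((Continuous.div (by fun_prop) (by fun_prop)
    fun _ => by positivity).mul (contQ' o hz hx))

theorem contEll (o : d.Ok) (z : Eu n) :
    Continuous fun p : ℝ × Eu n => d.ell z (Real.exp p.1) p.2 := by
  unfold Dat.ell
  exact (Real.continuous_exp.comp continuous_fst).sub ((Continuous.div (by fun_prop) (by fun_prop)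
    fun _ => by positivity).mul (o.Qc z |>.comp continuous_snd))

theorem dL (z x : Eu n) (t : ℝ) :
    HasDerivAt (fun t => d.L z (Real.exp t) x) (d.ell z (Real.exp t) x) t := by
  have he := Real.hasDerivAt_exp t
  have h0 := Real.exp_pos t
  refine HasDerivAt.congr_deriv (he.fun_add ((((((he.fun_pow 2).const_mul (d.b ^ 2)).const_add
    1).fun_div (he.const_mul 2) (by positivity))).mul_const (d.Q z x))) ?_
  unfold Dat.ell
  norm_num
  field_simp
  ring

theorem contD (o : d.Ok) (η : Eu n) :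
    Continuous fun p : Eu n × Eu n => fderiv ℝ (d.Q p.1) p.2 η := by
  have e : ∀ p : Eu n × Eu n, fderiv ℝ (d.Q p.1) p.2 η =
      fderiv ℝ (fun p : Eu n × Eu n => d.Q p.1 p.2) p (0, η) := fun p => by
    have h := ((o.Qsm.differentiable (by norm_num)) (p.1, p.2)).hasFDerivAt.comp p.2
      (hasFDerivAt_prodMk_right (𝕜 := ℝ) p.1 p.2)
    exact congrArg (fun A : Eu n →L[ℝ] ℝ => A η) h.fderiv
  simp only [e]
  exact (o.Qsm.continuous_fderiv (by norm_num)).clm_apply continuous_const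

theorem dQ (o : d.Ok) (x z η : Eu n) (s : ℝ) :
    HasDerivAt (fun s : ℝ => d.Q x (z + s • η)) (fderiv ℝ (d.Q x) (z + s • η) η) s :=
  (o.Qd x _).hasFDerivAt.comp_hasDerivAt s
    (by simpa using ((hasDerivAt_id' s).smul_const η).const_add z)

/-- The functional to be minimised, with `γ = exp t`. -/
noncomputable def BB (d : Dat n) (ρ : Eu n → ℝ) (z : Eu n) (t : ℝ) : ℝ :=
  ∫ x, ρ x * Real.log (d.L z (Real.exp t) x) ∂d.μ

theorem contB (o : d.Ok) (hρ : Continuous ρ) : Continuous fun p : Eu n × ℝ => BB d ρ p.1 p.2 :=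
  cont_int o (F := fun p x => ρ x * Real.log (d.L p.1 (Real.exp p.2) x))
    ((hρ.comp continuous_snd).mul ((contL o continuous_fst.fst continuous_fst.snd
      continuous_snd).log fun _ => (o.L_pos (Real.exp_pos _) _ _).ne'))

theorem contI (o : d.Ok) (hρ : Continuous ρ) (z : Eu n) (t : ℝ) :
    Continuous fun x => ρ x * Real.log (d.L z (Real.exp t) x) :=
  hρ.mul ((o.L1 z _).continuous.log fun _ => (o.L_pos (Real.exp_pos _) _ _).ne')

theorem dBt (o : d.Ok) (hρ : Continuous ρ) (z : Eu n) (t : ℝ) :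
    HasDerivAt (BB d ρ z) (∫ x, ρ x * d.Xi z (Real.exp t) none x ∂d.μ) t :=
  deriv_int o (F := fun t x => ρ x * Real.log (d.L z (Real.exp t) x))
    (F' := fun t x => ρ x * (d.ell z (Real.exp t) x * (d.L z (Real.exp t) x)⁻¹))
    (fun t => contI o hρ z t)
    ((hρ.comp continuous_snd).mul ((contEll o z).mul ((contL o continuous_const continuous_fst
      continuous_snd).inv₀ fun _ => (o.L_pos (Real.exp_pos _) _ _).ne')))
    (fun t x => ((dL z x t).log (o.L_pos (Real.exp_pos _) _ _).ne').const_mul (ρ x)) t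

theorem dBz (o : d.Ok) (hρ : Continuous ρ) (z η : Eu n) (t : ℝ) :
    HasDerivAt (fun s : ℝ => BB d ρ (z + s • η) t) (∫ x, ρ x * (d.al (Real.exp t) *
      fderiv ℝ (d.Q x) z η * d.lam z (Real.exp t) x) ∂d.μ) 0 := by
  have hc : Continuous fun p : ℝ × Eu n => z + p.1 • η := by fun_prop
  have h := deriv_int o (F := fun s x => ρ x * Real.log (d.L (z + s • η) (Real.exp t) x))
    (F' := fun s x => ρ x * (d.al (Real.exp t) * fderiv ℝ (d.Q x) (z + s • η) η *
      (d.L (z + s • η) (Real.exp t) x)⁻¹))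
    (fun s => contI o hρ _ t)
    ((hρ.comp continuous_snd).mul ((continuous_const.mul
      ((contD o η).comp (continuous_snd.prodMk hc))).mul ((contL o hc continuous_const
        continuous_snd).inv₀ fun _ => (o.L_pos (Real.exp_pos _) _ _).ne')))
    (fun s x => by
      have h1 : HasDerivAt (fun s : ℝ => d.L (z + s • η) (Real.exp t) x)
          (d.al (Real.exp t) * fderiv ℝ (d.Q x) (z + s • η) η) s := by
        simp only [Dat.L, fun w => o.symm w x]
        exact ((dQ o x z η s).const_mul _).const_add _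
      exact (h1.log (o.L_pos (Real.exp_pos _) _ _).ne').const_mul (ρ x)) 0
  simpa only [zero_smul, add_zero, BB, Dat.lam] using h

theorem noatom (hk : KBStmt) (o : d.Ok) (hρ : Continuous ρ) :
    ∃ a > 0, ∀ z, ∫ x in {x | d.Q z x < a}, ρ x ∂d.μ ≤ 1 / 4 := by
  have := o.fin
  obtain ⟨C, hC, hK⟩ := hk n d o
  obtain ⟨M, hM⟩ := (o.bm_cont hρ).2
  have hM0 : 0 ≤ M := (abs_nonneg _).trans (hM _ o.o_mem)
  obtain ⟨A, hA⟩ : ∃ A : ℝ, A = min 1 (1 / (4 * ((M + 1) * C))) := ⟨_, rfl⟩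
  have hA0 : 0 < A := by rw [hA]; positivity
  have hA1 : A ≤ 1 := hA ▸ min_le_left _ _
  have hA2 : (M + 1) * C * A ≤ 1 / 4 := by
    have h : A ≤ 1 / (4 * ((M + 1) * C)) := hA ▸ min_le_right _ _
    rw [le_div_iff₀ (by positivity)] at h
    linarith
  obtain ⟨a, ha⟩ : ∃ a : ℝ, a = A / (4 * (1 + 2 * d.b ^ 2) ^ 2) := ⟨_, rfl⟩
  have ha0 : 0 < a := by rw [ha]; positivity
  have hb1 : 1 ≤ (1 + 2 * d.b ^ 2) ^ 2 := one_le_pow₀ (by nlinarith [sq_nonneg d.b])
  have haA : a * (4 * (1 + 2 * d.b ^ 2) ^ 2) = A := by rw [ha]; field_simp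
  have ha1 : a ≤ 1 := by nlinarith
  refine ⟨a, ha0, fun z => ?_⟩
  have hS : MeasurableSet {x | d.Q z x < a} :=
    (isOpen_lt (o.Qc z) continuous_const).measurableSet
  rw [← integral_indicator hS]
  by_cases hz : ∃ w ∈ d.K, d.Q z w < a
  · obtain ⟨w, hw, hwa⟩ := hz
    have hT : MeasurableSet {x | d.Q w x ≤ A} :=
      (isClosed_le (o.Qc w) continuous_const).measurableSet
    refine (o.int_mono ((o.bm_cont hρ).indicator hS) ((bm_const (M + 1)).indicator hT)
      fun x hx => ?_).trans ?_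
    · by_cases hxS : x ∈ {x | d.Q z x < a}
      · have h1 := o.tri x z w
        rw [o.symm w z] at h1
        have h2 : √(d.Q z w) ≤ √a := Real.sqrt_le_sqrt hwa.le
        have h3 : √(d.Q z x) ≤ √a := Real.sqrt_le_sqrt (le_of_lt hxS)
        have h4 : d.Q z x < a := hxS
        have h5 : √(d.Q w x) ≤ (√a + √a) * (1 + d.b ^ 2 * 2) := by
          refine h1.trans (mul_le_mul (add_le_add h2 h3) ?_ ?_ (by positivity))
          · gcongr
            linarith
          · have := o.Q_nonneg z w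
            have := o.Q_nonneg z x
            positivity
        have h6 : d.Q w x ≤ A := by
          rw [Real.sqrt_le_iff] at h5
          refine h5.2.trans_eq ?_
          rw [← haA, ← two_mul, mul_pow, mul_pow, Real.sq_sqrt ha0.le]
          ring
        rw [indicator_of_mem hxS, indicator_of_mem (show x ∈ {x | d.Q w x ≤ A} from h6)]
        linarith [(abs_le.1 (hM x hx)).2]
      · rw [indicator_of_notMem hxS]
        exact indicator_nonneg (fun _ _ => by positivity) x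
    · rw [integral_indicator hT, setIntegral_const, smul_eq_mul]
      have h1 := ((hK w hw).2 A hA0).1
      have h2 : A ^ ((d.m : ℝ) / 2) ≤ A := by
        have := Real.rpow_le_rpow_of_exponent_ge hA0 hA1 (show 1 ≤ (d.m : ℝ) / 2 by linarith [o.m3])
        rwa [Real.rpow_one] at this
      have h3 : d.μ.real {x | d.Q w x ≤ A} ≤ C * A :=
        h1.trans (mul_le_mul_of_nonneg_left h2 hC.le)
      nlinarith
  · refine (o.int_mono ((o.bm_cont hρ).indicator hS) (bm_const 0) fun x hx => ?_).trans (by simp)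
    rw [indicator_of_notMem (s := {x | d.Q z x < a}) fun h => hz ⟨x, hx, h⟩]

theorem low1 (o : d.Ok) (hρ : Continuous ρ) (h0 : ∀ x, 0 ≤ ρ x) (h1 : ∫ x, ρ x ∂d.μ = 1)
    (z : Eu n) (t : ℝ) : t ≤ BB d ρ z t := by
  have h := o.int_mono ((o.bm_cont hρ).mul (bm_const t)) (o.bm_cont (contI o hρ z t)) fun x _ =>
    mul_le_mul_of_nonneg_left ((Real.le_log_iff_exp_le (o.L_pos (Real.exp_pos _) _ _)).2
      (o.le_L (Real.exp_pos _) _ _)) (h0 x)
  rwa [integral_mul_const, h1, one_mul] at h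

theorem low2 (o : d.Ok) (hρ : Continuous ρ) (h0 : ∀ x, 0 ≤ ρ x) (h1 : ∫ x, ρ x ∂d.μ = 1)
    {z : Eu n} {a t : ℝ} (ha : 0 < a) (hz : ∫ x in {x | d.Q z x < a}, ρ x ∂d.μ ≤ 1 / 4)
    (ht : 2 * t ≤ Real.log (a / 2)) : 3 / 4 * Real.log (a / 2) - t / 2 ≤ BB d ρ z t := by
  have hS : MeasurableSet {x | d.Q z x < a} :=
    (isOpen_lt (o.Qc z) continuous_const).measurableSet
  have b1 := (o.bm_cont hρ).mul (bm_const (Real.log (a / 2) - t))
  have b2 := ((o.bm_cont hρ).indicator hS).mul (bm_const (Real.log (a / 2) - 2 * t))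
  have h := o.int_mono (b1.sub b2) (o.bm_cont (contI o hρ z t)) fun x _ => by
    have hL := o.L_pos (Real.exp_pos t) z x
    by_cases hx : x ∈ {x | d.Q z x < a}
    · have := mul_le_mul_of_nonneg_left ((Real.le_log_iff_exp_le hL).2
        (o.le_L (Real.exp_pos _) _ _)) (h0 x)
      rw [indicator_of_mem hx]
      linarith
    · rw [indicator_of_notMem hx, zero_mul, sub_zero]
      refine mul_le_mul_of_nonneg_left ((Real.le_log_iff_exp_le hL).2 ?_) (h0 x)
      have h2 : a ≤ d.Q z x := not_lt.1 hx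
      have h3 := Real.exp_pos t
      have h4 := two_al (d := d) h3
      have h5 := al_pos (d := d) h3
      rw [Real.exp_sub, Real.exp_log (by positivity), div_le_iff₀ h3]
      unfold Dat.L
      have h6 : 0 ≤ d.b ^ 2 * Real.exp t ^ 2 * a := by positivity
      have h7 : d.al (Real.exp t) * Real.exp t * a ≤ d.al (Real.exp t) * Real.exp t * d.Q z x :=
        mul_le_mul_of_nonneg_left h2 (by positivity)
      have h8 : 2 * d.al (Real.exp t) * Real.exp t * a = (1 + d.b ^ 2 * Real.exp t ^ 2) * a := by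
        rw [h4]
      nlinarith [mul_pos h3 h3]
  rw [integral_sub (b1.integrable o) (b2.integrable o), integral_mul_const, integral_mul_const, h1,
    integral_indicator hS] at h
  have h2 := mul_le_mul_of_nonneg_right hz (sub_nonneg.2 ht)
  unfold BB
  linarith

theorem exists_min (hk : KBStmt) (o : d.Ok) (hρ : Continuous ρ) (h0 : ∀ x, 0 ≤ ρ x)
    (h1 : ∫ x, ρ x ∂d.μ = 1) : ∃ z t, d.Q d.o z ≤ d.a0 + 1 ∧
      ∀ w s, d.Q d.o w ≤ d.a0 + 1 → BB d ρ z t ≤ BB d ρ w s := by
  obtain ⟨a, ha, hz⟩ := noatom hk o hρ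
  obtain ⟨t0, ht0⟩ : ∃ t0, t0 = min 0 (min (Real.log (a / 2) / 2)
    (2 * (3 / 4 * Real.log (a / 2) - BB d ρ d.o 0))) := ⟨_, rfl⟩
  have hm : (d.o, (0 : ℝ)) ∈ {x | d.Q d.o x ≤ d.a0 + 1} ×ˢ Icc t0 (max 0 (BB d ρ d.o 0)) :=
    ⟨show d.Q d.o d.o ≤ d.a0 + 1 by rw [o.zero]; linarith [o.ha], ht0 ▸ min_le_left _ _, le_max_left _ _⟩
  obtain ⟨p, hp, hmin⟩ := ((o.proper d.o (d.a0 + 1)).prod
    (isCompact_Icc (a := t0) (b := max 0 (BB d ρ d.o 0)))).exists_isMinOn ⟨_, hm⟩
    (contB o hρ).continuousOn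
  refine ⟨p.1, p.2, hp.1, fun w s hw => ?_⟩
  have h2 : BB d ρ p.1 p.2 ≤ BB d ρ d.o 0 := hmin hm
  by_cases hs0 : s ≤ t0
  · have h3 : t0 ≤ Real.log (a / 2) / 2 := ht0 ▸ (min_le_right _ _).trans (min_le_left _ _)
    have h4 : t0 ≤ 2 * (3 / 4 * Real.log (a / 2) - BB d ρ d.o 0) :=
      ht0 ▸ (min_le_right _ _).trans (min_le_right _ _)
    have h5 := low2 o hρ h0 h1 ha (hz w) (t := s) (by linarith)
    linarith
  · by_cases hs1 : s ≤ max 0 (BB d ρ d.o 0)
    · exact hmin (show (w, s) ∈ _ from ⟨hw, (not_le.1 hs0).le, hs1⟩)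
    · linarith [low1 o hρ h0 h1 w s, le_max_right 0 (BB d ρ d.o 0), not_le.1 hs1]

theorem ev_lt {f : ℝ → ℝ} {f' : ℝ} (h : HasDerivAt f f' 0) (h0 : f' < 0) :
    ∀ᶠ s in 𝓝[>] (0 : ℝ), f s < f 0 := by
  filter_upwards [h.tendsto_slope_zero_right.eventually_lt_const h0, self_mem_nhdsWithin]
    with s hs hs0
  rw [zero_add, smul_eq_mul] at hs
  by_contra hn
  exact absurd hs (not_lt.2 (mul_nonneg (inv_nonneg.2 (le_of_lt hs0)) (sub_nonneg.2 (not_lt.1 hn))))

theorem mem_K (o : d.Ok) (hρ : Continuous ρ) (h0 : ∀ x, 0 ≤ ρ x) (h1 : ∫ x, ρ x ∂d.μ = 1)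
    {z : Eu n} {t : ℝ} (hz : d.Q d.o z ≤ d.a0 + 1)
    (hmin : ∀ w s, d.Q d.o w ≤ d.a0 + 1 → BB d ρ z t ≤ BB d ρ w s) : z ∈ d.K := by
  by_contra hn
  have hz0 : d.a0 < d.Q d.o z := not_le.1 hn
  obtain ⟨η, hη⟩ := o.cos z
  have hγ := Real.exp_pos t
  have hal := al_pos (d := d) hγ
  have e1 : ∀ᶠ s in 𝓝[>] (0 : ℝ), d.Q d.o (z + s • -η) < d.Q d.o (z + (0 : ℝ) • -η) := by
    refine ev_lt (dQ o d.o z (-η) 0) ?_
    have := hη d.o
    rw [o.zero] at this
    rw [zero_smul, add_zero, map_neg]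
    linarith [o.ha]
  obtain ⟨x0, -, hx0⟩ := o.cpt.exists_isMinOn ⟨_, o.o_mem⟩ (o.lam1 hγ z).continuous.continuousOn
  have hl0 := o.lam_pos hγ z x0
  have hc : Continuous fun x => ρ x * (d.al (Real.exp t) * fderiv ℝ (d.Q x) z (-η) *
      d.lam z (Real.exp t) x) :=
    hρ.mul ((continuous_const.mul ((contD o (-η)).comp (continuous_id.prodMk continuous_const))).mul
      (o.lam1 hγ z).continuous)
  have e2 := ev_lt (dBz o hρ z (-η) t) (by
    refine (o.int_mono (o.bm_cont hc) ((o.bm_cont hρ).mul (bm_const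
      (-(d.al (Real.exp t) * (d.Q d.o z - d.a0) * d.lam z (Real.exp t) x0))))
      fun x hx => mul_le_mul_of_nonneg_left ?_ (h0 x)).trans_lt ?_
    · have h2 : d.Q d.o z - d.a0 ≤ fderiv ℝ (d.Q x) z η := by
        have h3 : d.Q d.o x ≤ d.a0 := hx
        linarith [hη x, o.Q_nonneg x z]
      have h4 : d.lam z (Real.exp t) x0 ≤ d.lam z (Real.exp t) x := hx0 hx
      rw [map_neg, mul_neg, neg_mul, neg_le_neg_iff]
      exact mul_le_mul (mul_le_mul_of_nonneg_left h2 hal.le) h4 hl0.le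
        (mul_nonneg hal.le (by linarith))
    · rw [integral_mul_const, h1, one_mul, neg_lt_zero]
      exact mul_pos (mul_pos hal (sub_pos.2 hz0)) hl0)
  obtain ⟨s, hs1, hs2⟩ := (e1.and e2).exists
  rw [zero_smul, add_zero] at hs1 hs2
  exact absurd hs2 (not_lt.2 (hmin _ _ (hs1.le.trans hz)))

end BalAux

open BalAux Dat in
theorem bal_pf (hk : KBStmt) : BalStmt := by
  intro n d o ρ hρ h0 h1
  obtain ⟨z, t, hz, hmin⟩ := exists_min hk o hρ h0 h1
  have hK := mem_K o hρ h0 h1 hz hmin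
  have hγ := Real.exp_pos t
  refine ⟨z, hK, Real.exp t, hγ, fun j => ?_⟩
  cases j with
  | none =>
    exact IsLocalMin.hasDerivAt_eq_zero (Eventually.of_forall fun s => hmin z s hz) (dBt o hρ z t)
  | some i =>
    obtain ⟨η, hη⟩ := o.Xbal z (ee i)
    have hl : IsLocalMin (fun s : ℝ => BB d ρ (z + s • η) t) 0 := by
      have h2 : d.Q d.o (z + (0 : ℝ) • η) < d.a0 + 1 := by
        have h3 : d.Q d.o z ≤ d.a0 := hK
        rw [zero_smul, add_zero]
        linarith
      filter_upwards [(dQ o d.o z η 0).continuousAt.eventually_lt continuousAt_const h2] with s hs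
      rw [zero_smul, add_zero]
      exact hmin _ _ hs.le
    have h4 := hl.hasDerivAt_eq_zero (dBz o hρ z η t)
    have h5 : ∀ x, ρ x * (d.al (Real.exp t) * fderiv ℝ (d.Q x) z η * d.lam z (Real.exp t) x) =
        d.al (Real.exp t) * (ρ x * d.Xi z (Real.exp t) (some i) x) := fun x => by
      rw [hη x, EuclideanSpace.inner_single_right]
      simp only [Dat.Xi, Option.elim, conj_trivial]
      ring
    simp only [h5] at h4
    rw [integral_const_mul] at h4
    exact (mul_eq_zero.1 h4).resolve_left (al_pos hγ).ne'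

end Vale.Agent.P219
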