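import Vale.Agent.P219.Defs

/-! Interfaces between the parts of the P219 development. -/

open scoped Manifold ContDiff ENNReal RealInnerProductSpace Topology
open MeasureTheory Set Filter

namespace Vale.Agent.P219

open Vale.Agent.P255 Vale.Agent.P234

/-- `Q` as a function of the distance: `qf' = sn`, `qf'' = 1 + b² qf`, `sn² = 2 qf + b² qf²`. -/
noncomputable def qf (b r : ℝ) : ℝ := if b = 0 then r ^ 2 / 2 else (Real.cosh (b * r) - 1) / b ^ 2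

/-- Area of the unit sphere `S^m`. -/
noncomputable def sph (m : ℕ) : ℝ := ((m + 1 : ℕ) : ℝ) * om (m + 1)

/-- Metric tensors. -/
abbrev Met (n : ℕ) : Type := Eu n → Eu n →L[ℝ] Eu n →L[ℝ] ℝ

variable {n : ℕ}

/-- Standard basis. -/
noncomputable abbrev ee (i : Fin n) : Eu n := EuclideanSpace.single i 1

/-- The Lie derivative `(L_X G)(ξ,ξ) = 2 G(∇_ξ X, ξ)`. -/
noncomputable def lie (G : Met n) (X : Eu n → Eu n) (x ξ : Eu n) : ℝ :=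
  fderiv ℝ G x (X x) ξ ξ + 2 * G x (fderiv ℝ X x ξ) ξ

/-- A continuous orthonormal frame. -/
structure Frame (G : Met n) (A : Eu n → Eu n →L[ℝ] Eu n) : Prop where
  cont : Continuous A
  iso : ∀ x u v, G x (A x u) (A x v) = ⟪u, v⟫

/-- What is used of the geometry. `Q z x = qf b (d(z,x))`, `V z = ∇ Q z`, `ex z` is the
exponential map at `z` in an orthonormal basis of the tangent space, and
`X z (ex z v) = (sn b ‖v‖ / ‖v‖) • v`. -/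
structure Geo (G : Met n) (b : ℝ) (Q : Eu n → Eu n → ℝ) (V X : Eu n → Eu n → Eu n)
    (ex : Eu n → Eu n ≃ₜ Eu n) : Prop where
  Qsm : ContDiff ℝ 2 fun p : Eu n × Eu n => Q p.1 p.2
  symm : ∀ z x, Q z x = Q x z
  zero : ∀ z, Q z z = 0
  pos : ∀ z x, x ≠ z → 0 < Q z x
  proper : ∀ z a, IsCompact {x | Q z x ≤ a}
  near : ∀ z, ∀ ε > 0, ∀ᶠ x in 𝓝 z, Q z x ≤ (1 + ε) * G z (x - z) (x - z) / 2
  tri : ∀ x y z, √(Q z x) ≤ (√(Q z y) + √(Q y x)) * (1 + b ^ 2 * (Q z y + Q y x))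
  Vsm : ∀ z, ContDiff ℝ 1 (V z)
  grad : ∀ z x ξ, G x (V z x) ξ = fderiv ℝ (Q z) x ξ
  eik : ∀ z x, G x (V z x) (V z x) = 2 * Q z x + b ^ 2 * Q z x ^ 2
  hess : ∀ z x ξ, 2 * (1 + b ^ 2 * Q z x) * G x ξ ξ ≤ lie G (V z) x ξ
  cos : ∀ o z x, Q o x + Q z x - Q o z ≤ G x (V o x) (V z x)
  Xsm : ∀ z, ContDiff ℝ 1 (X z)
  Xnorm : ∀ z x, ‖X z x‖ ^ 2 = 2 * Q z x + b ^ 2 * Q z x ^ 2
  Xcon : ∀ z x ξ, ‖fderiv ℝ (X z) x ξ‖ ^ 2 ≤ G x ξ ξ + b ^ 2 * fderiv ℝ (Q z) x ξ ^ 2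
  Xbal : ∀ z u, ∃ η, ∀ x, fderiv ℝ (Q x) z η = ⟪X z x, u⟫
  exsm : ∀ z, ContDiff ℝ ∞ (ex z)
  Qex : ∀ z v, Q z (ex z v) = qf b ‖v‖
  rauch : ∀ z v u, mg b v u ≤ G (ex z v) (fderiv ℝ (ex z) v u) (fderiv ℝ (ex z) v u)

/-- `μ` is the perimeter measure of `Ω` and `N` the outer unit normal. -/
structure Bd (G : Met n) (Ω : Set (Eu n)) (μ : Measure (Eu n)) (N : Eu n → Eu n) : Prop where
  fin : IsFiniteMeasure μ
  meas : Measurable N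
  unit : ∀ x, G x (N x) (N x) = 1
  gauss : ∀ Y, ContDiff ℝ 1 Y → HasCompactSupport Y → flux G Ω Y = ∫ x, G x (N x) (Y x) ∂μ
  mass : μ univ = per G Ω
  supp : μ (closure Ω)ᶜ = 0

/-- Tangential divergence. -/
noncomputable def tdiv (G : Met n) (A : Eu n → Eu n →L[ℝ] Eu n) (N X : Eu n → Eu n) (x : Eu n) :
    ℝ :=
  (∑ i, lie G X x (A x (ee i)) - lie G X x (N x)) / 2

/-- `Ω` minimises `per - I ∘ vol` among measurable subsets of `K`. -/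
structure IsMin (G : Met n) (K : Set (Eu n)) (I : ℝ → ℝ) (Ω : Set (Eu n)) : Prop where
  meas : MeasurableSet Ω
  sub : Ω ⊆ K
  fin : per G Ω ≠ ⊤
  le : ∀ Ω', MeasurableSet Ω' → Ω' ⊆ K → per G Ω' ≠ ⊤ →
    (per G Ω).toReal - I (vol G Ω) ≤ (per G Ω').toReal - I (vol G Ω')

/-- The data of the analytic part. -/
structure Dat (n : ℕ) where
  m : ℕ
  b : ℝ
  H : ℝ
  a0 : ℝ
  o : Eu n
  μ : Measure (Eu n)
  τ : Eu n → Fin n → Eu n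
  N : Eu n → Eu n
  Q : Eu n → Eu n → ℝ
  X : Eu n → Eu n → Eu n

namespace Dat

variable (d : Dat n)

/-- The big ball. -/
def K : Set (Eu n) := {x | d.Q d.o x ≤ d.a0}

/-- Product of tangential gradients. -/
noncomputable def Gam (f h : Eu n → ℝ) (x : Eu n) : ℝ :=
  ∑ i, fderiv ℝ f x (d.τ x i) * fderiv ℝ h x (d.τ x i)

/-- Normal derivative of `Q z`. -/
noncomputable def q (z x : Eu n) : ℝ := fderiv ℝ (d.Q z) x (d.N x)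

/-- `sn²` of the distance. -/
noncomputable def s2 (z x : Eu n) : ℝ := 2 * d.Q z x + d.b ^ 2 * d.Q z x ^ 2

/-- The first variation functional. -/
noncomputable def Lam (z : Eu n) (k : Eu n → ℝ) : ℝ :=
  ∫ x, (k x * (d.m * (1 + d.b ^ 2 * d.Q z x)) + d.Gam k (d.Q z) x - d.H * k x * d.q z x) ∂d.μ

/-- The hypotheses of the analytic part. -/
structure Ok : Prop where
  hm : 3 ≤ d.m
  hb : 0 ≤ d.b
  hH : 0 < d.H
  ha : 0 ≤ d.a0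
  fin : IsFiniteMeasure d.μ
  ne : d.μ ≠ 0
  supp : ∀ᵐ x ∂d.μ, x ∈ d.K
  mτ : ∀ i, Measurable fun x => d.τ x i
  mN : Measurable d.N
  bdd : ∃ C, ∀ x ∈ d.K, (∀ i, ‖d.τ x i‖ ≤ C) ∧ ‖d.N x‖ ≤ C
  Qsm : ContDiff ℝ 2 fun p : Eu n × Eu n => d.Q p.1 p.2
  symm : ∀ z x, d.Q z x = d.Q x z
  zero : ∀ z, d.Q z z = 0
  pos : ∀ z x, x ≠ z → 0 < d.Q z x
  proper : ∀ z a, IsCompact {x | d.Q z x ≤ a}
  tri : ∀ x y z,
    √(d.Q z x) ≤ (√(d.Q z y) + √(d.Q y x)) * (1 + d.b ^ 2 * (d.Q z y + d.Q y x))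
  cos : ∀ z, ∃ η, ∀ x, d.Q d.o z + d.Q x z - d.Q d.o x ≤ fderiv ℝ (d.Q x) z η
  eik : ∀ z x, d.Gam (d.Q z) (d.Q z) x + d.q z x ^ 2 = d.s2 z x
  Xsm : ∀ z, ContDiff ℝ 1 (d.X z)
  Xnorm : ∀ z x, ‖d.X z x‖ ^ 2 = d.s2 z x
  Xcon : ∀ z x,
    ∑ i, ‖fderiv ℝ (d.X z) x (d.τ x i)‖ ^ 2 ≤ d.m + d.b ^ 2 * d.Gam (d.Q z) (d.Q z) x
  Xbal : ∀ z u, ∃ η, ∀ x, fderiv ℝ (d.Q x) z η = ⟪d.X z x, u⟫
  fv : ∀ z ∈ d.K, ∀ k, ContDiff ℝ 1 k → (∀ x ∈ d.K, 0 ≤ k x) → d.Lam z k ≤ 0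
  ld : ∀ᵐ x ∂d.μ, ∀ ε > 0, ∃ᶠ a in 𝓝[>] (0 : ℝ),
    (1 - ε) * om d.m * (2 * a) ^ ((d.m : ℝ) / 2) ≤ d.μ.real {y | d.Q x y < a}

end Dat

/-- The analytic data attached to a set of finite perimeter. -/
noncomputable def mkDat (G : Met n) (A : Eu n → Eu n →L[ℝ] Eu n) (b H a0 : ℝ) (o : Eu n)
    (μ : Measure (Eu n)) (N : Eu n → Eu n) (Q : Eu n → Eu n → ℝ) (X : Eu n → Eu n → Eu n) :
    Dat n :=
  ⟨n - 1, b, H, a0, o, μ, fun x i => A x (ee i) - G x (A x (ee i)) (N x) • N x, N, Q, X⟩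

/-- Calculus of the model profile. -/
structure Prof (n : ℕ) (b : ℝ) : Prop where
  zero : mV n b 0 = 0
  mono : StrictMonoOn (mV n b) (Ici 0)
  surj : ∀ V, 0 ≤ V → ∃ r, 0 ≤ r ∧ mV n b r = V
  val : ∀ r, 0 ≤ r → prof n b (mV n b r) = mA n b r
  cont : ContinuousOn (prof n b) (Ici 0)
  pmono : MonotoneOn (prof n b) (Ici 0)
  der : ∀ r, 0 < r →
    HasDerivAt (prof n b) (((n - 1 : ℕ) : ℝ) * (1 + b ^ 2 * qf b r) / sn b r) (mV n b r)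

/-- Part P. -/
def ProfStmt : Prop := ∀ (n : ℕ) (b : ℝ), 2 ≤ n → 0 ≤ b → Prof n b

/-- Part G. -/
def GeoStmt : Prop := ∀ (n : ℕ) (G : Met n) (b : ℝ), 0 ≤ b → CH G (-b ^ 2) →
  ∃ Q V X ex, Geo G b Q V X ex

/-- Frames exist. -/
def FrameStmt : Prop := ∀ (n : ℕ) (G : Met n), Rm G → ∃ A, Frame G A

/-- Part B: the perimeter measure. -/
def RieszStmt : Prop := ∀ (n : ℕ) (G : Met n) (Ω : Set (Eu n)), 1 ≤ n → Rm G → MeasurableSet Ω →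
  Bornology.IsBounded Ω → per G Ω ≠ ⊤ → ∃ μ N, Bd G Ω μ N

/-- Part B: minimisers exist. -/
def MinStmt : Prop := ∀ (n : ℕ) (G : Met n) (K : Set (Eu n)) (I : ℝ → ℝ), Rm G → IsCompact K →
  ContinuousOn I (Ici 0) → ∃ Ω, IsMin G K I Ω

/-- Part B: first variation of perimeter and volume. -/
def VarStmt : Prop := ∀ (n : ℕ) (G : Met n) (A : Eu n → Eu n →L[ℝ] Eu n) (Ω : Set (Eu n))
  (μ : Measure (Eu n)) (N X : Eu n → Eu n), Rm G → Frame G A → MeasurableSet Ω →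
  Bornology.IsBounded Ω → Bd G Ω μ N → ContDiff ℝ 1 X → HasCompactSupport X →
  (∀ᶠ ε : ℝ in 𝓝 0, MeasurableSet ((fun x => x + ε • X x) '' Ω)) ∧
  (∀ η > 0, ∀ᶠ ε : ℝ in 𝓝[>] 0, per G ((fun x => x + ε • X x) '' Ω) ≤
    ENNReal.ofReal (μ.real univ + ε * (∫ x, tdiv G A N X x ∂μ + η))) ∧
  HasDerivAt (fun ε : ℝ => vol G ((fun x => x + ε • X x) '' Ω)) (∫ x, G x (N x) (X x) ∂μ) 0

/-- Part B: no boundary in a connected open set. -/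
def ConstStmt : Prop := ∀ (n : ℕ) (G : Met n) (Ω U : Set (Eu n)) (μ : Measure (Eu n))
  (N : Eu n → Eu n), Rm G → MeasurableSet Ω → Bornology.IsBounded Ω → Bd G Ω μ N → IsOpen U →
  IsPreconnected U → μ U = 0 → volume (U ∩ Ω) = 0 ∨ volume (U \ Ω) = 0

/-- Part D: De Giorgi's lower density bound. -/
def DensStmt : Prop := ∀ (n : ℕ) (G : Met n) (Ω : Set (Eu n)) (μ : Measure (Eu n))
  (N : Eu n → Eu n), 2 ≤ n → Rm G → MeasurableSet Ω → Bornology.IsBounded Ω → Bd G Ω μ N →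
  ∀ᵐ x ∂μ, ∀ ε > 0, ∃ᶠ r in 𝓝[>] (0 : ℝ),
    (1 - ε) * om (n - 1) * r ^ (n - 1) ≤ μ.real {y | G x (y - x) (y - x) ≤ r ^ 2}

/-- Part F: first variation inequality of a minimiser. -/
def FvStmt : Prop := ∀ (n : ℕ) (G : Met n) (A : Eu n → Eu n →L[ℝ] Eu n) (b H a0 : ℝ) (o : Eu n)
  (Q : Eu n → Eu n → ℝ) (V X : Eu n → Eu n → Eu n) (ex : Eu n → Eu n ≃ₜ Eu n) (I : ℝ → ℝ)
  (Ω : Set (Eu n)) (μ : Measure (Eu n)) (N : Eu n → Eu n), 1 ≤ n → Rm G → Frame G A →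
  Geo G b Q V X ex → IsMin G {x | Q o x ≤ a0} I Ω → Bd G Ω μ N → HasDerivAt I H (vol G Ω) →
  ∀ z, Q o z ≤ a0 → ∀ k, ContDiff ℝ 1 k → (∀ x, Q o x ≤ a0 → 0 ≤ k x) →
    (mkDat G A b H a0 o μ N Q X).Lam z k ≤ 0

/-- Part F: the analytic hypotheses hold for a minimiser. -/
def OkStmt : Prop := ∀ (n : ℕ) (G : Met n) (A : Eu n → Eu n →L[ℝ] Eu n) (b H a0 : ℝ) (o : Eu n)
  (Q : Eu n → Eu n → ℝ) (V X : Eu n → Eu n → Eu n) (ex : Eu n → Eu n ≃ₜ Eu n) (I : ℝ → ℝ)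
  (Ω : Set (Eu n)) (μ : Measure (Eu n)) (N : Eu n → Eu n), 4 ≤ n → 0 ≤ b → 0 < H → 0 ≤ a0 →
  Rm G → Frame G A → Geo G b Q V X ex → IsMin G {x | Q o x ≤ a0} I Ω → Bd G Ω μ N →
  HasDerivAt I H (vol G Ω) → 0 < vol G Ω → (mkDat G A b H a0 o μ N Q X).Ok

/-- Part S: the sharp inequality and its equality case. -/
def SobStmt : Prop := ∀ (n : ℕ) (d : Dat n), d.Ok →
  sph d.m ^ (2 / (d.m : ℝ)) ≤ (d.H ^ 2 / d.m ^ 2 - d.b ^ 2) * d.μ.real univ ^ (2 / (d.m : ℝ)) ∧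
  ((d.H ^ 2 / d.m ^ 2 - d.b ^ 2) * d.μ.real univ ^ (2 / (d.m : ℝ)) ≤ sph d.m ^ (2 / (d.m : ℝ)) →
    ∃ z, ∀ᵐ x ∂d.μ, d.m * (1 + d.b ^ 2 * d.Q z x) = d.H * √(d.s2 z x))

/-- Part R: a set whose boundary lies on a sphere is the ball. -/
def RigBallStmt : Prop := ∀ (n : ℕ) (G : Met n) (b : ℝ) (Q : Eu n → Eu n → ℝ)
  (V X : Eu n → Eu n → Eu n) (ex : Eu n → Eu n ≃ₜ Eu n) (Ω : Set (Eu n)) (μ : Measure (Eu n))
  (N : Eu n → Eu n) (z : Eu n) (r : ℝ), 2 ≤ n → 0 ≤ b → 0 < r → Rm G → Geo G b Q V X ex →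
  MeasurableSet Ω → Bornology.IsBounded Ω → Bd G Ω μ N → 0 < vol G Ω →
  (∀ᵐ x ∂μ, Q z x = qf b r) → Ω =ᵐ[volume] (ex z '' Metric.ball 0 r : Set (Eu n))

/-- Part R: a ball with the model volume is a model ball. -/
def RigVolStmt : Prop := ∀ (n : ℕ) (G : Met n) (b : ℝ) (Φ : Eu n → Eu n) (r : ℝ), 1 ≤ n → 0 ≤ b →
  0 < r → Rm G → ContDiff ℝ 1 Φ → Function.Injective Φ →
  (∀ v u, mg b v u ≤ G (Φ v) (fderiv ℝ Φ v u) (fderiv ℝ Φ v u)) →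
  vol G (Φ '' Metric.ball 0 r) ≤ mV n b r →
  ∀ v ∈ Metric.ball (0 : Eu n) r, ∀ u, G (Φ v) (fderiv ℝ Φ v u) (fderiv ℝ Φ v u) = mg b v u

/-- The theorem in a global chart. -/
def CoreStmt : Prop := ∀ (n : ℕ) (G : Met n) (κ : ℝ) (Ω : Set (Eu n)), 4 ≤ n → κ ≤ 0 → CH G κ →
  MeasurableSet Ω → Bornology.IsBounded Ω →
  ENNReal.ofReal (prof n √(-κ) (vol G Ω)) ≤ per G Ω ∧
  (0 < vol G Ω → per G Ω = ENNReal.ofReal (prof n √(-κ) (vol G Ω)) →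
    ∃ (r : ℝ) (Φ : Eu n ≃ₜ Eu n), 0 < r ∧ ContDiff ℝ ∞ Φ ∧
      Ω =ᵐ[volume] (Φ '' Metric.ball 0 r : Set (Eu n)) ∧
      ∀ v ∈ Metric.ball (0 : Eu n) r, ∀ u,
        G (Φ v) (fderiv ℝ Φ v u) (fderiv ℝ Φ v u) = mg √(-κ) v u)

/-- The theorem on a manifold. -/
def FinalStmt : Prop := ∀ (E : Type) [NormedAddCommGroup E] [NormedSpace ℝ E]
  [FiniteDimensional ℝ E] (M : Type) [MetricSpace M] [CompleteSpace M] [SimplyConnectedSpace M]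
  [ChartedSpace E M] [IsManifold 𝓘(ℝ, E) ∞ M] [MeasurableSpace M] [BorelSpace M]
  (g : RMetric E M) (_ : IsGeodesicDist g) (n : ℕ) (_ : Module.finrank ℝ E = n) (_ : 4 ≤ n)
  (κ : ℝ) (_ : κ ≤ 0) (_ : SecLE (E := E) g.inner κ) (Ω : Set M) (_ : SmoothBdry E Ω)
  (_ : Bornology.IsBounded Ω),
  (μHE[n] : Measure M) Ω ≠ ⊤ ∧
  ENNReal.ofReal (prof n √(-κ) ((μHE[n] : Measure M) Ω).toReal) ≤
    (μHE[n - 1] : Measure M) (frontier Ω) ∧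
  (Ω.Nonempty → (μHE[n - 1] : Measure M) (frontier Ω) =
    ENNReal.ofReal (prof n √(-κ) ((μHE[n] : Measure M) Ω).toReal) →
    IsModelBall (E := E) n √(-κ) g.inner Ω)

end Vale.Agent.P219
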