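import Vale.Agent.P219.Alg

/-! The Beta integral and the area of the sphere. -/

open scoped ENNReal RealInnerProductSpace Topology
open MeasureTheory Set Filter

namespace Vale.Agent.P219

namespace BetaAux

theorem cpx (a x : ℝ) (hx : x ∈ Ioo (0 : ℝ) 1) :
    (x : ℂ) ^ ((a : ℂ) - 1) * (1 - (x : ℂ)) ^ ((a : ℂ) - 1)
      = ((x ^ (a - 1) * (1 - x) ^ (a - 1) : ℝ) : ℂ) := by
  rw [Complex.ofReal_mul, Complex.ofReal_cpow hx.1.le, Complex.ofReal_cpow (by linarith [hx.2])]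
  push_cast
  rfl

theorem beta_real (a : ℝ) (ha : 0 < a) :
    IntegrableOn (fun x : ℝ => x ^ (a - 1) * (1 - x) ^ (a - 1)) (Ioo 0 1) ∧
    ∫ x in Ioo (0 : ℝ) 1, x ^ (a - 1) * (1 - x) ^ (a - 1)
      = Real.Gamma a * Real.Gamma a / Real.Gamma (2 * a) := by
  have h1 := Complex.betaIntegral_convergent (u := a) (v := a) (by simpa) (by simpa)
  rw [intervalIntegrable_iff_integrableOn_Ioo_of_le (by norm_num)] at h1
  have h2 : IntegrableOn (fun x : ℝ => ((x ^ (a - 1) * (1 - x) ^ (a - 1) : ℝ) : ℂ)) (Ioo 0 1) :=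
    h1.congr_fun (fun x hx => cpx a x hx) measurableSet_Ioo
  refine ⟨(show Integrable _ _ by simpa only [RCLike.re_to_complex, Complex.ofReal_re] using h2.re), ?_⟩
  have h3 := Complex.betaIntegral_eq_Gamma_mul_div (a : ℂ) (a : ℂ) (by simpa) (by simpa)
  rw [Complex.betaIntegral, intervalIntegral.integral_of_le (by norm_num),
    integral_Ioc_eq_integral_Ioo, setIntegral_congr_fun measurableSet_Ioo (fun x hx => cpx a x hx),
    integral_complex_ofReal, ← Complex.ofReal_add, Complex.Gamma_ofReal, Complex.Gamma_ofReal] at h3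
  rw [two_mul]
  exact_mod_cast h3

theorem img : (fun x : ℝ => x / (1 - x)) '' Ioo 0 1 = Ioi 0 := by
  ext s
  constructor
  · rintro ⟨x, hx, rfl⟩
    exact div_pos hx.1 (by linarith [hx.2])
  · intro hs
    have hs' : (0 : ℝ) < s := hs
    refine ⟨s / (1 + s), ⟨by positivity, by rw [div_lt_one (by linarith)]; linarith⟩, ?_⟩
    have : (1 : ℝ) + s ≠ 0 := by linarith
    field_simp
    ring

theorem der (x : ℝ) (hx : x ∈ Ioo (0 : ℝ) 1) :
    HasDerivWithinAt (fun x : ℝ => x / (1 - x)) (1 / (1 - x) ^ 2) (Ioo 0 1) x := by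
  have h0 : (1 : ℝ) - x ≠ 0 := by linarith [hx.2]
  have := (hasDerivAt_id x).div ((hasDerivAt_id x).const_sub 1) h0
  refine HasDerivAt.hasDerivWithinAt (this.congr_deriv ?_)
  simp

theorem inj : InjOn (fun x : ℝ => x / (1 - x)) (Ioo 0 1) := by
  intro x hx y hy h
  have h0 : (1 : ℝ) - x ≠ 0 := by linarith [hx.2]
  have h1 : (1 : ℝ) - y ≠ 0 := by linarith [hy.2]
  simp only at h
  rw [div_eq_div_iff h0 h1] at h
  linarith

theorem ptw (m : ℕ) (x : ℝ) (hx : x ∈ Ioo (0 : ℝ) 1) :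
    |1 / (1 - x) ^ 2| • ((1 + x / (1 - x))⁻¹ ^ m * (x / (1 - x)) ^ ((m : ℝ) / 2 - 1))
      = x ^ ((m : ℝ) / 2 - 1) * (1 - x) ^ ((m : ℝ) / 2 - 1) := by
  have h0 : (0 : ℝ) < 1 - x := by linarith [hx.2]
  have e1 : (1 + x / (1 - x))⁻¹ = 1 - x := by
    field_simp
    ring
  have e2 : (1 - x) ^ m = (1 - x) ^ ((m : ℝ) / 2 - 1) * (1 - x) ^ ((m : ℝ) / 2 - 1) * (1 - x) ^ 2 := by
    rw [← Real.rpow_add h0, ← Real.rpow_natCast, ← Real.rpow_natCast, ← Real.rpow_add h0]
    congr 1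
    push_cast
    ring
  have h2 : 0 < (1 - x) ^ ((m : ℝ) / 2 - 1) := Real.rpow_pos_of_pos h0 _
  rw [e1, abs_of_pos (by positivity), Real.div_rpow hx.1.le h0.le, e2, smul_eq_mul]
  field_simp

theorem om_eq (n : ℕ) (hn : 1 ≤ n) : om n = √Real.pi ^ n / Real.Gamma ((n : ℝ) / 2 + 1) := by
  have : Nonempty (Fin n) := ⟨⟨0, hn⟩⟩
  have hp : 0 < Real.Gamma ((n : ℝ) / 2 + 1) := Real.Gamma_pos_of_pos (by positivity)
  rw [om, Measure.real, EuclideanSpace.volume_ball]
  simp only [ENNReal.ofReal_one, one_pow, one_mul, Fintype.card_fin]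
  exact ENNReal.toReal_ofReal (by positivity)

end BetaAux

open BetaAux in
theorem beta_pf : BetaStmt := by
  intro m hm
  have hm0 : (0 : ℝ) < m := by exact_mod_cast hm
  have ha : (0 : ℝ) < (m : ℝ) / 2 := by positivity
  obtain ⟨h1, h2⟩ := beta_real _ ha
  constructor
  · rw [← img, integrableOn_image_iff_integrableOn_abs_deriv_smul measurableSet_Ioo der inj]
    exact h1.congr_fun (fun x hx => (ptw m x hx).symm) measurableSet_Ioo
  · rw [← img, integral_image_eq_integral_abs_deriv_smul measurableSet_Ioo der inj,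
      setIntegral_congr_fun measurableSet_Ioo (fun x hx => ptw m x hx), h2, sph,
      om_eq _ hm, om_eq _ (by omega)]
    have g1 : Real.Gamma ((m : ℝ) / 2 + 1) = (m : ℝ) / 2 * Real.Gamma ((m : ℝ) / 2) :=
      Real.Gamma_add_one ha.ne'
    have g2 : Real.Gamma (((m + 1 : ℕ) : ℝ) / 2 + 1)
        = ((m : ℝ) / 2 + 1 / 2) * Real.Gamma ((m : ℝ) / 2 + 1 / 2) := by
      rw [← Real.Gamma_add_one (by positivity)]
      congr 1
      push_cast
      ring
    have g3 := Real.Gamma_mul_Gamma_add_half ((m : ℝ) / 2)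
    have p1 : 0 < Real.Gamma ((m : ℝ) / 2) := Real.Gamma_pos_of_pos ha
    have p2 : 0 < Real.Gamma ((m : ℝ) / 2 + 1 / 2) := Real.Gamma_pos_of_pos (by positivity)
    have p3 : 0 < Real.Gamma (2 * ((m : ℝ) / 2)) := Real.Gamma_pos_of_pos (by positivity)
    have e2 : (2 : ℝ) ^ (1 - 2 * ((m : ℝ) / 2)) * 2 ^ (m - 1) = 1 := by
      rw [← Real.rpow_natCast, ← Real.rpow_add (by norm_num), Nat.cast_sub hm]
      have : (1 - 2 * ((m : ℝ) / 2)) + ((m : ℝ) - (1 : ℕ)) = 0 := by push_cast; ring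
      rw [this, Real.rpow_zero]
    have g4 : Real.Gamma ((m : ℝ) / 2) * Real.Gamma ((m : ℝ) / 2 + 1 / 2) * 2 ^ (m - 1)
        = Real.Gamma (2 * ((m : ℝ) / 2)) * √Real.pi := by
      rw [g3]
      linear_combination (Real.Gamma (2 * ((m : ℝ) / 2)) * √Real.pi) * e2
    rw [g1, g2]
    generalize Real.Gamma ((m : ℝ) / 2) = A at *
    generalize Real.Gamma ((m : ℝ) / 2 + 1 / 2) = B at *
    generalize Real.Gamma (2 * ((m : ℝ) / 2)) = C at *
    have g5 : (2 : ℝ) ^ (m - 1) = C * √Real.pi / (A * B) := by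
      rw [eq_div_iff (by positivity)]
      linarith
    rw [g5, pow_succ]
    push_cast
    field_simp

end Vale.Agent.P219
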