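import Vale.Agent.P219.Base

/-! No boundary measure in a connected open set: the set is full or empty there. -/

open scoped ContDiff ENNReal Topology Convolution
open MeasureTheory Set Filter

namespace Vale.Agent.P219

namespace Const

variable {n : ℕ}

theorem sum_ee (u : Eu n) : ∑ i, u i • ee i = u := by
  ext j
  simp [Finset.sum_apply, Pi.single_apply]

theorem gram_eq (B : Eu n →L[ℝ] Eu n →L[ℝ] ℝ) (u : Eu n) :
    ∑ i, u i * ∑ j, B (ee i) (ee j) * u j = B u u := by
  conv_rhs => rw [← sum_ee u]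
  simp only [map_sum, map_smul, sum_apply, smul_apply,
    smul_eq_mul, Finset.mul_sum]
  rw [Finset.sum_comm]
  exact Finset.sum_congr rfl fun i _ => Finset.sum_congr rfl fun j _ => by ring

theorem det_pos {G : Met n} (hG : Rm G) (x : Eu n) :
    0 < (Matrix.of fun i j => G x (ee i) (ee j)).det := by
  refine Matrix.PosDef.det_pos (Matrix.PosDef.of_dotProduct_mulVec_pos ?_ fun v hv => ?_)
  · ext i j
    simp only [Matrix.conjTranspose_apply, Matrix.of_apply, star_trivial]
    exact hG.symm x _ _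
  · have h1 : (WithLp.toLp 2 v : Eu n) ≠ 0 := fun h => hv (by
      funext i
      exact congrArg (fun w : Eu n => w i) h)
    have h2 := hG.pos x _ h1
    rw [← gram_eq] at h2
    simpa [dotProduct, Matrix.mulVec] using h2

theorem wt_pos {G : Met n} (hG : Rm G) (x : Eu n) : 0 < wt G x :=
  Real.sqrt_pos.2 (det_pos hG x)

theorem wt_smooth {G : Met n} (hG : Rm G) : ContDiff ℝ 1 (wt G) := by
  have h1 : ContDiff ℝ 1 G := hG.smooth.of_le (by norm_num)
  have h2 : ∀ i j, ContDiff ℝ 1 fun x => G x (ee i) (ee j) := fun i j =>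
    (h1.clm_apply contDiff_const).clm_apply contDiff_const
  have h3 : ContDiff ℝ 1 fun x => (Matrix.of fun i j => G x (ee i) (ee j)).det := by
    simp only [Matrix.det_apply', Matrix.of_apply]
    exact ContDiff.sum fun σ _ => contDiff_const.mul (contDiff_prod fun i _ => h2 _ _)
  exact h3.sqrt fun x => (det_pos hG x).ne'

theorem dvg_smul {η : Eu n → ℝ} (hη : ContDiff ℝ 1 η) (w x : Eu n) :
    dvg (fun y => η y • w) x = fderiv ℝ η x w := by
  have h := ((hη.differentiable (by norm_num) x).hasFDerivAt.smul_const w).fderiv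
  unfold dvg
  rw [h]
  conv_rhs => rw [← sum_ee w]
  simp only [map_sum, map_smul, smul_eq_mul, ContinuousLinearMap.smulRight_apply, PiLp.smul_apply]
  exact Finset.sum_congr rfl fun i _ => mul_comm _ _

/-- the distributional gradient of the indicator vanishes in `U` -/
theorem weak {G : Met n} {Ω U : Set (Eu n)} {μ : Measure (Eu n)} {N : Eu n → Eu n} (hG : Rm G)
    (hB : Bd G Ω μ N) (hU : μ U = 0) {η : Eu n → ℝ} (hη : ContDiff ℝ 1 η)
    (hc : HasCompactSupport η) (hs : ∀ x, x ∉ U → η x = 0) (w : Eu n) :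
    ∫ x in Ω, fderiv ℝ η x w = 0 := by
  have h1 : ContDiff ℝ 1 fun y => (η y * (wt G y)⁻¹) • w :=
    (hη.mul ((wt_smooth hG).inv fun x => (wt_pos hG x).ne')).smul contDiff_const
  have h2 : HasCompactSupport fun y => (η y * (wt G y)⁻¹) • w :=
    hc.mono fun y hy h0 => hy (by simp only [h0, zero_mul, zero_smul])
  have h3 := hB.gauss _ h1 h2
  have h4 : (fun y => wt G y • (η y * (wt G y)⁻¹) • w) = fun y => η y • w := by
    funext y
    rw [smul_smul, mul_comm (η y), ← mul_assoc, mul_inv_cancel₀ (wt_pos hG y).ne', one_mul]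
  unfold flux at h3
  rw [h4] at h3
  simp only [dvg_smul hη] at h3
  rw [h3]
  refine integral_eq_zero_of_ae ?_
  filter_upwards [measure_eq_zero_iff_ae_notMem.1 hU] with x hx
  simp only [hs x hx, zero_mul, zero_smul, map_zero, Pi.zero_apply]

theorem hasDeriv {Ω : Set (Eu n)} (hΩ : volume Ω ≠ ⊤) {f : Eu n → ℝ} (hf : ContDiff ℝ 1 f)
    (hc : HasCompactSupport f) (y w : Eu n) (s : ℝ) :
    HasDerivAt (fun s : ℝ => ∫ t in Ω, f (y + s • w - t))
      (∫ t in Ω, fderiv ℝ f (y + s • w - t) w) s := by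
  have : IsFiniteMeasure (volume.restrict Ω) := isFiniteMeasure_restrict.2 hΩ
  have hf' : Continuous (fderiv ℝ f) := hf.continuous_fderiv (by norm_num)
  obtain ⟨C, hC⟩ := hf'.bounded_above_of_compact_support (hc.fderiv ℝ)
  obtain ⟨C₀, hC₀⟩ := hf.continuous.bounded_above_of_compact_support hc
  have c0 : ∀ s : ℝ, Continuous fun t : Eu n => f (y + s • w - t) := fun s =>
    hf.continuous.comp (continuous_const.sub continuous_id)
  have c1 : ∀ s : ℝ, Continuous fun t : Eu n => fderiv ℝ f (y + s • w - t) w := fun s =>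
    (hf'.comp (continuous_const.sub continuous_id)).clm_apply continuous_const
  refine (hasDerivAt_integral_of_dominated_loc_of_deriv_le (μ := volume.restrict Ω)
    (F := fun (s : ℝ) (t : Eu n) => f (y + s • w - t))
    (F' := fun (s : ℝ) (t : Eu n) => fderiv ℝ f (y + s • w - t) w) (bound := fun _ => C * ‖w‖)
    (s := univ) univ_mem (Eventually.of_forall fun s => (c0 s).aestronglyMeasurable)
    (Integrable.of_bound (c0 s).aestronglyMeasurable C₀ (Eventually.of_forall fun t => hC₀ _))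
    (c1 s).aestronglyMeasurable (Eventually.of_forall fun t s _ => ?_) (integrable_const _)
    (Eventually.of_forall fun t s _ => ?_)).2
  · exact (ContinuousLinearMap.le_opNorm _ _).trans
      (mul_le_mul_of_nonneg_right (hC _) (norm_nonneg _))
  · have h1 : HasDerivAt (fun s : ℝ => y + s • w - t) w s := by
      simpa using (((hasDerivAt_id s).smul_const w).const_add y).sub_const t
    exact (hf.differentiable (by norm_num) _).hasFDerivAt.comp_hasDerivAt s h1

/-- mollifications are constant on small balls -/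
theorem moll_const {G : Met n} {Ω U : Set (Eu n)} {μ : Measure (Eu n)} {N : Eu n → Eu n}
    (hG : Rm G) (hB : Bd G Ω μ N) (hU : μ U = 0) (hΩ : volume Ω ≠ ⊤) {f : Eu n → ℝ}
    (hf : ContDiff ℝ 1 f) (hc : HasCompactSupport f) {x : Eu n} {r : ℝ}
    (hr : Metric.ball x (2 * r) ⊆ U) (hs : ∀ z, r ≤ ‖z‖ → f z = 0) {y y' : Eu n}
    (hy : y ∈ Metric.ball x r) (hy' : y' ∈ Metric.ball x r) :
    ∫ t in Ω, f (y' - t) = ∫ t in Ω, f (y - t) := by
  have key : ∀ s ∈ Icc (0 : ℝ) 1,
      HasDerivAt (fun s : ℝ => ∫ t in Ω, f (y + s • (y' - y) - t)) 0 s := by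
    intro s hs1
    have h0 := hasDeriv hΩ hf hc y (y' - y) s
    set p := y + s • (y' - y) with hp
    have hpB : p ∈ Metric.ball x r := (convex_ball x r).add_smul_sub_mem hy hy' hs1
    have h1 : ContDiff ℝ 1 fun t : Eu n => f (p - t) := hf.comp (contDiff_const.sub contDiff_id)
    have h2 : HasCompactSupport fun t : Eu n => f (p - t) :=
      hc.comp_homeomorph (Homeomorph.subLeft p)
    have h3 : ∀ t, t ∉ U → f (p - t) = 0 := by
      intro t ht
      refine hs _ (not_lt.1 fun h => ht (hr ?_))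
      rw [Metric.mem_ball] at hpB ⊢
      have := dist_triangle t p x
      rw [dist_comm t p, dist_eq_norm p t] at this
      linarith
    have h4 := weak hG hB hU h1 h2 h3 (y' - y)
    have h5 : ∀ t, fderiv ℝ (fun t : Eu n => f (p - t)) t (y' - y)
        = -fderiv ℝ f (p - t) (y' - y) := by
      intro t
      have h6 : HasFDerivAt (fun t : Eu n => p - t) (-ContinuousLinearMap.id ℝ (Eu n)) t :=
        (hasFDerivAt_id t).const_sub p
      have h7 := ((hf.differentiable (by norm_num) (p - t)).hasFDerivAt.comp t h6).fderiv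
      have h8 : fderiv ℝ (fun t : Eu n => f (p - t)) t
          = (fderiv ℝ f (p - t)).comp (-ContinuousLinearMap.id ℝ (Eu n)) := h7
      rw [h8]
      simp
    simp only [h5, integral_neg, neg_eq_zero] at h4
    rwa [h4] at h0
  have h := constant_of_has_deriv_right_zero
    (fun s hs1 => (key s hs1).continuousAt.continuousWithinAt)
    (fun s hs1 => (key s (Ico_subset_Icc_self hs1)).hasDerivWithinAt) 1 ⟨zero_le_one, le_rfl⟩
  simpa using h

/-- a sequence of bumps -/
noncomputable def bp (n k : ℕ) : ContDiffBump (0 : Eu n) where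
  rIn := 1 / ((k : ℝ) + 1) / 2
  rOut := 1 / ((k : ℝ) + 1)
  rIn_pos := by positivity
  rIn_lt_rOut := half_lt_self (by positivity)

theorem ae_lim {Ω : Set (Eu n)} (hm : MeasurableSet Ω) (hΩ : volume Ω ≠ ⊤) :
    ∀ᵐ y ∂(volume : Measure (Eu n)), Tendsto (fun k => ∫ t in Ω, (bp n k).normed volume (y - t))
      atTop (𝓝 (Ω.indicator (fun _ => (1 : ℝ)) y)) := by
  have h1 : Integrable (Ω.indicator fun _ => (1 : ℝ)) volume :=
    (integrable_indicator_iff hm).2 (integrableOn_const hΩ)
  have h2 := ContDiffBump.ae_convolution_tendsto_right_of_locallyIntegrable (φ := bp n)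
    (l := atTop) (K := 2) (μ := volume) tendsto_one_div_add_atTop_nhds_zero_nat
    (Eventually.of_forall fun k => by
      show 1 / ((k : ℝ) + 1) ≤ 2 * (1 / ((k : ℝ) + 1) / 2)
      linarith) h1.locallyIntegrable
  filter_upwards [h2] with y hy
  refine hy.congr fun k => ?_
  rw [convolution_lsmul_swap, ← integral_indicator hm]
  refine integral_congr_ae (Eventually.of_forall fun t => ?_)
  by_cases ht : t ∈ Ω <;> simp [ht]

end Const

open _root_.Vale.Agent.P219.Const in
theorem const_pf : ConstStmt := by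
  intro n G Ω U μ N hG hm hb hB hU hc hμ
  have hΩ : volume Ω ≠ ⊤ := hb.measure_lt_top.ne
  obtain ⟨A, hA0, hA⟩ : ∃ A : Set (Eu n), volume Aᶜ = 0 ∧ ∀ y ∈ A,
      Tendsto (fun k => ∫ t in Ω, (bp n k).normed volume (y - t)) atTop
        (𝓝 (Ω.indicator (fun _ => (1 : ℝ)) y)) := ⟨_, ae_lim hm hΩ, fun _ h => h⟩
  have loc : ∀ x ∈ U, ∃ r > 0, ∀ y ∈ Metric.ball x r, ∀ y' ∈ Metric.ball x r, y ∈ A → y' ∈ A →
      y ∈ Ω → y' ∈ Ω := by
    intro x hx
    obtain ⟨ε, hε, hball⟩ := Metric.isOpen_iff.1 hU x hx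
    refine ⟨ε / 2, by positivity, fun y hy y' hy' hyA hyA' hyΩ => ?_⟩
    have h1 : ∀ᶠ k : ℕ in atTop, 1 / ((k : ℝ) + 1) ≤ ε / 2 :=
      tendsto_one_div_add_atTop_nhds_zero_nat.eventually (ge_mem_nhds (by positivity))
    have h2 : (fun k => ∫ t in Ω, (bp n k).normed volume (y' - t)) =ᶠ[atTop]
        fun k => ∫ t in Ω, (bp n k).normed volume (y - t) := by
      filter_upwards [h1] with k hk
      refine moll_const hG hB hμ hΩ (bp n k).contDiff_normed (bp n k).hasCompactSupport_normed
        (x := x) (r := ε / 2) (by rwa [mul_div_cancel₀ ε two_ne_zero]) (fun z hz => ?_) hy hy'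
      have h3 : z ∉ Function.support ((bp n k).normed volume) := by
        rw [(bp n k).support_normed_eq, mem_ball_zero_iff, not_lt]
        exact hk.trans hz
      exact Function.notMem_support.1 h3
    have h4 := tendsto_nhds_unique ((hA y' hyA').congr' h2) (hA y hyA)
    by_contra hn
    rw [indicator_of_notMem hn, indicator_of_mem hyΩ] at h4
    exact zero_ne_one h4
  have dense : Dense A := Measure.dense_of_ae (μ := volume) (p := fun y => y ∈ A) hA0
  have hP : IsOpen {x : Eu n | ∀ᶠ y in 𝓝 x, y ∈ A → y ∈ Ω} := isOpen_setOfPred_eventually_nhds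
  have hP' : IsOpen {x : Eu n | ∀ᶠ y in 𝓝 x, y ∈ A → y ∉ Ω} := isOpen_setOfPred_eventually_nhds
  have hdis : Disjoint {x : Eu n | ∀ᶠ y in 𝓝 x, y ∈ A → y ∈ Ω}
      {x : Eu n | ∀ᶠ y in 𝓝 x, y ∈ A → y ∉ Ω} := by
    rw [Set.disjoint_left]
    intro x h1 h2
    obtain ⟨y, hy, hyA⟩ := dense.inter_nhds_nonempty (Filter.Eventually.and h1 h2)
    exact hyA.2 hy (hyA.1 hy)
  have hcov : U ⊆ {x : Eu n | ∀ᶠ y in 𝓝 x, y ∈ A → y ∈ Ω} ∪
      {x : Eu n | ∀ᶠ y in 𝓝 x, y ∈ A → y ∉ Ω} := by
    intro x hx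
    obtain ⟨r, hr, h⟩ := loc x hx
    by_cases he : ∃ y ∈ Metric.ball x r, y ∈ A ∧ y ∈ Ω
    · obtain ⟨y, hy, hyA, hyΩ⟩ := he
      left
      filter_upwards [Metric.ball_mem_nhds x hr] with y' hy' hA'
      exact h y hy y' hy' hyA hA' hyΩ
    · right
      filter_upwards [Metric.ball_mem_nhds x hr] with y' hy' hA' hΩ'
      exact he ⟨y', hy', hA', hΩ'⟩
  rcases hc.subset_or_subset hP hP' hdis hcov with h | h
  · right
    have hs : U \ Ω ⊆ Aᶜ := fun x hx hxA => hx.2 (Filter.Eventually.self_of_nhds (h hx.1) hxA)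
    exact measure_mono_null hs hA0
  · left
    have hs : U ∩ Ω ⊆ Aᶜ := fun x hx hxA => Filter.Eventually.self_of_nhds (h hx.1) hxA hx.2
    exact measure_mono_null hs hA0

end Vale.Agent.P219
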