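import Vale.Agent.P219.Trig

/-! P219: the theorem in a global chart from the parts. -/

open scoped Manifold ContDiff ENNReal RealInnerProductSpace Topology
open MeasureTheory Set Filter

namespace Vale.Agent.P219

namespace Core

variable {n : ℕ}

theorem vol_nonneg (G : Met n) (Ω : Set (Eu n)) : 0 ≤ vol G Ω :=
  integral_nonneg fun _ => Real.sqrt_nonneg _

theorem mA_eq (hn : 1 ≤ n) (b r : ℝ) : mA n b r = sph (n - 1) * sn b r ^ (n - 1) := by
  unfold mA sph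
  rw [Nat.sub_add_cancel hn]

theorem mA_zero (hn : 2 ≤ n) (b : ℝ) : mA n b 0 = 0 := by
  unfold mA
  rw [sn_zero, zero_pow (by omega), mul_zero]

theorem rp {S s : ℝ} {m : ℕ} (hm : 1 ≤ m) (hS : 0 ≤ S) (hs : 0 ≤ s) :
    (S * s ^ m) ^ (2 / (m : ℝ)) = S ^ (2 / (m : ℝ)) * s ^ 2 := by
  have hm' : (m : ℝ) ≠ 0 := by positivity
  rw [Real.mul_rpow hS (pow_nonneg hs _), ← Real.rpow_natCast s m, ← Real.rpow_mul hs,
    mul_div_cancel₀ _ hm', Real.rpow_two]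

theorem coef {b r δ : ℝ} {m : ℕ} (hm : 1 ≤ m) (hb : 0 ≤ b) (hr : 0 < r) :
    (δ * ((m : ℝ) * (1 + b ^ 2 * qf b r) / sn b r)) ^ 2 / (m : ℝ) ^ 2 - b ^ 2 =
      1 / sn b r ^ 2 - (1 - δ ^ 2) * ((1 + b ^ 2 * qf b r) / sn b r) ^ 2 := by
  have hm' : (m : ℝ) ≠ 0 := by positivity
  have hs := (sn_pos hb hr).ne'
  have := cs_sq b r
  field_simp
  linear_combination this

theorem exists_a0 {G : Met n} {b : ℝ} {Q : Eu n → Eu n → ℝ} {V X : Eu n → Eu n → Eu n}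
    {ex : Eu n → Eu n ≃ₜ Eu n} (hg : Geo G b Q V X ex) {Ω : Set (Eu n)}
    (hΩ : Bornology.IsBounded Ω) : ∃ a0, 0 ≤ a0 ∧ Ω ⊆ {x | Q 0 x ≤ a0} := by
  have hc : Continuous fun x => Q 0 x :=
    hg.Qsm.continuous.comp (continuous_const.prodMk continuous_id)
  obtain ⟨C, hC⟩ := hΩ.isCompact_closure.bddAbove_image hc.continuousOn
  exact ⟨max C 0, le_max_right _ _, fun x hx =>
    (hC (mem_image_of_mem _ (subset_closure hx))).trans (le_max_left _ _)⟩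

theorem key (hr : RieszStmt) (ho : OkStmt) (hs : SobStmt) (hn : 4 ≤ n) {b : ℝ} (hb : 0 ≤ b)
    (hp : Prof n b) {G : Met n} (hG : Rm G) {A : Eu n → Eu n →L[ℝ] Eu n} (hA : Frame G A)
    {Q : Eu n → Eu n → ℝ} {V X : Eu n → Eu n → Eu n} {ex : Eu n → Eu n ≃ₜ Eu n}
    (hg : Geo G b Q V X ex) {a0 δ r : ℝ} (ha : 0 ≤ a0) (hδ : 0 < δ) (hδ1 : δ ≤ 1) (hr0 : 0 < r)
    {Ω : Set (Eu n)} (hm : IsMin G {x | Q 0 x ≤ a0} (fun v => δ * prof n b v) Ω)
    (hv : vol G Ω = mV n b r) :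
    mA n b r ≤ (per G Ω).toReal ∧ (δ = 1 → (per G Ω).toReal ≤ mA n b r →
      ∃ μ N z, Bd G Ω μ N ∧ ∀ᵐ x ∂μ, Q z x = qf b r) := by
  have hbd : Bornology.IsBounded Ω := (hg.proper 0 a0).isBounded.subset hm.sub
  obtain ⟨μ, N, hB⟩ := hr n G Ω (by omega) hG hm.meas hbd hm.fin
  have hm1 : 1 ≤ n - 1 := by omega
  have hmp : (0 : ℝ) < ((n - 1 : ℕ) : ℝ) := by positivity
  have hsn := sn_pos hb hr0
  have hq := qf_nonneg b r
  have hcs : 0 < 1 + b ^ 2 * qf b r := by positivity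
  have hV : 0 < vol G Ω := by
    rw [hv, ← hp.zero]
    exact hp.mono (mem_Ici.2 le_rfl) (mem_Ici.2 hr0.le) hr0
  have hd : HasDerivAt (fun v => δ * prof n b v)
      (δ * (((n - 1 : ℕ) : ℝ) * (1 + b ^ 2 * qf b r) / sn b r)) (vol G Ω) := by
    rw [hv]; exact (hp.der r hr0).const_mul δ
  have hok := ho n G A b _ a0 0 Q V X ex _ Ω μ N hn hb (by positivity) ha hG hA hg hm hB hd hV
  obtain ⟨s1, s2⟩ := hs n _ hok
  have hM : μ.real univ = (per G Ω).toReal := by rw [Measure.real, hB.mass]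
  simp only [mkDat, Dat.s2] at s1 s2
  rw [coef hm1 hb hr0, hM] at s1 s2
  have hP : 0 ≤ (per G Ω).toReal := ENNReal.toReal_nonneg
  have hS := sph_pos (n - 1)
  have he : 0 < 2 / ((n - 1 : ℕ) : ℝ) := by positivity
  rw [mA_eq (by omega)]
  constructor
  · by_contra hlt
    have h1 := Real.rpow_lt_rpow hP (not_le.1 hlt) he
    rw [rp hm1 hS.le hsn.le] at h1
    have h2 : 0 ≤ (1 - δ ^ 2) * ((1 + b ^ 2 * qf b r) / sn b r) ^ 2 :=
      mul_nonneg (by nlinarith) (sq_nonneg _)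
    have h3 : 0 ≤ (per G Ω).toReal ^ (2 / ((n - 1 : ℕ) : ℝ)) := Real.rpow_nonneg hP _
    have h4 : sph (n - 1) ^ (2 / ((n - 1 : ℕ) : ℝ)) ≤
        1 / sn b r ^ 2 * (per G Ω).toReal ^ (2 / ((n - 1 : ℕ) : ℝ)) := by nlinarith
    rw [one_div, inv_mul_eq_div, le_div_iff₀ (by positivity)] at h4
    linarith
  · rintro rfl hle
    have h1 := Real.rpow_le_rpow hP hle he.le
    rw [rp hm1 hS.le hsn.le] at h1
    obtain ⟨z, hz⟩ := s2 (by
      rw [one_pow, sub_self, zero_mul, sub_zero, one_div, inv_mul_eq_div,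
        div_le_iff₀ (by positivity)]
      exact h1)
    refine ⟨μ, N, z, hB, hz.mono fun x hx => ?_⟩
    have hQ : 0 ≤ Q z x := by
      rcases eq_or_ne x z with rfl | h
      · exact (hg.zero _).ge
      · exact (hg.pos z x h).le
    have h2 : 0 ≤ 2 * Q z x + b ^ 2 * Q z x ^ 2 := by positivity
    have h3 : (1 + b ^ 2 * Q z x) * sn b r =
        (1 + b ^ 2 * qf b r) * √(2 * Q z x + b ^ 2 * Q z x ^ 2) := by
      rw [one_mul, div_mul_eq_mul_div, eq_div_iff hsn.ne'] at hx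
      apply mul_left_cancel₀ hmp.ne'
      linear_combination hx
    have h4 := congrArg (· ^ 2) h3
    simp only [mul_pow, Real.sq_sqrt h2] at h4
    rw [cs_sq] at h4
    have h5 : 2 * Q z x + b ^ 2 * Q z x ^ 2 = 2 * qf b r + b ^ 2 * qf b r ^ 2 := by
      rw [← sn_sq]; linear_combination -h4
    have h6 : (Q z x - qf b r) * (2 + b ^ 2 * (Q z x + qf b r)) = 0 := by linear_combination h5
    rcases mul_eq_zero.1 h6 with h | h
    · linarith
    · have : 0 < 2 + b ^ 2 * (Q z x + qf b r) := by positivity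
      exact absurd h this.ne'

theorem ineq (hr : RieszStmt) (hmin : MinStmt) (ho : OkStmt) (hs : SobStmt) (hn : 4 ≤ n) {b : ℝ}
    (hb : 0 ≤ b) (hp : Prof n b) {G : Met n} (hG : Rm G) {A : Eu n → Eu n →L[ℝ] Eu n}
    (hA : Frame G A) {Q : Eu n → Eu n → ℝ} {V X : Eu n → Eu n → Eu n}
    {ex : Eu n → Eu n ≃ₜ Eu n} (hg : Geo G b Q V X ex) {Ω : Set (Eu n)} (hΩ : MeasurableSet Ω)
    (hbd : Bornology.IsBounded Ω) : ENNReal.ofReal (prof n b (vol G Ω)) ≤ per G Ω := by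
  by_contra hlt
  rw [not_le] at hlt
  have hfin : per G Ω ≠ ⊤ := hlt.ne_top
  have hP : 0 ≤ (per G Ω).toReal := ENNReal.toReal_nonneg
  have h1 : (per G Ω).toReal < prof n b (vol G Ω) := by
    rwa [← ENNReal.ofReal_toReal hfin, ENNReal.ofReal_lt_ofReal_iff_of_nonneg hP] at hlt
  have h2 : 0 < prof n b (vol G Ω) := hP.trans_lt h1
  obtain ⟨δ, hδ, hδ1⟩ := exists_between ((div_lt_one h2).2 h1)
  have hδ0 : 0 < δ := (div_nonneg hP h2.le).trans_lt hδ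
  rw [div_lt_iff₀ h2] at hδ
  obtain ⟨a0, ha, hsub⟩ := exists_a0 hg hbd
  obtain ⟨Ω', hm⟩ := hmin n G _ (fun v => δ * prof n b v) hG (hg.proper 0 a0)
    (continuousOn_const.mul hp.cont)
  have h3 := hm.le Ω hΩ hsub hfin
  obtain ⟨r, hr0, hv⟩ := hp.surj _ (vol_nonneg G Ω')
  have hP' : 0 ≤ (per G Ω').toReal := ENNReal.toReal_nonneg
  rw [← hv, hp.val r hr0] at h3
  rcases hr0.eq_or_lt with rfl | hr1
  · rw [mA_zero (by omega)] at h3
    linarith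
  · have h4 := (key hr ho hs hn hb hp hG hA hg ha hδ0 hδ1.le hr1 hm hv.symm).1
    nlinarith

end Core

theorem core_pf (hp : ProfStmt) (hg : GeoStmt) (hf : FrameStmt) (hr : RieszStmt) (hm : MinStmt)
    (ho : OkStmt) (hs : SobStmt) (hb : RigBallStmt) (hv : RigVolStmt) : CoreStmt := by
  intro n G κ Ω hn hκ hG hΩ hbd
  have hb0 : 0 ≤ √(-κ) := Real.sqrt_nonneg _
  have hκ' : κ = -√(-κ) ^ 2 := by rw [Real.sq_sqrt (by linarith), neg_neg]
  generalize √(-κ) = b at hb0 hκ' ⊢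
  subst hκ'
  have hP := hp n b (by omega) hb0
  obtain ⟨Q, V, X, ex, hgeo⟩ := hg n G b hb0 hG
  obtain ⟨A, hA⟩ := hf n G hG.toRm
  have hI : ∀ Ω' : Set (Eu n), MeasurableSet Ω' → Bornology.IsBounded Ω' →
      ENNReal.ofReal (prof n b (vol G Ω')) ≤ per G Ω' := fun Ω' h1 h2 =>
    Core.ineq hr hm ho hs hn hb0 hP hG.toRm hA hgeo h1 h2
  refine ⟨hI Ω hΩ hbd, fun hV he => ?_⟩
  obtain ⟨r, hr0, hvol⟩ := hP.surj _ hV.le
  have hr1 : 0 < r := by
    rcases hr0.eq_or_lt with rfl | h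
    · rw [hP.zero] at hvol; linarith
    · exact h
  have hA0 : 0 ≤ mA n b r := by
    rw [Core.mA_eq (by omega)]
    exact mul_nonneg (sph_pos _).le (pow_nonneg (sn_nonneg hb0 hr0) _)
  have hpe : (per G Ω).toReal = mA n b r := by
    rw [he, ← hvol, hP.val r hr0, ENNReal.toReal_ofReal hA0]
  obtain ⟨a0, ha, hsub⟩ := Core.exists_a0 hgeo hbd
  have hmin : IsMin G {x | Q 0 x ≤ a0} (fun v => 1 * prof n b v) Ω := by
    refine ⟨hΩ, hsub, by rw [he]; exact ENNReal.ofReal_ne_top, fun Ω' h1 h2 h3 => ?_⟩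
    have h4 := hI Ω' h1 ((hgeo.proper 0 a0).isBounded.subset h2)
    rw [ENNReal.ofReal_le_iff_le_toReal h3] at h4
    rw [hpe, ← hvol, hP.val r hr0]
    linarith
  obtain ⟨μ, N, z, hB, hz⟩ := (Core.key hr ho hs hn hb0 hP hG.toRm hA hgeo ha one_pos le_rfl hr1
    hmin hvol.symm).2 rfl hpe.le
  have hae := hb n G b Q V X ex Ω μ N z r (by omega) hb0 hr1 hG.toRm hgeo hΩ hbd hB hV hz
  refine ⟨r, ex z, hr1, hgeo.exsm z, hae, ?_⟩
  refine hv n G b (ex z) r (by omega) hb0 hr1 hG.toRm ((hgeo.exsm z).of_le (by simp))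
    (ex z).injective (hgeo.rauch z) ?_
  rw [hvol]
  exact (setIntegral_congr_set hae).ge

end Vale.Agent.P219
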