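import Vale.Agent.P219.StmD

open scoped ENNReal RealInnerProductSpace Topology Manifold ContDiff
open MeasureTheory Set Filter Metric

namespace Vale.Agent.P219.D

theorem apx_pf : ApxS := by
  intro V _ _ _ _ _ lam _ U A hU hA hAU hfin η hη
  have hc : ProperSpace V := FiniteDimensional.proper_real V
  have hε : ENNReal.ofReal (η / 2) ≠ 0 := by simpa using hη
  obtain ⟨K, hKA, hK, hK1⟩ := hA.exists_isCompact_sdiff_lt hfin hε
  obtain ⟨O, hAO, hO, -, hO1⟩ := hA.exists_isOpen_sdiff_lt hfin hε
  obtain ⟨L, hL, hKL, hLO⟩ := exists_compact_between hK (hO.inter hU)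
    (subset_inter (hKA.trans hAO) (hKA.trans hAU))
  obtain ⟨f, hf0, hf1, hf⟩ := exists_contMDiffMap_zero_one_of_isClosed (n := 1) 𝓘(ℝ, V)
    (isOpen_interior (s := L)).isClosed_compl hK.isClosed
    (disjoint_compl_left_iff_subset.2 hKL)
  have hsupp : Function.support f ⊆ L := by
    intro y hy
    by_contra h
    exact hy (hf0 fun h2 => h (interior_subset h2))
  refine ⟨f, f.contMDiff.contDiff, HasCompactSupport.of_support_subset_isCompact hL hsupp,
    fun y hy => (hLO (hsupp hy)).2, fun y => hf y, ?_⟩
  have hm : MeasurableSet (O \ K) := hO.measurableSet.diff hK.measurableSet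
  have hμ : lam (O \ K) ≤ ENNReal.ofReal η := by
    have h1 : O \ K ⊆ (O \ A) ∪ (A \ K) := by
      intro y hy
      by_cases h : y ∈ A
      · exact Or.inr ⟨h, hy.2⟩
      · exact Or.inl ⟨hy.1, h⟩
    refine (measure_mono h1).trans ((measure_union_le _ _).trans ?_)
    refine (add_le_add hO1.le hK1.le).trans (le_of_eq ?_)
    rw [← ENNReal.ofReal_add (by positivity) (by positivity), add_halves]
  have hlt : lam (O \ K) ≠ ⊤ := ne_top_of_le_ne_top ENNReal.ofReal_ne_top hμ
  have hint : Integrable ((O \ K).indicator fun _ => (1 : ℝ)) lam :=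
    (integrable_indicator_iff hm).2 (integrableOn_const hlt)
  refine (integral_mono_of_nonneg (Eventually.of_forall fun y => abs_nonneg _) hint
    (Eventually.of_forall fun y => ?_)).trans ?_
  · change |f y - A.indicator (fun _ => (1 : ℝ)) y| ≤ _
    by_cases h1 : y ∈ O \ K
    · rw [indicator_of_mem h1, abs_le]
      have := hf y
      by_cases h2 : y ∈ A
      · rw [indicator_of_mem h2]
        constructor <;> linarith [this.1, this.2]
      · rw [indicator_of_notMem h2]
        constructor <;> linarith [this.1, this.2]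
    · rw [indicator_of_notMem h1]
      by_cases h2 : y ∈ K
      · rw [indicator_of_mem (hKA h2), hf1 h2]
        simp
      · have h3 : y ∉ O := fun h => h1 ⟨h, h2⟩
        rw [indicator_of_notMem fun h => h3 (hAO h),
          hf0 fun h => h3 (hLO (interior_subset h)).1]
        simp
  · rw [integral_indicator hm, setIntegral_const, smul_eq_mul, mul_one]
    exact ENNReal.toReal_le_of_le_ofReal hη.le hμ

end Vale.Agent.P219.D
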