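import Vale.Agent.P219.StmD

open scoped ENNReal RealInnerProductSpace Topology
open MeasureTheory Set Filter Metric

namespace Vale.Agent.P219.D

theorem dens_of (hU : UnitS) (hL : LinS) (hN : NuS) (hC : ChgS) (hD : DiffS) : DensStmt := by
  intro n G Ω μ N hn hG hΩ hb hB
  obtain ⟨m, rfl⟩ : ∃ m, n = m + 1 := ⟨n - 1, by omega⟩
  obtain ⟨hw, hGG⟩ := hN _ G Ω μ N hG hΩ hb hB
  haveI := hGG.fin
  filter_upwards [hD _ μ (nu G N) hGG.fin hGG.int] with x hx ε hε
  obtain ⟨T, hT1, hT2, hT3⟩ := hL m G x (N x) hG (hB.unit x)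
  obtain ⟨ρ, δ, hρ, hδ, hu⟩ := hU m ε hε
  set a : ℝ := ‖(T : F m →L[ℝ] Eu (m + 1))‖ + 1 with ha
  set b : ℝ := ‖(T.symm : Eu (m + 1) →L[ℝ] F m)‖ + 1 with hb'
  have ha0 : 0 < a := by positivity
  have hb0 : 0 < b := by positivity
  have hTa : ∀ y, ‖T y‖ ≤ a * ‖y‖ := fun y =>
    ((T : F m →L[ℝ] Eu (m + 1)).le_opNorm y).trans
      (mul_le_mul_of_nonneg_right (by rw [ha]; linarith) (norm_nonneg _))
  have hTb : ∀ z, ‖T.symm z‖ ≤ b * ‖z‖ := fun z =>
    ((T.symm : Eu (m + 1) →L[ℝ] F m).le_opNorm z).trans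
      (mul_le_mul_of_nonneg_right (by rw [hb']; linarith) (norm_nonneg _))
  have hc := hw x
  refine ((hx (3 * a) (ρ / b) (δ / (wt G x * a)) (by positivity) (by positivity)
    (by positivity)).and_eventually self_mem_nhdsWithin).mono ?_
  rintro r ⟨⟨h1, h2⟩, hr⟩
  have hr : 0 < r := hr
  set g : Eu (m + 1) → F m := fun z => r⁻¹ • T.symm (z - x) with hg
  have hgc : Continuous g := by rw [hg]; fun_prop
  have hgi : ∀ z, x + r • T (g z) = z := fun z => by
    simp [hg, smul_smul, mul_inv_cancel₀ hr.ne']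
  have hGG' := hC m Ω μ (nu G N) x T (wt G x) r hGG hc hr hT3
  have hrm : 0 < r ^ m := by positivity
  have hreal : ∀ S : Set (F m), MeasurableSet S →
      (ENNReal.ofReal (r ^ m)⁻¹ • Measure.map g μ).real S = (r ^ m)⁻¹ * μ.real (g ⁻¹' S) := by
    intro S hS
    rw [measureReal_ennreal_smul_apply, ENNReal.toReal_ofReal (by positivity),
      map_measureReal_apply hgc.measurable hS]
  have hsub : ball x (ρ / b * r) ⊆ g ⁻¹' ball 0 ρ := by
    intro z hz
    rw [mem_ball_iff_norm] at hz
    rw [mem_preimage, mem_ball_zero_iff, hg]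
    simp only
    rw [norm_smul, norm_inv, Real.norm_of_nonneg hr.le, inv_mul_lt_iff₀ hr]
    calc ‖T.symm (z - x)‖ ≤ b * ‖z - x‖ := hTb _
      _ < b * (ρ / b * r) := mul_lt_mul_of_pos_left hz hb0
      _ = r * ρ := by field_simp
  have hM : μ.real (ball x (ρ / b * r)) ≤ μ.real (g ⁻¹' ball 0 ρ) := measureReal_mono hsub
  have hsub2 : g ⁻¹' ball 0 3 ⊆ closedBall x (3 * a * r) := by
    intro z hz
    rw [mem_preimage, mem_ball_zero_iff] at hz
    rw [mem_closedBall_iff_norm]
    have : z - x = r • T (g z) := by rw [sub_eq_iff_eq_add', hgi]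
    rw [this, norm_smul, Real.norm_of_nonneg hr.le]
    have h3 := hTa (g z)
    have h4 : a * ‖g z‖ ≤ a * 3 := mul_le_mul_of_nonneg_left hz.le ha0.le
    nlinarith
  have hnc : wt G x • (nu G N x).comp (T : F m →L[ℝ] Eu (m + 1)) = nc m := by
    refine ContinuousLinearMap.ext fun y => ?_
    simp only [nu, ContinuousLinearMap.smul_apply, ContinuousLinearMap.comp_apply,
      ContinuousLinearEquiv.coe_coe, smul_eq_mul, hT2]
    rw [← mul_assoc, mul_inv_cancel₀ hc.ne', one_mul]; rfl
  have hpt : ∀ z, ‖wt G x • (nu G N z).comp (T : F m →L[ℝ] Eu (m + 1)) - nc m‖ ≤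
      wt G x * a * ‖nu G N z - nu G N x‖ := fun z => by
    refine ContinuousLinearMap.opNorm_le_bound _ (by positivity) fun y => ?_
    have e : (wt G x • (nu G N z).comp (T : F m →L[ℝ] Eu (m + 1)) - nc m) y =
        wt G x * (nu G N z - nu G N x) (T y) := by
      rw [← hnc]
      simp only [ContinuousLinearMap.sub_apply, ContinuousLinearMap.smul_apply,
        ContinuousLinearMap.comp_apply, ContinuousLinearEquiv.coe_coe, smul_eq_mul]
      ring
    rw [e, norm_mul, Real.norm_of_nonneg hc.le]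
    have h3 := ((nu G N z - nu G N x).le_opNorm (T y)).trans
      (mul_le_mul_of_nonneg_left (hTa y) (norm_nonneg _))
    calc _ ≤ wt G x * (‖nu G N z - nu G N x‖ * (a * ‖y‖)) := mul_le_mul_of_nonneg_left h3 hc.le
      _ = _ := by ring
  have hI : Integrable (fun z => ‖nu G N z - nu G N x‖) μ :=
    (hGG.int.sub (integrable_const _)).norm
  haveI := hGG'.fin
  have hI' := (hGG'.int.sub (integrable_const (nc m))).norm
  have key := hu _ _ _ hGG' (by
    rw [hreal _ measurableSet_ball]; exact mul_pos (inv_pos.2 hrm) (h1.trans_le hM)) (by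
    have hI2 := (integrable_smul_measure (by simpa using hrm) ENNReal.ofReal_ne_top).1 hI'
    rw [hreal _ measurableSet_ball, Measure.restrict_smul, integral_smul_measure,
      ENNReal.toReal_ofReal (by positivity), smul_eq_mul, mul_left_comm,
      setIntegral_map (f := fun y => ‖wt G x • (nu G N (x + r • T y)).comp
        (T : F m →L[ℝ] Eu (m + 1)) - nc m‖) measurableSet_ball hI2.aestronglyMeasurable
        hgc.measurable.aemeasurable]
    refine mul_le_mul_of_nonneg_left ?_ (by positivity)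
    calc _ ≤ ∫ z in g ⁻¹' ball 0 3, wt G x * a * ‖nu G N z - nu G N x‖ ∂μ := by
          refine integral_mono_of_nonneg (Eventually.of_forall fun _ => norm_nonneg _)
            (hI.const_mul _).integrableOn (Eventually.of_forall fun z => ?_)
          have := hpt (x + r • T (g z))
          conv_rhs at this => rw [hgi]
          exact this
      _ ≤ ∫ z in closedBall x (3 * a * r), wt G x * a * ‖nu G N z - nu G N x‖ ∂μ :=
          setIntegral_mono_set (hI.const_mul _).integrableOn
            (Eventually.of_forall fun z => by positivity) hsub2.eventuallyLE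
      _ = wt G x * a * ∫ z in closedBall x (3 * a * r), ‖nu G N z - nu G N x‖ ∂μ :=
          integral_const_mul _ _
      _ ≤ wt G x * a * (δ / (wt G x * a) * μ.real (ball x (ρ / b * r))) :=
          mul_le_mul_of_nonneg_left h2 (by positivity)
      _ = δ * μ.real (ball x (ρ / b * r)) := by field_simp
      _ ≤ _ := mul_le_mul_of_nonneg_left hM hδ.le)
  rw [hreal _ (measurableSet_le (by fun_prop) measurable_const)] at key
  have hset : g ⁻¹' {y : F m | y.1 ^ 2 + ‖y.2‖ ^ 2 ≤ 1} =
      {y | G x (y - x) (y - x) ≤ r ^ 2} := by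
    ext z
    have : z - x = r • T (g z) := by rw [sub_eq_iff_eq_add', hgi]
    rw [mem_preimage, mem_setOf_eq, mem_setOf_eq, this]
    simp only [map_smul, ContinuousLinearMap.smul_apply, smul_eq_mul, hT1]
    constructor
    · intro h; nlinarith [mul_pos hr hr]
    · intro h; nlinarith [mul_pos hr hr]
  rw [hset, le_inv_mul_iff₀ hrm] at key
  simp only [Nat.add_sub_cancel]
  linarith

end Vale.Agent.P219.D
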