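import Vale.Agent.P219.StmD

open scoped ENNReal RealInnerProductSpace Topology
open MeasureTheory Set Filter Metric

namespace Vale.Agent.P219.D

namespace ChgX

variable {m : ℕ}

/-- The affine change of variables as a homeomorphism. -/
noncomputable def aff (x : Eu (m + 1)) (T : F m ≃L[ℝ] Eu (m + 1)) {r : ℝ} (hr : 0 < r) :
    F m ≃ₜ Eu (m + 1) where
  toFun y := x + r • T y
  invFun z := r⁻¹ • T.symm (z - x)
  left_inv y := by
    simp [smul_smul, inv_mul_cancel₀ hr.ne']
  right_inv z := by
    simp [smul_smul, mul_inv_cancel₀ hr.ne']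
  continuous_toFun := by fun_prop
  continuous_invFun := by fun_prop

theorem map_aff (x : Eu (m + 1)) (T : F m ≃L[ℝ] Eu (m + 1)) {c r : ℝ} (hc : 0 < c) (hr : 0 < r)
    (hT : Measure.map T volume = ENNReal.ofReal c • (volume : Measure (Eu (m + 1)))) :
    Measure.map (fun y : F m => x + r • T y) volume =
      ENNReal.ofReal (c * (r ^ (m + 1))⁻¹) • (volume : Measure (Eu (m + 1))) := by
  have h1 : (fun y : F m => x + r • T y) =
      (fun z : Eu (m + 1) => x + z) ∘ (fun z : Eu (m + 1) => r • z) ∘ T := rfl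
  have m1 : Measurable fun z : Eu (m + 1) => x + z := by fun_prop
  have m2 : Measurable fun z : Eu (m + 1) => r • z := by fun_prop
  have m3 : Measurable T := T.continuous.measurable
  rw [h1, ← Measure.map_map m1 (m2.comp m3), ← Measure.map_map m2 m3, hT, Measure.map_smul,
    Measure.map_addHaar_smul volume hr.ne', Measure.map_smul, Measure.map_smul,
    map_add_left_eq_self, smul_smul, finrank_euclideanSpace_fin,
    abs_of_pos (inv_pos.2 (pow_pos hr _)), ← ENNReal.ofReal_mul hc.le]

theorem fderiv_comp_aff (x : Eu (m + 1)) (T : F m ≃L[ℝ] Eu (m + 1)) {r : ℝ} (hr : 0 < r)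
    {φ : F m → ℝ} (hφ : ContDiff ℝ 1 φ) (y v : F m) :
    fderiv ℝ (fun z => φ (r⁻¹ • T.symm (z - x))) (x + r • T y) (r • T v) = fderiv ℝ φ y v := by
  have h0 : r⁻¹ • T.symm (x + r • T y - x) = y := (aff x T hr).left_inv y
  have h1 : HasFDerivAt (fun z : Eu (m + 1) => r⁻¹ • T.symm (z - x))
      (r⁻¹ • (T.symm : Eu (m + 1) →L[ℝ] F m)) (x + r • T y) := by
    have h2 : HasFDerivAt (fun z : Eu (m + 1) => z - x) (ContinuousLinearMap.id ℝ _)
        (x + r • T y) := (hasFDerivAt_id _).sub_const x
    have h3 := ((T.symm : Eu (m + 1) →L[ℝ] F m).hasFDerivAt.comp (x + r • T y) h2).const_smul r⁻¹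
    rw [ContinuousLinearMap.comp_id] at h3
    exact h3
  have h4 : HasFDerivAt φ (fderiv ℝ φ y) (r⁻¹ • T.symm (x + r • T y - x)) := by
    rw [h0]
    exact (hφ.differentiable one_ne_zero y).hasFDerivAt
  have h5 := (h4.comp (x + r • T y) h1).fderiv
  have h6 : (fun z => φ (r⁻¹ • T.symm (z - x))) =
      φ ∘ fun z : Eu (m + 1) => r⁻¹ • T.symm (z - x) := rfl
  rw [h6, h5]
  simp only [ContinuousLinearMap.comp_apply, ContinuousLinearMap.smul_apply, map_smul,
    ContinuousLinearEquiv.coe_coe, ContinuousLinearEquiv.symm_apply_apply, smul_eq_mul]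
  field_simp

end ChgX

open ChgX in
theorem chg_pf : ChgS := by
  intro m Ω μ β x T c r hG hc hr hT
  have hfin := hG.fin
  let e : F m ≃ᵐ Eu (m + 1) := (aff x T hr).toMeasurableEquiv
  have he : ∀ y, e y = x + r • T y := fun _ => rfl
  have hes : ∀ z, e.symm z = r⁻¹ • T.symm (z - x) := fun _ => rfl
  have hfun : (fun z => r⁻¹ • T.symm (z - x)) = e.symm := rfl
  have hback : ∀ z, x + r • T (r⁻¹ • T.symm (z - x)) = z := fun z => (aff x T hr).right_inv z
  refine ⟨e.measurable hG.meas, ?_, ?_, ?_⟩
  · exact Measure.smul_finite _ ENNReal.ofReal_ne_top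
  · have h1 : Integrable (fun z => c • (β z).comp (T : F m →L[ℝ] Eu (m + 1))) μ := by
      refine Integrable.smul c ?_
      exact ((ContinuousLinearMap.compL ℝ (F m) (Eu (m + 1)) ℝ).flip
        (T : F m →L[ℝ] Eu (m + 1))).integrable_comp hG.int
    have h2 : Integrable (fun y => c • (β (x + r • T y)).comp (T : F m →L[ℝ] Eu (m + 1)))
        (Measure.map e.symm μ) := by
      rw [integrable_map_equiv]
      refine h1.congr (Eventually.of_forall fun z => ?_)
      simp only [Function.comp_apply, hes, hback]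
    exact ⟨h2.1.smul_measure _, h2.2.smul_measure ENNReal.ofReal_ne_top⟩
  · intro φ hφ hs v
    have hφ' : ContDiff ℝ 1 fun z : Eu (m + 1) => φ (r⁻¹ • T.symm (z - x)) := by
      refine hφ.comp ?_
      exact ((T.symm : Eu (m + 1) →L[ℝ] F m).contDiff.comp
        (contDiff_id.sub contDiff_const)).const_smul r⁻¹
    have hs' : HasCompactSupport fun z : Eu (m + 1) => φ (r⁻¹ • T.symm (z - x)) :=
      hs.comp_homeomorph (aff x T hr).symm
    have hg := hG.gauss _ hφ' hs' (r • T v)
    have h1 := setIntegral_map_equiv (μ := (volume : Measure (F m))) e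
      (fun z => fderiv ℝ (fun z => φ (r⁻¹ • T.symm (z - x))) z (r • T v)) Ω
    have h2 : Measure.map e (volume : Measure (F m)) =
        ENNReal.ofReal (c * (r ^ (m + 1))⁻¹) • (volume : Measure (Eu (m + 1))) :=
      map_aff x T hc hr hT
    rw [h2, Measure.restrict_smul, integral_smul_measure, hg,
      ENNReal.toReal_ofReal (by positivity)] at h1
    have h3 : ∫ y in {y : F m | x + r • T y ∈ Ω}, fderiv ℝ φ y v =
        ∫ y in e ⁻¹' Ω, fderiv ℝ (fun z => φ (r⁻¹ • T.symm (z - x))) (e y) (r • T v) := by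
      refine integral_congr_ae (Eventually.of_forall fun y => ?_)
      exact (fderiv_comp_aff x T hr hφ y v).symm
    rw [h3, ← h1, integral_smul_measure, hfun, integral_map_equiv,
      ENNReal.toReal_ofReal (by positivity), ← integral_smul, ← integral_smul]
    refine integral_congr_ae (Eventually.of_forall fun z => ?_)
    simp only [hes, hback]
    simp only [smul_eq_mul, map_smul, ContinuousLinearMap.smul_apply,
      ContinuousLinearMap.comp_apply, ContinuousLinearEquiv.coe_coe]
    field_simp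
    ring

end Vale.Agent.P219.D
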