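import Vale.Agent.P219.StmD

open scoped ENNReal RealInnerProductSpace Topology
open MeasureTheory Set Filter Metric

namespace Vale.Agent.P219.D

namespace DiffX

theorem dbl (Fn : ℝ → ℝ) (n : ℕ) {c l : ℝ} (hc : 0 < c) (hl : 0 < l) (hl1 : l < 1)
    (h : ∀ᶠ r in 𝓝[>] (0 : ℝ), c * r ^ n ≤ Fn r) :
    ∃ᶠ R in 𝓝[>] (0 : ℝ), l ^ (n + 1) * Fn R ≤ Fn (l * R) := by
  intro hcon
  obtain ⟨r0, hr0, H⟩ := mem_nhdsGT_iff_exists_Ioo_subset.1 (h.and hcon)
  have hr : (0 : ℝ) < r0 := hr0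
  have hm : ∀ k : ℕ, l ^ k * (r0 / 2) ∈ Ioo 0 r0 := fun k => by
    have a : l ^ k ≤ 1 := pow_le_one₀ hl.le hl1.le
    have b : 0 < l ^ k := pow_pos hl k
    constructor
    · positivity
    · nlinarith
  have hi : ∀ k : ℕ, Fn (l ^ k * (r0 / 2)) ≤ (l ^ (n + 1)) ^ k * Fn (r0 / 2) := by
    intro k
    induction k with
    | zero => simp
    | succ k ih =>
      have a := not_le.1 (H (hm k)).2
      rw [← mul_assoc, ← pow_succ'] at a
      calc _ ≤ l ^ (n + 1) * Fn (l ^ k * (r0 / 2)) := a.le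
        _ ≤ l ^ (n + 1) * ((l ^ (n + 1)) ^ k * Fn (r0 / 2)) := by gcongr
        _ = _ := by ring
  have hk : ∀ k : ℕ, c * (r0 / 2) ^ n ≤ l ^ k * Fn (r0 / 2) := fun k => by
    have a := (H (hm k)).1.trans (hi k)
    have b : 0 < (l ^ k) ^ n := by positivity
    refine le_of_mul_le_mul_left ?_ b
    calc _ = c * (l ^ k * (r0 / 2)) ^ n := by ring
      _ ≤ _ := a
      _ = _ := by ring
  have ht : Tendsto (fun k : ℕ => l ^ k * Fn (r0 / 2)) atTop (𝓝 (0 * Fn (r0 / 2))) :=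
    (tendsto_pow_atTop_nhds_zero_of_lt_one hl.le hl1).mul_const _
  have := ge_of_tendsto' ht hk
  have p : 0 < c * (r0 / 2) ^ n := by positivity
  linarith

theorem low {n : ℕ} (μ : Measure (Eu n)) [IsFiniteMeasure μ] :
    ∀ᵐ x ∂μ, ∃ c : ℝ, 0 < c ∧ ∀ᶠ r in 𝓝[>] (0 : ℝ), c * r ^ n ≤ μ.real (closedBall x r) := by
  filter_upwards [Besicovitch.ae_tendsto_rnDeriv (volume : Measure (Eu n)) μ,
    Measure.rnDeriv_lt_top (volume : Measure (Eu n)) μ] with x h1 h2
  obtain ⟨C, hC1, hC2⟩ := ENNReal.lt_iff_exists_nnreal_btwn.1 h2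
  have hC : (0 : ℝ) < C := by
    have : (0 : ℝ≥0∞) < C := lt_of_le_of_lt zero_le hC1
    exact_mod_cast this
  have hv : 0 < (volume : Measure (Eu n)).real (ball 0 1) :=
    ENNReal.toReal_pos (measure_ball_pos _ _ one_pos).ne' measure_ball_lt_top.ne
  refine ⟨(volume : Measure (Eu n)).real (ball 0 1) / C, by positivity, ?_⟩
  filter_upwards [h1.eventually (gt_mem_nhds hC1), self_mem_nhdsWithin] with r h hr
  have hr : (0 : ℝ) < r := hr
  have a : volume (closedBall x r) ≤ C * μ (closedBall x r) :=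
    (ENNReal.div_le_iff_le_mul (Or.inr ENNReal.coe_ne_top) (Or.inl (measure_ne_top _ _))).1 h.le
  have b := ENNReal.toReal_mono (ENNReal.mul_ne_top ENNReal.coe_ne_top (measure_ne_top _ _)) a
  rw [ENNReal.toReal_mul, ENNReal.coe_toReal, ← measureReal_def, ← measureReal_def,
    Measure.addHaar_real_closedBall _ _ hr.le, finrank_euclideanSpace_fin] at b
  rw [div_mul_eq_mul_div, div_le_iff₀ hC]
  linarith

end DiffX

open DiffX in
theorem diff_pf : DiffS := by
  intro n μ f hμ hf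
  filter_upwards [low μ, (Besicovitch.vitaliFamily μ).ae_tendsto_average_norm_sub
    hf.locallyIntegrable] with x ⟨c, hc, h1⟩ h2 K ρ δ hK hρ hδ
  have h3 := h2.comp (Besicovitch.tendsto_filterAt μ x)
  obtain ⟨l, hl, hl1, hl2⟩ : ∃ l : ℝ, 0 < l ∧ l < 1 ∧ l * K < ρ := by
    refine ⟨min (1 / 2) (ρ / (2 * K)), by positivity, (min_le_left _ _).trans_lt (by norm_num), ?_⟩
    calc _ ≤ ρ / (2 * K) * K := by gcongr; exact min_le_right _ _
      _ = ρ / 2 := by field_simp
      _ < ρ := by linarith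
  have tl : ∀ a : ℝ, 0 < a → Tendsto (fun r => a * r) (𝓝[>] (0 : ℝ)) (𝓝[>] 0) := fun a ha => by
    refine tendsto_nhdsWithin_iff.2 ⟨?_, ?_⟩
    · have : Tendsto (fun r => a * r) (𝓝 (0 : ℝ)) (𝓝 (a * 0)) :=
        (continuous_const.mul continuous_id).tendsto 0
      rw [mul_zero] at this
      exact this.mono_left nhdsWithin_le_nhds
    · filter_upwards [self_mem_nhdsWithin] with r hr using mul_pos ha hr
  have h4 := (dbl (fun r => μ.real (closedBall x r)) n hc hl hl1 h1).and_eventually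
    ((h3.eventually (gt_mem_nhds (show 0 < δ * l ^ (n + 1) by positivity))).and
      (((tl l hl).eventually h1).and self_mem_nhdsWithin))
  refine (tl K⁻¹ (inv_pos.2 hK)).frequently_map _ (fun R h => ?_) h4
  obtain ⟨a1, a2, a3, hR⟩ := h
  have hR : 0 < R := hR
  have hsub : closedBall x (l * R) ⊆ ball x (ρ * (K⁻¹ * R)) := by
    refine closedBall_subset_ball ?_
    rw [← mul_assoc]
    refine mul_lt_mul_of_pos_right ?_ hR
    rwa [← div_eq_mul_inv, lt_div_iff₀ hK]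
  have b1 : μ.real (closedBall x (l * R)) ≤ μ.real (ball x (ρ * (K⁻¹ * R))) :=
    measureReal_mono hsub
  have b2 : 0 < μ.real (closedBall x (l * R)) := lt_of_lt_of_le (by positivity) a3
  refine ⟨b2.trans_le b1, ?_⟩
  rw [mul_inv_cancel_left₀ hK.ne']
  have b3 : 0 < μ.real (closedBall x R) := b2.trans_le
    (measureReal_mono (closedBall_subset_closedBall (by nlinarith)))
  simp only [Function.comp_apply, setAverage_eq, smul_eq_mul] at a2
  rw [inv_mul_lt_iff₀ b3] at a2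
  calc _ ≤ δ * (l ^ (n + 1) * μ.real (closedBall x R)) := by linarith
    _ ≤ _ := mul_le_mul_of_nonneg_left (a1.trans b1) hδ.le

end Vale.Agent.P219.D
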