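import Vale.Agent.P219.Base

/-! The Riemannian density is smooth and positive; coercivity on compact sets. -/

open scoped ContDiff RealInnerProductSpace Topology
open MeasureTheory Set Filter

namespace Vale.Agent.P219

variable {n : ℕ} {G : Met n}

theorem sum_ee (u : Eu n) : ∑ i, u i • ee i = u := by
  simpa only [EuclideanSpace.basisFun_repr, EuclideanSpace.basisFun_apply] using
    (EuclideanSpace.basisFun (Fin n) ℝ).sum_repr u

theorem bil_eq_sum (B : Eu n →L[ℝ] Eu n →L[ℝ] ℝ) (u v : Eu n) :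
    B u v = ∑ i, ∑ j, u i * (B (ee i) (ee j) * v j) := by
  conv_lhs => rw [← sum_ee u, ← sum_ee v]
  simp only [map_sum, map_smul, sum_apply, smul_apply, smul_eq_mul, Finset.mul_sum]
  rw [Finset.sum_comm]
  exact Finset.sum_congr rfl fun i _ => Finset.sum_congr rfl fun j _ => by ring

theorem Rm.posDef (h : Rm G) (x : Eu n) :
    (Matrix.of fun i j => G x (ee i) (ee j)).PosDef := by
  refine Matrix.PosDef.of_dotProduct_mulVec_pos ?_ fun v hv => ?_
  · ext i j
    simp only [Matrix.conjTranspose_apply, Matrix.of_apply, star_trivial]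
    exact h.symm x _ _
  · have h1 := h.pos x (WithLp.toLp 2 v) (by simpa using hv)
    rw [bil_eq_sum] at h1
    simpa only [dotProduct, Matrix.mulVec, Matrix.of_apply, star_trivial, Finset.mul_sum] using h1

theorem Rm.det_pos (h : Rm G) (x : Eu n) :
    0 < (Matrix.of fun i j => G x (ee i) (ee j)).det := (h.posDef x).det_pos

theorem Rm.wt_pos (h : Rm G) (x : Eu n) : 0 < wt G x := Real.sqrt_pos.2 (h.det_pos x)

theorem Rm.det_smooth (h : Rm G) :
    ContDiff ℝ ∞ fun x => (Matrix.of fun i j => G x (ee i) (ee j)).det := by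
  simp only [Matrix.det_apply', Matrix.of_apply]
  exact ContDiff.sum fun σ _ => contDiff_const.mul (contDiff_prod fun i _ =>
    (h.smooth.clm_apply contDiff_const).clm_apply contDiff_const)

theorem Rm.wt_smooth (h : Rm G) : ContDiff ℝ ∞ (wt G) :=
  h.det_smooth.sqrt fun x => (h.det_pos x).ne'

theorem Rm.wt_cont (h : Rm G) : Continuous (wt G) := h.wt_smooth.continuous

theorem Rm.nonneg (h : Rm G) (x v : Eu n) : 0 ≤ G x v v := by
  by_cases hv : v = 0
  · simp [hv]
  · exact (h.pos x v hv).le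

theorem Rm.coercive (h : Rm G) {K : Set (Eu n)} (hK : IsCompact K) :
    ∃ c > 0, ∀ x ∈ K, ∀ v, c * ‖v‖ ^ 2 ≤ G x v v := by
  have hc : Continuous fun p : Eu n × Eu n => G p.1 p.2 p.2 :=
    ((h.smooth.continuous.comp continuous_fst).clm_apply continuous_snd).clm_apply continuous_snd
  obtain ⟨c, hc0, hc1⟩ := (hK.prod (isCompact_sphere (0 : Eu n) 1)).exists_forall_le'
    hc.continuousOn (a := 0) fun p hp => h.pos _ _ (by
      rintro h0
      simpa [h0] using hp.2)
  refine ⟨c, hc0, fun x hx v => ?_⟩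
  by_cases hv : v = 0
  · simp [hv]
  have h0 : 0 < ‖v‖ := norm_pos_iff.2 hv
  have h1 := hc1 (x, ‖v‖⁻¹ • v) ⟨hx, by simpa using norm_smul_inv_norm (𝕜 := ℝ) hv⟩
  simp only [map_smul, smul_apply, smul_eq_mul] at h1
  have h2 : G x v v = ‖v‖ ^ 2 * (‖v‖⁻¹ * (‖v‖⁻¹ * G x v v)) := by field_simp
  rw [h2, mul_comm]
  exact mul_le_mul_of_nonneg_left h1 (sq_nonneg _)

/-- upper bound of the metric on a compact set -/
theorem Rm.upper (h : Rm G) {K : Set (Eu n)} (hK : IsCompact K) :
    ∃ C > 0, ∀ x ∈ K, ∀ u v, |G x u v| ≤ C * ‖u‖ * ‖v‖ := by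
  have hc : Continuous fun x => ‖G x‖ :=
    (continuous_norm (E := Eu n →L[ℝ] Eu n →L[ℝ] ℝ)).comp h.smooth.continuous
  obtain ⟨C, hC⟩ := hK.bddAbove_image hc.continuousOn
  refine ⟨max C 1, lt_max_of_lt_right one_pos, fun x hx u v => ?_⟩
  refine ((G x).le_opNorm₂ u v).trans ?_
  gcongr
  exact (hC ⟨x, hx, rfl⟩).trans (le_max_left _ _)

end Vale.Agent.P219
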