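import Vale.Agent.P219.StmD
import Vale.Agent.P219.Wt

open scoped ENNReal RealInnerProductSpace Topology
open MeasureTheory Set Filter Metric

namespace Vale.Agent.P219.D

namespace LinX

variable {m n : ℕ}

/-- Splitting off the first coordinate. -/
noncomputable def sL (m : ℕ) : F m ≃ₗ[ℝ] Eu (m + 1) where
  toFun y := WithLp.toLp 2 (Fin.cons y.1 (WithLp.ofLp y.2) : Fin (m + 1) → ℝ)
  invFun z := (z 0, WithLp.toLp 2 fun i => z i.succ)
  map_add' y z := by
    ext i
    refine Fin.cases ?_ (fun j => ?_) i <;> simp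
  map_smul' c y := by
    ext i
    refine Fin.cases ?_ (fun j => ?_) i <;> simp
  left_inv y := by
    ext <;> simp
  right_inv z := by
    ext i
    refine Fin.cases ?_ (fun j => ?_) i <;> simp

theorem sL_zero (y : F m) : sL m y 0 = y.1 := by simp [sL]

theorem sL_succ (y : F m) (i : Fin m) : sL m y i.succ = y.2 i := by simp [sL]

theorem sL_norm (y : F m) : ‖sL m y‖ ^ 2 = y.1 ^ 2 + ‖y.2‖ ^ 2 := by
  rw [EuclideanSpace.real_norm_sq_eq, EuclideanSpace.real_norm_sq_eq, Fin.sum_univ_succ, sL_zero]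
  simp only [sL_succ]

theorem sL_mp (m : ℕ) : MeasurePreserving (sL m) volume volume := by
  have h1 := (volume_preserving_piFinSuccAbove (fun _ : Fin (m + 1) => ℝ) 0).symm
  have h2 : MeasurePreserving (Prod.map id (@WithLp.ofLp 2 (Fin m → ℝ)) :
      ℝ × Eu m → ℝ × (Fin m → ℝ)) volume volume :=
    (MeasurePreserving.id volume).prod (PiLp.volume_preserving_ofLp (Fin m))
  have h3 := (PiLp.volume_preserving_toLp (Fin (m + 1))).comp (h1.comp h2)
  have h4 : (sL m : F m → Eu (m + 1)) = WithLp.toLp 2 ∘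
      (MeasurableEquiv.piFinSuccAbove (fun _ : Fin (m + 1) => ℝ) 0).symm ∘
        Prod.map id WithLp.ofLp := by
    funext y
    ext i
    refine Fin.cases ?_ (fun j => ?_) i
    · simp [sL_zero, MeasurableEquiv.piFinSuccAbove, Fin.insertNthEquiv]
    · simp [sL_succ, MeasurableEquiv.piFinSuccAbove, Fin.insertNthEquiv]
  rw [h4]
  exact h3

theorem det_frame (B : Eu n →L[ℝ] Eu n →L[ℝ] ℝ) (A : Eu n →ₗ[ℝ] Eu n)
    (h : ∀ u v, B (A u) (A v) = ⟪u, v⟫) :
    LinearMap.det A ^ 2 * (Matrix.of fun i j => B (ee i) (ee j)).det = 1 := by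
  classical
  set b := (EuclideanSpace.basisFun (Fin n) ℝ).toBasis
  set M := LinearMap.toMatrix b b A with hM
  have hMa : ∀ i j, M i j = A (ee j) i := by
    intro i j
    simp [hM, b, LinearMap.toMatrix_apply]
  have h1 : M.transpose * (Matrix.of fun i j => B (ee i) (ee j)) * M = 1 := by
    ext i j
    have h2 := h (ee i) (ee j)
    rw [bil_eq_sum] at h2
    rw [Matrix.mul_assoc]
    simp only [Matrix.mul_apply, Matrix.transpose_apply, Matrix.of_apply, hMa, Finset.mul_sum]
    rw [h2]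
    simp [Matrix.one_apply, EuclideanSpace.inner_single_left, PiLp.single_apply]
  have h2 := congrArg Matrix.det h1
  rw [Matrix.det_mul, Matrix.det_mul, Matrix.det_transpose, Matrix.det_one, hM,
    LinearMap.det_toMatrix] at h2
  rw [← h2]
  ring

end LinX

open LinX in
theorem lin_pf (hF : FrameStmt) : LinS := by
  intro m G x N hG hN
  obtain ⟨A, hA⟩ := hF _ G hG
  have hinj : Function.Injective (A x : Eu (m + 1) →ₗ[ℝ] Eu (m + 1)) := by
    rw [injective_iff_map_eq_zero]
    intro u hu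
    have h1 := hA.iso x u u
    have h2 : A x u = 0 := hu
    rw [h2] at h1
    simpa using h1.symm
  obtain ⟨n0, hn0⟩ := LinearMap.surjective_of_injective hinj N
  have hn0' : A x n0 = N := hn0
  have hnorm : ‖(ee 0 : Eu (m + 1))‖ = ‖n0‖ := by
    have h1 := hA.iso x n0 n0
    rw [hn0', hN, real_inner_self_eq_norm_sq] at h1
    have h2 : ‖n0‖ = 1 := by nlinarith [norm_nonneg n0]
    simp [h2]
  set R : Eu (m + 1) ≃ₗᵢ[ℝ] Eu (m + 1) := Submodule.reflection (ℝ ∙ (ee 0 - n0))ᗮ with hR
  have hR0 : R (ee 0) = n0 := Submodule.reflection_sub hnorm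
  set Ae : Eu (m + 1) ≃ₗ[ℝ] Eu (m + 1) := LinearEquiv.ofInjectiveEndo _ hinj with hAe
  have hAe' : ∀ u, Ae u = A x u := fun u => rfl
  set T : F m ≃ₗ[ℝ] Eu (m + 1) := (sL m).trans (R.toLinearEquiv.trans Ae) with hT
  have hT' : ∀ y, T y = A x (R (sL m y)) := fun y => rfl
  refine ⟨T.toContinuousLinearEquiv, fun y => ?_, fun y => ?_, ?_⟩
  · change G x (T y) (T y) = _
    rw [hT', hA.iso, real_inner_self_eq_norm_sq, R.norm_map, sL_norm]
  · change G x N (T y) = _
    rw [hT', ← hn0', hA.iso, ← hR0, R.inner_map_map, EuclideanSpace.inner_single_left, sL_zero]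
    simp
  · have hd := det_frame (G x) (A x : Eu (m + 1) →ₗ[ℝ] Eu (m + 1)) (hA.iso x)
    have hd0 : LinearMap.det (A x : Eu (m + 1) →ₗ[ℝ] Eu (m + 1)) ≠ 0 := by
      intro h0
      rw [h0] at hd
      simp at hd
    have hw : wt G x = |(LinearMap.det (A x : Eu (m + 1) →ₗ[ℝ] Eu (m + 1)))⁻¹| := by
      rw [wt, ← Real.sqrt_sq_eq_abs]
      congr 1
      field_simp
      exact (mul_comm _ _).trans hd
    have h1 : (T.toContinuousLinearEquiv : F m → Eu (m + 1)) =
        A x ∘ (R ∘ sL m) := rfl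
    have h2 : MeasurePreserving (R ∘ sL m) volume volume := R.measurePreserving.comp (sL_mp m)
    rw [h1, ← Measure.map_map (A x).continuous.measurable h2.measurable, h2.map_eq, hw]
    exact Measure.map_linearMap_addHaar_eq_smul_addHaar volume hd0

end Vale.Agent.P219.D
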