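import Vale.Agent.P219.StmD

open scoped ENNReal RealInnerProductSpace Topology
open MeasureTheory Set Filter Metric

namespace Vale.Agent.P219.D

namespace NuX

variable {n : ℕ}

theorem expand (u : Eu n) : u = ∑ i, u i • (ee i : Eu n) := by
  ext j
  simp [ee, Finset.sum_apply, Pi.single_apply]

theorem det_pos {G : Met n} (h : Rm G) (x : Eu n) :
    0 < (Matrix.of fun i j => G x (EuclideanSpace.single i 1) (EuclideanSpace.single j 1)).det := by
  apply Matrix.PosDef.det_pos
  rw [Matrix.posDef_iff_dotProduct_mulVec]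
  refine ⟨?_, fun v hv => ?_⟩
  · ext i j
    simp [h.symm x (EuclideanSpace.single j 1)]
  · have hu : (WithLp.toLp 2 v : Eu n) ≠ 0 := fun h0 => hv (by simpa using congrArg WithLp.ofLp h0)
    have := h.pos x _ hu
    rw [expand (WithLp.toLp 2 v : Eu n)] at this
    simp only [map_sum, map_smul, ContinuousLinearMap.sum_apply, ContinuousLinearMap.smul_apply,
      smul_eq_mul] at this
    simp only [dotProduct, Matrix.mulVec, Matrix.of_apply, star_trivial]
    refine this.trans_eq ?_
    refine Finset.sum_congr rfl fun i _ => ?_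
    congr 1
    refine Finset.sum_congr rfl fun j _ => ?_
    rw [mul_comm, h.symm]

theorem wt_pos {G : Met n} (h : Rm G) (x : Eu n) : 0 < wt G x :=
  Real.sqrt_pos.2 (det_pos h x)

theorem wt_smooth {G : Met n} (h : Rm G) : ContDiff ℝ 1 (wt G) := by
  have hG : ContDiff ℝ 1 G := h.smooth.of_le (by exact_mod_cast le_top)
  refine ContDiff.sqrt ?_ fun x => (det_pos h x).ne'
  simp only [Matrix.det_apply', Matrix.of_apply]
  refine ContDiff.sum fun s _ => contDiff_const.mul ?_
  refine contDiff_prod fun i _ => ?_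
  exact (hG.clm_apply contDiff_const).clm_apply contDiff_const

theorem norm_le {G : Met n} (h : Rm G) (z N : Eu n) (hN : G z N N = 1) :
    ‖G z N‖ ≤ ‖G z‖ + 1 := by
  refine ContinuousLinearMap.opNorm_le_bound _ (by positivity) fun u => ?_
  have h0 : ∀ w, 0 ≤ G z w w := fun w => by
    by_cases hw : w = 0
    · simp [hw]
    · exact (h.pos z w hw).le
  have h1 := h0 (u - G z N u • N)
  simp only [map_sub, map_smul, ContinuousLinearMap.sub_apply, ContinuousLinearMap.smul_apply,
    smul_eq_mul, hN, h.symm z u N] at h1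
  have h2 : G z u u ≤ ‖G z‖ * ‖u‖ * ‖u‖ :=
    (le_abs_self _).trans ((G z).le_opNorm₂ u u)
  rw [Real.norm_eq_abs]
  refine abs_le_of_sq_le_sq' ?_ (by positivity) |> abs_le.2
  have h3 : 0 ≤ ‖G z‖ := (G z).opNorm_nonneg
  nlinarith [mul_nonneg h3 (sq_nonneg ‖u‖), sq_nonneg (‖G z‖ * ‖u‖), sq_nonneg ‖u‖]

end NuX

open NuX in
theorem nu_pf : NuS := by
  intro n G Ω μ N hG hΩ hb hB
  have hw := wt_pos hG
  have hwi : ContDiff ℝ 1 fun x => (wt G x)⁻¹ := (wt_smooth hG).inv fun x => (hw x).ne'
  have := hB.fin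
  refine ⟨hw, hΩ, hB.fin, ?_, ?_⟩
  · have hc : Continuous fun p : Eu n × Eu n => (wt G p.1)⁻¹ • G p.1 p.2 :=
      (hwi.continuous.comp continuous_fst).smul
        ((hG.smooth.continuous.comp continuous_fst).clm_apply continuous_snd)
    have hp : AEStronglyMeasurable (fun z => (z, N z)) μ :=
      aestronglyMeasurable_id.prodMk hB.meas.aestronglyMeasurable
    have hm : AEStronglyMeasurable (nu G N) μ := by
      have := hc.comp_aestronglyMeasurable hp
      exact this
    have hn : Continuous fun z => ‖G z‖ := by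
      have := (continuous_norm (E := Eu n →L[ℝ] Eu n →L[ℝ] ℝ)).comp hG.smooth.continuous
      exact this
    obtain ⟨C, hC⟩ := hb.isCompact_closure.exists_bound_of_continuousOn
      (f := fun z => (wt G z)⁻¹ * (‖G z‖ + 1))
      (hwi.continuous.mul (hn.add continuous_const)).continuousOn
    refine Integrable.of_bound hm C ?_
    have hs : ∀ᵐ z ∂μ, z ∈ closure Ω := hB.supp
    filter_upwards [hs] with z hz
    refine le_trans ?_ ((le_abs_self _).trans (hC z hz))
    rw [nu, norm_smul, Real.norm_eq_abs, abs_of_pos (inv_pos.2 (hw z))]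
    exact mul_le_mul_of_nonneg_left (norm_le hG z _ (hB.unit z)) (inv_pos.2 (hw z)).le
  · intro φ hφ hs v
    have h1 := hB.gauss (fun y => (φ y * (wt G y)⁻¹) • v) ((hφ.mul hwi).smul contDiff_const)
      (hs.mul_right.smul_right (f' := fun _ => v))
    have h2 : (fun y => wt G y • (φ y * (wt G y)⁻¹) • v) = fun y => φ y • v := by
      ext1 y
      rw [smul_smul]
      congr 1
      field_simp [(hw y).ne']
    have h3 : ∀ x, dvg (fun y => φ y • v) x = fderiv ℝ φ x v := by
      intro x
      have hd : HasFDerivAt (fun y => φ y • v) ((fderiv ℝ φ x).smulRight v) x :=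
        ((hφ.differentiable one_ne_zero) x).hasFDerivAt.smul_const v
      rw [dvg, hd.fderiv]
      conv_rhs => rw [expand v]
      simp [mul_comm]
    rw [flux, h2] at h1
    simp only [h3] at h1
    rw [h1]
    refine integral_congr_ae (Eventually.of_forall fun y => ?_)
    simp [nu, mul_assoc]

end Vale.Agent.P219.D
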