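import Vale.Agent.P219.StmD

open scoped ENNReal RealInnerProductSpace Topology
open MeasureTheory Set Filter Metric

namespace Vale.Agent.P219.D

namespace OneX

theorem null (hA : ApxS) {a b d Z : ℝ} {q : ℝ → ℝ} (hq : Measurable q) (hZ : ∀ s, |q s| ≤ Z)
    (h : ∀ α : ℝ → ℝ, Continuous α → (∀ s, 0 ≤ α s) → Function.support α ⊆ Ioo a b →
      d * ∫ s, α s ≤ ∫ s, α s * q s) {e : ℝ} (he : 0 < e) :
    volume {s | s ∈ Ioo a b ∧ q s < d - e} = 0 := by
  set A := {s | s ∈ Ioo a b ∧ q s < d - e} with hAdef
  have mA : MeasurableSet A := measurableSet_Ioo.inter (measurableSet_lt hq measurable_const)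
  have fA : volume A ≠ ⊤ :=
    ne_top_of_le_ne_top measure_Ioo_lt_top.ne (measure_mono fun s hs => hs.1)
  have hM : ∀ s, |q s - d| ≤ Z + |d| := fun s => (abs_sub _ _).trans (by linarith [hZ s])
  have hM0 : 0 ≤ Z + |d| := (abs_nonneg _).trans (hM 0)
  have key : ∀ η : ℝ, 0 < η → e * volume.real A ≤ (Z + |d|) * η := by
    intro η hη
    obtain ⟨φ, h1, h2, h3, h4, h5⟩ := hA ℝ volume (Ioo a b) A isOpen_Ioo mA (fun s hs => hs.1) fA
      η hη
    have i1 : Integrable φ := h1.continuous.integrable_of_hasCompactSupport h2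
    have i2 : Integrable (A.indicator fun _ => (1 : ℝ)) :=
      (integrable_indicator_iff mA).2 (integrableOn_const fA)
    have i3 : Integrable fun s => φ s * q s :=
      i1.mul_bdd hq.aestronglyMeasurable (Eventually.of_forall hZ)
    have i4 : Integrable fun s => (Z + |d|) * |φ s - A.indicator (fun _ => (1 : ℝ)) s| :=
      (i1.sub i2).abs.const_mul _
    have a1 := h φ h1.continuous (fun s => (h4 s).1) h3
    have a2 : ∫ s, (φ s * q s - d * φ s) ≤
        ∫ s, ((Z + |d|) * |φ s - A.indicator (fun _ => (1 : ℝ)) s| -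
          e * A.indicator (fun _ => (1 : ℝ)) s) := by
      refine integral_mono (i3.sub (i1.const_mul d))
        (((i1.sub i2).abs.const_mul _).sub (i2.const_mul e)) fun s => ?_
      have b1 : (φ s - A.indicator (fun _ => (1 : ℝ)) s) * (q s - d) ≤
          (Z + |d|) * |φ s - A.indicator (fun _ => (1 : ℝ)) s| := by
        refine (le_abs_self _).trans ?_
        rw [abs_mul, mul_comm]
        exact mul_le_mul_of_nonneg_right (hM s) (abs_nonneg _)
      have b2 : A.indicator (fun _ => (1 : ℝ)) s * (q s - d) ≤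
          -(e * A.indicator (fun _ => (1 : ℝ)) s) := by
        by_cases hs : s ∈ A
        · rw [indicator_of_mem hs]; linarith [hs.2]
        · rw [indicator_of_notMem hs]; simp
      simp only
      linarith
    rw [integral_sub i3 (i1.const_mul d), integral_const_mul,
      integral_sub i4 (i2.const_mul e), integral_const_mul,
      integral_const_mul, integral_indicator_const _ mA, smul_eq_mul, mul_one] at a2
    have := mul_le_mul_of_nonneg_left h5 hM0
    linarith
  have h0 : e * volume.real A ≤ 0 := by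
    refine le_of_forall_pos_le_add fun ε hε => ?_
    have := key (ε / (Z + |d| + 1)) (by positivity)
    have b : (Z + |d|) * (ε / (Z + |d| + 1)) ≤ ε := by
      rw [← mul_div_assoc, div_le_iff₀ (by positivity)]
      nlinarith
    linarith
  have h1 : volume.real A = 0 :=
    le_antisymm (nonpos_of_mul_nonpos_right h0 he) measureReal_nonneg
  exact (measureReal_eq_zero_iff fA).1 h1

end OneX

theorem one_pf (hA : ApxS) : OneS := by
  intro a b d Z q hq hZ h
  have H : ∀ᵐ s, ∀ k : ℕ, s ∉ {s | s ∈ Ioo a b ∧ q s < d - 1 / ((k : ℝ) + 1)} :=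
    ae_all_iff.2 fun k => measure_eq_zero_iff_ae_notMem.1
      (OneX.null hA hq hZ h (by positivity))
  filter_upwards [H] with s hs hab
  by_contra hlt
  obtain ⟨k, hk⟩ := exists_nat_one_div_lt (sub_pos.2 (not_le.1 hlt))
  exact hs k ⟨hab, by linarith⟩

end Vale.Agent.P219.D
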