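import Vale.Agent.P219.StmD

open scoped ENNReal RealInnerProductSpace Topology
open MeasureTheory Set Filter Metric

namespace Vale.Agent.P219.D

namespace PsiX

theorem prim {α : ℝ → ℝ} (hc : Continuous α) (h0 : ∀ s, 0 ≤ α s) {a c d : ℝ} (hac : a ≤ c)
    (hcd : c ≤ d) (hs : Function.support α ⊆ Ioo c d) :
    (∀ s, s ≤ c → ∫ x in a..s, α x = 0) ∧ (∀ s, d ≤ s → ∫ x in a..s, α x = ∫ x, α x) ∧
      ∀ s, 0 ≤ ∫ x in a..s, α x ∧ ∫ x in a..s, α x ≤ ∫ x, α x := by
  have h1 : ∀ s, s ≤ c → ∫ x in a..s, α x = 0 := by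
    intro s hsc
    rw [intervalIntegral.integral_congr (g := fun _ => 0), intervalIntegral.integral_zero]
    intro x hx
    by_contra hx0
    have h2 := (hs (Function.mem_support.mpr hx0)).1
    have h3 : x ≤ max a s := hx.2
    exact absurd (h3.trans (max_le hac hsc)) (not_le.mpr h2)
  have h2 : ∀ s, d ≤ s → ∫ x in a..s, α x = ∫ x, α x := fun s hds =>
    intervalIntegral.integral_eq_integral_of_support_subset fun x hx =>
      ⟨hac.trans_lt (hs hx).1, (hs hx).2.le.trans hds⟩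
  have h3 : Monotone fun s => ∫ x in a..s, α x := by
    refine monotone_of_deriv_nonneg
      (fun s => (hc.integral_hasStrictDerivAt a s).hasDerivAt.differentiableAt) fun s => ?_
    rw [hc.deriv_integral]
    exact h0 s
  refine ⟨h1, h2, fun s => ⟨?_, ?_⟩⟩
  · rw [← h1 (min s c) (min_le_right _ _)]
    exact h3 (min_le_left _ _)
  · rw [← h2 (max s d) (le_max_right _ _)]
    exact h3 (le_max_left _ _)

end PsiX

theorem psi_pf : PsiS := by
  intro ρ α₁ α₂ hρ c₁ c₂ p₁ p₂ s₁ s₂ he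
  obtain ⟨a1, a2, a3⟩ := PsiX.prim c₁ p₁ (a := -(2 * ρ)) le_rfl (by linarith) s₁
  obtain ⟨b1, b2, b3⟩ := PsiX.prim c₂ p₂ (a := -(2 * ρ)) (by linarith) (by linarith) s₂
  let ψ : ℝ → ℝ := fun s => (∫ x in (-(2 * ρ))..s, α₁ x) - ∫ x in (-(2 * ρ))..s, α₂ x
  have hd : ∀ s, HasDerivAt ψ (α₁ s - α₂ s) s := fun s =>
    (c₁.integral_hasStrictDerivAt _ s).hasDerivAt.sub (c₂.integral_hasStrictDerivAt _ s).hasDerivAt
  have hz : ∀ s, 2 * ρ ≤ |s| → ψ s = 0 := by
    intro s hs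
    rcases le_abs.mp hs with h | h
    · simp only [ψ]
      rw [a2 s (by linarith), b2 s h, he, sub_self]
    · simp only [ψ]
      rw [a1 s (by linarith), b1 s (by linarith), sub_self]
  refine ⟨ψ, ?_, ?_, fun s => (hd s).deriv, fun s => ⟨?_, ?_⟩, fun s hs => ?_, hz⟩
  · refine contDiff_one_iff_deriv.mpr ⟨fun s => (hd s).differentiableAt, ?_⟩
    have : deriv ψ = fun s => α₁ s - α₂ s := funext fun s => (hd s).deriv
    rw [this]
    exact c₁.sub c₂
  · refine HasCompactSupport.intro (isCompact_Icc (a := -(2 * ρ)) (b := 2 * ρ)) fun s hs => ?_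
    refine hz s (not_lt.mp fun h => hs ?_)
    exact abs_le.mp h.le
  · simp only [ψ]
    rcases le_total s (-ρ) with h | h
    · rw [b1 s (by linarith), sub_zero]
      exact (a3 s).1
    · rw [a2 s h, he]
      exact sub_nonneg.mpr (b3 s).2
  · simp only [ψ]
    linarith [(a3 s).2, (b3 s).1]
  · simp only [ψ]
    rw [a2 s (abs_le.mp hs).1, b1 s (abs_le.mp hs).2, sub_zero]

end Vale.Agent.P219.D
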