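import Vale.Agent.P219.StmD

open scoped ENNReal RealInnerProductSpace Topology
open MeasureTheory Set Filter Metric

namespace Vale.Agent.P219.D

theorem slice_pf : SliceS := by
  intro m Ω μ β h ζ hζ hζc hζ0
  have hζi : Integrable ζ := hζ.continuous.integrable_of_hasCompactSupport hζc
  have hi : Measurable (Ω.indicator fun _ => (1 : ℝ)) := measurable_const.indicator h.meas
  have hb : ∀ y, 0 ≤ Ω.indicator (fun _ => (1 : ℝ)) y ∧ Ω.indicator (fun _ => (1 : ℝ)) y ≤ 1 := by
    intro y
    by_cases hy : y ∈ Ω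
    · simp [hy]
    · simp [hy]
  refine ⟨?_, fun s => ⟨integral_nonneg fun x => mul_nonneg (hζ0 x) (hb _).1, ?_⟩, ?_⟩
  · have h1 : StronglyMeasurable fun y : ℝ × Eu m =>
        ζ y.2 * Ω.indicator (fun _ => (1 : ℝ)) y :=
      ((hζ.continuous.measurable.comp measurable_snd).mul hi).stronglyMeasurable
    exact (h1.integral_prod_right' (ν := volume)).measurable
  · exact integral_mono_of_nonneg (Eventually.of_forall fun x => mul_nonneg (hζ0 x) (hb _).1) hζi
      (Eventually.of_forall fun x => mul_le_of_le_one_right (hζ0 x) (hb _).2)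
  intro ψ hψ hψc
  have hφ : ContDiff ℝ 1 fun y : F m => ψ y.1 * ζ y.2 :=
    (hψ.comp contDiff_fst).mul (hζ.comp contDiff_snd)
  have hφc : HasCompactSupport fun y : F m => ψ y.1 * ζ y.2 := by
    refine HasCompactSupport.intro (hψc.isCompact.prod hζc.isCompact) fun y hy => ?_
    by_cases h1 : y.1 ∈ tsupport ψ
    · have h2 : y.2 ∉ tsupport ζ := fun h2 => hy ⟨h1, h2⟩
      rw [image_eq_zero_of_notMem_tsupport h2, mul_zero]
    · rw [image_eq_zero_of_notMem_tsupport h1, zero_mul]
  have hd : ∀ y : F m, fderiv ℝ (fun y : F m => ψ y.1 * ζ y.2) y (1, 0) = deriv ψ y.1 * ζ y.2 := by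
    intro y
    have h1 : HasFDerivAt (fun y : F m => ψ y.1) _ y :=
      (hψ.differentiable (by norm_num) y.1).hasDerivAt.hasFDerivAt.comp y hasFDerivAt_fst
    have h2 : HasFDerivAt (fun y : F m => ζ y.2) _ y :=
      (hζ.differentiable (by norm_num) y.2).hasFDerivAt.comp y hasFDerivAt_snd
    have h3 : fderiv ℝ (fun y : F m => ψ y.1 * ζ y.2) y = _ := (h1.mul h2).fderiv
    rw [h3]
    simp [mul_comm]
  rw [← h.gauss _ hφ hφc, ← integral_indicator h.meas]
  simp only [hd]
  have hψi : Integrable (deriv ψ) :=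
    (hψ.continuous_deriv le_rfl).integrable_of_hasCompactSupport hψc.deriv
  have hI : Integrable (Ω.indicator fun y : F m => deriv ψ y.1 * ζ y.2)
      ((volume : Measure ℝ).prod (volume : Measure (Eu m))) :=
    (hψi.mul_prod hζi).indicator h.meas
  rw [Measure.volume_eq_prod, integral_prod _ hI]
  refine integral_congr_ae (Eventually.of_forall fun s => ?_)
  change deriv ψ s * sl ζ Ω s = _
  unfold sl
  rw [← integral_const_mul]
  refine integral_congr_ae (Eventually.of_forall fun x => ?_)
  by_cases hy : (s, x) ∈ Ω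
  · simp [hy]
  · simp [hy]

end Vale.Agent.P219.D
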