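import Vale.Agent.P219.StmD

open scoped ENNReal RealInnerProductSpace Topology
open MeasureTheory Set Filter Metric

namespace Vale.Agent.P219.D

namespace TransX

variable {m : ℕ}

theorem supp_tr {φ : F m → ℝ} (hc : HasCompactSupport φ) (w : F m) :
    HasCompactSupport fun y => φ (y - w) :=
  hc.comp_homeomorph (Homeomorph.subRight w)

theorem fderiv_tr {φ : F m → ℝ} (hφ : ContDiff ℝ 1 φ) (w y v : F m) :
    fderiv ℝ (fun y => φ (y - w)) y v = fderiv ℝ φ (y - w) v := by
  have h := ((hφ.differentiable one_ne_zero (y - w)).hasFDerivAt.comp y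
    ((hasFDerivAt_id y).sub_const w)).fderiv
  have h2 : (fun y => φ (y - w)) = φ ∘ fun y => id y - w := rfl
  rw [h2, h]
  simp

theorem hasDeriv {Ω : Set (F m)} {φ : F m → ℝ} (hφ : ContDiff ℝ 1 φ) (hc : HasCompactSupport φ)
    (v : F m) (s : ℝ) :
    HasDerivAt (fun s : ℝ => ∫ y in Ω, φ (y - s • v)) (-∫ y in Ω, fderiv ℝ φ (y - s • v) v) s := by
  have hd : Continuous fun y => fderiv ℝ φ y v :=
    (hφ.continuous_fderiv one_ne_zero).clm_apply continuous_const
  have hdc : HasCompactSupport fun y => fderiv ℝ φ y v := hc.fderiv_apply ℝ v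
  obtain ⟨C, hC⟩ := hd.bounded_above_of_compact_support hdc
  obtain ⟨R, hR⟩ := hdc.isCompact.isBounded.subset_closedBall 0
  rw [← integral_neg]
  refine (hasDerivAt_integral_of_dominated_loc_of_deriv_le (μ := volume.restrict Ω)
    (F := fun (s : ℝ) y => φ (y - s • v)) (F' := fun (s : ℝ) y => -fderiv ℝ φ (y - s • v) v)
    (bound := indicator (closedBall 0 (R + (|s| + 1) * ‖v‖)) fun _ => C)
    (ball_mem_nhds s one_pos) (Eventually.of_forall fun t => ?_) ?_ ?_
    (Eventually.of_forall fun y t ht => ?_) ?_ (Eventually.of_forall fun y t _ => ?_)).2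
  · exact (hφ.continuous.comp (continuous_id.sub continuous_const)).aestronglyMeasurable
  · exact ((hφ.continuous.comp (continuous_id.sub continuous_const)).integrable_of_hasCompactSupport
      (supp_tr hc _)).restrict
  · exact (hd.comp (continuous_id.sub continuous_const)).neg.aestronglyMeasurable
  · rw [norm_neg]
    by_cases h : y ∈ closedBall (0 : F m) (R + (|s| + 1) * ‖v‖)
    · rw [indicator_of_mem h]
      exact hC _
    · rw [indicator_of_notMem h]
      refine le_of_eq (norm_eq_zero.mpr ?_)
      by_contra h0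
      have h1 := hR (subset_tsupport _ (Function.mem_support.mpr h0))
      rw [mem_closedBall_zero_iff] at h h1
      apply h
      have h2 : |t| ≤ |s| + 1 := by
        have := abs_sub_abs_le_abs_sub t s
        rw [mem_ball, Real.dist_eq] at ht
        linarith
      calc ‖y‖ = ‖(y - t • v) + t • v‖ := by rw [sub_add_cancel]
        _ ≤ ‖y - t • v‖ + ‖t • v‖ := norm_add_le _ _
        _ ≤ R + (|s| + 1) * ‖v‖ := by
          rw [norm_smul, Real.norm_eq_abs]
          exact add_le_add h1 (mul_le_mul_of_nonneg_right h2 (norm_nonneg _))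
  · exact ((integrableOn_const (isCompact_closedBall _ _).measure_lt_top.ne).integrable_indicator
      measurableSet_closedBall).restrict
  · have h1 : HasDerivAt (fun t : ℝ => y - t • v) (-v) t := by
      simpa using ((hasDerivAt_id t).smul_const v).const_sub y
    have h2 := (hφ.differentiable one_ne_zero (y - t • v)).hasFDerivAt.comp_hasDerivAt t h1
    rw [map_neg] at h2
    exact h2

theorem shift_le {Ω : Set (F m)} {μ : Measure (F m)} {β : F m → F m →L[ℝ] ℝ} (h : GG Ω μ β)
    {U W : Set (F m)} {v : F m} (hW : MeasurableSet W)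
    (hUW : ∀ y ∈ U, ∀ σ ∈ Icc (0 : ℝ) 1, y + σ • v ∈ W) {φ : F m → ℝ} (hφ : ContDiff ℝ 1 φ)
    (hc : HasCompactSupport φ) (hU : Function.support φ ⊆ U) (h01 : ∀ y, 0 ≤ φ y ∧ φ y ≤ 1) :
    (∫ y in Ω, φ (y - v)) - ∫ y in Ω, φ y ≤ ∫ y in W, |β y v| ∂μ := by
  have hβ : Integrable (fun y => β y v) μ := h.int.apply_continuousLinearMap v
  have key := norm_image_sub_le_of_norm_deriv_le_segment_01'
    (f := fun s : ℝ => ∫ y in Ω, φ (y - s • v)) (C := ∫ y in W, |β y v| ∂μ)
    (fun s _ => (hasDeriv hφ hc v s).hasDerivWithinAt) (fun s hs => by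
      have g := h.gauss (fun y => φ (y - s • v))
        (hφ.comp (contDiff_id.sub contDiff_const)) (supp_tr hc _) v
      simp only [fderiv_tr hφ] at g
      rw [norm_neg, g, ← integral_indicator hW]
      refine norm_integral_le_of_norm_le (hβ.abs.indicator hW) (Eventually.of_forall fun y => ?_)
      rw [norm_mul, Real.norm_eq_abs, Real.norm_eq_abs, abs_of_nonneg (h01 _).1]
      by_cases hy : y ∈ W
      · rw [indicator_of_mem hy]
        exact mul_le_of_le_one_left (abs_nonneg _) (h01 _).2
      · rw [indicator_of_notMem hy]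
        have h0 : φ (y - s • v) = 0 := by
          by_contra h0
          have := hUW _ (hU (Function.mem_support.mpr h0)) s (Ico_subset_Icc_self hs)
          rw [sub_add_cancel] at this
          exact hy this
        rw [h0, zero_mul])
  simp only [one_smul, zero_smul, sub_zero] at key
  exact (le_abs_self _).trans key

end TransX

theorem trans_pf (hA : ApxS) : TransS := by
  intro m Ω μ β h U W v hU hb hW hUW
  set A : Set (F m) := {y | y ∈ U ∧ y ∉ Ω ∧ y + v ∈ Ω} with hAd
  have hΩv : MeasurableSet {y : F m | y + v ∈ Ω} := measurable_add_const v h.meas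
  have mA : MeasurableSet A := hU.measurableSet.inter (h.meas.compl.inter hΩv)
  have sA : A ⊆ U := fun y hy => hy.1
  have fA : volume A ≠ ⊤ := ((measure_mono sA).trans_lt hb.measure_lt_top).ne
  refine le_of_forall_pos_le_add fun η hη => ?_
  obtain ⟨φ, hφ, hc, hs, h01, hap⟩ := hA (F m) volume U A hU mA sA fA η hη
  have iφ : Integrable φ := hφ.continuous.integrable_of_hasCompactSupport hc
  have iA : Integrable (A.indicator fun _ => (1 : ℝ)) :=
    (integrableOn_const fA).integrable_indicator mA
  have hinv : (volume : Measure (F m)).IsAddRightInvariant :=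
    inferInstanceAs (((volume : Measure ℝ).prod (volume : Measure (Eu m))).IsAddRightInvariant)
  have e1 : ∫ y in Ω, φ (y - v) = ∫ y, indicator {y : F m | y + v ∈ Ω} φ y := by
    rw [← integral_indicator h.meas, ← integral_add_right_eq_self _ v]
    refine integral_congr_ae (Eventually.of_forall fun y => ?_)
    by_cases hy : y + v ∈ Ω
    · simp [indicator, hy]
    · simp [indicator, hy]
  have key := TransX.shift_le h hW hUW hφ hc hs h01
  rw [e1, ← integral_indicator h.meas, ← integral_sub (iφ.indicator hΩv) (iφ.indicator h.meas)]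
    at key
  have e2 : volume.real A = ∫ y, A.indicator (fun _ => (1 : ℝ)) y := by
    rw [integral_indicator mA]
    simp
  rw [e2]
  refine le_trans ?_ (add_le_add key hap)
  have i1 : Integrable fun y => indicator {y : F m | y + v ∈ Ω} φ y - indicator Ω φ y :=
    (iφ.indicator hΩv).sub (iφ.indicator h.meas)
  have i2 : Integrable fun y => |φ y - A.indicator (fun _ => (1 : ℝ)) y| := (iφ.sub iA).abs
  rw [← integral_add i1 i2]
  refine integral_mono iA (i1.add i2) fun y => ?_
  have h0 := (h01 y).1
  have h1 := (h01 y).2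
  by_cases hy : y ∈ A
  · have a1 : y ∈ {y : F m | y + v ∈ Ω} := hy.2.2
    simp only [indicator_of_mem hy, indicator_of_mem a1, indicator_of_notMem hy.2.1]
    have := neg_abs_le (φ y - 1)
    linarith
  · simp only [indicator_of_notMem hy, sub_zero, abs_of_nonneg h0]
    have a1 : 0 ≤ indicator {y : F m | y + v ∈ Ω} φ y := indicator_nonneg (fun y _ => (h01 y).1) y
    have a2 : indicator Ω φ y ≤ φ y := indicator_le_self' (fun _ _ => (h01 _).1) y
    linarith

end Vale.Agent.P219.D
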