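import Vale.Agent.P219.StmD

open scoped ENNReal RealInnerProductSpace Topology
open MeasureTheory Set Filter Metric

namespace Vale.Agent.P219.D

namespace UnitX

theorem intg {α : ℝ → ℝ} {a b : ℝ} (h : Continuous α) (hs : Function.support α ⊆ Ioo a b) :
    Integrable α :=
  h.integrable_of_hasCompactSupport
    (HasCompactSupport.of_support_subset_isCompact isCompact_Icc (hs.trans Ioo_subset_Icc_self))

theorem intg2 {α q : ℝ → ℝ} {a b Z : ℝ} (h : Continuous α) (hs : Function.support α ⊆ Ioo a b)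
    (hq : Measurable q) (hb : ∀ s, 0 ≤ q s ∧ q s ≤ Z) : Integrable fun s => α s * q s :=
  (intg h hs).mul_bdd (c := Z) hq.aestronglyMeasurable (Eventually.of_forall fun s => by
    rw [Real.norm_of_nonneg (hb s).1]; exact (hb s).2)

/-- the drop of the slice function across the central slab -/
theorem test (hP : PsiS) (hS : SliceS) {m : ℕ} {Ω : Set (F m)} {μ : Measure (F m)}
    {β : F m → F m →L[ℝ] ℝ} (hG : GG Ω μ β) {ρ : ℝ} (hρ : 0 < ρ) (hρ' : ρ ≤ 1 / 8)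
    {ζ : Eu m → ℝ} (hζ : ContDiff ℝ 1 ζ) (hc : HasCompactSupport ζ)
    (h01 : ∀ x, 0 ≤ ζ x ∧ ζ x ≤ 1) (h1 : ∀ x, ‖x‖ < ρ → ζ x = 1)
    (h0 : ∀ x, ζ x ≠ 0 → ‖x‖ < 1 - 2 * ρ) {α₁ α₂ : ℝ → ℝ} (c1 : Continuous α₁)
    (c2 : Continuous α₂) (p1 : ∀ s, 0 ≤ α₁ s) (p2 : ∀ s, 0 ≤ α₂ s)
    (s1 : Function.support α₁ ⊆ Ioo (-(2 * ρ)) (-ρ)) (s2 : Function.support α₂ ⊆ Ioo ρ (2 * ρ))
    (e : ∫ s, α₁ s = ∫ s, α₂ s) :
    (∫ s, α₁ s) * (μ.real (ball 0 ρ) - ∫ y in ball 0 3, ‖β y - nc m‖ ∂μ) ≤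
      (∫ s, α₁ s * sl ζ Ω s) - ∫ s, α₂ s * sl ζ Ω s ∧
    (∫ s, α₁ s * sl ζ Ω s) - ∫ s, α₂ s * sl ζ Ω s ≤ (∫ s, α₁ s) *
      (μ.real {y | y.1 ^ 2 + ‖y.2‖ ^ 2 ≤ 1} + ∫ y in ball 0 3, ‖β y - nc m‖ ∂μ) := by
  haveI := hG.fin
  obtain ⟨ψ, a1, a2, a3, a4, a5, a6⟩ := hP ρ α₁ α₂ hρ c1 c2 p1 p2 s1 s2 e
  obtain ⟨b1, b2, b3⟩ := hS m Ω μ β hG ζ hζ hc fun x => (h01 x).1
  set A := ∫ s, α₁ s with hA
  have hA0 : 0 ≤ A := (a4 0).1.trans (a4 0).2
  have key := b3 ψ a1 a2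
  simp only [a3, sub_mul] at key
  rw [integral_sub (intg2 c1 s1 b1 b2) (intg2 c2 s2 b1 b2)] at key
  rw [key]
  have hS' : MeasurableSet {y : F m | y.1 ^ 2 + ‖y.2‖ ^ 2 ≤ 1} :=
    measurableSet_le (by fun_prop) measurable_const
  have hI : Integrable (fun y => ‖β y - nc m‖) μ := (hG.int.sub (integrable_const _)).norm
  have hw : ∀ y : F m, 0 ≤ ψ y.1 * ζ y.2 ∧ ψ y.1 * ζ y.2 ≤ A := fun y =>
    ⟨mul_nonneg (a4 _).1 (h01 _).1, by nlinarith [a4 y.1, h01 y.2]⟩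
  have hsupp : ∀ y : F m, ψ y.1 * ζ y.2 ≠ 0 →
      y ∈ ball (0 : F m) 3 ∧ y.1 ^ 2 + ‖y.2‖ ^ 2 ≤ 1 := fun y hy => by
    have u1 : |y.1| < 2 * ρ := lt_of_not_ge fun h => hy (by rw [a6 _ h, zero_mul])
    have u2 := h0 _ (right_ne_zero_of_mul hy)
    refine ⟨?_, ?_⟩
    · rw [mem_ball_zero_iff, Prod.norm_def, max_lt_iff, Real.norm_eq_abs]
      constructor <;> linarith
    · rw [← sq_abs]
      nlinarith [abs_nonneg y.1, norm_nonneg y.2]
  have herr : ∀ y : F m, |ψ y.1 * ζ y.2 * β y (1, 0) - ψ y.1 * ζ y.2| ≤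
      A * (ball (0 : F m) 3).indicator (fun y => ‖β y - nc m‖) y := fun y => by
    by_cases hy : ψ y.1 * ζ y.2 = 0
    · rw [hy, zero_mul, sub_zero, abs_zero]
      exact mul_nonneg hA0 (indicator_nonneg (fun _ _ => norm_nonneg _) _)
    · rw [indicator_of_mem (hsupp y hy).1, ← mul_sub_one, abs_mul, abs_of_nonneg (hw y).1]
      refine mul_le_mul (hw y).2 ?_ (abs_nonneg _) hA0
      have := (β y - nc m).le_opNorm (1, 0)
      simpa [Prod.norm_def] using this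
  have hmeas : AEStronglyMeasurable (fun y : F m => ψ y.1 * ζ y.2) μ :=
    ((a1.continuous.comp continuous_fst).mul
      (hζ.continuous.comp continuous_snd)).aestronglyMeasurable
  have hint : Integrable (fun y : F m => ψ y.1 * ζ y.2 * β y (1, 0)) μ :=
    (hG.int.apply_continuousLinearMap (1, 0)).bdd_mul (c := A) hmeas
      (Eventually.of_forall fun y => by rw [Real.norm_of_nonneg (hw y).1]; exact (hw y).2)
  have i1 : ∀ S : Set (F m), MeasurableSet S →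
      Integrable (S.indicator (1 : F m → ℝ)) μ := fun S h => (integrable_const _).indicator h
  have i2 := hI.indicator (measurableSet_ball (x := (0 : F m)) (ε := 3))
  constructor
  · rw [← integral_indicator measurableSet_ball, ← integral_indicator_one measurableSet_ball,
      ← integral_sub (i1 _ measurableSet_ball) i2, ← integral_const_mul]
    refine integral_mono (((i1 _ measurableSet_ball).sub i2).const_mul _) hint fun y => ?_
    have u1 := (abs_le.1 (herr y)).1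
    have u2 : A * (ball (0 : F m) ρ).indicator (1 : F m → ℝ) y ≤ ψ y.1 * ζ y.2 := by
      by_cases hy : y ∈ ball (0 : F m) ρ
      · rw [indicator_of_mem hy]
        rw [mem_ball_zero_iff, Prod.norm_def, max_lt_iff, Real.norm_eq_abs] at hy
        rw [a5 _ hy.1.le, h1 _ hy.2, Pi.one_apply]
      · rw [indicator_of_notMem hy, mul_zero]; exact (hw y).1
    show A * (_ - _) ≤ _
    linarith
  · rw [← integral_indicator measurableSet_ball, ← integral_indicator_one hS',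
      ← integral_add (i1 _ hS') i2, ← integral_const_mul]
    refine integral_mono hint (((i1 _ hS').add i2).const_mul _) fun y => ?_
    have u1 := (abs_le.1 (herr y)).2
    have u2 : ψ y.1 * ζ y.2 ≤
        A * {y : F m | y.1 ^ 2 + ‖y.2‖ ^ 2 ≤ 1}.indicator (1 : F m → ℝ) y := by
      by_cases hy : ψ y.1 * ζ y.2 = 0
      · rw [hy]; exact mul_nonneg hA0 (indicator_nonneg (fun _ _ => zero_le_one) _)
      · rw [indicator_of_mem (show y ∈ {y : F m | y.1 ^ 2 + ‖y.2‖ ^ 2 ≤ 1} from (hsupp y hy).2),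
          Pi.one_apply, mul_one]
        exact (hw y).2
    show _ ≤ A * (_ + _)
    linarith

/-- a weight times one factor is bounded by the product when the other factor is large -/
theorem small {a p q : ℝ → ℝ} {u v d Z : ℝ} (hd : 0 < d) (ha : ∀ s, 0 ≤ a s ∧ a s ≤ 1)
    (hs : Function.support a ⊆ Ioo u v) (hI : Ioo u v ⊆ Ioo (-1) 1) (hp : Measurable p)
    (hq : Measurable q) (bp : ∀ s, 0 ≤ p s ∧ p s ≤ Z) (bq : ∀ s, 0 ≤ q s ∧ q s ≤ Z)
    (h : ∀ᵐ s, s ∈ Ioo u v → d ≤ q s) :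
    d * ∫ s, a s * p s ≤ ∫ s in Ioo (-1 : ℝ) 1, p s * q s := by
  rw [← integral_const_mul, ← integral_indicator measurableSet_Ioo]
  refine integral_mono_of_nonneg (Eventually.of_forall fun s =>
    mul_nonneg hd.le (mul_nonneg (ha s).1 (bp s).1)) ?_ ?_
  · rw [integrable_indicator_iff measurableSet_Ioo]
    refine Measure.integrableOn_of_bounded (M := Z * Z) (by simp)
      (hp.mul hq).aestronglyMeasurable (Eventually.of_forall fun s => ?_)
    rw [Real.norm_of_nonneg (mul_nonneg (bp s).1 (bq s).1)]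
    exact mul_le_mul (bp s).2 (bq s).2 (bq s).1 ((bp s).1.trans (bp s).2)
  · filter_upwards [h] with s h
    by_cases h0 : a s = 0
    · rw [h0, zero_mul, mul_zero]
      exact indicator_nonneg (fun s _ => mul_nonneg (bp s).1 (bq s).1) _
    · rw [indicator_of_mem (hI (hs h0))]
      have u1 := mul_le_mul_of_nonneg_left (h (hs h0)) (bp s).1
      have u2 := mul_le_mul_of_nonneg_left (ha s).2 (mul_nonneg hd.le (bp s).1)
      linarith

theorem ex_rho (m : ℕ) {ε : ℝ} (hε : 0 < ε) :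
    ∃ ρ : ℝ, 0 < ρ ∧ ρ ≤ 1 / 8 ∧ 1 - ε / 3 ≤ (1 - 3 * ρ) ^ m := by
  refine ⟨min (1 / 8) (ε / (9 * (m + 1))), by positivity, min_le_left _ _, ?_⟩
  set ρ := min (1 / 8 : ℝ) (ε / (9 * (m + 1)))
  have u1 : ρ ≤ 1 / 8 := min_le_left _ _
  have u2 : ρ * (9 * (m + 1)) ≤ ε := (le_div_iff₀ (by positivity)).1 (min_le_right _ _)
  have u3 : 0 < ρ := by positivity
  have := one_add_mul_le_pow (show (-2 : ℝ) ≤ -(3 * ρ) by linarith) m
  rw [← sub_eq_add_neg 1 (3 * ρ)] at this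
  nlinarith

theorem fin {ε ω A C δ M H S Z p I₁ I₂ J : ℝ} (hε : 0 < ε) (hω : 0 < ω) (hA : 0 < A) (hC : 0 ≤ C)
    (hM : 0 < M) (hδ : 0 < δ) (h2 : δ ≤ ε / 3) (h3 : δ * (4 * C + 1) ≤ A * (ε / 3 * ω))
    (hH : H ≤ δ * M) (hMS : M ≤ S) (hp : 1 - ε / 3 ≤ p) (hZ : p * ω ≤ Z) (hJ : J ≤ C * H)
    (v1 : M / 2 * I₂ ≤ J) (v2 : M / 2 * (A * Z - I₁) ≤ J) (v3 : I₁ - I₂ ≤ A * (S + H)) :
    (1 - ε) * ω ≤ S := by
  have w0 : C * H ≤ M * (C * δ) := by nlinarith [mul_le_mul_of_nonneg_left hH hC]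
  have w1 : I₂ ≤ 2 * (C * δ) := le_of_mul_le_mul_left (a := M) (by linarith) hM
  have w2 : A * Z - I₁ ≤ 2 * (C * δ) := le_of_mul_le_mul_left (a := M) (by linarith) hM
  have w3 : H ≤ ε / 3 * S := hH.trans (mul_le_mul h2 hMS hM.le (by positivity))
  have w4 : A * (Z - ε / 3 * ω) ≤ A * ((1 + ε / 3) * S) := by
    have := mul_le_mul_of_nonneg_left w3 hA.le
    nlinarith
  have w5 := le_of_mul_le_mul_left w4 hA
  have w6 := mul_le_mul_of_nonneg_right hp hω.le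
  refine le_of_mul_le_mul_left (a := 1 + ε / 3) ?_ (by positivity)
  nlinarith [mul_pos (mul_pos hε hε) hω]

theorem ball_sub {m : ℕ} {ρ : ℝ} (hρ : ρ ≤ 1 / 8) :
    ball (0 : F m) ρ ⊆ {y | y.1 ^ 2 + ‖y.2‖ ^ 2 ≤ 1} := fun y hy => by
  rw [mem_ball_zero_iff, Prod.norm_def, max_lt_iff, Real.norm_eq_abs] at hy
  show y.1 ^ 2 + ‖y.2‖ ^ 2 ≤ 1
  rw [← sq_abs]
  nlinarith [abs_nonneg y.1, norm_nonneg y.2]

end UnitX

open UnitX in
theorem unit_pf (hP : PsiS) (hO : OneS) (hS : SliceS) (hV : VarS) : UnitS := by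
  intro m ε hε
  have hω : 0 < om m :=
    ENNReal.toReal_pos (measure_ball_pos _ _ one_pos).ne' measure_ball_lt_top.ne
  obtain ⟨ρ, hρ, hρ8, hpow⟩ := ex_rho m hε
  let ζ : ContDiffBump (0 : Eu m) := ⟨1 - 3 * ρ, 1 - 2 * ρ, by linarith, by linarith⟩
  let b : ContDiffBump (0 : ℝ) := ⟨ρ / 4, ρ / 2, by linarith, by linarith⟩
  have hZ : (1 - 3 * ρ) ^ m * om m ≤ ∫ x, ζ x := by
    have := ζ.measure_closedBall_le_integral volume
    rwa [Measure.addHaar_real_closedBall _ _ ζ.rIn_pos.le, finrank_euclideanSpace_fin] at this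
  have hA : 0 < ∫ s, b s := b.integral_pos
  set A := ∫ s, b s with hAd
  set C := 2 * volume.real (ball (0 : Eu m) 2) with hC
  have hC0 : 0 ≤ C := by positivity
  obtain ⟨δ, hδ, hδ1, hδ2, hδ3⟩ : ∃ δ : ℝ, 0 < δ ∧ δ ≤ 1 / 2 ∧ δ ≤ ε / 3 ∧
      δ * (4 * C + 1) ≤ A * (ε / 3 * om m) := by
    refine ⟨min (1 / 2) (min (ε / 3) (A * (ε / 3 * om m) / (4 * C + 1))), by positivity,
      min_le_left _ _, (min_le_right _ _).trans (min_le_left _ _), ?_⟩
    exact (le_div_iff₀ (by positivity)).1 ((min_le_right _ _).trans (min_le_right _ _))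
  refine ⟨ρ, δ, hρ, hδ, fun Ω μ β hG hM hH => ?_⟩
  haveI := hG.fin
  have h01 : ∀ x, 0 ≤ ζ x ∧ ζ x ≤ 1 := fun x => ⟨ζ.nonneg, ζ.le_one⟩
  have h0 : ∀ x, ζ x ≠ 0 → ‖x‖ < 1 - 2 * ρ := fun x hx => by
    have : x ∈ Function.support ζ := hx
    rwa [ζ.support_eq, mem_ball_zero_iff] at this
  have T := fun α₁ α₂ => test hP hS hG hρ hρ8 (α₁ := α₁) (α₂ := α₂) ζ.contDiff ζ.hasCompactSupport
    h01 (fun x hx => ζ.one_of_mem_closedBall (mem_closedBall_zero_iff.2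
      (show ‖x‖ ≤ 1 - 3 * ρ by linarith))) h0
  obtain ⟨b1, b2, -⟩ := hS m Ω μ β hG ζ ζ.contDiff ζ.hasCompactSupport fun x => ζ.nonneg
  have hvar := hV m Ω μ β hG ζ ζ.continuous h01 fun x hx => mem_ball_zero_iff.2 (by
    have := h0 x hx; linarith)
  set Z := ∫ x, ζ x with hZd
  set P := sl ζ Ω
  set M := μ.real (ball 0 ρ)
  set H := ∫ y in ball 0 3, ‖β y - nc m‖ ∂μ
  have b3 : Measurable fun s => Z - P s := measurable_const.sub b1
  have b4 : ∀ s, 0 ≤ Z - P s ∧ Z - P s ≤ Z := fun s => ⟨by linarith [b2 s], by linarith [b2 s]⟩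
  have hbs : ∀ s, b s ≠ 0 → |s| < ρ / 2 := fun s hs => by
    have : s ∈ Function.support b := hs
    rwa [b.support_eq, mem_ball_zero_iff] at this
  set a₁ : ℝ → ℝ := fun s => b (s + 3 * ρ / 2)
  set a₂ : ℝ → ℝ := fun s => b (s - 3 * ρ / 2)
  have c1 : Continuous a₁ := b.continuous.comp (by fun_prop)
  have c2 : Continuous a₂ := b.continuous.comp (by fun_prop)
  have s1 : Function.support a₁ ⊆ Ioo (-(2 * ρ)) (-ρ) := fun s hs => by
    have := abs_lt.1 (hbs _ hs); constructor <;> linarith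
  have s2 : Function.support a₂ ⊆ Ioo ρ (2 * ρ) := fun s hs => by
    have := abs_lt.1 (hbs _ hs); constructor <;> linarith
  have e1 : ∫ s, a₁ s = A := integral_add_right_eq_self (fun s => b s) _
  have e2 : ∫ s, a₂ s = A := integral_sub_right_eq_self (fun s => b s) _
  have hMH : M / 2 ≤ M - H := by linarith [mul_le_mul_of_nonneg_right hδ1 hM.le]
  have compl : ∀ {α : ℝ → ℝ} {u v : ℝ}, Continuous α → Function.support α ⊆ Ioo u v →
      ∫ s, α s * (Z - P s) = (∫ s, α s) * Z - ∫ s, α s * P s := fun c s => by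
    simp only [mul_sub]
    rw [integral_sub ((intg c s).mul_const _) (intg2 c s b1 b2), integral_mul_const]
  have up : ∀ᵐ s, s ∈ Ioo ρ (2 * ρ) → M / 2 ≤ Z - P s := by
    refine hO _ _ _ Z _ b3 (fun s => by rw [abs_of_nonneg (b4 s).1]; exact (b4 s).2)
      fun α c p s => ?_
    have hα : 0 ≤ ∫ s, α s := integral_nonneg p
    have e : ∫ s, (∫ s, α s) / A * a₁ s = ∫ s, α s := by
      rw [integral_const_mul, e1, div_mul_cancel₀ _ hA.ne']
    have s' : Function.support (fun s => (∫ s, α s) / A * a₁ s) ⊆ Ioo (-(2 * ρ)) (-ρ) :=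
      fun s hs => s1 (right_ne_zero_of_mul hs)
    have p' : ∀ s, 0 ≤ (∫ s, α s) / A * a₁ s := fun s => mul_nonneg (by positivity) b.nonneg
    have c' : Continuous fun s => (∫ s, α s) / A * a₁ s := continuous_const.mul c1
    have u1 := (T _ α c' c p' p s' s e).1
    have u2 := compl c' s'
    have u3 : 0 ≤ ∫ s, (∫ s, α s) / A * a₁ s * (Z - P s) :=
      integral_nonneg fun s => mul_nonneg (p' s) (b4 s).1
    rw [e] at u1 u2
    rw [compl c s]
    linarith [mul_le_mul_of_nonneg_left hMH hα]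
  have dn : ∀ᵐ s, s ∈ Ioo (-(2 * ρ)) (-ρ) → M / 2 ≤ P s := by
    refine hO _ _ _ Z _ b1 (fun s => by rw [abs_of_nonneg (b2 s).1]; exact (b2 s).2)
      fun α c p s => ?_
    have hα : 0 ≤ ∫ s, α s := integral_nonneg p
    have e : ∫ s, α s = ∫ s, (∫ s, α s) / A * a₂ s := by
      rw [integral_const_mul, e2, div_mul_cancel₀ _ hA.ne']
    have s' : Function.support (fun s => (∫ s, α s) / A * a₂ s) ⊆ Ioo ρ (2 * ρ) :=
      fun s hs => s2 (right_ne_zero_of_mul hs)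
    have p' : ∀ s, 0 ≤ (∫ s, α s) / A * a₂ s := fun s => mul_nonneg (by positivity) b.nonneg
    have c' : Continuous fun s => (∫ s, α s) / A * a₂ s := continuous_const.mul c2
    have u1 := (T α _ c c' p p' s s' e).1
    have u3 : 0 ≤ ∫ s, (∫ s, α s) / A * a₂ s * P s :=
      integral_nonneg fun s => mul_nonneg (p' s) (b2 s).1
    linarith [mul_le_mul_of_nonneg_left hMH hα]
  have v1 := small (half_pos hM) (a := a₂) (fun s => ⟨b.nonneg, b.le_one⟩) s2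
    (Ioo_subset_Ioo (by linarith) (by linarith)) b1 b3 b2 b4 up
  have v2 := small (half_pos hM) (a := a₁) (fun s => ⟨b.nonneg, b.le_one⟩) s1
    (Ioo_subset_Ioo (by linarith) (by linarith)) b3 b1 b4 b2 dn
  simp only [mul_comm (Z - P _) (P _)] at v2
  have v3 := (T a₁ a₂ c1 c2 (fun _ => b.nonneg) (fun _ => b.nonneg) s1 s2 (e1.trans e2.symm)).2
  rw [compl c1 s1, e1] at v2
  rw [e1] at v3
  exact fin hε hω hA hC0 hM hδ hδ2 hδ3 hH (measureReal_mono (ball_sub hρ8)) hpow hZ hvar v1 v2 v3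

end Vale.Agent.P219.D
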