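import Vale.Agent.P219.StmD

open scoped ENNReal RealInnerProductSpace Topology
open MeasureTheory Set Filter Metric

namespace Vale.Agent.P219.D

namespace VarX

variable {m : ℕ}

/-- the bad pairs -/
def BB (Ω : Set (F m)) : Set (F m × Eu m) :=
  {q | q.2 ∈ ball 0 2 ∧ q.1 ∈ ball 0 1 ∧ q.1 ∉ Ω ∧ q.1 + ((0 : ℝ), q.2) ∈ Ω}

theorem BB_meas {Ω : Set (F m)} (hΩ : MeasurableSet Ω) : MeasurableSet (BB Ω) := by
  have h : Measurable fun q : F m × Eu m => q.1 + ((0 : ℝ), q.2) :=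
    (by fun_prop : Continuous fun q : F m × Eu m => q.1 + ((0 : ℝ), q.2)).measurable
  exact (measurable_snd measurableSet_ball).inter ((measurable_fst measurableSet_ball).inter
    ((measurable_fst hΩ.compl).inter (h hΩ)))

theorem pt {Ω : Set (F m)} {ζ : Eu m → ℝ} (h01 : ∀ x, 0 ≤ ζ x ∧ ζ x ≤ 1)
    (hs : Function.support ζ ⊆ ball 0 1) {s : ℝ} (hs1 : s ∈ Ioo (-1 : ℝ) 1) (y t : Eu m) :
    ‖ζ y - ζ y * Ω.indicator (fun _ => (1 : ℝ)) (s, y)‖ₑ *
      ‖ζ (y + t) * Ω.indicator (fun _ => (1 : ℝ)) (s, y + t)‖ₑ ≤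
      (BB Ω).indicator 1 ((s, y), t) := by
  by_cases h1 : (s, y) ∈ Ω
  · simp [h1]
  by_cases h2 : (s, y + t) ∈ Ω
  swap
  · simp [h2]
  by_cases h3 : ζ y = 0
  · simp [h3]
  by_cases h4 : ζ (y + t) = 0
  · simp [h4]
  have b1 : ‖y‖ < 1 := mem_ball_zero_iff.1 (hs h3)
  have b2 : ‖y + t‖ < 1 := mem_ball_zero_iff.1 (hs h4)
  have hm : ((s, y), t) ∈ BB Ω := by
    refine ⟨mem_ball_zero_iff.2 ?_, mem_ball_zero_iff.2 ?_, h1, by simpa using h2⟩
    · have := norm_sub_le (y + t) y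
      rw [add_sub_cancel_left] at this
      show ‖t‖ < 2
      linarith
    · rw [Prod.norm_def, max_lt_iff, Real.norm_eq_abs, abs_lt]
      exact ⟨⟨hs1.1, hs1.2⟩, b1⟩
  have e : ∀ x, ‖ζ x‖ₑ ≤ 1 := fun x => by
    rw [Real.enorm_of_nonneg (h01 x).1]
    exact ENNReal.ofReal_le_one.2 (h01 x).2
  rw [indicator_of_mem hm, indicator_of_notMem h1, indicator_of_mem h2, mul_zero, sub_zero, mul_one]
  exact mul_le_one' (e _) (e _)

theorem slice {Ω : Set (F m)} (hΩ : MeasurableSet Ω) {ζ : Eu m → ℝ} (hc : Continuous ζ)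
    (h01 : ∀ x, 0 ≤ ζ x ∧ ζ x ≤ 1) (hs : Function.support ζ ⊆ ball 0 1) {s : ℝ}
    (hs1 : s ∈ Ioo (-1 : ℝ) 1) :
    ‖sl ζ Ω s * ((∫ x, ζ x) - sl ζ Ω s)‖ₑ ≤ ∫⁻ y, ∫⁻ t, (BB Ω).indicator 1 ((s, y), t) := by
  have hk : HasCompactSupport ζ :=
    HasCompactSupport.of_support_subset_isCompact (isCompact_closedBall 0 1)
      (hs.trans ball_subset_closedBall)
  have hi : Integrable ζ := hc.integrable_of_hasCompactSupport hk
  have hm : Measurable fun x : Eu m => Ω.indicator (fun _ => (1 : ℝ)) (s, x) :=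
    (measurable_const.indicator hΩ).comp measurable_prodMk_left
  have hi2 : Integrable fun x => ζ x * Ω.indicator (fun _ => (1 : ℝ)) (s, x) := by
    refine hi.mul_bdd (c := 1) hm.aestronglyMeasurable (Eventually.of_forall fun x => ?_)
    by_cases h : (s, x) ∈ Ω <;> simp [h]
  unfold sl
  rw [← integral_sub hi hi2, enorm_mul, mul_comm]
  have hmm : Measurable fun x => ‖ζ x * Ω.indicator (fun _ => (1 : ℝ)) (s, x)‖ₑ :=
    (hc.measurable.mul hm).enorm
  have hm2 : Measurable fun x => ‖ζ x - ζ x * Ω.indicator (fun _ => (1 : ℝ)) (s, x)‖ₑ :=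
    (hc.measurable.sub (hc.measurable.mul hm)).enorm
  calc _ ≤ (∫⁻ y, ‖ζ y - ζ y * Ω.indicator (fun _ => (1 : ℝ)) (s, y)‖ₑ) *
        ∫⁻ x, ‖ζ x * Ω.indicator (fun _ => (1 : ℝ)) (s, x)‖ₑ :=
        mul_le_mul' (enorm_integral_le_lintegral_enorm _) (enorm_integral_le_lintegral_enorm _)
    _ = ∫⁻ y, ‖ζ y - ζ y * Ω.indicator (fun _ => (1 : ℝ)) (s, y)‖ₑ *
        ∫⁻ x, ‖ζ x * Ω.indicator (fun _ => (1 : ℝ)) (s, x)‖ₑ := (lintegral_mul_const _ hm2).symm
    _ ≤ _ := by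
        refine lintegral_mono fun y => ?_
        rw [← lintegral_add_left_eq_self _ y, ← lintegral_const_mul _
          (show Measurable fun t => ‖ζ (y + t) * Ω.indicator (fun _ => (1 : ℝ)) (s, y + t)‖ₑ from
            hmm.comp (measurable_const_add y))]
        exact lintegral_mono fun t => pt h01 hs hs1 y t

theorem fib (hT : TransS) {Ω : Set (F m)} {μ : Measure (F m)} {β : F m → F m →L[ℝ] ℝ}
    (hG : GG Ω μ β) (t : Eu m) :
    ∫⁻ p, (BB Ω).indicator 1 (p, t) ≤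
      (ball (0 : Eu m) 2).indicator
        (fun _ => ENNReal.ofReal (2 * ∫ y in ball 0 3, ‖β y - nc m‖ ∂μ)) t := by
  have := hG.fin
  by_cases ht : t ∈ ball (0 : Eu m) 2
  swap
  · rw [indicator_of_notMem ht]
    refine (lintegral_congr fun p => ?_).trans_le lintegral_zero.le
    exact indicator_of_notMem (fun h => ht h.1) _
  rw [indicator_of_mem ht]
  have ht2 : ‖((0 : ℝ), t)‖ ≤ 2 := by
    rw [Prod.norm_def, max_le_iff]
    exact ⟨by simp, (mem_ball_zero_iff.1 ht).le⟩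
  have h1 := hT m Ω μ β hG (ball 0 1) (ball 0 3) ((0 : ℝ), t) isOpen_ball isBounded_ball
    measurableSet_ball fun y hy σ hσ => by
      rw [mem_ball_zero_iff] at hy ⊢
      have a := norm_add_le y (σ • ((0 : ℝ), t))
      rw [norm_smul, Real.norm_eq_abs, abs_of_nonneg hσ.1] at a
      have b : σ * ‖((0 : ℝ), t)‖ ≤ 1 * 2 := mul_le_mul hσ.2 ht2 (norm_nonneg _) zero_le_one
      linarith
  have hi : Integrable (fun y => β y - nc m) (μ.restrict (ball 0 3)) :=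
    (hG.int.sub (integrable_const _)).integrableOn
  have h2 : ∫ y in ball 0 3, |β y ((0 : ℝ), t)| ∂μ ≤ 2 * ∫ y in ball 0 3, ‖β y - nc m‖ ∂μ := by
    rw [← integral_const_mul]
    refine integral_mono (hG.int.apply_continuousLinearMap _).abs.integrableOn
      (hi.norm.const_mul 2) fun y => ?_
    have a := (β y - nc m).le_opNorm ((0 : ℝ), t)
    have e : (β y - nc m) ((0 : ℝ), t) = β y ((0 : ℝ), t) := by simp
    rw [e, Real.norm_eq_abs] at a
    have := norm_nonneg (β y - nc m)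
    simp only
    nlinarith
  have hfin : volume {y : F m | y ∈ ball 0 1 ∧ y ∉ Ω ∧ y + ((0 : ℝ), t) ∈ Ω} ≠ ⊤ :=
    ne_top_of_le_ne_top measure_ball_lt_top.ne (measure_mono fun y hy => hy.1)
  calc _ ≤ ∫⁻ p, {y : F m | y ∈ ball 0 1 ∧ y ∉ Ω ∧ y + ((0 : ℝ), t) ∈ Ω}.indicator 1 p := by
        refine lintegral_mono fun p => ?_
        by_cases h : (p, t) ∈ BB Ω
        · rw [indicator_of_mem h, indicator_of_mem (show p ∈ {y : F m | y ∈ ball 0 1 ∧ y ∉ Ω ∧
            y + ((0 : ℝ), t) ∈ Ω} from h.2)]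
          rfl
        · rw [indicator_of_notMem h]; exact zero_le
    _ ≤ volume {y : F m | y ∈ ball 0 1 ∧ y ∉ Ω ∧ y + ((0 : ℝ), t) ∈ Ω} :=
        lintegral_indicator_one_le _
    _ ≤ _ := by
        rw [← ofReal_measureReal hfin]
        exact ENNReal.ofReal_le_ofReal (h1.trans h2)

end VarX

open VarX in
theorem var_pf (hT : TransS) : VarS := by
  intro m Ω μ β hG ζ hc h01 hs
  have hI : 0 ≤ ∫ y in ball 0 3, ‖β y - nc m‖ ∂μ := integral_nonneg fun _ => norm_nonneg _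
  have hm : Measurable ((BB Ω).indicator (1 : F m × Eu m → ℝ≥0∞)) :=
    measurable_one.indicator (BB_meas hG.meas)
  have key : ‖∫ s in Ioo (-1 : ℝ) 1, sl ζ Ω s * ((∫ x, ζ x) - sl ζ Ω s)‖ₑ ≤
      ENNReal.ofReal (2 * volume.real (ball (0 : Eu m) 2) * ∫ y in ball 0 3, ‖β y - nc m‖ ∂μ) := by
    calc _ ≤ ∫⁻ s in Ioo (-1 : ℝ) 1, ‖sl ζ Ω s * ((∫ x, ζ x) - sl ζ Ω s)‖ₑ :=
          enorm_integral_le_lintegral_enorm _
      _ ≤ ∫⁻ s in Ioo (-1 : ℝ) 1, ∫⁻ y, ∫⁻ t, (BB Ω).indicator 1 ((s, y), t) :=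
          setLIntegral_mono' measurableSet_Ioo fun s h => slice hG.meas hc h01 hs h
      _ ≤ ∫⁻ s, ∫⁻ y, ∫⁻ t, (BB Ω).indicator 1 ((s, y), t) := setLIntegral_le_lintegral _ _
      _ = ∫⁻ p : F m, ∫⁻ t, (BB Ω).indicator 1 (p, t) :=
          (lintegral_prod (fun p : F m => ∫⁻ t, (BB Ω).indicator 1 (p, t))
            hm.lintegral_prod_right'.aemeasurable).symm
      _ = ∫⁻ t, ∫⁻ p : F m, (BB Ω).indicator 1 (p, t) :=
          lintegral_lintegral_swap hm.aemeasurable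
      _ ≤ ∫⁻ t, (ball (0 : Eu m) 2).indicator
          (fun _ => ENNReal.ofReal (2 * ∫ y in ball 0 3, ‖β y - nc m‖ ∂μ)) t :=
          lintegral_mono fun t => fib hT hG t
      _ = _ := by
          rw [lintegral_indicator_const measurableSet_ball,
            ← ofReal_measureReal measure_ball_lt_top.ne,
            ← ENNReal.ofReal_mul (by positivity)]
          congr 1
          ring
  rw [← ofReal_norm, ENNReal.ofReal_le_ofReal_iff (by positivity)] at key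
  exact (le_abs_self _).trans key

end Vale.Agent.P219.D
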