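import Vale.Agent.P219.DAsm
import Vale.Agent.P219.DApx
import Vale.Agent.P219.DTrans
import Vale.Agent.P219.DPsi
import Vale.Agent.P219.DOne
import Vale.Agent.P219.DSlice
import Vale.Agent.P219.DVar
import Vale.Agent.P219.DUnit
import Vale.Agent.P219.DLin
import Vale.Agent.P219.DNu
import Vale.Agent.P219.DChg
import Vale.Agent.P219.DDiff

namespace Vale.Agent.P219

open D in
theorem dens_pf (hF : FrameStmt) : DensStmt :=
  dens_of (unit_pf psi_pf (one_pf apx_pf) slice_pf (var_pf (trans_pf apx_pf))) (lin_pf hF) nu_pf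
    chg_pf diff_pf

end Vale.Agent.P219
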