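import Vale.Agent.P234.Defs

/-! Model isoperimetric profile, Cartan-Hadamard metrics, volume, perimeter and domains. -/

open scoped Manifold ContDiff ENNReal RealInnerProductSpace Topology
open MeasureTheory

namespace Vale.Agent.P219

open Vale.Agent.P255

/-- Euclidean space. -/
abbrev Eu (n : ℕ) : Type := EuclideanSpace ℝ (Fin n)

/-- The function `sn_b`. -/
noncomputable def sn (b r : ℝ) : ℝ := if b = 0 then r else Real.sinh (b * r) / b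

/-- The volume of the Euclidean unit ball. -/
noncomputable def om (n : ℕ) : ℝ := volume.real (Metric.ball (0 : Eu n) 1)

/-- Boundary area of the model ball of radius `r`. -/
noncomputable def mA (n : ℕ) (b r : ℝ) : ℝ := n * om n * sn b r ^ (n - 1)

/-- Volume of the model ball of radius `r`. -/
noncomputable def mV (n : ℕ) (b r : ℝ) : ℝ := n * om n * ∫ t in (0 : ℝ)..r, sn b t ^ (n - 1)

/-- The model isoperimetric profile. -/
noncomputable def prof (n : ℕ) (b V : ℝ) : ℝ :=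
  mA n b (Function.invFunOn (mV n b) (Set.Ici 0) V)

/-- The squared length of `u` at `v` for the metric `dρ² + sn_b(ρ)² g_S` of the space form of
curvature `-b²` in normal coordinates. -/
noncomputable def mg {n : ℕ} (b : ℝ) (v u : Eu n) : ℝ :=
  if v = 0 then ‖u‖ ^ 2 else
    (⟪v, u⟫ / ‖v‖) ^ 2 + (sn b ‖v‖ / ‖v‖) ^ 2 * (‖u‖ ^ 2 - (⟪v, u⟫ / ‖v‖) ^ 2)

section Coord

variable {n : ℕ}

/-- The Riemannian density `√(det G)`. -/
noncomputable def wt (G : Eu n → Eu n →L[ℝ] Eu n →L[ℝ] ℝ) (x : Eu n) : ℝ :=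
  √(Matrix.of fun i j => G x (EuclideanSpace.single i 1) (EuclideanSpace.single j 1)).det

/-- Euclidean divergence. -/
noncomputable def dvg (Y : Eu n → Eu n) (x : Eu n) : ℝ :=
  ∑ i, fderiv ℝ Y x (EuclideanSpace.single i 1) i

/-- Riemannian volume. -/
noncomputable def vol (G : Eu n → Eu n →L[ℝ] Eu n →L[ℝ] ℝ) (Ω : Set (Eu n)) : ℝ :=
  ∫ x in Ω, wt G x

/-- The integral over `Ω` of the Riemannian divergence of `Y`. -/
noncomputable def flux (G : Eu n → Eu n →L[ℝ] Eu n →L[ℝ] ℝ) (Ω : Set (Eu n)) (Y : Eu n → Eu n) :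
    ℝ :=
  ∫ x in Ω, dvg (fun y => wt G y • Y y) x

/-- De Giorgi perimeter. -/
noncomputable def per (G : Eu n → Eu n →L[ℝ] Eu n →L[ℝ] ℝ) (Ω : Set (Eu n)) : ℝ≥0∞ :=
  ⨆ (Y : Eu n → Eu n) (_ : ContDiff ℝ 1 Y) (_ : HasCompactSupport Y)
    (_ : ∀ x, G x (Y x) (Y x) ≤ 1), ENNReal.ofReal (flux G Ω Y)

/-- A smooth Riemannian metric on Euclidean space. -/
structure Rm (G : Eu n → Eu n →L[ℝ] Eu n →L[ℝ] ℝ) : Prop where
  smooth : ContDiff ℝ ∞ G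
  symm : ∀ x v w, G x v w = G x w v
  pos : ∀ x v, v ≠ 0 → 0 < G x v v

/-- A complete Riemannian metric with sectional curvature at most `κ`. -/
structure CH (G : Eu n → Eu n →L[ℝ] Eu n →L[ℝ] ℝ) (κ : ℝ) : Prop extends Rm G where
  complete : ∀ x v, ∃ γ : ℝ → Eu n, ContDiff ℝ 2 γ ∧ γ 0 = x ∧ deriv γ 0 = v ∧
    ∀ s, cov G γ (deriv γ) s = 0
  curv : ∀ x u v, LinearIndependent ℝ ![u, v] → sec G x u v ≤ κ

end Coord

section Mfd

variable {E : Type} [NormedAddCommGroup E] [NormedSpace ℝ E]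
  {M : Type} [TopologicalSpace M] [ChartedSpace E M]

/-- All sectional curvatures are at most `κ`. -/
def SecLE (g : M → E →L[ℝ] E →L[ℝ] ℝ) (κ : ℝ) : Prop :=
  ∀ e ∈ atlas E M, ∀ y ∈ e.target, ∀ u v : E, LinearIndependent ℝ ![u, v] →
    sec (gc g e) y u v ≤ κ

variable (E) in
/-- An open set with smooth boundary. -/
def SmoothBdry (Ω : Set M) : Prop :=
  IsOpen Ω ∧ ∀ p ∈ frontier Ω, ∃ (U : Set M) (f : M → ℝ), IsOpen U ∧ p ∈ U ∧
    ContMDiffOn 𝓘(ℝ, E) 𝓘(ℝ, ℝ) ∞ f U ∧ mfderiv 𝓘(ℝ, E) 𝓘(ℝ, ℝ) f p ≠ 0 ∧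
    Ω ∩ U = {x ∈ U | f x < 0}

/-- `Ω` with the metric `g` is isometric to a geodesic ball of the space form of curvature
`-b²`. -/
def IsModelBall (n : ℕ) (b : ℝ) (g : M → E →L[ℝ] E →L[ℝ] ℝ) (Ω : Set M) : Prop :=
  ∃ (r : ℝ) (Φ : Eu n → M), 0 < r ∧
    ContMDiffOn 𝓘(ℝ, Eu n) 𝓘(ℝ, E) ∞ Φ (Metric.ball 0 r) ∧
    Set.BijOn Φ (Metric.ball 0 r) Ω ∧
    ∀ v ∈ Metric.ball (0 : Eu n) r, ∀ u : Eu n,
      g (Φ v) ((mfderiv 𝓘(ℝ, Eu n) 𝓘(ℝ, E) Φ v : Eu n →L[ℝ] E) u)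
        ((mfderiv 𝓘(ℝ, Eu n) 𝓘(ℝ, E) Φ v : Eu n →L[ℝ] E) u) = mg b v u

end Mfd

end Vale.Agent.P219
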