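import Vale.Agent.P219.Alg

open scoped ENNReal RealInnerProductSpace Topology
open MeasureTheory Set Filter

namespace Vale.Agent.P219

namespace EqAux

open Dat

variable {n : ℕ} {d : Dat n}

theorem ae_zero (o : d.Ok) {f : Eu n → ℝ} (hf : d.BM f) (h0 : ∀ᵐ x ∂d.μ, 0 ≤ f x)
    (h : ∫ x, f x ∂d.μ ≤ 0) : ∀ᵐ x ∂d.μ, f x = 0 :=
  (integral_eq_zero_iff_of_nonneg_ae h0 (hf.integrable o)).1
    (le_antisymm h (integral_nonneg_of_ae h0))

theorem lam_le (o : d.Ok) {z : Eu n} (hz : z ∈ d.K) {g k : Eu n → ℝ} (hg : ContDiff ℝ 1 g)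
    (hg0 : ∀ x, 0 < g x) (hL : 0 ≤ d.Lam z g) (hk : ContDiff ℝ 1 k) : d.Lam z k ≤ 0 := by
  obtain ⟨M, hM⟩ := o.cpt.exists_bound_of_continuousOn (f := fun x => k x / g x)
    (hk.continuous.div hg.continuous fun x => (hg0 x).ne').continuousOn
  have hM0 : 0 ≤ M := (norm_nonneg _).trans (hM z hz)
  have h1 := o.Lam_anti hz hk (g := fun x => -M * g x) (contDiff_const.mul hg) fun x hx => by
    have h2 := (abs_le.1 (hM x hx)).1
    rwa [le_div_iff₀ (hg0 x)] at h2
  rw [Lam_const_mul z _ hg] at h1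
  nlinarith

end EqAux

open Dat EqAux in
theorem eq_pf : EqStmt := by
  intro n d o z hz γ hγ v c hc hv hD
  have hL := o.L_pos hγ z
  have hv' : v = fun x => c * d.L z γ x ^ d.th := by
    ext x
    rw [hv x, Dat.ph, mul_assoc, ← Real.rpow_add (hL x)]
    simp
  have hv1 : ContDiff ℝ 1 v := by
    rw [hv']
    exact contDiff_const.mul ((o.L1 z γ).rpow_const_of_ne fun x => (hL x).ne')
  have hv0 : ∀ x, 0 < v x := fun x => by
    rw [hv']; exact mul_pos hc (Real.rpow_pos_of_pos (hL x) _)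
  obtain ⟨-, h1, h2, h3⟩ := o.le_Df hγ hz hv1
  have hlam := o.lam_pos hγ z
  have hal : 0 < d.al γ := al_pos hγ
  have hG : ∀ x, d.Gam v v x = (c * (d.th * d.L z γ x ^ (d.th - 1) * d.al γ)) ^ 2 *
      d.Gam (d.Q z) (d.Q z) x := by
    intro x
    have hd : HasDerivAt (fun s => c * (γ + d.al γ * s) ^ d.th)
        (c * (d.th * d.L z γ x ^ (d.th - 1) * d.al γ)) (d.Q z x) := by
      have h4 : HasDerivAt (fun s => γ + d.al γ * s) (d.al γ) (d.Q z x) := by
        simpa using ((hasDerivAt_id (d.Q z x)).const_mul (d.al γ)).const_add γ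
      have h5 := (h4.rpow_const (p := d.th) (Or.inl (hL x).ne')).const_mul c
      refine h5.congr_deriv ?_
      simp only [Dat.L]; ring
    have := Gam_comp_self (d := d) (o.Qd z x) hd
    rw [hv']
    exact this
  have a1 : ∀ᵐ x ∂d.μ, d.Gam (d.Q z) (d.Q z) x = 0 := by
    have := ae_zero o (((o.bm_lam hγ z).pow (d.m - 2)).mul (o.bm_Gam hv1 hv1))
      (Eventually.of_forall fun x => mul_nonneg (pow_pos (hlam x) _).le (Gam_nonneg _ _))
      (h1.trans hD)
    filter_upwards [this] with x hx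
    rw [hG] at hx
    have h6 : 0 < c * (d.th * d.L z γ x ^ (d.th - 1) * d.al γ) :=
      mul_pos hc (mul_pos (mul_pos o.th_pos (Real.rpow_pos_of_pos (hL x) _)) hal)
    rcases mul_eq_zero.1 hx with h | h
    · exact absurd h (pow_pos (hlam x) _).ne'
    · exact (mul_eq_zero.1 h).resolve_left (pow_pos h6 2).ne'
  have a2 : ∀ᵐ x ∂d.μ, 0 < d.q z x := by
    have hD2 : d.D2 z γ v ≤ 0 := by
      by_contra h
      have := mul_pos o.cm_pos (not_le.1 h)
      linarith
    have := ae_zero o ((((o.bm_cont hv1.continuous).pow 2).mul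
      ((o.bm_lam hγ z).pow (d.m - 2))).mul
      ((((((o.bm_q z).const_mul (d.al γ)).mul (o.bm_lam hγ z))).sub (bm_const (d.H / d.m))).pow 2))
      (Eventually.of_forall fun x =>
        mul_nonneg (mul_nonneg (sq_nonneg _) (pow_pos (hlam x) _).le) (sq_nonneg _)) hD2
    filter_upwards [this] with x hx
    have h6 : d.al γ * d.q z x * d.lam z γ x - d.H / d.m = 0 :=
      pow_eq_zero_iff two_ne_zero |>.1 ((mul_eq_zero.1 hx).resolve_left
        (mul_pos (pow_pos (hv0 x) 2) (pow_pos (hlam x) _)).ne')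
    have h7 : 0 < d.H / d.m := div_pos o.hH o.m_pos
    by_contra h8
    have := mul_nonneg (mul_nonneg hal.le (neg_nonneg.2 (not_lt.1 h8))) (hlam x).le
    nlinarith
  have a3 : ∀ᵐ x ∂d.μ, d.q z x = √(d.s2 z x) := by
    filter_upwards [a1, a2] with x h1 h2
    rw [← o.eik z x, h1, zero_add, Real.sqrt_sq h2.le]
  set k : Eu n → ℝ := fun x => (d.m * (1 + d.b ^ 2 * d.Q z x)) ^ 2 -
    d.H ^ 2 * (2 * d.Q z x + d.b ^ 2 * d.Q z x ^ 2) with hk
  have hQ := o.Q1 z
  have hk1 : ContDiff ℝ 1 k := by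
    rw [hk]; fun_prop
  have hkk : ∀ x, 0 < d.kk z γ v x := fun x =>
    mul_pos (mul_pos o.th_pos hal) (mul_pos (pow_pos (hv0 x) 2) (pow_pos (hlam x) _))
  have hLk := lam_le o hz (o.kk1 hγ z hv1) hkk (by linarith) hk1
  have key : ∀ᵐ x ∂d.μ, k x * (d.m * (1 + d.b ^ 2 * d.Q z x)) + d.Gam k (d.Q z) x -
      d.H * k x * d.q z x = (d.m * (1 + d.b ^ 2 * d.Q z x) - d.H * √(d.s2 z x)) ^ 2 *
        (d.m * (1 + d.b ^ 2 * d.Q z x) + d.H * √(d.s2 z x)) := by
    filter_upwards [a1, a3] with x h1 h3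
    have h4 : d.Gam k (d.Q z) x = 0 := by
      have := Gam_sq_le (d := d) k (d.Q z) x
      rw [h1, mul_zero] at this
      exact pow_eq_zero_iff two_ne_zero |>.1 (le_antisymm this (sq_nonneg _))
    have h5 : k x = (d.m * (1 + d.b ^ 2 * d.Q z x)) ^ 2 - d.H ^ 2 * √(d.s2 z x) ^ 2 := by
      rw [Real.sq_sqrt (o.s2_nonneg z x)]; rfl
    rw [h4, h3, h5]
    ring
  have hpos : ∀ x, 0 < d.m * (1 + d.b ^ 2 * d.Q z x) + d.H * √(d.s2 z x) := fun x => by
    have := o.Q_nonneg z x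
    have := o.m_pos
    have := o.hH
    positivity
  have := ae_zero o (o.bm_Lam z hk1)
    (by filter_upwards [key] with x hx; rw [hx]; exact mul_nonneg (sq_nonneg _) (hpos x).le) hLk
  filter_upwards [this, key] with x h1 h2
  rw [h2] at h1
  exact sub_eq_zero.1 (pow_eq_zero_iff two_ne_zero |>.1
    ((mul_eq_zero.1 h1).resolve_right (hpos x).ne'))

end Vale.Agent.P219
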