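import Vale.Agent.P219.Wt

/-! Continuous orthonormal frames by the Gram-Schmidt process. -/

open scoped ContDiff RealInnerProductSpace Topology
open MeasureTheory Set Filter

namespace Vale.Agent.P219

namespace Fr

variable {n : ℕ} {G : Met n}

theorem step (h : Rm G) (k : ℕ) (hk : k ≤ n) : ∃ a : ℕ → Eu n → Eu n, (∀ j, Continuous (a j)) ∧
    (∀ x, ∀ i < k, ∀ j < k, G x (a i x) (a j x) = if i = j then 1 else 0) ∧
    ∀ x, ∀ j < k, ∀ l : Fin n, j < l → a j x l = 0 := by
  induction k with
  | zero => exact ⟨fun _ _ => 0, fun _ => continuous_const, fun _ _ h => absurd h (by omega),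
      fun _ _ h => absurd h (by omega)⟩
  | succ k ih =>
    obtain ⟨a, hc, ho, hs⟩ := ih (by omega)
    have hG := h.smooth.continuous
    set e : Eu n := ee ⟨k, hk⟩ with he
    set b : Eu n → Eu n := fun x => e - ∑ j ∈ Finset.range k, G x e (a j x) • a j x with hb
    have hbc : Continuous b := continuous_const.sub (continuous_finsetSum _ fun j _ =>
      ((hG.clm_apply continuous_const).clm_apply (hc j)).smul (hc j))
    have hbl : ∀ x (l : Fin n), k ≤ l → b x l = e l := by
      intro x l hl
      simp only [hb, PiLp.sub_apply, WithLp.ofLp_sum, Finset.sum_apply, PiLp.smul_apply]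
      rw [Finset.sum_eq_zero fun j hj => by
        rw [hs x j (Finset.mem_range.1 hj) l ((Finset.mem_range.1 hj).trans_le hl), smul_zero],
        sub_zero]
    have hb0 : ∀ x, b x ≠ 0 := fun x h0 => by
      have := hbl x ⟨k, hk⟩ le_rfl
      rw [h0, he] at this
      simp at this
    have hbp : ∀ x, 0 < √(G x (b x) (b x)) := fun x => Real.sqrt_pos.2 (h.pos x _ (hb0 x))
    have hbo : ∀ x, ∀ i < k, G x (b x) (a i x) = 0 := by
      intro x i hi
      simp only [hb, map_sub, map_sum, map_smul, sub_apply, sum_apply, smul_apply, smul_eq_mul]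
      rw [Finset.sum_eq_single i (fun j hj hji => by
        rw [ho x j (Finset.mem_range.1 hj) i hi, if_neg hji, mul_zero])
        (fun hn => absurd (Finset.mem_range.2 hi) hn), ho x i hi i hi, if_pos rfl, mul_one,
        sub_self]
    set c : Eu n → Eu n := fun x => (√(G x (b x) (b x)))⁻¹ • b x with hcd
    have hco : ∀ x, ∀ i < k, G x (c x) (a i x) = 0 := fun x i hi => by
      simp only [hcd, map_smul, smul_apply, hbo x i hi, smul_zero]
    refine ⟨Function.update a k c, fun j => ?_, fun x i hi j hj => ?_, fun x j hj l hl => ?_⟩
    · by_cases hj : j = k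
      · rw [hj, Function.update_self]
        exact (((hG.clm_apply hbc).clm_apply hbc).sqrt.inv₀ fun x => (hbp x).ne').smul hbc
      · rw [Function.update_of_ne hj]
        exact hc j
    · by_cases hik : i = k <;> by_cases hjk : j = k
      · rw [hik, hjk, Function.update_self, if_pos rfl]
        simp only [hcd, map_smul, smul_apply, smul_eq_mul]
        have h1 := Real.mul_self_sqrt (h.nonneg x (b x))
        have h2 := (hbp x).ne'
        field_simp
        rw [sq, h1]
      · rw [hik, Function.update_self, Function.update_of_ne hjk, if_neg (Ne.symm hjk)]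
        exact hco x j (by omega)
      · rw [hjk, Function.update_self, Function.update_of_ne hik, if_neg hik, h.symm]
        exact hco x i (by omega)
      · rw [Function.update_of_ne hik, Function.update_of_ne hjk]
        exact ho x i (by omega) j (by omega)
    · by_cases hjk : j = k
      · rw [hjk] at hl
        rw [hjk, Function.update_self]
        have h1 : l ≠ ⟨k, hk⟩ := fun h0 => by simp [h0] at hl
        simp only [hcd, PiLp.smul_apply, hbl x l hl.le, he]
        simp [h1]
      · rw [Function.update_of_ne hjk]
        exact hs x j (by omega) l hl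

end Fr

theorem frame_pf : FrameStmt := by
  intro n G h
  obtain ⟨a, hc, ho, -⟩ := Fr.step h n le_rfl
  refine ⟨fun x => ∑ i : Fin n, (EuclideanSpace.proj i : Eu n →L[ℝ] ℝ).smulRight (a i x),
    continuous_clm_apply.2 fun u => ?_, fun x u v => ?_⟩
  · simp only [sum_apply, ContinuousLinearMap.smulRight_apply]
    exact continuous_finsetSum _ fun i _ => (hc i).const_smul (u i)
  · simp only [sum_apply, ContinuousLinearMap.smulRight_apply, map_sum, map_smul, smul_apply,
      smul_eq_mul, fun i j : Fin n => ho x i i.2 j j.2, Fin.val_inj, mul_ite, mul_one, mul_zero,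
      Finset.sum_ite_eq', Finset.mem_univ, if_true]
    simp [PiLp.inner_apply]

end Vale.Agent.P219
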