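import Vale.Agent.P219.Base

/-! First variation inequality of a minimiser. -/

open scoped Manifold ContDiff ENNReal RealInnerProductSpace Topology
open MeasureTheory Set Filter

namespace Vale.Agent.P219

namespace Fv

variable {n : ℕ}

theorem quad (B : Eu n →L[ℝ] Eu n →L[ℝ] ℝ) (a : Fin n → Eu n) (c : Fin n → ℝ) (N : Eu n)
    (hN : N = ∑ i, c i • a i) (hc : ∑ i, c i ^ 2 = 1) :
    ∑ i, B (a i - c i • N) (a i - c i • N) = ∑ i, B (a i) (a i) - B N N := by
  have h1 : ∑ i, c i * B (a i) N = B N N := by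
    have : B N N = B (∑ i, c i • a i) N := by rw [← hN]
    rw [this, map_sum, sum_apply]
    refine Finset.sum_congr rfl fun i _ => ?_
    rw [map_smul, smul_apply, smul_eq_mul]
  have h2 : ∑ i, c i * B N (a i) = B N N := by
    have : B N N = B N (∑ i, c i • a i) := by rw [← hN]
    rw [this, map_sum]
    refine Finset.sum_congr rfl fun i _ => ?_
    rw [map_smul, smul_eq_mul]
  have h3 : ∀ i, B (a i - c i • N) (a i - c i • N) =
      B (a i) (a i) - c i * B (a i) N - c i * B N (a i) + c i ^ 2 * B N N := by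
    intro i
    simp only [map_sub, map_smul, sub_apply, smul_apply,
      smul_eq_mul]
    ring
  simp only [h3, Finset.sum_add_distrib, Finset.sum_sub_distrib, h1, h2, ← Finset.sum_mul, hc]
  ring

theorem surj {G : Met n} {A : Eu n → Eu n →L[ℝ] Eu n} (hA : Frame G A) (x ξ : Eu n) :
    ∃ u, A x u = ξ := by
  have hi : Function.Injective (A x : Eu n →ₗ[ℝ] Eu n) := by
    rw [← LinearMap.ker_eq_bot, LinearMap.ker_eq_bot']
    intro u hu
    have h := hA.iso x u u
    have hu' : A x u = 0 := hu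
    rw [hu'] at h
    simp only [map_zero] at h
    exact inner_self_eq_zero.1 h.symm
  exact LinearMap.injective_iff_surjective.1 hi ξ

theorem coer {G : Met n} {A : Eu n → Eu n →L[ℝ] Eu n} (hA : Frame G A) (x ξ : Eu n) :
    ‖ξ‖ ^ 2 ≤ ‖A x‖ ^ 2 * G x ξ ξ := by
  obtain ⟨u, rfl⟩ := surj hA x ξ
  rw [hA.iso, real_inner_self_eq_norm_sq, ← mul_pow]
  exact pow_le_pow_left₀ (norm_nonneg _) ((A x).le_opNorm u) 2

theorem expand {G : Met n} {A : Eu n → Eu n →L[ℝ] Eu n} (hA : Frame G A) (x N : Eu n)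
    (hN : G x N N = 1) :
    N = ∑ i, G x (A x (ee i)) N • A x (ee i) ∧ ∑ i, G x (A x (ee i)) N ^ 2 = 1 := by
  obtain ⟨u, rfl⟩ := surj hA x N
  have h1 : ∀ i, G x (A x (ee i)) (A x u) = u i := by
    intro i
    rw [hA.iso]
    simp [ee, EuclideanSpace.inner_single_left]
  simp only [h1]
  constructor
  · have : u = ∑ i, u i • (ee i : Eu n) := by
      ext j
      simp [ee, Pi.single_apply]
    conv_lhs => rw [this]
    rw [map_sum]
    simp only [map_smul]
  · rw [hA.iso, real_inner_self_eq_norm_sq, EuclideanSpace.norm_sq_eq] at hN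
    simpa using hN

theorem taylor {f : Eu n → ℝ} (hf : ContDiff ℝ 2 f) (R : ℝ) :
    ∃ L, 0 ≤ L ∧ ∀ x h : Eu n, ‖x‖ ≤ R → ‖h‖ ≤ 1 →
      f (x + h) ≤ f x + fderiv ℝ f x h + L * ‖h‖ ^ 2 := by
  have h1 : ContDiff ℝ 1 (fderiv ℝ f) := hf.fderiv_right (by norm_num)
  have h2 : Continuous (fderiv ℝ (fderiv ℝ f)) := h1.continuous_fderiv (by norm_num)
  obtain ⟨L, hL⟩ := (isCompact_closedBall (0 : Eu n) (R + 1)).exists_bound_of_continuousOn
    (f := fderiv ℝ (fderiv ℝ f)) h2.continuousOn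
  refine ⟨max L 0, le_max_right _ _, fun x h hx hh => ?_⟩
  have hsub : Metric.closedBall x ‖h‖ ⊆ Metric.closedBall (0 : Eu n) (R + 1) := by
    intro y hy
    rw [Metric.mem_closedBall, dist_eq_norm] at hy
    rw [mem_closedBall_zero_iff]
    have := norm_add_le (y - x) x
    rw [sub_add_cancel] at this
    linarith
  have hx0 : x ∈ Metric.closedBall x ‖h‖ := Metric.mem_closedBall_self (norm_nonneg _)
  have hb : ∀ y ∈ Metric.closedBall x ‖h‖, ‖fderiv ℝ f y - fderiv ℝ f x‖ ≤ max L 0 * ‖h‖ := by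
    intro y hy
    have := (convex_closedBall x ‖h‖).norm_image_sub_le_of_norm_fderiv_le (𝕜 := ℝ)
      (f := fderiv ℝ f) (C := max L 0) (fun w _ => h1.differentiable (by norm_num) w)
      (fun w hw => (hL w (hsub hw)).trans (le_max_left _ _)) hx0 hy
    refine this.trans (mul_le_mul_of_nonneg_left ?_ (le_max_right _ _))
    rwa [Metric.mem_closedBall, dist_eq_norm] at hy
  have hy : x + h ∈ Metric.closedBall x ‖h‖ := by
    rw [Metric.mem_closedBall, dist_eq_norm]; simp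
  have := (convex_closedBall x ‖h‖).norm_image_sub_le_of_norm_fderiv_le' (𝕜 := ℝ) (f := f)
    (fun w _ => hf.differentiable (by norm_num) w) hb hx0 hy
  rw [add_sub_cancel_left, Real.norm_eq_abs] at this
  have h3 := (abs_le.1 this).2
  nlinarith

theorem push {G : Met n} {A : Eu n → Eu n →L[ℝ] Eu n} {b a0 : ℝ} {o z : Eu n}
    {Q : Eu n → Eu n → ℝ} {V X : Eu n → Eu n → Eu n} {ex : Eu n → Eu n ≃ₜ Eu n}
    (hA : Frame G A) (hg : Geo G b Q V X ex) (hz : Q o z ≤ a0) :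
    ∃ s0 : ℝ, 0 < s0 ∧ ∀ s : ℝ, 0 ≤ s → s ≤ s0 → ∀ x, Q o x ≤ a0 → Q o (x - s • V z x) ≤ a0 := by
  have hK := hg.proper o a0
  have hQ : ∀ w, ContDiff ℝ 2 (Q w) := fun w =>
    hg.Qsm.comp (contDiff_const.prodMk contDiff_id)
  have hQ0 : ∀ w x, 0 ≤ Q w x := by
    intro w x
    by_cases h : x = w
    · rw [h, hg.zero]
    · exact (hg.pos w x h).le
  obtain ⟨R, hR⟩ := hK.isBounded.exists_norm_le
  obtain ⟨L, hL0, hL⟩ := taylor (hQ o) R
  obtain ⟨C1, hC1⟩ := hK.exists_bound_of_continuousOn (hg.Vsm z).continuous.continuousOn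
  have hc : Continuous fun x => ‖A x‖ ^ 2 * (2 + b ^ 2 * Q z x) :=
    (hA.cont.norm.pow 2).mul (continuous_const.add (continuous_const.mul (hQ z).continuous))
  obtain ⟨C2, hC2⟩ := hK.exists_bound_of_continuousOn hc.continuousOn
  have hM : 0 < 1 + |C1| + L * |C2| := by positivity
  refine ⟨1 / (1 + |C1| + L * |C2|), by positivity, fun s hs0 hs x hx => ?_⟩
  rw [le_div_iff₀ hM] at hs
  have hLC : 0 ≤ L * |C2| := by positivity
  have hs1 : s ≤ 1 := by nlinarith [abs_nonneg C1]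
  have hs2 : s * |C1| ≤ 1 := by nlinarith [abs_nonneg C1]
  have hs3 : s * (L * |C2|) ≤ 1 := by nlinarith [abs_nonneg C1]
  have hn : ‖-(s • V z x)‖ = s * ‖V z x‖ := by
    rw [norm_neg, norm_smul, Real.norm_eq_abs, abs_of_nonneg hs0]
  have hh : ‖-(s • V z x)‖ ≤ 1 := by
    rw [hn]
    exact (mul_le_mul_of_nonneg_left ((hC1 x hx).trans (le_abs_self _)) hs0).trans hs2
  have h1 := hL x _ (hR x hx) hh
  rw [← sub_eq_add_neg, hn, map_neg, map_smul, smul_eq_mul, ← hg.grad] at h1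
  have h2 := hg.cos o z x
  have h3 : ‖V z x‖ ^ 2 ≤ |C2| * Q z x := by
    have h4 := coer hA x (V z x)
    rw [hg.eik] at h4
    have h5 : ‖A x‖ ^ 2 * (2 + b ^ 2 * Q z x) ≤ |C2| :=
      ((le_abs_self _).trans (hC2 x hx)).trans (le_abs_self _)
    have h6 := mul_le_mul_of_nonneg_right h5 (hQ0 z x)
    nlinarith
  have h7 : L * (s * ‖V z x‖) ^ 2 ≤ s * Q z x := by
    have h8 : L * (s * ‖V z x‖) ^ 2 ≤ L * (s ^ 2 * (|C2| * Q z x)) := by
      rw [mul_pow]
      exact mul_le_mul_of_nonneg_left (mul_le_mul_of_nonneg_left h3 (sq_nonneg _)) hL0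
    have h9 := mul_le_mul_of_nonneg_right hs3 (mul_nonneg hs0 (hQ0 z x))
    nlinarith
  have h10 := mul_le_mul_of_nonneg_left h2 hs0
  have hx' : Q o x ≤ a0 := hx
  nlinarith

theorem integ {G : Met n} {A : Eu n → Eu n →L[ℝ] Eu n} {K : Set (Eu n)} {μ : Measure (Eu n)}
    {N : Eu n → Eu n} [IsFiniteMeasure μ] (hA : Frame G A) (hK : IsCompact K)
    (hμ : ∀ᵐ x ∂μ, x ∈ K) (hN : Measurable N) (hu : ∀ x, G x (N x) (N x) = 1)
    {Φ : Eu n × Eu n → ℝ} (hΦ : Continuous Φ) : Integrable (fun x => Φ (x, N x)) μ := by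
  obtain ⟨C, hC⟩ := hK.exists_bound_of_continuousOn hA.cont.continuousOn
  obtain ⟨D, hD⟩ := (hK.prod (isCompact_closedBall (0 : Eu n) C)).exists_bound_of_continuousOn
    hΦ.continuousOn
  refine Integrable.of_bound (C := D)
    (hΦ.measurable.comp (measurable_id.prodMk hN)).aestronglyMeasurable ?_
  filter_upwards [hμ] with x hx
  refine hD (x, N x) ⟨hx, ?_⟩
  rw [mem_closedBall_zero_iff]
  have h := coer hA x (N x)
  rw [hu, mul_one] at h
  exact (abs_le_of_sq_le_sq' h (norm_nonneg _)).2.trans (hC x hx)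

theorem cmp {φ : ℝ → ℝ} {D T : ℝ} (hφ : HasDerivAt φ D 0)
    (h : ∀ η > 0, ∀ᶠ ε : ℝ in 𝓝[>] 0, φ ε - φ 0 ≤ ε * (T + η)) : D ≤ T := by
  refine le_of_forall_pos_le_add fun η hη => ?_
  have h1 := (hasDerivAt_iff_tendsto_slope_zero.1 hφ).mono_left
    (nhdsWithin_mono _ (fun x (hx : x ∈ Ioi (0 : ℝ)) => ne_of_gt hx) :
      𝓝[>] (0 : ℝ) ≤ 𝓝[≠] 0)
  refine le_of_tendsto h1 ?_
  filter_upwards [h η hη, self_mem_nhdsWithin] with ε h2 h3
  have h4 : (0 : ℝ) < ε := h3
  rw [zero_add, smul_eq_mul, inv_mul_le_iff₀ h4]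
  exact h2

end Fv

theorem fv_pf (hv : VarStmt) : FvStmt := by
  intro n G A b H a0 o Q V X ex I Ω μ N hn hG hA hg hm hb hI z hz k hk hk0
  have := hb.fin
  have hK := hg.proper o a0
  have hQ : ∀ w, ContDiff ℝ 2 (Q w) := fun w =>
    hg.Qsm.comp (contDiff_const.prodMk contDiff_id)
  have hμK : ∀ᵐ x ∂μ, x ∈ {x | Q o x ≤ a0} := by
    have h1 : closure Ω ⊆ {x | Q o x ≤ a0} := closure_minimal hm.sub hK.isClosed
    exact measure_mono_null (compl_subset_compl.2 h1) hb.supp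
  by_cases hμ0 : μ = 0
  · simp [Dat.Lam, mkDat, hμ0]
  have hμp : 0 < μ.real univ := by
    rw [measureReal_def]
    exact ENNReal.toReal_pos (by simpa using hμ0) (measure_ne_top _ _)
  obtain ⟨R, hR⟩ := hK.isBounded.exists_norm_le
  have hR0 : 0 ≤ R := (norm_nonneg _).trans (hR z hz)
  let χ : ContDiffBump (0 : Eu n) := ⟨R + 1, R + 2, by linarith, by linarith⟩
  have hχ : ∀ x, Q o x ≤ a0 → (χ : Eu n → ℝ) =ᶠ[𝓝 x] 1 := by
    intro x hx
    refine χ.eventuallyEq_one_of_mem_ball ?_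
    rw [mem_ball_zero_iff]
    have := hR x hx
    change ‖x‖ < R + 1
    linarith
  let Y : Eu n → Eu n := fun x => χ x • (-(k x • V z x))
  have hY1 : ContDiff ℝ 1 Y := χ.contDiff.smul (hk.smul (hg.Vsm z)).neg
  have hY2 : HasCompactSupport Y := χ.hasCompactSupport.smul_right
  have hYe : ∀ x, Q o x ≤ a0 → Y =ᶠ[𝓝 x] fun y => -(k y • V z y) := by
    intro x hx
    filter_upwards [hχ x hx] with y hy
    simp only [Y, hy, Pi.one_apply, one_smul]
  have hYv : ∀ x, Q o x ≤ a0 → Y x = -(k x • V z x) := fun x hx => (hYe x hx).eq_of_nhds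
  have hYd : ∀ x, Q o x ≤ a0 → ∀ ξ, fderiv ℝ Y x ξ =
      -(k x • fderiv ℝ (V z) x ξ + fderiv ℝ k x ξ • V z x) := by
    intro x hx ξ
    have h1 := ((hk.differentiable (by norm_num) x).hasFDerivAt.smul
      ((hg.Vsm z).differentiable (by norm_num) x).hasFDerivAt).neg
    have h2 : fderiv ℝ Y x = _ := ((h1.congr_of_eventuallyEq (hYe x hx))).fderiv
    rw [h2]
    simp
  have hΩb : Bornology.IsBounded Ω := hK.isBounded.subset hm.sub
  obtain ⟨hv1, hv2, hv3⟩ := hv n G A Ω μ N Y hG hA hm.meas hΩb hb hY1 hY2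
  obtain ⟨s0, hs0, hs⟩ := Fv.push hA hg hz
  obtain ⟨Ck, hCk⟩ := hK.exists_bound_of_continuousOn hk.continuous.continuousOn
  have hin : ∀ᶠ ε : ℝ in 𝓝[>] 0, (fun x => x + ε • Y x) '' Ω ⊆ {x | Q o x ≤ a0} := by
    have h1 : ∀ᶠ ε : ℝ in 𝓝[>] 0, ε * |Ck| < s0 := by
      have h2 : Tendsto (fun ε : ℝ => ε * |Ck|) (𝓝 0) (𝓝 (0 * |Ck|)) :=
        (continuous_id.mul continuous_const).tendsto 0
      rw [zero_mul] at h2
      exact (h2.eventually (gt_mem_nhds hs0)).filter_mono nhdsWithin_le_nhds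
    filter_upwards [h1, self_mem_nhdsWithin] with ε h2 h3
    have h4 : (0 : ℝ) < ε := h3
    rintro _ ⟨x, hx, rfl⟩
    have hxK : Q o x ≤ a0 := hm.sub hx
    have h5 : k x ≤ |Ck| := ((le_abs_self _).trans (hCk x hxK)).trans (le_abs_self _)
    have h6 := hs (ε * k x) (mul_nonneg h4.le (hk0 x hxK))
      ((mul_le_mul_of_nonneg_left h5 h4.le).trans h2.le) x hxK
    change Q o (x + ε • Y x) ≤ a0
    rw [hYv x hxK, smul_neg, smul_smul, ← sub_eq_add_neg]
    exact h6
  have hv0 : vol G ((fun x => x + (0 : ℝ) • Y x) '' Ω) = vol G Ω := by simp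
  have hder : HasDerivAt (fun ε : ℝ => I (vol G ((fun x => x + ε • Y x) '' Ω)))
      (H * ∫ x, G x (N x) (Y x) ∂μ) 0 := by
    have h1 : HasDerivAt I H (vol G ((fun x => x + (0 : ℝ) • Y x) '' Ω)) := by rwa [hv0]
    exact h1.comp 0 hv3
  have hmain : H * ∫ x, G x (N x) (Y x) ∂μ ≤ ∫ x, tdiv G A N Y x ∂μ := by
    refine Fv.cmp hder fun η hη => ?_
    have h1 : ∀ᶠ ε : ℝ in 𝓝[>] 0, 0 < μ.real univ + ε * (∫ x, tdiv G A N Y x ∂μ + η) := by
      have h2 : Tendsto (fun ε : ℝ => μ.real univ + ε * (∫ x, tdiv G A N Y x ∂μ + η)) (𝓝 0)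
          (𝓝 (μ.real univ + 0 * (∫ x, tdiv G A N Y x ∂μ + η))) :=
        (continuous_const.add (continuous_id.mul continuous_const)).tendsto 0
      rw [zero_mul, add_zero] at h2
      exact (h2.eventually (lt_mem_nhds hμp)).filter_mono nhdsWithin_le_nhds
    filter_upwards [h1, hv2 η hη, hin, hv1.filter_mono nhdsWithin_le_nhds] with ε h2 h3 h4 h5
    have h6 := hm.le _ h5 h4 (ne_top_of_le_ne_top ENNReal.ofReal_ne_top h3)
    have h7 := ENNReal.toReal_le_of_le_ofReal h2.le h3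
    have h8 : (per G Ω).toReal = μ.real univ := by rw [measureReal_def, hb.mass]
    rw [hv0]
    linarith
  have hGc : Continuous G := hG.smooth.continuous
  have hG1 := hG.smooth.continuous_fderiv_apply (by norm_num)
  have hYc : Continuous Y := hY1.continuous
  have hY3 : Continuous (fderiv ℝ Y) := hY1.continuous_fderiv (by norm_num)
  have hlie : Continuous fun p : Eu n × Eu n => lie G Y p.1 p.2 := by
    unfold lie
    exact (((hG1.comp (continuous_fst.prodMk (hYc.comp continuous_fst))).clm_apply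
      continuous_snd).clm_apply continuous_snd).add (continuous_const.mul
      (((hGc.comp continuous_fst).clm_apply ((hY3.comp continuous_fst).clm_apply
      continuous_snd)).clm_apply continuous_snd))
  have hi1 : Integrable (fun x => G x (N x) (Y x)) μ :=
    Fv.integ hA hK hμK hb.meas hb.unit (Φ := fun p => G p.1 p.2 (Y p.1))
      (((hGc.comp continuous_fst).clm_apply continuous_snd).clm_apply (hYc.comp continuous_fst))
  have hi2 : Integrable (fun x => tdiv G A N Y x) μ := by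
    refine Fv.integ hA hK hμK hb.meas hb.unit
      (Φ := fun p => (∑ i, lie G Y p.1 (A p.1 (ee i)) - lie G Y p.1 p.2) / 2) ?_
    refine Continuous.div_const (Continuous.sub (continuous_finsetSum _ fun i _ => ?_) hlie) 2
    exact hlie.comp (f := fun p : Eu n × Eu n => (p.1, A p.1 (ee i)))
      (continuous_fst.prodMk ((hA.cont.comp continuous_fst).clm_apply continuous_const))
  unfold Dat.Lam
  by_cases hF : Integrable (fun x => (k x * ((mkDat G A b H a0 o μ N Q X).m *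
      (1 + (mkDat G A b H a0 o μ N Q X).b ^ 2 * (mkDat G A b H a0 o μ N Q X).Q z x)) +
      (mkDat G A b H a0 o μ N Q X).Gam k ((mkDat G A b H a0 o μ N Q X).Q z) x -
      (mkDat G A b H a0 o μ N Q X).H * k x * (mkDat G A b H a0 o μ N Q X).q z x))
      (mkDat G A b H a0 o μ N Q X).μ
  swap
  · rw [integral_undef hF]
  have hle := integral_mono_ae hF ((hi1.const_mul H).sub hi2) ?_
  · refine hle.trans ?_
    change ∫ x, (H * G x (N x) (Y x) - tdiv G A N Y x) ∂μ ≤ 0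
    rw [integral_sub (hi1.const_mul H) hi2, integral_const_mul]
    linarith
  filter_upwards [hμK] with x hx
  have hx' : Q o x ≤ a0 := hx
  obtain ⟨e1, e2⟩ := Fv.expand hA x (N x) (hb.unit x)
  have q1 := Fv.quad (fderiv ℝ G x (Y x) + (2 : ℝ) • (G x).comp (fderiv ℝ Y x)) _ _ _ e1 e2
  have q2 := Fv.quad (G x) _ _ _ e1 e2
  have hB : ∀ ξ, (fderiv ℝ G x (Y x) + (2 : ℝ) • (G x).comp (fderiv ℝ Y x)) ξ ξ = lie G Y x ξ := by
    intro ξ
    simp [lie]
  have hl : ∀ ξ, lie G Y x ξ =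
      -(k x * lie G (V z) x ξ) - 2 * (fderiv ℝ k x ξ * fderiv ℝ (Q z) x ξ) := by
    intro ξ
    rw [← hg.grad]
    unfold lie
    rw [hYd x hx', hYv x hx']
    simp only [map_neg, map_add, map_smul, neg_apply, add_apply, smul_apply, smul_eq_mul]
    ring
  simp only [hB] at q1
  have q3 : ∑ i, G x (A x (ee i)) (A x (ee i)) = (n : ℝ) := by
    simp [hA.iso, ee]
  rw [q3, hb.unit] at q2
  have hcast : ((n - 1 : ℕ) : ℝ) = (n : ℝ) - 1 := by
    rw [Nat.cast_sub hn, Nat.cast_one]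
  have hs1 : ∑ i, lie G Y x (A x (ee i) - G x (A x (ee i)) (N x) • N x) ≤
      ∑ i, (-(k x * (2 * (1 + b ^ 2 * Q z x))) *
        G x (A x (ee i) - G x (A x (ee i)) (N x) • N x) (A x (ee i) - G x (A x (ee i)) (N x) • N x)
        - 2 * (fderiv ℝ k x (A x (ee i) - G x (A x (ee i)) (N x) • N x) *
          fderiv ℝ (Q z) x (A x (ee i) - G x (A x (ee i)) (N x) • N x))) := by
    refine Finset.sum_le_sum fun i _ => ?_
    rw [hl]
    have h1 := mul_le_mul_of_nonneg_left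
      (hg.hess z x (A x (ee i) - G x (A x (ee i)) (N x) • N x)) (hk0 x hx')
    linarith
  rw [Finset.sum_sub_distrib, ← Finset.mul_sum, ← Finset.mul_sum, q2, q1] at hs1
  have hq : G x (N x) (Y x) = -(k x * fderiv ℝ (Q z) x (N x)) := by
    rw [hYv x hx', map_neg, map_smul, smul_eq_mul, hG.symm, hg.grad]
  change k x * (((n - 1 : ℕ) : ℝ) * (1 + b ^ 2 * Q z x)) +
    ∑ i, fderiv ℝ k x (A x (ee i) - G x (A x (ee i)) (N x) • N x) *
      fderiv ℝ (Q z) x (A x (ee i) - G x (A x (ee i)) (N x) • N x) -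
    H * k x * fderiv ℝ (Q z) x (N x) ≤ H * G x (N x) (Y x) - tdiv G A N Y x
  unfold tdiv
  rw [hq, hcast]
  linarith

end Vale.Agent.P219
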