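import Vale.Agent.P219.StmG
import Vale.Agent.P255.Key1
import Vale.Agent.P234.JointAux

/-! Part G: Euclidean space as a manifold with one chart; flow, Gauss lemma, covering. -/

open scoped Manifold ContDiff RealInnerProductSpace Topology
open Set Filter

set_option maxSynthPendingDepth 3

namespace Vale.Agent.P219.G

open Vale.Agent.P255

variable {n : ℕ} {G : Met n}

namespace GBr

theorem atl {e : OpenPartialHomeomorph (Eu n) (Eu n)} (he : e ∈ atlas (Eu n) (Eu n)) :
    e = OpenPartialHomeomorph.refl (Eu n) := chartedSpaceSelf_atlas.1 he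

theorem mem : OpenPartialHomeomorph.refl (Eu n) ∈ atlas (Eu n) (Eu n) :=
  chartedSpaceSelf_atlas.2 rfl

theorem gc_refl (G : Met n) : gc G (OpenPartialHomeomorph.refl (Eu n)) = G := by
  funext y
  refine ContinuousLinearMap.ext fun v => ContinuousLinearMap.ext fun w => ?_
  have h : ∀ u, dS (OpenPartialHomeomorph.refl (Eu n)) y u = u := fun u => by
    have h1 : ⇑(OpenPartialHomeomorph.refl (Eu n)).symm = id := rfl
    unfold dS
    rw [h1, mfderiv_id]
    rfl
  rw [gc_apply, h, h]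
  rfl

theorem isRM (h : Rm G) : IsRM G :=
  ⟨h.symm, h.pos, fun e he => by rw [atl he, gc_refl]; exact h.smooth.contDiffOn⟩

theorem dM_eq {A : Type} [NormedAddCommGroup A] [NormedSpace ℝ A] (f : A → Eu n) (a : A) :
    dM (Eu n) f a = fderiv ℝ f a := mfderiv_eq_fderiv

theorem vel_eq (γ : ℝ → Eu n) (s : ℝ) : vel (Eu n) γ s = deriv γ s := by
  rw [vel, dM_eq]
  rfl

theorem geod {γ : ℝ → Eu n} (h1 : ContDiff ℝ 2 γ) (h2 : ∀ s, cov G γ (deriv γ) s = 0) :
    IsGeodesicOn G γ univ :=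
  ⟨h1.continuous.continuousOn, fun e he s _ _ => by
    rw [atl he, gc_refl]
    exact ⟨h1.contDiffAt, h2 s⟩⟩

theorem geoFam {Γ : (Eu n × Eu n) × ℝ → Eu n} (h : Fl G Γ) (z : Eu n) : GeoFam G z (fam Γ z) :=
  ⟨((h.famsm z).of_le le_inf3).contMDiff,
    fun v => geod (((h.famsm z).of_le le_inf2).comp (contDiff_const.prodMk contDiff_id))
      (h.geo (z, v)), h.zero z, fun v => (vel_eq _ _).trans (h.vel0 z v)⟩

theorem pb_eq (f : Eu n × ℝ → Eu n) (a u w : Eu n × ℝ) :
    pb G f a u w = G (f a) (fderiv ℝ f a u) (fderiv ℝ f a w) := by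
  rw [pb, dM_eq]

end GBr

open GBr

theorem gauss_pf : GaussStmt := fun _ _ _ hG h =>
  ⟨fun z v s => (pb_eq _ _ _ _).symm.trans ((geoFam h z).energy (isRM hG) v s),
    fun z v w s => (pb_eq _ _ _ _).symm.trans ((geoFam h z).gauss (isRM hG) v w s)⟩

theorem cov_pf : CovStmt := by
  intro n G Γ hG h hK z
  have hN : NPC G := fun e he y _ u v => by rw [atl he, gc_refl]; exact hK y u v
  have hc : IsCoveringMap (xp Γ z) := (geoFam h z).isCoveringMap (isRM hG) hN
  obtain ⟨S, ⟨s1, s2⟩, -⟩ := hc.existsUnique_continuousMap_lifts (ContinuousMap.id (Eu n))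
    (xp Γ z 0) 0 rfl
  have s3 : ∀ x, xp Γ z (S x) = x := fun x => congrFun s2 x
  have s4 : S ∘ xp Γ z = id := hc.eq_of_comp_eq (S.continuous.comp hc.continuous) continuous_id
    (funext fun v => s3 _) 0 s1
  refine ⟨⟨Function.LeftInverse.injective (g := S) fun v => congrFun s4 v,
    fun x => ⟨_, s3 x⟩⟩, fun v w hw => ?_⟩
  have h1 := (geoFam h z).expand (isRM hG) hN v w
  rw [h.fderiv_xp] at hw
  rw [pb_eq, show fderiv ℝ (fam Γ z) (v, 1) (w, 0) = 0 from hw, map_zero] at h1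
  by_contra h0
  exact absurd (hG.pos z w h0) (not_lt.2 h1)

theorem flow_pf : FlowStmt := by
  intro n G κ h
  have hR := isRM h.toRm
  choose γ g1 g2 g3 g4 using h.complete
  have g5 : ∀ p : Eu n × Eu n, IsGeodesicOn G (γ p.1 p.2) univ := fun p =>
    geod (g1 _ _) (g4 _ _)
  refine ⟨fun a => γ a.1.1 a.1.2 a.2, contDiff_infty.2 fun m => contDiff_iff_contDiffAt.2 ?_,
    g2, g3, fun p => g4 p.1 p.2, fun p a c s => ?_⟩
  · rintro ⟨p, r⟩
    have h1 := (P234.JointAux.smoothN (A := Eu n × Eu n) (Γ := fun a => γ a.1.1 a.1.2 a.2)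
      (m + 2) (Nat.le_add_left 2 m) hR g5 p (by simp only [g2]; exact continuousAt_fst)
      (fun e he _ => by
        have h2 : (fun v : Eu n × Eu n => P234.JointAux.ph e
            (fun a : (Eu n × Eu n) × ℝ => γ a.1.1 a.1.2 a.2) (v, 0)) = id := by
          funext v
          rw [atl he]
          exact Prod.ext (g2 v.1 v.2) (g3 v.1 v.2)
        rw [h2]
        exact contDiffAt_id) r).2 _ mem (mem_univ _)
    exact h1.fst.of_le (by exact_mod_cast Nat.le_add_right m 2)
  · have h2 : IsGeodesicOn G (fun s => γ p.1 p.2 (a + c * s)) univ := hR.geo_affine (g5 p) a c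
    have h3 := IsGeodesicOn.vel_affine isOpen_univ (g5 p) a c 0 (mem_univ _)
    refine hR.geo_unique isOpen_univ isPreconnected_univ
      (g5 (γ p.1 p.2 a, c • deriv (γ p.1 p.2) a)) h2 (mem_univ (0 : ℝ)) ?_ ?_ (mem_univ s)
    · simp only [g2, mul_zero, add_zero]
    · rw [h3, vel_eq, vel_eq, g3, mul_zero, add_zero]

end Vale.Agent.P219.G
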