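import Vale.Agent.P219.StmG

/-! Part G: the law of cosines. -/

open scoped ContDiff RealInnerProductSpace Topology
open Set Filter

set_option maxSynthPendingDepth 3

namespace Vale.Agent.P219.G

open Vale.Agent.P255

namespace GCos

variable {n : ℕ} {G : Met n}

/-- The derivative of `G (V, c')` along a geodesic. -/
theorem along (hG : Rm G) {V : Eu n → Eu n} {c : ℝ → Eu n} {s : ℝ}
    (hV : DifferentiableAt ℝ V (c s)) (hc : ContDiffAt ℝ 2 c s) (hg : cov G c (deriv c) s = 0) :
    HasDerivAt (fun r => G (c r) (V (c r)) (deriv c r)) (lie G V (c s) (deriv c s) / 2) s := by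
  have hcm := Rm.cm hG
  have h1 := hcm.hasDerivAt_inner (mem_univ (c s)) (Calc2.d1 hc)
    (hV.hasFDerivAt.comp_hasDerivAt s (Calc2.d1 hc)) (Calc2.d2 hc)
  have h2 : deriv (deriv c) s + chr G (c s) (deriv c s) (deriv c s) = 0 := hg
  have h3 := hcm.koszul (mem_univ (c s)) (deriv c s) (V (c s)) (deriv c s)
  rw [h2, map_zero, add_zero] at h1
  rw [hcm.fderiv_symm (mem_univ (c s)) (deriv c s) (V (c s))] at h3
  refine h1.congr_deriv ?_
  simp only [lie, map_add, add_apply, Function.comp_apply]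
  linarith

end GCos

theorem cos_pf : CosStmt := by
  intro n G b F k e l A h hH o z x
  obtain ⟨a, ha⟩ : ∃ a, a = DD G l z x := ⟨_, rfl⟩
  have a0 : 0 ≤ a := ha ▸ h.D0 z x
  obtain ⟨c, hc⟩ : ∃ c : ℝ → Eu n, c = fun t : ℝ => e z (t • l z x) := ⟨_, rfl⟩
  have c2 : ContDiff ℝ 2 c := by
    rw [hc]
    exact ((h.lg.esm z).of_le le_inf2).comp (contDiff_id.smul contDiff_const)
  have cg : ∀ s, cov G c (deriv c) s = 0 := by rw [hc]; exact h.lg.geo z _
  have cs : ∀ s, G (c s) (deriv c s) (deriv c s) = a := by rw [hc, ha]; exact h.lg.speed z _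
  have c0 : c 0 = z := by rw [hc]; simp only [zero_smul, h.lg.e0]
  have c1 : c 1 = x := by rw [hc]; simp only [one_smul, h.lg.el]
  have v1 : deriv c 1 = -l x z := by rw [hc, h.lg.vel1, h.lg.el]
  have d1 : ∀ s, HasDerivAt (fun r => QQ G F l o (c r)) (G (c s) (VV G k l o (c s)) (deriv c s)) s :=
    fun s => (h.hQ o (c s)).comp_hasDerivAt s (Calc2.d1 c2.contDiffAt)
  have d2 := fun s => GCos.along h.rm ((h.Vsm o).differentiable (by simp) (c s)) c2.contDiffAt
    (cg s)
  have d3 : ∀ s, HasDerivAt (fun r => G (c r) (VV G k l o (c r)) (deriv c r) * (r * k (r ^ 2 * a)) -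
      QQ G F l o (c r) * (1 + b ^ 2 * F (r ^ 2 * a)) - F (r ^ 2 * a))
      (s * k (s ^ 2 * a) *
        (lie G (VV G k l o) (c s) (deriv c s) / 2 - (1 + b ^ 2 * QQ G F l o (c s)) * a)) s :=
    fun s => ((((d2 s).mul (h.ent.hs a0 s)).sub ((d1 s).mul
      (((h.ent.hq a s).const_mul (b ^ 2)).const_add 1))).sub (h.ent.hq a s)).congr_deriv (by ring)
  have mono := monotoneOn_of_deriv_nonneg (convex_Ici (0 : ℝ))
    (fun s _ => (d3 s).continuousAt.continuousWithinAt)
    (fun s _ => (d3 s).differentiableAt.differentiableWithinAt) (fun s hs => by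
      have h1 := hH o (c s) (deriv c s)
      have h2 : 0 ≤ s := interior_subset hs
      rw [cs] at h1
      rw [(d3 s).deriv]
      exact mul_nonneg (mul_nonneg h2 (zero_le_one.trans (h.ent.k1 _ (by positivity))))
        (by linarith))
  have h3 := mono (mem_Ici.2 le_rfl) (mem_Ici.2 zero_le_one) zero_le_one
  simp only [one_pow, one_mul, zero_mul, mul_zero, ne_eq, OfNat.ofNat_ne_zero, not_false_eq_true,
    zero_pow, h.ent.F0, c0, c1, v1, add_zero, mul_one] at h3
  have h4 : G x (VV G k l o x) (VV G k l z x) = G x (VV G k l o x) (-l x z) * k a := by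
    rw [ha, mul_comm, ← smul_eq_mul, ← map_smul]
    rfl
  have h5 : QQ G F l z x = F a := by rw [ha, QQ]
  rw [h4, h5]
  linarith

end Vale.Agent.P219.G
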