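import Vale.Agent.P219.StmG

open scoped ContDiff RealInnerProductSpace Topology
open Set Filter

namespace Vale.Agent.P219.G

namespace GEnt

/-- the series of `sinh x / x` in the variable `x²` -/
noncomputable def ps : FormalMultilinearSeries ℝ ℝ ℝ :=
  FormalMultilinearSeries.ofScalars ℝ fun j => (((2 * j + 1).factorial : ℝ))⁻¹

theorem ps_rad : ps.radius = ⊤ := by
  refine FormalMultilinearSeries.radius_eq_top_of_summable_norm _ fun r => ?_
  refine Summable.of_nonneg_of_le (fun j => by positivity) (fun j => ?_)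
    (Real.summable_pow_div_factorial r)
  rw [ps, FormalMultilinearSeries.ofScalars_norm, norm_inv, Real.norm_natCast, div_eq_inv_mul]
  gcongr
  omega

theorem S_smooth : ContDiff ℝ ∞ ps.sum := by
  have h := (ps.hasFPowerSeriesOnBall (by rw [ps_rad]; exact ENNReal.zero_lt_top)).analyticOnNhd
  rw [ps_rad, Metric.eball_top_eq_univ] at h
  exact h.contDiff

theorem S_eq (t : ℝ) : ps.sum t = ∑' j, (((2 * j + 1).factorial : ℝ))⁻¹ * t ^ j := by
  unfold FormalMultilinearSeries.sum ps
  simp only [FormalMultilinearSeries.ofScalars_apply_eq, smul_eq_mul]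

theorem S_zero : ps.sum 0 = 1 := by
  rw [S_eq, tsum_eq_single 0 fun j hj => by simp [hj]]
  simp

theorem S_sinh (x : ℝ) : x * ps.sum (x ^ 2) = Real.sinh x := by
  rw [S_eq, ← tsum_mul_left, ← (Real.hasSum_sinh x).tsum_eq]
  refine tsum_congr fun j => ?_
  rw [← pow_mul, div_eq_inv_mul]
  ring

theorem ks (b r : ℝ) : r * ps.sum (b ^ 2 * r ^ 2) = sn b r := by
  unfold sn
  split_ifs with h
  · simp [h, S_zero]
  · rw [← S_sinh, eq_div_iff h, mul_pow]
    ring

theorem d_qf (b r : ℝ) : HasDerivAt (qf b) (sn b r) r := by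
  unfold qf sn
  split_ifs with h
  · simpa using (hasDerivAt_pow 2 r).div_const 2
  · have := ((((hasDerivAt_id r).const_mul b).cosh).sub_const 1).div_const (b ^ 2)
    refine this.congr_deriv ?_
    simp only [id]
    field_simp

theorem d_sn (b r : ℝ) : HasDerivAt (sn b) (1 + b ^ 2 * qf b r) r := by
  unfold qf sn
  split_ifs with h
  · exact (hasDerivAt_id' r).congr_deriv (by simp [h])
  · have := (((hasDerivAt_id r).const_mul b).sinh).div_const b
    refine this.congr_deriv ?_
    simp only [id]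
    field_simp
    ring

theorem sn_sq (b r : ℝ) : sn b r ^ 2 = 2 * qf b r + b ^ 2 * qf b r ^ 2 := by
  unfold qf sn
  split_ifs with h
  · rw [h]; ring
  · field_simp
    rw [Real.sinh_sq]
    ring

theorem le_sn {b r : ℝ} (hb : 0 ≤ b) (hr : 0 ≤ r) : r ≤ sn b r := by
  unfold sn
  split_ifs with h
  · exact le_rfl
  · rw [le_div_iff₀ (lt_of_le_of_ne hb (Ne.symm h)), mul_comm]
    exact Real.self_le_sinh_iff.2 (mul_nonneg hb hr)

end GEnt

open GEnt in
theorem ent_pf : EntStmt := by
  intro b hb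
  obtain ⟨k, ksm, k0, hks⟩ : ∃ k : ℝ → ℝ, ContDiff ℝ ∞ k ∧ k 0 = 1 ∧
      ∀ r, r * k (r ^ 2) = sn b r :=
    ⟨fun t => ps.sum (b ^ 2 * t), S_smooth.comp (contDiff_const.mul contDiff_id),
      by simp [S_zero], ks b⟩
  have dF : ∀ t, HasDerivAt (fun t => (∫ s in (0 : ℝ)..t, k s) / 2) (k t / 2) t := fun t =>
    (ksm.continuous.integral_hasStrictDerivAt 0 t).hasDerivAt.div_const 2
  have k1 : ∀ t, 0 ≤ t → 1 ≤ k t := fun t ht => by
    rcases ht.eq_or_lt with rfl | ht'
    · exact k0.ge
    · have a := le_sn hb (Real.sqrt_nonneg t)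
      rw [← hks, Real.sq_sqrt ht] at a
      exact (le_mul_iff_one_le_right (Real.sqrt_pos.2 ht')).1 a
  have Fge : ∀ t, 0 ≤ t → t / 2 ≤ (fun t => (∫ s in (0 : ℝ)..t, k s) / 2) t := fun t ht => by
    have := intervalIntegral.integral_mono_on ht (intervalIntegrable_const (c := (1 : ℝ)))
      (ksm.continuous.intervalIntegrable (μ := MeasureTheory.volume) 0 t) fun s hs => k1 s hs.1
    simp only [intervalIntegral.integral_const, sub_zero, smul_eq_mul, mul_one] at this ⊢
    linarith
  have F0 : (fun t => (∫ s in (0 : ℝ)..t, k s) / 2) 0 = 0 := by simp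
  generalize (fun t => (∫ s in (0 : ℝ)..t, k s) / 2) = F at dF F0 Fge
  have Fq : ∀ r, F (r ^ 2) = qf b r := fun r => by
    have d : ∀ x, HasDerivAt (fun x => F (x ^ 2) - qf b x) 0 x := fun x => by
      have := ((dF (x ^ 2)).comp x (hasDerivAt_pow 2 x)).sub (d_qf b x)
      refine this.congr_deriv ?_
      rw [← hks]
      simp only [Nat.cast_ofNat, Nat.add_one_sub_one, pow_one]
      ring
    have := is_const_of_deriv_eq_zero (fun x => (d x).differentiableAt) (fun x => (d x).deriv) r 0
    have q0 : qf b 0 = 0 := by simp [qf]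
    simp only [ne_eq, OfNat.ofNat_ne_zero, not_false_eq_true, zero_pow, F0, q0] at this
    linarith
  refine ⟨F, k, ?_, ksm, dF, fun t ht => ?_, F0, k0, k1, Fge, fun t ht => ?_, Fq, hks⟩
  · refine contDiff_infty_iff_deriv.2 ⟨fun t => (dF t).differentiableAt, ?_⟩
    rw [show deriv F = fun t => k t / 2 from funext fun t => (dF t).deriv]
    exact ksm.div_const 2
  · have a := (hasDerivAt_id (√t)).mul
      ((ksm.differentiable (by simp) (√t ^ 2)).hasDerivAt.comp (√t) (hasDerivAt_pow 2 (√t)))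
    have e : (id * k ∘ fun x : ℝ => x ^ 2) = sn b := funext fun r => hks r
    rw [e] at a
    have c := a.unique (d_sn b (√t))
    rw [← Fq] at c
    simp only [Function.comp_apply, id, Nat.cast_ofNat, Nat.add_one_sub_one, pow_one,
      Real.sq_sqrt ht] at c
    rw [← c]
    linear_combination (-2 * deriv k t) * Real.mul_self_sqrt ht
  · have a := sn_sq b (√t)
    rwa [← Fq, ← hks, mul_pow, Real.sq_sqrt ht] at a

end Vale.Agent.P219.G
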