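import Vale.Agent.P219.StmG

/-! Part G: splitting a Jacobi field into its normal and radial parts. -/

open scoped ContDiff RealInnerProductSpace Topology
open Set Filter

set_option maxSynthPendingDepth 3

namespace Vale.Agent.P219.G

open Vale.Agent.P255

namespace GGen

variable {n : ℕ} {G : Met n} {Γ : (Eu n × Eu n) × ℝ → Eu n}

theorem rad (h : Fl G Γ) (z v : Eu n) (s : ℝ) : JJ Γ z v v s = s • TT Γ z v s := by
  have h1 : HasDerivAt (fun c : ℝ => c • v) v 1 := by
    simpa using (hasDerivAt_id (1 : ℝ)).smul_const v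
  have h2 := HasFDerivAt.comp_hasDerivAt_of_eq (1 : ℝ) (h.hasJ z v s) h1 (by simp)
  have h3 : HasDerivAt (fun c : ℝ => c * s) s 1 := by
    simpa using (hasDerivAt_id (1 : ℝ)).mul_const s
  have h4 := HasDerivAt.scomp_of_eq (1 : ℝ) (h.hasT z v s) h3 (by simp)
  have h5 : ((fun u => Γ ((z, u), s)) ∘ fun c : ℝ => c • v) =
      (fun t => Γ ((z, v), t)) ∘ fun c : ℝ => c * s := funext fun c => h.hom z v c s
  rw [h5] at h2
  exact h2.unique h4

theorem lin (Γ : (Eu n × Eu n) × ℝ → Eu n) (z v w : Eu n) (c s : ℝ) :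
    JJ Γ z v (w + c • v) s = JJ Γ z v w s + c • JJ Γ z v v s := by
  rw [JJ, JJ, JJ, ← map_smul, ← map_add]
  simp only [Prod.smul_mk, smul_zero, Prod.mk_add_mk, add_zero]

theorem dif (hG : Rm G) (h : Fl G Γ) (z v w : Eu n) (s : ℝ) :
    DifferentiableAt ℝ (AA G Γ z v w) s := by
  have h1 := h.hasDJ z v w s
  have h2 := ((hG.smooth.differentiable (by simp) _).hasFDerivAt.comp_hasDerivAt s (h.hasT z v s))
  exact ((h2.clm_apply h1).clm_apply h1).differentiableAt

end GGen

open GGen

theorem gen_pf : GenStmt := by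
  intro n G b F k Γ hG h hs hJ
  have key : ∀ z v w, ∃ u, G z v u = 0 ∧ G z u u = G z w w - G z v w ^ 2 / G z v v ∧
      AA G Γ z v w 1 = AA G Γ z v u 1 + G z v w ^ 2 / G z v v ∧
      deriv (AA G Γ z v w) 1 = deriv (AA G Γ z v u) 1 + 2 * (G z v w ^ 2 / G z v v) := by
    intro z v w
    obtain ⟨c, hc⟩ : ∃ c, c = G z v w / G z v v := ⟨_, rfl⟩
    have c1 : c * G z v v = G z v w := by
      by_cases hv : v = 0
      · simp [hv]
      · rw [hc, div_mul_cancel₀ _ (hG.pos z v hv).ne']
    have c2 : G z v w ^ 2 / G z v v = c * G z v w := by rw [hc]; ring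
    have u0 : G z v (w - c • v) = 0 := by rw [map_sub, map_smul, smul_eq_mul, c1, sub_self]
    have eA : AA G Γ z v w = fun s => AA G Γ z v (w - c • v) s + s ^ 2 * (c * G z v w) := by
      funext s
      have h1 := lin Γ z v (w - c • v) c s
      have h2 := hs.gauss z v (w - c • v) s
      rw [u0, mul_zero] at h2
      rw [sub_add_cancel, rad h] at h1
      rw [AA, AA, h1]
      simp only [map_add, map_smul, add_apply, smul_apply, smul_eq_mul]
      rw [hG.symm _ (JJ Γ z v (w - c • v) s) (TT Γ z v s), h2, hs.energy, ← c1]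
      ring
    refine ⟨w - c • v, u0, ?_, ?_, ?_⟩
    · simp only [map_sub, map_smul, sub_apply, smul_apply, smul_eq_mul]
      rw [hG.symm z w v, c2, c1]
      ring
    · rw [c2, eA]
      simp only [one_pow, one_mul]
    · have h1 := (dif hG h z v (w - c • v) 1).hasDerivAt.add
        ((hasDerivAt_pow 2 (1 : ℝ)).mul_const (c * G z v w))
      rw [c2, eA]
      refine (HasDerivAt.deriv h1).trans ?_
      norm_num
  refine ⟨fun z v w => ?_, fun z v w => ?_⟩
  · obtain ⟨u, h1, h2, h3, -⟩ := key z v w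
    rw [← h2, h3]
    linarith [(hJ z v u h1).2]
  · obtain ⟨u, h1, -, h3, h4⟩ := key z v w
    rw [h3, h4, add_sub_cancel_right, add_sub_cancel_right]
    exact (hJ z v u h1).1

end Vale.Agent.P219.G
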