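import Vale.Agent.P219.StmG

/-! Part G: assembly of the pieces. -/

open scoped ContDiff RealInnerProductSpace Topology
open Set Filter

set_option maxSynthPendingDepth 3

namespace Vale.Agent.P219.G

open Vale.Agent.P255

variable {n : ℕ} {G : Met n} {b : ℝ} {F k : ℝ → ℝ} {e l : Eu n → Eu n → Eu n}
  {A : Eu n → Eu n ≃L[ℝ] Eu n}

/-- The exponential map in an orthonormal basis. -/
noncomputable def Ctx.ex (h : Ctx G b F k e l A) (z : Eu n) : Eu n ≃ₜ Eu n where
  toFun v := e z (A z v)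
  invFun x := (A z).symm (l z x)
  left_inv v := by simp only [h.lg.le, ContinuousLinearEquiv.symm_apply_apply]
  right_inv x := by simp only [ContinuousLinearEquiv.apply_symm_apply, h.lg.el]
  continuous_toFun := (h.lg.esm z).continuous.comp (A z).continuous
  continuous_invFun := (A z).symm.continuous.comp (h.lg.l1 z).continuous

theorem Ctx.Qsymm (h : Ctx G b F k e l A) (z x : Eu n) : QQ G F l z x = QQ G F l x z := by
  rw [QQ, QQ, h.Dsymm]

theorem Ctx.geo (h : Ctx G b F k e l A) (hQ : QStmt) (hH : HessStmt) (hC : CosStmt)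
    (hT : TriStmt) (hX : XStmt) :
    Geo G b (QQ G F l) (VV G k l) (XX G k l A) h.ex := by
  obtain ⟨q1, q2, q3⟩ := hQ n G b F k e l A h
  have h1 := hH n G b F k e l A h
  have c1 := hC n G b F k e l A h h1
  obtain ⟨x1, x2⟩ := hX n G b F k e l A h
  have iso : ∀ z v u, G z v (A z u) = ⟪(A z).symm v, u⟫ := fun z v u => by
    rw [← h.iso z, ContinuousLinearEquiv.apply_symm_apply]
  refine ⟨(h.ent.Fsm.comp h.Dsm).of_le le_inf2, h.Qsymm, fun z => ?_, q1, q2, q3,
    fun x y z => ?_, fun z => (h.Vsm z).of_le le_inf1, fun z x ξ => by rw [(h.hQ z x).fderiv],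
    h.eik, h1, fun o z x => ?_, fun z => (h.Xsm z).of_le le_inf1, fun z x => ?_, x1,
    fun z u => ⟨-A z u, fun x => ?_⟩, fun z => (h.lg.esm z).comp (A z).contDiff,
    fun z v => ?_, x2⟩
  · simp only [QQ, DD, h.lg.l0, map_zero, h.ent.F0]
  · have h2 := c1 x y z
    have h3 := Rm.cs h.rm z (VV G k l x z) (VV G k l y z)
    rw [h.eik, h.eik] at h3
    rw [h.Qsymm x z, h.Qsymm y z, h.Qsymm x y] at h2
    rw [h.Qsymm x z, h.Qsymm y z] at h3
    exact hT b _ _ _ _ (h.Q0 _ _) (h.Q0 _ _) (h.Q0 _ _) h2 h3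
  · have h2 := mul_nonneg (mul_nonneg (sq_nonneg b) (h.Q0 o x)) (h.Q0 z x)
    linarith [c1 o z x]
  · have h2 := h.ent.sq _ (h.D0 z x)
    have h3 : ‖(A z).symm (l z x)‖ ^ 2 = DD G l z x := by
      rw [← real_inner_self_eq_norm_sq, ← iso, ContinuousLinearEquiv.apply_symm_apply, DD]
    rw [XX, norm_smul, mul_pow, h3, Real.norm_eq_abs, sq_abs, QQ]
    linarith
  · rw [(h.hQ x z).fderiv, VV, XX, h.Dsymm z x, inner_smul_left, ← iso]
    simp only [map_smul, map_neg, smul_apply, neg_apply, smul_eq_mul, conj_trivial]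
    ring
  · change F (G z (l z (e z (A z v))) (l z (e z (A z v)))) = _
    rw [h.lg.le, h.iso, real_inner_self_eq_norm_sq, h.ent.Fq]

theorem geo_of (hE : EntStmt) (hF : FlowStmt) (hK : CurvStmt) (hG : GaussStmt) (hV : CovStmt)
    (hJ : JacStmt) (hN : GenStmt) (hL : LogStmt) (hM : LgStmt) (hQ : QStmt) (hH : HessStmt)
    (hC : CosStmt) (hT : TriStmt) (hX : XStmt) (hA : FrameStmt) : GeoStmt := by
  intro n G b hb h
  have hR := h.toRm
  obtain ⟨F, k, h1⟩ := hE b hb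
  obtain ⟨Γ, h2⟩ := hF n G _ h
  have h3 := hK n G _ h
  have h4 := hG n G Γ hR h2
  have h5 := hV n G Γ hR h2 fun y u v => (h3 y u v).trans
    (mul_nonpos_of_nonpos_of_nonneg (neg_nonpos.2 (sq_nonneg b)) (sub_nonneg.2 (Rm.cs hR y u v)))
  have h6 := hN n G b F k Γ hR h2 h4 (hJ n G b F k Γ hR h1 h2 h4 h3)
  obtain ⟨l, h7⟩ := hL n Γ h2.smooth h5
  obtain ⟨B, hB⟩ := hA n G hR
  have h8 : ∀ x, Function.Injective (B x) := fun x => (injective_iff_map_eq_zero _).2 fun u hu => by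
    have := hB.iso x u u
    rw [hu, map_zero] at this
    exact inner_self_eq_zero.1 this.symm
  let A : Eu n → Eu n ≃L[ℝ] Eu n := fun x =>
    (LinearEquiv.ofInjectiveEndo (B x : Eu n →ₗ[ℝ] Eu n) (h8 x)).toContinuousLinearEquiv
  have h9 : Ctx G b F k (xp Γ) l A := ⟨hb, hR, h1, hM n G b F k Γ l hR h2 h4 h6 h7, hB.iso⟩
  exact ⟨_, _, _, _, h9.geo hQ hH hC hT hX⟩

end Vale.Agent.P219.G
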