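import Vale.Agent.P219.StmG

/-! Part G: Hessian comparison. -/

open scoped ContDiff RealInnerProductSpace Topology
open Set Filter

set_option maxSynthPendingDepth 3

namespace Vale.Agent.P219.G

open Vale.Agent.P255

theorem hess_pf : HessStmt := by
  intro n G b F k e l A h z x ξ
  have h1 : HasFDerivAt (fun y => -l y z) (fderiv ℝ (fun y => -l y z) x) x :=
    ((h.lg.l2 z).neg.differentiable (by simp) x).hasFDerivAt
  have h2 := ((h.hK z x).smul h1).fderiv
  have h3 : lie G (VV G k l z) x ξ = k (DD G l z x) * lie G (fun y => -l y z) x ξ +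
      4 * deriv k (DD G l z x) * G x (-l x z) ξ ^ 2 := by
    have h4 : fderiv ℝ (VV G k l z) x = _ := h2
    rw [lie, lie, h4, VV]
    simp only [map_smul, map_add, add_apply, smul_apply, smul_eq_mul,
      ContinuousLinearMap.smulRight_apply]
    ring
  have h5 := h.lg.hess z (l z x) (fderiv ℝ (l z) x ξ)
  rw [h.lg.del, h.lg.el, h.lg.gx] at h5
  have h6 := h.ent.dk _ (h.D0 z x)
  have h7 : G x (-l x z) ξ ^ 2 / DD G l z x * DD G l z x = G x (-l x z) ξ ^ 2 := by
    by_cases hv : l z x = 0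
    · rw [← h.lg.gx, hv]
      simp
    · exact div_mul_cancel₀ _ (h.rm.pos z _ hv).ne'
  rw [h3, QQ]
  change 2 * (1 + b ^ 2 * F (DD G l z x)) * (G x ξ ξ - G x (-l x z) ξ ^ 2 / DD G l z x) ≤
    k (DD G l z x) * (lie G (fun y => -l y z) x ξ - 2 * (G x (-l x z) ξ ^ 2 / DD G l z x)) at h5
  rw [← h6] at h5 ⊢
  obtain ⟨m, hm⟩ : ∃ m, m = G x (-l x z) ξ ^ 2 / DD G l z x := ⟨_, rfl⟩
  rw [← hm] at h5 h7
  rw [← h7]
  linarith

end Vale.Agent.P219.G
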