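import Vale.Agent.P219.StmG

/-! Part G: comparison for Jacobi fields. -/

open scoped ContDiff RealInnerProductSpace Topology
open Set Filter

set_option maxSynthPendingDepth 3

namespace Vale.Agent.P219.G

open Vale.Agent.P255

theorem jac_pf (hC : CmpStmt) : JacStmt := by
  intro n G b F k Γ hG hE h hs hK z v w hw
  have hcm := Rm.cm hG
  obtain ⟨c, hc⟩ : ∃ c : ℝ → Eu n, c = fun t => Γ ((z, v), t) := ⟨_, rfl⟩
  obtain ⟨j, hj⟩ : ∃ j : ℝ → Eu n, j = JJ Γ z v w := ⟨_, rfl⟩
  have gj : ∀ r, GJ G univ c j r := fun r => by rw [hc, hj]; exact h.gj hG z v w r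
  have eA : AA G Γ z v w = fun r => G (c r) (j r) (j r) := by rw [hc, hj]; rfl
  have eT : deriv c = TT Γ z v := by rw [hc]; exact h.deriv_eq z v
  have en : ∀ r, G (c r) (deriv c r) (deriv c r) = G z v v := fun r => by
    rw [eT, hc]; exact hs.energy z v r
  have ga : ∀ r, G (c r) (j r) (deriv c r) = 0 := fun r => by
    rw [hG.symm, eT, hc, hj]
    exact (hs.gauss z v w r).trans (by rw [hw, mul_zero])
  have j0 : j 0 = 0 := by rw [hj]; exact h.J0 z v w
  have d1 : ∀ r, HasDerivAt (fun r => G (c r) (j r) (j r)) (2 * G (c r) (cov G c j r) (j r)) r := by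
    intro r
    obtain ⟨hU, h1, h2, -, -⟩ := gj r
    refine (hcm.hasDerivAt_inner hU (Calc2.d1 h1) (Calc2.d1 h2) (Calc2.d1 h2)).congr_deriv ?_
    rw [hG.symm _ (j r), two_mul]
    rfl
  have e1 : deriv (fun r => G (c r) (j r) (j r)) = fun r => 2 * G (c r) (cov G c j r) (j r) :=
    funext fun r => (d1 r).deriv
  have d2 : ∀ r, HasDerivAt (deriv fun r => G (c r) (j r) (j r))
      (2 * (G (c r) (cov G c j r) (cov G c j r) -
        G (c r) (riem G (c r) (j r) (deriv c r) (deriv c r)) (j r))) r := by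
    intro r
    obtain ⟨hU, h1, h2, -, hJ⟩ := gj r
    have a1 := (hcm.hasDerivAt_inner hU (Calc2.d1 h1)
      (hcm.differentiableAt_cov hU h1 h2).hasDerivAt (Calc2.d1 h2)).const_mul 2
    have e2 : deriv (cov G c j) r + chr G (c r) (deriv c r) (cov G c j r) =
        -riem G (c r) (j r) (deriv c r) (deriv c r) := eq_neg_of_add_eq_zero_left hJ
    have e3 : deriv j r + chr G (c r) (deriv c r) (j r) = cov G c j r := rfl
    rw [e2, e3, map_neg, neg_apply] at a1
    rw [e1]
    exact a1.congr_deriv (by ring)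
  have ha := Rm.nn hG z v
  have key := hC (fun r => G (c r) (j r) (j r)) _ (fun r => r * k (r ^ 2 * G z v v))
    (fun r => 1 + b ^ 2 * F (r ^ 2 * G z v v)) (G z w w) (b ^ 2 * G z v v)
    (fun r => (d1 r).differentiableAt) d2 (fun r t => ?_) (by simp only [j0, map_zero])
    (by rw [e1]; simp only [j0, map_zero, mul_zero]) ?_ (hE.hs ha)
    (fun r => (((hE.hq _ r).const_mul (b ^ 2)).const_add 1).congr_deriv (by ring))
    (by simp only [zero_mul]) (by simp only [ne_eq, OfNat.ofNat_ne_zero, not_false_eq_true,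
      zero_pow, zero_mul, hE.F0, mul_zero, add_zero])
    fun r hr => mul_pos hr (one_pos.trans_le (hE.k1 _ (by positivity)))
  · rw [eA]
    simpa only [one_pow, one_mul] using key
  · have k1 := hK (c r) (j r) (deriv c r)
    have k2 := Rm.nn hG (c r) (cov G c j r - t • j r)
    simp only [map_sub, map_smul, sub_apply, smul_apply, smul_eq_mul] at k2
    rw [hG.symm _ (j r) (cov G c j r)] at k2
    rw [en, ga] at k1
    rw [e1]
    nlinarith
  · have z2 : cov G c j 0 = w := by
      rw [cov, j0, ← hcm.chrL_apply (mem_univ _), map_zero, add_zero, hj, h.DJ0]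
    have z3 : c 0 = z := by rw [hc]; exact h.zero z v
    rw [z2, j0, map_zero, z3]
    linarith

end Vale.Agent.P219.G
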