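import Vale.Agent.P219.StmG

/-! Part G: properties of the exponential map and of its inverse. -/

open scoped ContDiff RealInnerProductSpace Topology
open Set Filter

set_option maxSynthPendingDepth 3

namespace Vale.Agent.P219.G

open Vale.Agent.P255

namespace GLg

variable {n : ℕ} {G : Met n} {Γ : (Eu n × Eu n) × ℝ → Eu n} {l : Eu n → Eu n → Eu n}

theorem ray (h : Fl G Γ) (z v : Eu n) :
    (fun t : ℝ => xp Γ z (t • v)) = fun t => Γ ((z, v), t) := by
  funext t
  rw [xp, h.hom, mul_one]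

theorem rev (h : Fl G Γ) (hl : Iv Γ l) (z v : Eu n) : -l (xp Γ z v) z = TT Γ z v 1 := by
  have h1 := h.aff (z, v) 1 (-1) 1
  rw [h.deriv_eq, mul_one, add_neg_cancel, h.zero, neg_one_smul] at h1
  have h2 := hl.le (xp Γ z v) (-TT Γ z v 1)
  rw [show xp Γ (xp Γ z v) (-TT Γ z v 1) = z from h1] at h2
  rw [h2, neg_neg]

theorem dA (hG : Rm G) (h : Fl G Γ) (z v w : Eu n) (s : ℝ) :
    deriv (AA G Γ z v w) s = fderiv ℝ G (Γ ((z, v), s)) (TT Γ z v s) (JJ Γ z v w s) (JJ Γ z v w s) +
      2 * G (Γ ((z, v), s)) (deriv (JJ Γ z v w) s) (JJ Γ z v w s) := by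
  have h1 := (h.hasDJ z v w s).differentiableAt.hasDerivAt
  have h2 := ((hG.smooth.differentiable (by simp) _).hasFDerivAt.comp_hasDerivAt s (h.hasT z v s))
  have h3 := (h2.clm_apply h1).clm_apply h1
  refine (HasDerivAt.deriv (f := AA G Γ z v w) h3).trans ?_
  simp only [add_apply, Function.comp_apply]
  rw [hG.symm _ (JJ Γ z v w s) (deriv (JJ Γ z v w) s)]
  ring

end GLg

open GLg

theorem lg_pf : LgStmt := by
  intro n G b F k Γ l hG h hs hc hl
  have e0 : ∀ z, xp Γ z 0 = z := fun z => by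
    have := congrFun (ray h z 0) 0
    rwa [smul_zero, h.zero] at this
  refine ⟨h.xpsm, hl.lsm, hl.le, hl.el, e0, fun z u => ?_, fun z x => ?_, fun z v u => ?_,
    fun z v s => ?_, fun z v s => ?_, fun z v => ?_, fun z v u => ?_, fun z v u => ?_⟩
  · have h1 : HasDerivAt (fun t : ℝ => t • u) u 0 := by
      simpa using (hasDerivAt_id (0 : ℝ)).smul_const u
    have h2 := HasFDerivAt.comp_hasDerivAt_of_eq (0 : ℝ)
      ((h.xpsm z).differentiable (by simp) 0).hasFDerivAt h1 (by simp)
    have h3 := h.hasT z u 0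
    rw [← ray h, h.T0] at h3
    exact h2.unique h3
  · have h1 := rev h hl z (l z x)
    have h2 := hs.energy z (l z x) 1
    rw [← h1, show fam Γ z (l z x, 1) = xp Γ z (l z x) from rfl, hl.el] at h2
    simpa only [map_neg, neg_apply, neg_neg] using h2
  · rw [rev h hl, h.fderiv_xp]
    exact (hs.gauss z v u 1).trans (one_mul _)
  · rw [ray h]
    exact h.geo (z, v) s
  · rw [ray h, h.deriv_eq, congrFun (ray h z v) s]
    exact hs.energy z v s
  · rw [ray h, h.deriv_eq, rev h hl]
  · rw [h.fderiv_xp]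
    exact hc.rauch z v u
  · obtain ⟨L, h1, h2⟩ := h.hasDT z v 1
    have h3 : DifferentiableAt ℝ (fun y => -l y z) (xp Γ z v) :=
      ((hl.lsm.comp (contDiff_id.prodMk contDiff_const)).neg.differentiable (by simp) _)
    have h4 := h3.hasFDerivAt.comp v ((h.xpsm z).differentiable (by simp) v).hasFDerivAt
    have h5 : ((fun y => -l y z) ∘ xp Γ z) = fun u => TT Γ z u 1 := funext fun u => rev h hl z u
    rw [h5] at h4
    have h6 : fderiv ℝ (fun y => -l y z) (xp Γ z v) (fderiv ℝ (xp Γ z) v u) =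
        deriv (JJ Γ z v u) 1 := (congrArg (fun T => T u) (h4.unique h1)).trans (h2 u)
    have h7 := hc.hess z v u
    rw [dA hG h] at h7
    rw [lie, h6, rev h hl, h.fderiv_xp]
    exact h7

end Vale.Agent.P219.G
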