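import Vale.Agent.P219.StmG

/-! Part G: the inverse of the exponential map is jointly smooth. -/

open scoped ContDiff RealInnerProductSpace Topology
open Set Filter

set_option maxSynthPendingDepth 3

namespace Vale.Agent.P219.G

open Vale.Agent.P255

namespace GLog

theorem inv {A : Type} [NormedAddCommGroup A] [NormedSpace ℝ A] [FiniteDimensional ℝ A]
    {f g : A → A} (hf : ContDiff ℝ ∞ f) (hi : ∀ a u, fderiv ℝ f a u = 0 → u = 0)
    (h1 : ∀ a, g (f a) = a) (h2 : ∀ a, f (g a) = a) : ContDiff ℝ ∞ g := by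
  have := FiniteDimensional.complete ℝ A
  refine contDiff_iff_contDiffAt.2 fun q => ?_
  obtain ⟨a, rfl⟩ : ∃ a, f a = q := ⟨_, h2 q⟩
  obtain ⟨L, hL⟩ : ∃ L : A ≃L[ℝ] A, (L : A →L[ℝ] A) = fderiv ℝ f a :=
    ⟨(LinearEquiv.ofInjectiveEndo (fderiv ℝ f a : A →ₗ[ℝ] A)
      ((injective_iff_map_eq_zero _).2 (hi a))).toContinuousLinearEquiv, by ext u; rfl⟩
  have h3 : HasFDerivAt f (L : A →L[ℝ] A) a := hL ▸ (hf.differentiable (by simp) a).hasFDerivAt
  obtain ⟨Φ, h4, h5⟩ : ∃ Φ : OpenPartialHomeomorph A A, ⇑Φ = f ∧ a ∈ Φ.source :=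
    ⟨hf.contDiffAt.toOpenPartialHomeomorph f h3 (by simp), rfl,
      hf.contDiffAt.mem_toOpenPartialHomeomorph_source h3 (by simp)⟩
  subst h4
  have h6 : ContDiffAt ℝ ∞ Φ.symm (Φ a) := Φ.contDiffAt_symm (f₀' := L) (Φ.map_source h5)
    (by rw [Φ.left_inv h5]; exact h3) hf.contDiffAt
  refine h6.congr_of_eventuallyEq ?_
  filter_upwards [Φ.open_target.mem_nhds (Φ.map_source h5)] with y hy
  rw [← h1 (Φ.symm y), Φ.right_inv hy]

end GLog

theorem log_pf : LogStmt := by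
  intro n Γ hΓ h
  choose l hl using fun z => (h z).1.2
  have hl' : ∀ z v, l z (xp Γ z v) = v := fun z v => (h z).1.1 (hl z _)
  have h1 : ContDiff ℝ ∞ fun p : Eu n × Eu n => (p.1, xp Γ p.1 p.2) :=
    contDiff_fst.prodMk (hΓ.comp (contDiff_id.prodMk contDiff_const))
  refine ⟨l, (GLog.inv (g := fun p : Eu n × Eu n => (p.1, l p.1 p.2)) h1 (fun a u hu => ?_)
    (fun a => Prod.ext rfl (hl' _ _)) fun a => Prod.ext rfl (hl _ _)).snd, hl', hl⟩
  have hd := (h1.differentiable (by simp) a).hasFDerivAt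
  have a1 : u.1 = 0 := by
    have a2 := congrArg (fun T : Eu n × Eu n →L[ℝ] Eu n => T u) (hd.fst.unique hasFDerivAt_fst)
    simpa [hu] using a2.symm
  have a2 := (HasFDerivAt.comp (f := fun w : Eu n => (a.1, w)) a.2 hd
    (hasFDerivAt_prodMk_right a.1 a.2)).snd.fderiv
  have a3 : fderiv ℝ (xp Γ a.1) a.2 u.2 = 0 := by
    refine (congrArg (fun T : Eu n →L[ℝ] Eu n => T u.2) a2).trans ?_
    have a4 : ((0 : Eu n), u.2) = u := Prod.ext a1.symm rfl
    simp only [ContinuousLinearMap.comp_apply, ContinuousLinearMap.inr_apply, a4, hu, map_zero]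
  exact Prod.ext a1 ((h a.1).2 _ _ a3)

end Vale.Agent.P219.G
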