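import Vale.Agent.P219.StmG

/-! Part G: positivity, properness and the behaviour near the diagonal. -/

open scoped ContDiff RealInnerProductSpace Topology
open Set Filter

set_option maxSynthPendingDepth 3

namespace Vale.Agent.P219.G

open Vale.Agent.P255

theorem q_pf : QStmt := by
  intro n G b F k e l A h
  have iso : ∀ z v, ‖(A z).symm v‖ ^ 2 = G z v v := fun z v => by
    rw [← real_inner_self_eq_norm_sq, ← h.iso z, ContinuousLinearEquiv.apply_symm_apply]
  refine ⟨fun z x hx => ?_, fun z a => ?_, fun z ε hε => ?_⟩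
  · have h1 : l z x ≠ 0 := fun h0 => hx (by rw [← h.lg.el z x, h0, h.lg.e0])
    exact (half_pos (h.rm.pos z _ h1)).trans_le (h.ent.Fge _ (h.D0 z x))
  · refine ((isCompact_closedBall (0 : Eu n) √(2 * a)).image
      ((h.lg.esm z).continuous.comp (A z).continuous)).of_isClosed_subset
      (isClosed_le (h.Qsm1 z).continuous continuous_const) fun x hx => ?_
    refine ⟨(A z).symm (l z x), mem_closedBall_zero_iff.2 (Real.le_sqrt_of_sq_le ?_), ?_⟩
    · have h1 : DD G l z x / 2 ≤ a := (h.ent.Fge _ (h.D0 z x)).trans hx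
      rw [iso, ← DD]
      linarith
    · simp only [Function.comp_apply, ContinuousLinearEquiv.apply_symm_apply, h.lg.el]
  obtain ⟨η, η0, η1⟩ : ∃ η : ℝ, 0 < η ∧ (1 + η) ^ 3 ≤ 1 + ε := by
    have h1 : ContinuousAt (fun η : ℝ => (1 + η) ^ 3) 0 := by fun_prop
    have h2 : ∀ᶠ η : ℝ in 𝓝[>] 0, (1 + η) ^ 3 < 1 + ε :=
      (h1.eventually (gt_mem_nhds (by simpa using hε))).filter_mono nhdsWithin_le_nhds
    obtain ⟨η, h3, h4⟩ := (h2.and self_mem_nhdsWithin).exists
    exact ⟨η, h4, h3.le⟩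
  have h1 : ∀ᶠ t in 𝓝 (0 : ℝ), 0 ≤ t → F t ≤ (1 + η) * t / 2 := by
    filter_upwards [(hasDerivAt_iff_isLittleO.1 (h.ent.dF 0)).bound (half_pos η0)] with t ht t0
    rw [h.ent.F0, h.ent.k0, sub_zero, sub_zero, Real.norm_eq_abs, Real.norm_of_nonneg t0,
      smul_eq_mul] at ht
    linarith [(abs_le.1 ht).2]
  have h2 : Tendsto (DD G l z) (𝓝 z) (𝓝 0) := by
    have := (h.Dsm1 z).continuous.tendsto z
    rwa [DD, h.lg.l0, map_zero] at this
  have h3 := (((A z).symm.hasFDerivAt.comp z (h.lg.hl z z)).isLittleO.trans_isBigO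
    ((A z).symm.isBigO_sub_rev (𝓝 z) z)).bound η0
  filter_upwards [h2.eventually h1, h3] with x x1 x2
  simp only [Function.comp_apply, ContinuousLinearMap.comp_apply, ContinuousLinearEquiv.coe_coe,
    h.lg.l0, h.lg.dl0, map_zero, sub_zero] at x2
  have x3 : ‖(A z).symm (l z x)‖ ≤ (1 + η) * ‖(A z).symm (x - z)‖ := by
    have := norm_sub_norm_le ((A z).symm (l z x)) ((A z).symm (x - z))
    linarith
  have x4 := pow_le_pow_left₀ (norm_nonneg _) x3 2
  rw [mul_pow, iso, iso, ← DD] at x4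
  have x5 := mul_le_mul_of_nonneg_left x4 (by linarith : 0 ≤ 1 + η)
  have x6 := mul_le_mul_of_nonneg_right η1 (Rm.nn h.rm z (x - z))
  have x7 := x1 (h.D0 z x)
  rw [QQ]
  linarith

end Vale.Agent.P219.G
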