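import Vale.Agent.P219.StmG

/-! Part G: comparison of real functions, the curvature bound and the triangle inequality. -/

open scoped ContDiff RealInnerProductSpace Topology
open Set Filter

set_option maxSynthPendingDepth 3

namespace Vale.Agent.P219.G

open Vale.Agent.P255

theorem cmp_pf : CmpStmt := by
  intro A D s c W β h1 h2 h3 h4 h5 h6 hs hc s0 c0 sp
  have hlt : ∀ᶠ r in 𝓝[>] (0 : ℝ), 0 < r ∧ r < 1 := Ioo_mem_nhdsGT one_pos
  have hψ : ∀ r, 0 < r → HasDerivAt (fun x => deriv A x / 2 - c x / s x * A x)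
      (D r / 2 - c r / s r * deriv A r + (c r / s r) ^ 2 * A r - β * A r) r := by
    intro r hr
    have h0 := (sp r hr).ne'
    have := ((h2 r).div_const 2).sub (((hc r).div (hs r) h0).mul (h1 r).hasDerivAt)
    refine this.congr_deriv ?_
    simp only [Pi.div_apply]
    field_simp
    ring
  have hmono : MonotoneOn (fun x => deriv A x / 2 - c x / s x * A x) (Ioi 0) :=
    monotoneOn_of_deriv_nonneg (convex_Ioi 0)
      (fun r hr => (hψ r hr).continuousAt.continuousWithinAt)
      (fun r hr => (hψ r (interior_subset hr)).differentiableAt.differentiableWithinAt)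
      fun r hr => by rw [(hψ r (interior_subset hr)).deriv]; exact h3 r _
  have sl : ∀ (f : ℝ → ℝ) (a : ℝ), HasDerivAt f a 0 → f 0 = 0 →
      Tendsto (fun x => f x / x) (𝓝[>] 0) (𝓝 a) := fun f a hf f0 => by
    refine ((hasDerivAt_iff_tendsto_slope.1 hf).mono_left (nhdsGT_le_nhdsNE 0)).congr fun x => ?_
    rw [slope_def_field, f0, sub_zero, sub_zero]
  have ct : ∀ (f : ℝ → ℝ) (a : ℝ), HasDerivAt f a 0 → Tendsto f (𝓝[>] 0) (𝓝 (f 0)) :=
    fun f a hf => hf.continuousAt.tendsto.mono_left nhdsWithin_le_nhds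
  have t1 := sl A _ (h1 0).hasDerivAt h4
  have t2 := sl s _ (hs 0) s0
  have t3 := ct c _ (hc 0)
  have t4 := ct _ _ (h2 0)
  have t5 := sl _ _ (h2 0) h5
  have t6 := ct A _ (h1 0).hasDerivAt
  have t7 := ct s _ (hs 0)
  rw [h5] at t1 t4
  rw [c0] at t2 t3
  rw [h4] at t6
  rw [s0] at t7
  have hlim : Tendsto (fun x => deriv A x / 2 - c x / s x * A x) (𝓝[>] 0) (𝓝 0) := by
    have := (t4.div_const 2).sub (t3.mul (t1.div t2 one_ne_zero))
    simp only [zero_div, mul_zero, sub_self] at this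
    refine this.congr' (hlt.mono fun x hx => ?_)
    have h0 := hx.1.ne'
    have h7 := (sp x hx.1).ne'
    simp only [Pi.div_apply]
    field_simp
  have hpos : ∀ r, 0 < r → 0 ≤ deriv A r / 2 - c r / s r * A r := by
    intro r hr
    refine le_of_tendsto hlim ?_
    filter_upwards [Ioo_mem_nhdsGT hr] with x hx using hmono hx.1 hr hx.2.le
  have s1 := sp 1 one_pos
  constructor
  · have h7 := mul_nonneg s1.le (hpos 1 one_pos)
    have h8 : s 1 * (deriv A 1 / 2 - c 1 / s 1 * A 1) = s 1 * deriv A 1 / 2 - c 1 * A 1 := by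
      field_simp
    linarith
  have hχ : ∀ r, 0 < r → HasDerivAt (fun x => A x / s x ^ 2)
      (2 * (deriv A r / 2 - c r / s r * A r) / s r ^ 2) r := by
    intro r hr
    have h0 := (sp r hr).ne'
    have := (h1 r).hasDerivAt.div ((hs r).pow 2) (pow_ne_zero 2 h0)
    refine this.congr_deriv ?_
    simp only [Pi.pow_apply]
    field_simp
    ring
  have hmono2 : MonotoneOn (fun x => A x / s x ^ 2) (Ioi 0) :=
    monotoneOn_of_deriv_nonneg (convex_Ioi 0)
      (fun r hr => (hχ r hr).continuousAt.continuousWithinAt)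
      (fun r hr => (hχ r (interior_subset hr)).differentiableAt.differentiableWithinAt)
      fun r hr => by
        have := hpos r (interior_subset hr)
        rw [(hχ r (interior_subset hr)).deriv]; positivity
  have cp : ∀ᶠ x in 𝓝[>] (0 : ℝ), 0 < c x := t3.eventually (lt_mem_nhds one_pos)
  have hlim2 : Tendsto (fun x => A x / s x ^ 2) (𝓝[>] 0) (𝓝 (D 0 / 2)) := by
    refine HasDerivAt.lhopital_zero_nhdsGT (f' := deriv A) (g' := fun x => 2 * s x * c x)
      (Eventually.of_forall fun x => (h1 x).hasDerivAt)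
      (Eventually.of_forall fun x => ((hs x).pow 2).congr_deriv (by simp))
      ((hlt.and cp).mono fun x hx => (mul_pos (mul_pos two_pos (sp x hx.1.1)) hx.2).ne') t6
      (by simpa using t7.pow 2) ?_
    have := t5.div ((t2.const_mul 2).mul t3) (by norm_num)
    rw [mul_one, mul_one] at this
    refine this.congr' (hlt.mono fun x hx => ?_)
    have h0 := hx.1.ne'
    simp only [Pi.div_apply]
    field_simp
  have h7 : W ≤ A 1 / s 1 ^ 2 := by
    refine h6.trans (le_of_tendsto hlim2 ?_)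
    filter_upwards [hlt] with x hx using hmono2 hx.1 (mem_Ioi.2 one_pos) hx.2.le
  rw [le_div_iff₀ (pow_pos s1 2)] at h7
  linarith

theorem curv_pf : CurvStmt := by
  intro n G κ h y u v
  have hcm := Rm.cm h.toRm
  by_cases hli : LinearIndependent ℝ ![u, v]
  · have hv : v ≠ 0 := by simpa using hli.ne_zero 1
    have hvv := h.pos y v hv
    have hne : G y v v • u - G y u v • v ≠ 0 := fun e =>
      hvv.ne' ((LinearIndependent.pair_iff.1 hli) _ (-G y u v) (by
        rw [neg_smul, ← sub_eq_add_neg]; exact e)).1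
    have h2 := h.pos y _ hne
    simp only [map_sub, map_smul, sub_apply, smul_apply, smul_eq_mul, h.symm y v u] at h2
    have h3 : 0 < G y u u * G y v v - G y u v ^ 2 := by
      refine pos_of_mul_pos_left (b := G y v v) ?_ hvv.le
      linarith
    exact (div_le_iff₀ h3).1 (h.curv y u v hli)
  · by_cases hv : v = 0
    · rw [hcm.riem_eq (mem_univ _), hv]
      simp
    · rw [LinearIndependent.pair_symm_iff, LinearIndependent.pair_iff' hv] at hli
      push Not at hli
      obtain ⟨t, rfl⟩ := hli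
      rw [hcm.riem_eq (mem_univ _)]
      simp only [map_smul, smul_apply, smul_eq_mul, sub_self, zero_add, map_zero, zero_apply]
      exact le_of_eq (by ring)

theorem tri_pf : TriStmt := by
  intro b p q r t hp hq hr h1 h2
  obtain ⟨x, hx, rfl⟩ : ∃ x, 0 ≤ x ∧ q = x ^ 2 := ⟨√q, Real.sqrt_nonneg q, (Real.sq_sqrt hq).symm⟩
  obtain ⟨y, hy, rfl⟩ : ∃ y, 0 ≤ y ∧ r = y ^ 2 := ⟨√r, Real.sqrt_nonneg r, (Real.sq_sqrt hr).symm⟩
  obtain ⟨β, hβ, e⟩ : ∃ β, 0 ≤ β ∧ b ^ 2 = β := ⟨_, sq_nonneg b, rfl⟩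
  rw [e] at h1 h2 ⊢
  rw [Real.sqrt_sq hx, Real.sqrt_sq hy]
  obtain ⟨T, hT⟩ : ∃ T, T = 1 + β * (x ^ 2 + y ^ 2) := ⟨_, rfl⟩
  have a1 := mul_nonneg hβ hq
  have a2 := mul_nonneg hβ hr
  have T1 : 1 ≤ T := by rw [hT]; linarith
  have xy := mul_nonneg hx hy
  have key : p ≤ x ^ 2 + y ^ 2 + β * x ^ 2 * y ^ 2 + 2 * (x * y) * T := by
    have a3 := mul_nonneg a1 hr
    have a4 := mul_nonneg xy (zero_le_one.trans T1)
    by_cases h0 : p + x ^ 2 + β * p * x ^ 2 - y ^ 2 ≤ 0
    · have := mul_nonneg a1 hp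
      linarith
    have h3 := (pow_le_pow_left₀ (not_le.1 h0).le h1 2).trans h2
    have h4 : (2 + β * x ^ 2) * (2 + β * y ^ 2) ≤ (2 * T) ^ 2 := by
      rw [sq (2 * T)]
      exact mul_le_mul (by rw [hT]; linarith) (by rw [hT]; linarith) (by linarith) (by linarith)
    have h5 := mul_le_mul_of_nonneg_left h4 (sq_nonneg (x * y))
    have h6 : (p - (x ^ 2 + y ^ 2 + β * x ^ 2 * y ^ 2)) ^ 2 ≤ (2 * (x * y) * T) ^ 2 := by
      linarith
    linarith [(abs_le_of_sq_le_sq' h6 (by linarith)).2]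
  rw [← hT]
  refine Real.sqrt_le_iff.2 ⟨by positivity, key.trans ?_⟩
  have b1 : T ≤ T ^ 2 := by nlinarith
  have b2 : x ^ 2 + y ^ 2 + β * x ^ 2 * y ^ 2 ≤ (x ^ 2 + y ^ 2) * T := by
    have := mul_nonneg a1 hq
    have := mul_nonneg a2 hr
    have := mul_nonneg a1 hr
    rw [hT]
    linarith
  have b3 := mul_le_mul_of_nonneg_left b1 (add_nonneg hq hr)
  have b4 := mul_le_mul_of_nonneg_left b1 xy
  linarith

end Vale.Agent.P219.G
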