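import Vale.Agent.P219.StmG

/-! Part G: Rauch comparison for the map to the model and for the exponential map. -/

open scoped ContDiff RealInnerProductSpace Topology
open Set Filter

set_option maxSynthPendingDepth 3

namespace Vale.Agent.P219.G

open Vale.Agent.P255

theorem x_pf : XStmt := by
  intro n G b F k e l A h
  have iso : ∀ z v u, ⟪(A z).symm v, (A z).symm u⟫ = G z v u := fun z v u => by
    rw [← h.iso z, ContinuousLinearEquiv.apply_symm_apply, ContinuousLinearEquiv.apply_symm_apply]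
  refine ⟨fun z x ξ => ?_, fun z v u => ?_⟩
  · have h1 := (A z).symm.hasFDerivAt.comp x (h.lg.hl z x)
    have h2 : fderiv ℝ (XX G k l A z) x = _ := ((h.hK z x).smul h1).fderiv
    have h3 : ‖fderiv ℝ (XX G k l A z) x ξ‖ ^ 2 =
        k (DD G l z x) ^ 2 * G z (fderiv ℝ (l z) x ξ) (fderiv ℝ (l z) x ξ) +
        4 * k (DD G l z x) * deriv k (DD G l z x) * G x (-l x z) ξ ^ 2 +
        4 * deriv k (DD G l z x) ^ 2 * G x (-l x z) ξ ^ 2 * DD G l z x := by
      rw [← real_inner_self_eq_norm_sq, h2]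
      simp only [add_apply, smul_apply, smul_eq_mul, ContinuousLinearMap.smulRight_apply,
        ContinuousLinearMap.comp_apply, ContinuousLinearEquiv.coe_coe, Function.comp_apply,
        inner_add_left, inner_add_right, real_inner_smul_left, real_inner_smul_right, iso]
      rw [h.rm.symm z (fderiv ℝ (l z) x ξ) (l z x), h.lg.gx]
      unfold DD
      ring
    have h4 : fderiv ℝ (QQ G F l z) x ξ = k (DD G l z x) * G x (-l x z) ξ := by
      rw [(h.hQ z x).fderiv, VV, map_smul, smul_apply, smul_eq_mul]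
    have h5 := h.lg.rauch z (l z x) (fderiv ℝ (l z) x ξ)
    rw [h.lg.del, h.lg.el, h.lg.gx] at h5
    have h6 := h.ent.dk _ (h.D0 z x)
    have h8 := h.ent.sq _ (h.D0 z x)
    have h7 : G x (-l x z) ξ ^ 2 / DD G l z x * DD G l z x = G x (-l x z) ξ ^ 2 := by
      by_cases hv : l z x = 0
      · rw [← h.lg.gx, hv]
        simp
      · exact div_mul_cancel₀ _ (h.rm.pos z _ hv).ne'
    change k (DD G l z x) ^ 2 * (G z (fderiv ℝ (l z) x ξ) (fderiv ℝ (l z) x ξ) -
      G x (-l x z) ξ ^ 2 / DD G l z x) + G x (-l x z) ξ ^ 2 / DD G l z x ≤ G x ξ ξ at h5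
    obtain ⟨m, hm⟩ : ∃ m, m = G x (-l x z) ξ ^ 2 / DD G l z x := ⟨_, rfl⟩
    rw [← hm] at h5 h7
    have h9 : (k (DD G l z x) + 2 * DD G l z x * deriv k (DD G l z x)) ^ 2 =
        1 + b ^ 2 * (DD G l z x * k (DD G l z x) ^ 2) := by rw [h6, h8]; ring
    have h10 := congrArg (fun t => m * t) h9
    rw [h3, h4, mul_pow, ← h7]
    linarith
  · have h1 : fderiv ℝ (fun v => e z (A z v)) v u = fderiv ℝ (e z) (A z v) (A z u) :=
      congrArg (fun T => T u) ((h.lg.he z (A z v)).comp v (A z).hasFDerivAt).fderiv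
    have h2 := h.lg.rauch z (A z v) (A z u)
    rw [h.iso, h.iso, h.iso, real_inner_self_eq_norm_sq, real_inner_self_eq_norm_sq] at h2
    rw [h1]
    refine le_trans (le_of_eq ?_) h2
    unfold mg
    split_ifs with hv
    · simp [hv, h.ent.k0]
    · have h3 : ‖v‖ ≠ 0 := norm_ne_zero_iff.2 hv
      rw [← h.ent.ks, mul_div_cancel_left₀ _ h3, div_pow]
      ring

end Vale.Agent.P219.G
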