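import Vale.Agent.P219.GGlue
import Vale.Agent.P219.GBr
import Vale.Agent.P219.GEnt
import Vale.Agent.P219.GSmall
import Vale.Agent.P219.GJac
import Vale.Agent.P219.GGen
import Vale.Agent.P219.GLog
import Vale.Agent.P219.GLg
import Vale.Agent.P219.GQ
import Vale.Agent.P219.GHess
import Vale.Agent.P219.GCos
import Vale.Agent.P219.GX
import Vale.Agent.P219.Frame

/-! Part G: the geometry of Cartan-Hadamard metrics. -/

namespace Vale.Agent.P219

open G

theorem geo_pf : GeoStmt :=
  geo_of ent_pf flow_pf curv_pf gauss_pf cov_pf (jac_pf cmp_pf) gen_pf log_pf lg_pf q_pf hess_pf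
    cos_pf tri_pf x_pf frame_pf

end Vale.Agent.P219
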