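import Vale.Agent.P219.Alg

/-! The Hardy identity. -/

open scoped ENNReal RealInnerProductSpace Topology
open MeasureTheory Set Filter

namespace Vale.Agent.P219

namespace HardyAux

open Dat

variable {n : ℕ} {d : Dat n} {γ : ℝ}

theorem lin (d : Dat n) (γ s : ℝ) : HasDerivAt (fun s => γ + d.al γ * s) (d.al γ) s := by
  simpa using ((hasDerivAt_id s).const_mul (d.al γ)).const_add γ

theorem Gam_ph (o : d.Ok) (hγ : 0 < γ) (z x : Eu n) (h : Eu n → ℝ) :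
    d.Gam (d.ph z γ) h x = -(d.th * d.ph z γ x * d.lam z γ x * d.al γ) * d.Gam (d.Q z) h x := by
  have hL : γ + d.al γ * d.Q z x ≠ 0 := (o.L_pos hγ z x).ne'
  have h1 := (lin d γ (d.Q z x)).rpow_const (p := -d.th) (Or.inl hL)
  have h2 := Gam_comp (d := d) (ψ := fun s => (γ + d.al γ * s) ^ (-d.th)) (o.Qd z x) h1 h
  refine h2.trans ?_
  rw [Real.rpow_sub_one hL]
  unfold Dat.ph Dat.lam Dat.L
  rw [div_eq_mul_inv]
  ring

theorem Gam_lam (o : d.Ok) (hγ : 0 < γ) (z x : Eu n) (i : ℕ) (h : Eu n → ℝ) :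
    d.Gam (fun y => d.lam z γ y ^ (i + 1)) h x =
      -(((i : ℝ) + 1) * d.lam z γ x ^ i * d.lam z γ x ^ 2 * d.al γ) * d.Gam (d.Q z) h x := by
  have hL : γ + d.al γ * d.Q z x ≠ 0 := (o.L_pos hγ z x).ne'
  have h1 := ((lin d γ (d.Q z x)).fun_inv hL).fun_pow (i + 1)
  have h2 := Gam_comp (d := d) (ψ := fun s => (γ + d.al γ * s)⁻¹ ^ (i + 1)) (o.Qd z x) h1 h
  refine h2.trans ?_
  unfold Dat.lam Dat.L
  rw [Nat.add_sub_cancel, div_eq_mul_inv, ← inv_pow]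
  push_cast
  ring

theorem point (o : d.Ok) (hγ : 0 < γ) (z : Eu n) {v : Eu n → ℝ} (hv : ContDiff ℝ 1 v) (x : Eu n) :
    d.Gam (fun x => v x * d.ph z γ x) (fun x => v x * d.ph z γ x) x
        + d.W0 * (v x * d.ph z γ x) ^ 2 =
      d.cm * (v x ^ 2 * d.lam z γ x ^ d.m) + (d.lam z γ x ^ (d.m - 2) * d.Gam v v x
        + d.cm * (v x ^ 2 * d.lam z γ x ^ (d.m - 2) *
          (d.al γ * d.q z x * d.lam z γ x - d.H / d.m) ^ 2)
        - (d.kk z γ v x * (d.m * (1 + d.b ^ 2 * d.Q z x)) + d.Gam (d.kk z γ v) (d.Q z) x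
          - d.H * d.kk z γ v x * d.q z x)) := by
  have hm := o.hm
  have vd : DifferentiableAt ℝ v x := hv.differentiable one_ne_zero x
  have pd : DifferentiableAt ℝ (d.ph z γ) x := (o.ph1 hγ z).differentiable one_ne_zero x
  have ld : DifferentiableAt ℝ (d.lam z γ) x := (o.lam1 hγ z).differentiable one_ne_zero x
  have e1 : d.m - 1 = (d.m - 2) + 1 := by omega
  have e2 : d.lam z γ x ^ d.m = d.lam z γ x ^ (d.m - 2) * d.lam z γ x ^ 2 := by
    rw [← pow_add]; congr 1; omega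
  have e3 : ((d.m - 2 : ℕ) : ℝ) = d.m - 2 := by rw [Nat.cast_sub (by omega)]; norm_num
  have g1 : ∀ h, d.Gam (fun x => v x * d.ph z γ x) h x =
      v x * (-(d.th * d.ph z γ x * d.lam z γ x * d.al γ) * d.Gam (d.Q z) h x)
        + d.ph z γ x * d.Gam v h x := fun h => by rw [Gam_mul vd pd, Gam_ph o hγ]
  have g2 : d.Gam (fun y => v y ^ 2) (d.Q z) x = 2 * v x * d.Gam v (d.Q z) x := by
    have := Gam_comp (d := d) (ψ := fun s => s ^ 2) vd (hasDerivAt_pow 2 (v x)) (d.Q z)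
    simpa using this
  have g3 : d.Gam (d.kk z γ v) (d.Q z) x = d.th * d.al γ * (v x ^ 2 *
      (-(((d.m : ℝ) - 2 + 1) * d.lam z γ x ^ (d.m - 2) * d.lam z γ x ^ 2 * d.al γ)
        * d.Gam (d.Q z) (d.Q z) x)
      + d.lam z γ x ^ (d.m - 2) * d.lam z γ x * (2 * v x * d.Gam v (d.Q z) x)) := by
    have h1 : d.kk z γ v = fun y => d.th * d.al γ * (v y ^ 2 * d.lam z γ y ^ (d.m - 2 + 1)) := by
      funext y; unfold Dat.kk; rw [e1]
    rw [h1, Gam_const_mul _ ((vd.fun_pow 2).fun_mul (ld.fun_pow _)),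
      Gam_mul (vd.fun_pow 2) (ld.fun_pow _), Gam_lam o hγ, g2, e3, pow_succ (d.lam z γ x) (d.m - 2)]
  have g4 : d.kk z γ v x = d.th * d.al γ * (v x ^ 2 * (d.lam z γ x ^ (d.m - 2) * d.lam z γ x)) := by
    unfold Dat.kk; rw [e1, pow_succ (d.lam z γ x)]
  have g5 : d.Gam (d.Q z) (d.Q z) x = 2 * d.Q z x + d.b ^ 2 * d.Q z x ^ 2 - d.q z x ^ 2 := by
    have := o.eik z x
    unfold Dat.s2 at this
    linarith
  have hl : d.lam z γ x * (γ + d.al γ * d.Q z x) = 1 := inv_mul_cancel₀ (o.L_pos hγ z x).ne'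
  have key : d.b ^ 2 + d.lam z γ x ^ 2 - 2 * d.al γ * d.lam z γ x * (1 + d.b ^ 2 * d.Q z x)
      + d.lam z γ x ^ 2 * d.al γ ^ 2 * (2 * d.Q z x + d.b ^ 2 * d.Q z x ^ 2) = 0 := by
    linear_combination (-d.lam z γ x ^ 2) * two_al (d := d) hγ
      - (d.b ^ 2 * (1 + d.lam z γ x * (γ + d.al γ * d.Q z x))
        - 2 * d.al γ * d.lam z γ x * (1 + d.b ^ 2 * d.Q z x)) * hl
  obtain ⟨c, hc⟩ : ∃ c, d.H = c * d.m := ⟨d.H / d.m, by field_simp [o.m_pos.ne']⟩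
  have hc1 : d.H / d.m = c := by rw [hc, mul_div_assoc, div_self o.m_pos.ne', mul_one]
  have hc2 : d.H ^ 2 / d.m ^ 2 = c ^ 2 := by rw [← div_pow, hc1]
  rw [g1, Gam_comm (d.Q z), Gam_comm v, g1, g1, g3, g4, e2, Gam_comm (d.Q z) v, g5,
    ← o.ph_sq hγ z x]
  unfold Dat.W0
  rw [hc1, hc2, hc]
  unfold Dat.cm Dat.th
  linear_combination (-(d.m * (d.m - 2) / 4 * v x ^ 2 * d.ph z γ x ^ 2)) * key

end HardyAux

open HardyAux Dat in
theorem hardy_pf : HardyStmt := by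
  intro n d o z γ hγ v hv
  have bv := o.bm_cont hv.continuous
  have bl := o.bm_lam hγ z
  have i1 := ((bv.pow 2).mul (bl.pow d.m)).const_mul d.cm
  have i2 := (bl.pow (d.m - 2)).mul (o.bm_Gam hv hv)
  have i3 := (((bv.pow 2).mul (bl.pow (d.m - 2))).mul
    ((((((o.bm_q z).const_mul (d.al γ)).mul bl).sub (bm_const (d.H / d.m))).pow 2))).const_mul d.cm
  have i4 := o.bm_Lam z (o.kk1 hγ z hv)
  unfold Dat.Y Dat.Df Dat.Uv Dat.D1 Dat.D2 Dat.Lam
  simp only [point o hγ z hv]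
  rw [integral_add (i1.integrable o) (((i2.add i3).sub i4).integrable o),
    integral_sub ((i2.add i3).integrable o) (i4.integrable o),
    integral_add (i2.integrable o) (i3.integrable o), integral_const_mul, integral_const_mul]

end Vale.Agent.P219
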