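import Vale.Agent.P219.Alg

/-! P219: kernel bounds from the upper density. -/

open scoped ENNReal RealInnerProductSpace Topology
open MeasureTheory Set Filter

namespace Vale.Agent.P219

namespace KBAux

theorem term {m C a : ℝ} (ha : 0 < a) (k : ℕ) :
    (a * (1 / 2) ^ (k + 1)) ^ ((1 - m) / 2) * (C * (a * (1 / 2) ^ k) ^ (m / 2)) =
      C * (1 / 2) ^ ((1 - m) / 2) * √a * √(1 / 2) ^ k := by
  have hu : 0 < a * (1 / 2 : ℝ) ^ k := by positivity
  have h1 : (a * (1 / 2 : ℝ) ^ k) ^ ((1 - m) / 2) * (a * (1 / 2 : ℝ) ^ k) ^ (m / 2) =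
      √a * √(1 / 2) ^ k := by
    rw [← Real.rpow_add hu, show (1 - m) / 2 + m / 2 = 1 / 2 by ring, ← Real.sqrt_eq_rpow,
      Real.sqrt_mul ha.le]
    congr 1
    rw [Real.sqrt_eq_iff_mul_self_eq (by positivity) (by positivity), ← mul_pow,
      Real.mul_self_sqrt (by norm_num)]
  rw [pow_succ, ← mul_assoc a, Real.mul_rpow hu.le (by norm_num)]
  linear_combination C * (1 / 2) ^ ((1 - m) / 2) * h1

theorem dyadic {α : Type} [MeasurableSpace α] {μ : Measure α} [IsFiniteMeasure μ] {Q : α → ℝ}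
    (hQ : Measurable Q) (h0 : ∀ x, 0 ≤ Q x) {m C : ℝ} (hm : 1 < m) (hC : 0 ≤ C)
    (hμ : ∀ a > 0, μ.real {x | Q x ≤ a} ≤ C * a ^ (m / 2)) {a : ℝ} (ha : 0 < a) :
    ∫⁻ x in {x | Q x < a}, ENNReal.ofReal (Q x ^ ((1 - m) / 2)) ∂μ ≤
      ENNReal.ofReal (C * (1 / 2) ^ ((1 - m) / 2) * (1 - √(1 / 2))⁻¹ * √a) := by
  have hS : ∀ k : ℕ, MeasurableSet {x | Q x ≤ a * (1 / 2) ^ k} := fun k =>
    measurableSet_le hQ measurable_const
  have h1 : ∀ x, {x | Q x < a}.indicator (fun x => ENNReal.ofReal (Q x ^ ((1 - m) / 2))) x ≤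
      ∑' k : ℕ, {x | Q x ≤ a * (1 / 2) ^ k}.indicator
        (fun _ => ENNReal.ofReal ((a * (1 / 2) ^ (k + 1)) ^ ((1 - m) / 2))) x := by
    intro x
    by_cases hx : Q x < a
    · rw [indicator_of_mem (show x ∈ {x | Q x < a} from hx)]
      rcases (h0 x).eq_or_lt with h | h
      · rw [← h, Real.zero_rpow (by linarith), ENNReal.ofReal_zero]
        exact zero_le
      · obtain ⟨k, hk1, hk2⟩ := exists_nat_pow_near_of_lt_one (x := Q x / a) (y := 1 / 2)
          (div_pos h ha) ((div_le_one ha).2 hx.le) (by norm_num) (by norm_num)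
        rw [lt_div_iff₀ ha, mul_comm] at hk1
        rw [div_le_iff₀ ha, mul_comm] at hk2
        refine le_trans ?_ (ENNReal.le_tsum k)
        rw [indicator_of_mem (show x ∈ {x | Q x ≤ a * (1 / 2) ^ k} from hk2)]
        exact ENNReal.ofReal_le_ofReal
          (Real.rpow_le_rpow_of_nonpos (by positivity) hk1.le (by linarith))
    · rw [indicator_of_notMem (show x ∉ {x | Q x < a} from hx)]
      exact zero_le
  have hr0 : 0 ≤ √(1 / 2 : ℝ) := Real.sqrt_nonneg _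
  have hr1 : √(1 / 2 : ℝ) < 1 := by rw [Real.sqrt_lt' one_pos]; norm_num
  have hc : 0 ≤ C * (1 / 2) ^ ((1 - m) / 2) * √a := by positivity
  rw [← lintegral_indicator (measurableSet_lt hQ measurable_const)]
  refine (lintegral_mono h1).trans ?_
  rw [lintegral_tsum fun k => (measurable_const.indicator (hS k)).aemeasurable]
  have h2 : ∀ k : ℕ, ∫⁻ x, {x | Q x ≤ a * (1 / 2) ^ k}.indicator
      (fun _ => ENNReal.ofReal ((a * (1 / 2) ^ (k + 1)) ^ ((1 - m) / 2))) x ∂μ ≤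
      ENNReal.ofReal (C * (1 / 2) ^ ((1 - m) / 2) * √a * √(1 / 2) ^ k) := by
    intro k
    rw [lintegral_indicator_const (hS k), ← term ha k, ENNReal.ofReal_mul (by positivity),
      ← ofReal_measureReal]
    exact mul_le_mul_right (ENNReal.ofReal_le_ofReal (hμ _ (by positivity))) _
  refine (ENNReal.tsum_le_tsum h2).trans (le_of_eq ?_)
  rw [← ENNReal.ofReal_tsum_of_nonneg (fun k => by positivity)
    ((summable_geometric_of_lt_one hr0 hr1).mul_left _), tsum_mul_left,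
    tsum_geometric_of_lt_one hr0 hr1]
  congr 1
  ring

end KBAux

theorem kb_pf (hu : UDStmt) : KBStmt := by
  intro n d o
  obtain ⟨C, hC, h⟩ := hu n d o
  obtain ⟨M, hM, hQM⟩ := o.Qmax
  have := o.fin
  have hm := o.m3
  have hr1 : 0 < 1 - √(1 / 2 : ℝ) := by rw [sub_pos, Real.sqrt_lt' one_pos]; norm_num
  obtain ⟨C1, hC1⟩ : ∃ C1 : ℝ, C1 = C * 2 ^ ((d.m : ℝ) / 2 + 1) := ⟨_, rfl⟩
  have hC10 : 0 < C1 := by rw [hC1]; positivity
  obtain ⟨C2, hC2⟩ : ∃ C2 : ℝ, C2 = C1 * (1 / 2) ^ ((1 - (d.m : ℝ)) / 2) * (1 - √(1 / 2))⁻¹ :=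
    ⟨_, rfl⟩
  have hC20 : 0 < C2 := by rw [hC2]; positivity
  refine ⟨C1 + C2, by positivity, fun z hz => ?_⟩
  have hμ : ∀ a > 0, d.μ.real {x | d.Q z x ≤ a} ≤ C1 * a ^ ((d.m : ℝ) / 2) := by
    intro a ha
    have hpos : ∀ x, 0 < d.Q z x + a := fun x => add_pos_of_nonneg_of_pos (o.Q_nonneg z x) ha
    have hc : Continuous fun x => (d.Q z x + a) ^ (-((d.m : ℝ) / 2) - 1) :=
      ((o.Qc z).add continuous_const).rpow_const fun x => Or.inl (hpos x).ne'
    have h1 := mul_meas_ge_le_integral_of_nonneg (μ := d.μ)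
      (Eventually.of_forall fun x => Real.rpow_nonneg (hpos x).le _)
      ((o.bm_cont hc).integrable o) ((2 * a) ^ (-((d.m : ℝ) / 2) - 1))
    have h2 : d.μ.real {x | d.Q z x ≤ a} ≤ d.μ.real
        {x | (2 * a) ^ (-((d.m : ℝ) / 2) - 1) ≤ (d.Q z x + a) ^ (-((d.m : ℝ) / 2) - 1)} := by
      refine measureReal_mono fun x hx => ?_
      have hx' : d.Q z x ≤ a := hx
      exact Real.rpow_le_rpow_of_nonpos (hpos x) (by linarith) (by linarith)
    have h3 : 0 < (2 * a) ^ (-((d.m : ℝ) / 2) - 1) := by positivity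
    have h4 := ((mul_le_mul_of_nonneg_left h2 h3.le).trans h1).trans (h z hz a ha)
    have h5 : (2 * a) ^ (-((d.m : ℝ) / 2) - 1) * (C1 * a ^ ((d.m : ℝ) / 2)) = C / a := by
      have h6 : (2 : ℝ) ^ (-((d.m : ℝ) / 2) - 1) * 2 ^ ((d.m : ℝ) / 2 + 1) = 1 := by
        rw [← Real.rpow_add two_pos, show -((d.m : ℝ) / 2) - 1 + ((d.m : ℝ) / 2 + 1) = 0 by ring,
          Real.rpow_zero]
      have h7 : a ^ (-((d.m : ℝ) / 2) - 1) * a ^ ((d.m : ℝ) / 2) = a⁻¹ := by
        rw [← Real.rpow_add ha, show -((d.m : ℝ) / 2) - 1 + (d.m : ℝ) / 2 = -1 by ring,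
          Real.rpow_neg_one]
      rw [Real.mul_rpow (by norm_num) ha.le, hC1, div_eq_mul_inv C a, ← h7]
      linear_combination C * (a ^ (-((d.m : ℝ) / 2) - 1) * a ^ ((d.m : ℝ) / 2)) * h6
    rw [← h5] at h4
    exact le_of_mul_le_mul_left h4 h3
  have hk0 : ∀ x, 0 ≤ d.ker z x := fun x => Real.rpow_nonneg (o.Q_nonneg z x) _
  have hkm : Measurable (d.ker z) := (o.Qc z).measurable.pow_const _
  have hd : ∀ a > 0, ∫⁻ x in {x | d.Q z x < a}, ENNReal.ofReal (d.ker z x) ∂d.μ ≤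
      ENNReal.ofReal (C2 * √a) := fun a ha => by
    rw [hC2]
    exact KBAux.dyadic (o.Qc z).measurable (o.Q_nonneg z) (by linarith) hC10.le hμ ha
  refine ⟨?_, fun a ha => ⟨(hμ a ha).trans ?_, ?_⟩⟩
  · have h1 := hd (M + 1) (by positivity)
    rw [Measure.restrict_eq_self_of_ae_mem (o.supp.mono fun x hx =>
      show x ∈ {x | d.Q z x < M + 1} from (hQM z hz x hx).trans_lt (lt_add_one M))] at h1
    exact (lintegral_ofReal_ne_top_iff_integrable hkm.aestronglyMeasurable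
      (Eventually.of_forall hk0)).1 (ne_top_of_le_ne_top ENNReal.ofReal_ne_top h1)
  · exact mul_le_mul_of_nonneg_right (by linarith) (by positivity)
  · rw [integral_eq_lintegral_of_nonneg_ae (Eventually.of_forall hk0) hkm.aestronglyMeasurable]
    refine (ENNReal.toReal_le_of_le_ofReal (by positivity) (hd a ha)).trans ?_
    exact mul_le_mul_of_nonneg_right (by linarith) (by positivity)

end Vale.Agent.P219
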