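import Vale.Agent.P219.Alg

/-! The profile of the reverse step. -/

open scoped ENNReal RealInnerProductSpace Topology
open MeasureTheory Set Filter

namespace Vale.Agent.P219

namespace KappaAux

/-- The integrand. -/
noncomputable def w (m : ℕ) (s : ℝ) : ℝ := (1 + s)⁻¹ ^ m * s ^ ((m : ℝ) / 2 - 1)

/-- The unnormalised profile. -/
noncomputable def N (m : ℕ) (a t : ℝ) : ℝ :=
  a ^ ((m : ℝ) / 2) * (1 + a)⁻¹ ^ m + (m : ℝ) / 2 * ∫ s in a..t, w m s

/-- The profile. -/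
noncomputable def G (m : ℕ) (a t : ℝ) : ℝ := N m a t / t ^ ((m : ℝ) / 2)

theorem g_cont (m : ℕ) : ContinuousOn (fun s : ℝ => (1 + s)⁻¹ ^ m) (Ioi 0) :=
  ((continuousOn_const.add continuousOn_id).inv₀ fun s (hs : 0 < s) =>
    (show (0 : ℝ) < 1 + s by linarith).ne').pow m

theorem w_cont (m : ℕ) : ContinuousOn (w m) (Ioi 0) :=
  (g_cont m).mul (continuousOn_id.rpow_const fun _ hs => Or.inl (ne_of_gt hs))

theorem g_anti (m : ℕ) {s t : ℝ} (hs : 0 ≤ s) (hst : s ≤ t) : (1 + t)⁻¹ ^ m ≤ (1 + s)⁻¹ ^ m :=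
  pow_le_pow_left₀ (inv_nonneg.2 (by linarith)) (inv_anti₀ (by linarith) (by linarith)) m

theorem sub_uIcc {a t : ℝ} (ha : 0 < a) (ht : 0 < t) : uIcc a t ⊆ Ioi 0 := fun _ hs =>
  lt_of_lt_of_le (lt_min ha ht) hs.1

theorem N_der (m : ℕ) {a t : ℝ} (ha : 0 < a) (ht : 0 < t) :
    HasDerivAt (N m a) ((m : ℝ) / 2 * w m t) t := by
  have h1 : HasDerivAt (fun u => ∫ s in a..u, w m s) (w m t) t :=
    intervalIntegral.integral_hasDerivAt_right
      (((w_cont m).mono (sub_uIcc ha ht)).intervalIntegrable)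
      ((w_cont m).stronglyMeasurableAtFilter isOpen_Ioi t ht)
      ((w_cont m).continuousAt (Ioi_mem_nhds ht))
  exact (h1.const_mul _).const_add _

theorem G_der (m : ℕ) {a t : ℝ} (ha : 0 < a) (ht : 0 < t) :
    HasDerivAt (G m a) ((m : ℝ) * (((1 + t)⁻¹ ^ m - G m a t) / (2 * t))) t := by
  have hp : 0 < t ^ ((m : ℝ) / 2) := Real.rpow_pos_of_pos ht _
  have h2 := (N_der m ha ht).div (Real.hasDerivAt_rpow_const (p := (m : ℝ) / 2) (Or.inl ht.ne')) hp.ne'
  refine h2.congr_deriv ?_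
  rw [w, G, Real.rpow_sub_one ht.ne']
  field_simp

theorem g_le (m : ℕ) (hm : 1 ≤ m) {a t : ℝ} (ha : 0 < a) (hat : a ≤ t) : (1 + t)⁻¹ ^ m ≤ G m a t := by
  have ht : 0 < t := by linarith
  have hm0 : (0 : ℝ) < m := by exact_mod_cast hm
  have hp : 0 < t ^ ((m : ℝ) / 2) := Real.rpow_pos_of_pos ht _
  have hpa : 0 < a ^ ((m : ℝ) / 2) := Real.rpow_pos_of_pos ha _
  have hc : ContinuousOn (fun s : ℝ => (1 + t)⁻¹ ^ m * s ^ ((m : ℝ) / 2 - 1)) (Ioi 0) :=
    continuousOn_const.mul (continuousOn_id.rpow_const fun _ hs => Or.inl (ne_of_gt hs))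
  have h1 : ∫ s in a..t, (1 + t)⁻¹ ^ m * s ^ ((m : ℝ) / 2 - 1) ≤ ∫ s in a..t, w m s :=
    intervalIntegral.integral_mono_on hat (hc.mono (sub_uIcc ha ht)).intervalIntegrable
      ((w_cont m).mono (sub_uIcc ha ht)).intervalIntegrable fun s hs =>
        mul_le_mul_of_nonneg_right (g_anti m (by linarith [hs.1]) hs.2)
          (Real.rpow_nonneg (by linarith [hs.1]) _)
  rw [intervalIntegral.integral_const_mul, integral_rpow (Or.inl (by linarith)),
    sub_add_cancel] at h1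
  have h2 := mul_le_mul_of_nonneg_left h1 (show (0 : ℝ) ≤ (m : ℝ) / 2 by positivity)
  have e : (m : ℝ) / 2 * ((1 + t)⁻¹ ^ m * ((t ^ ((m : ℝ) / 2) - a ^ ((m : ℝ) / 2)) / ((m : ℝ) / 2)))
      = (1 + t)⁻¹ ^ m * (t ^ ((m : ℝ) / 2) - a ^ ((m : ℝ) / 2)) := by field_simp
  rw [e] at h2
  have h3 := mul_le_mul_of_nonneg_left (g_anti m ha.le hat) hpa.le
  rw [G, le_div_iff₀ hp, N]
  nlinarith

theorem kp (m : ℕ) (hm : 1 ≤ m) {a T : ℝ} (ha : 0 < a) (haT : a < T) :
    Kp m (G m a T) (fun t => (G m a t - G m a T) / m)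
      (fun t => ((1 + t)⁻¹ ^ m - G m a t) / (2 * t)) a T := by
  have hm0 : (0 : ℝ) < m := by exact_mod_cast hm
  have hsub : Icc a T ⊆ Ioi 0 := fun s hs => lt_of_lt_of_le ha hs.1
  refine ⟨⟨haT, fun s hs => ?_, ?_, fun s hs => ?_, by simp⟩, ha, ?_, fun s hs => ?_, fun s hs => ?_⟩
  · refine (((G_der m ha (hsub hs)).sub_const (G m a T)).div_const (m : ℝ)).congr_deriv ?_
    field_simp
  · refine (((g_cont m).mono hsub).sub fun s hs =>
      (G_der m ha (hsub hs)).continuousAt.continuousWithinAt).div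
      (continuousOn_const.mul continuousOn_id) fun s hs => ?_
    have : 0 < s := hsub hs
    positivity
  · have : 0 < s := hsub hs
    exact div_nonpos_of_nonpos_of_nonneg (by linarith [g_le m hm ha hs.1]) (by positivity)
  · have : 0 < T := by linarith
    exact lt_of_lt_of_le (by positivity) (g_le m hm ha haT.le)
  · have : 0 < s := hsub hs
    refine le_of_eq ?_
    field_simp
    ring
  · have hpa : 0 < a ^ ((m : ℝ) / 2) := Real.rpow_pos_of_pos ha _
    have e : G m a a = (1 + a)⁻¹ ^ m := by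
      rw [G, N, intervalIntegral.integral_same]
      field_simp
      ring
    have e2 : (m : ℝ) * ((G m a a - G m a T) / m) = G m a a - G m a T := by field_simp
    rw [e2, e]
    linarith [g_anti m hs.1 hs.2]

theorem tend (m : ℕ) (hi : IntegrableOn (w m) (Ioi 0)) :
    Tendsto (fun T : ℝ => ∫ s in T⁻¹..T, w m s) atTop (𝓝 (∫ s in Ioi (0 : ℝ), w m s)) := by
  have hc : AECover (volume.restrict (Ioi (0 : ℝ))) atTop fun T : ℝ => Ioi T⁻¹ ∩ Iic T :=
    (aecover_Ioi_of_Ioi tendsto_inv_atTop_zero).inter (aecover_Iic tendsto_id)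
  refine (hc.integral_tendsto_of_countably_generated hi).congr' ?_
  filter_upwards [eventually_ge_atTop (1 : ℝ)] with T hT
  have h0 : 0 < T⁻¹ := by positivity
  have h1 : T⁻¹ ≤ T := (inv_le_one_of_one_le₀ hT).trans hT
  rw [intervalIntegral.integral_of_le h1, Ioi_inter_Iic,
    Measure.restrict_restrict measurableSet_Ioc,
    inter_eq_left.2 (show Ioc T⁻¹ T ⊆ Ioi 0 from fun s hs => lt_trans h0 hs.1)]

end KappaAux

open KappaAux in
theorem kappa_pf (hb : BetaStmt) : KappaStmt := by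
  intro m hm ε hε
  obtain ⟨hi, he⟩ := hb m hm
  have hm0 : (0 : ℝ) < m := by exact_mod_cast hm
  change sph m = m * om m * 2 ^ (m - 1) * ∫ s in Ioi (0 : ℝ), w m s at he
  have hI : 0 ≤ ∫ s in Ioi (0 : ℝ), w m s :=
    setIntegral_nonneg measurableSet_Ioi fun s (hs : 0 < s) => by rw [w]; positivity
  have hev : ∀ᶠ T : ℝ in atTop, (1 - ε) * ∫ s in Ioi (0 : ℝ), w m s ≤ ∫ s in T⁻¹..T, w m s := by
    rcases hI.eq_or_lt with h | h
    · filter_upwards [eventually_ge_atTop (1 : ℝ)] with T hT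
      have h0 : 0 < T⁻¹ := by positivity
      rw [← h, mul_zero]
      exact intervalIntegral.integral_nonneg ((inv_le_one_of_one_le₀ hT).trans hT) fun s hs => by
        have : 0 < s := lt_of_lt_of_le h0 hs.1
        rw [w]; positivity
    · exact (tend m hi).eventually (eventually_ge_nhds (by nlinarith))
  filter_upwards [hev, eventually_gt_atTop (1 : ℝ)] with T h1 hT
  have hT0 : 0 < T := by linarith
  have h0 : 0 < T⁻¹ := by positivity
  refine ⟨_, _, _, T⁻¹, kp m hm h0 ((inv_le_one_of_one_le₀ hT.le).trans_lt hT), ?_⟩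
  have hp : 0 < T ^ ((m : ℝ) / 2) := Real.rpow_pos_of_pos hT0 _
  have ho : 0 ≤ om m := measureReal_nonneg
  have e : G m T⁻¹ T * om m * 2 ^ m * T ^ ((m : ℝ) / 2) = om m * 2 ^ m * N m T⁻¹ T := by
    rw [G]; field_simp
  have e2 : (2 : ℝ) ^ m = 2 ^ (m - 1) * 2 := by rw [← pow_succ, Nat.sub_add_cancel hm]
  have h2 : (m : ℝ) / 2 * ((1 - ε) * ∫ s in Ioi (0 : ℝ), w m s) ≤ N m T⁻¹ T := by
    have := mul_le_mul_of_nonneg_left h1 (show (0 : ℝ) ≤ (m : ℝ) / 2 by positivity)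
    have h3 : 0 ≤ T⁻¹ ^ ((m : ℝ) / 2) * (1 + T⁻¹)⁻¹ ^ m := by positivity
    rw [N]; linarith
  rw [e, he]
  calc (1 - ε) * (m * om m * 2 ^ (m - 1) * ∫ s in Ioi (0 : ℝ), w m s)
      = om m * 2 ^ m * ((m : ℝ) / 2 * ((1 - ε) * ∫ s in Ioi (0 : ℝ), w m s)) := by rw [e2]; ring
    _ ≤ _ := mul_le_mul_of_nonneg_left h2 (by positivity)

end Vale.Agent.P219
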