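import Vale.Agent.P219.Base

/-! P219 part R: a set whose boundary lies on a sphere is the ball. -/

open scoped ContDiff ENNReal Topology
open MeasureTheory Set Filter Metric

namespace Vale.Agent.P219

namespace RigBall

theorem qf_lt {b r s : ℝ} (hb : 0 ≤ b) (hr : 0 ≤ r) (h : r < s) : qf b r < qf b s := by
  unfold qf
  split_ifs with h0
  · nlinarith
  · have hb' : 0 < b := lt_of_le_of_ne hb (Ne.symm h0)
    refine div_lt_div_of_pos_right (sub_lt_sub_right (Real.cosh_lt_cosh.2 ?_) 1) (by positivity)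
    rw [abs_of_nonneg (by positivity), abs_of_nonneg (mul_nonneg hb (by linarith))]
    exact mul_lt_mul_of_pos_left h hb'

theorem rank {n : ℕ} (hn : 2 ≤ n) : 1 < Module.rank ℝ (Eu n) := by
  rw [← Module.finrank_eq_rank, finrank_euclideanSpace_fin]
  exact_mod_cast hn

theorem conn {n : ℕ} (hn : 2 ≤ n) {r : ℝ} (hr : 0 < r) :
    IsPreconnected (closedBall (0 : Eu n) r)ᶜ := by
  have h : (closedBall (0 : Eu n) r)ᶜ =
      (fun p : ℝ × Eu n => p.1 • p.2) '' (Ioi r ×ˢ sphere 0 1) := by
    ext x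
    simp only [mem_compl_iff, mem_closedBall_zero_iff, not_le, mem_image, mem_prod, mem_Ioi,
      mem_sphere_zero_iff_norm]
    constructor
    · intro hx
      have h0 : ‖x‖ ≠ 0 := by linarith
      exact ⟨(‖x‖, ‖x‖⁻¹ • x), ⟨hx, by rw [norm_smul, norm_inv, norm_norm, inv_mul_cancel₀ h0]⟩,
        smul_inv_smul₀ h0 x⟩
    · rintro ⟨p, ⟨h1, h2⟩, rfl⟩
      rwa [norm_smul, h2, mul_one, Real.norm_of_nonneg (by linarith)]
  rw [h]
  exact (isPreconnected_Ioi.prod (isPreconnected_sphere (rank hn) 0 1)).image _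
    (continuous_fst.smul continuous_snd).continuousOn

end RigBall

theorem rigBall_pf (hc : ConstStmt) : RigBallStmt := by
  intro n G b Q V X ex Ω μ N z r hn hb hr hG hg hm hB hBd hv hae
  have null : ∀ s : Set (Eu n), (∀ v ∈ s, ‖v‖ ≠ r) → μ (ex z '' s) = 0 := fun s hs => by
    refine measure_mono_null ?_ hae
    rintro _ ⟨v, hv, rfl⟩ h
    have h1 : qf b ‖v‖ = qf b r := (hg.Qex z v).symm.trans h
    rcases lt_or_gt_of_ne (hs v hv) with h2 | h2
    · exact (RigBall.qf_lt hb (norm_nonneg _) h2).ne h1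
    · exact (RigBall.qf_lt hb hr.le h2).ne' h1
  have o2 : IsOpen (ex z '' (closedBall 0 r)ᶜ) := (ex z).isOpenMap _ isClosed_closedBall.isOpen_compl
  have h1 := hc n G Ω (ex z '' ball 0 r) μ N hG hm hB hBd ((ex z).isOpenMap _ isOpen_ball)
    ((convex_ball 0 r).isPreconnected.image _ (ex z).continuous.continuousOn)
    (null _ fun v hv => (mem_ball_zero_iff.1 hv).ne)
  have h2 := hc n G Ω (ex z '' (closedBall 0 r)ᶜ) μ N hG hm hB hBd o2
    ((RigBall.conn hn hr).image _ (ex z).continuous.continuousOn)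
    (null _ fun v hv h => hv (mem_closedBall_zero_iff.2 h.le))
  have : Nontrivial (Eu n) := (rank_pos_iff_nontrivial (R := ℝ)).1
    (zero_lt_one.trans (RigBall.rank hn))
  have h3 : volume (ex z '' sphere 0 r) = 0 :=
    addHaar_image_eq_zero_of_differentiableOn_of_addHaar_eq_zero volume
      ((hg.exsm z).differentiable (by simp)).differentiableOn (Measure.addHaar_sphere _ _ _)
  have cov : ∀ x, x ∈ ex z '' ball 0 r ∨ x ∈ ex z '' sphere 0 r ∨
      x ∈ ex z '' (closedBall 0 r)ᶜ := fun x => by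
    obtain ⟨v, rfl⟩ := (ex z).surjective x
    rcases lt_trichotomy ‖v‖ r with h | h | h
    · exact Or.inl ⟨v, mem_ball_zero_iff.2 h, rfl⟩
    · exact Or.inr (Or.inl ⟨v, mem_sphere_zero_iff_norm.2 h, rfl⟩)
    · exact Or.inr (Or.inr ⟨v, fun h' => h.not_ge (mem_closedBall_zero_iff.1 h'), rfl⟩)
  have h4 : volume (ex z '' (closedBall 0 r)ᶜ ∩ Ω) = 0 := h2.resolve_right fun h => by
    have a1 : volume (ex z '' (closedBall 0 r)ᶜ \ closure Ω) = 0 :=
      measure_mono_null (sdiff_subset_sdiff_right subset_closure) h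
    have a2 := ((o2.sdiff isClosed_closure).measure_eq_zero_iff volume).1 a1
    rw [sdiff_eq_empty] at a2
    refine noncompact_univ (Eu n) (IsCompact.of_isClosed_subset
      (((isCompact_closedBall 0 r).image (ex z).continuous).union hB.isCompact_closure)
      isClosed_univ fun x _ => ?_)
    rcases cov x with h | h | h
    · exact Or.inl (image_mono ball_subset_closedBall h)
    · exact Or.inl (image_mono sphere_subset_closedBall h)
    · exact Or.inr (a2 h)
  have h5 : volume (Ω \ ex z '' ball 0 r) = 0 :=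
    measure_mono_null (fun x hx => ((cov x).resolve_left hx.2).imp id fun h => ⟨h, hx.1⟩)
      (measure_union_null h3 h4)
  refine ae_eq_set.2 ⟨h5, h1.resolve_left fun h => hv.ne' ?_⟩
  refine setIntegral_measure_zero _ (measure_mono_null (fun x hx => ?_) (measure_union_null h h5))
  by_cases hx' : x ∈ ex z '' ball 0 r
  · exact Or.inl ⟨hx', hx⟩
  · exact Or.inr ⟨hx, hx'⟩

end Vale.Agent.P219
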