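import Vale.Agent.P219.Base

/-! Elementary facts on `sn` and `qf`. -/

open Set

namespace Vale.Agent.P219

theorem sn_zero (b : ℝ) : sn b 0 = 0 := by unfold sn; split_ifs <;> simp

theorem qf_zero (b : ℝ) : qf b 0 = 0 := by unfold qf; split_ifs <;> simp

theorem hasDerivAt_qf (b r : ℝ) : HasDerivAt (qf b) (sn b r) r := by
  unfold qf sn
  split_ifs with h
  · simpa using (hasDerivAt_pow 2 r).div_const 2
  · have h1 : HasDerivAt (fun r => Real.cosh (b * r)) (Real.sinh (b * r) * b) r := by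
      simpa using ((hasDerivAt_id r).const_mul b).cosh
    refine ((h1.sub_const 1).div_const (b ^ 2)).congr_deriv ?_
    field_simp

theorem hasDerivAt_sn (b r : ℝ) : HasDerivAt (sn b) (1 + b ^ 2 * qf b r) r := by
  unfold qf sn
  split_ifs with h
  · simpa [h] using hasDerivAt_id' r
  · have h1 : HasDerivAt (fun r => Real.sinh (b * r)) (Real.cosh (b * r) * b) r := by
      simpa using ((hasDerivAt_id r).const_mul b).sinh
    refine (h1.div_const b).congr_deriv ?_
    field_simp
    ring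

theorem continuous_sn (b : ℝ) : Continuous (sn b) :=
  continuous_iff_continuousAt.2 fun r => (hasDerivAt_sn b r).continuousAt

theorem continuous_qf (b : ℝ) : Continuous (qf b) :=
  continuous_iff_continuousAt.2 fun r => (hasDerivAt_qf b r).continuousAt

theorem sn_sq (b r : ℝ) : sn b r ^ 2 = 2 * qf b r + b ^ 2 * qf b r ^ 2 := by
  unfold qf sn
  split_ifs with h
  · simp [h]; ring
  · have := Real.cosh_sq (b * r)
    field_simp
    linarith

theorem cs_sq (b r : ℝ) : (1 + b ^ 2 * qf b r) ^ 2 = 1 + b ^ 2 * sn b r ^ 2 := by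
  rw [sn_sq]; ring

theorem qf_nonneg (b r : ℝ) : 0 ≤ qf b r := by
  unfold qf
  split_ifs with h
  · positivity
  · exact div_nonneg (sub_nonneg.2 (Real.one_le_cosh _)) (sq_nonneg _)

theorem le_sn {b r : ℝ} (hb : 0 ≤ b) (hr : 0 ≤ r) : r ≤ sn b r := by
  unfold sn
  split_ifs with h
  · exact le_rfl
  · have hb' : 0 < b := lt_of_le_of_ne hb (Ne.symm h)
    rw [le_div_iff₀ hb', mul_comm]
    exact Real.self_le_sinh_iff.2 (by positivity)

theorem sn_pos {b r : ℝ} (hb : 0 ≤ b) (hr : 0 < r) : 0 < sn b r := hr.trans_le (le_sn hb hr.le)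

theorem sn_nonneg {b r : ℝ} (hb : 0 ≤ b) (hr : 0 ≤ r) : 0 ≤ sn b r := hr.trans (le_sn hb hr)

theorem strictMono_sn (b : ℝ) : StrictMono (sn b) :=
  strictMono_of_hasDerivAt_pos (hasDerivAt_sn b) fun r => by
    have := qf_nonneg b r
    positivity

theorem strictMonoOn_qf {b : ℝ} (hb : 0 ≤ b) : StrictMonoOn (qf b) (Ici 0) := by
  refine strictMonoOn_of_deriv_pos (convex_Ici 0) (continuous_qf b).continuousOn fun r hr => ?_
  rw [(hasDerivAt_qf b r).deriv]
  exact sn_pos hb (by simpa using hr)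

theorem qf_pos {b r : ℝ} (hb : 0 ≤ b) (hr : 0 < r) : 0 < qf b r := by
  simpa [qf_zero] using strictMonoOn_qf hb self_mem_Ici hr.le hr

theorem sq_le_qf {b r : ℝ} (hb : 0 ≤ b) (hr : 0 ≤ r) : r ^ 2 / 2 ≤ qf b r := by
  have h : MonotoneOn (fun r => qf b r - r ^ 2 / 2) (Ici 0) := by
    have hd : ∀ x, HasDerivAt (fun r => qf b r - r ^ 2 / 2) (sn b x - x) x := fun x =>
      ((hasDerivAt_qf b x).fun_sub ((hasDerivAt_pow 2 x).div_const 2)).congr_deriv (by simp)
    refine monotoneOn_of_deriv_nonneg (convex_Ici 0)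
      (fun x _ => (hd x).continuousAt.continuousWithinAt)
      (fun x _ => (hd x).differentiableAt.differentiableWithinAt) fun x hx => ?_
    rw [(hd x).deriv]
    exact sub_nonneg.2 (le_sn hb (interior_subset hx))
  have := h self_mem_Ici hr hr
  simpa [qf_zero] using this

theorem qf_surj {b a : ℝ} (hb : 0 ≤ b) (ha : 0 ≤ a) : ∃ r, 0 ≤ r ∧ qf b r = a := by
  have h1 : a ≤ qf b (a + 2) := le_trans (by nlinarith) (sq_le_qf hb (by linarith))
  obtain ⟨r, hr, h⟩ := intermediate_value_Icc (show (0 : ℝ) ≤ a + 2 by linarith)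
    (continuous_qf b).continuousOn ⟨by rw [qf_zero]; exact ha, h1⟩
  exact ⟨r, hr.1, h⟩

theorem sn_add (b x y : ℝ) :
    sn b (x + y) = sn b x * (1 + b ^ 2 * qf b y) + (1 + b ^ 2 * qf b x) * sn b y := by
  unfold qf sn
  split_ifs with h
  · simp [h]
  · rw [mul_add, Real.sinh_add]; field_simp; ring

theorem qf_sub (b x y : ℝ) :
    qf b (x - y) = qf b x + qf b y + b ^ 2 * qf b x * qf b y - sn b x * sn b y := by
  unfold qf sn
  split_ifs with h
  · simp [h]; ring
  · rw [mul_sub, Real.cosh_sub]; field_simp; ring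

theorem qf_neg (b x : ℝ) : qf b (-x) = qf b x := by
  unfold qf; split_ifs <;> simp

theorem sn_neg (b x : ℝ) : sn b (-x) = -sn b x := by
  unfold sn; split_ifs <;> simp [neg_div]

theorem qf_half (b x : ℝ) : qf b x = 2 * sn b (x / 2) ^ 2 := by
  have h := qf_sub b (x / 2) (-(x / 2))
  rw [qf_neg, sn_neg, show x / 2 - -(x / 2) = x by ring] at h
  rw [h, sn_sq]
  have := sn_sq b (x / 2)
  nlinarith

theorem om_pos (n : ℕ) : 0 < om n :=
  ENNReal.toReal_pos (Metric.measure_ball_pos _ _ one_pos).ne' MeasureTheory.measure_ball_lt_top.ne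

theorem sph_pos (m : ℕ) : 0 < sph m := by
  unfold sph
  have := om_pos (m + 1)
  positivity

end Vale.Agent.P219
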