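import Vale.Agent.P219.Lo
import Vale.Agent.P219.RigBall
import Vale.Agent.P219.Trig

/-! The model ball through the origin in normal coordinates. -/

open scoped ENNReal RealInnerProductSpace Topology Pointwise
open MeasureTheory Set Filter Metric

namespace Vale.Agent.P219

namespace LCapAux

variable {n : ℕ} {g : ℝ → ℝ} {u : Eu n}

theorem convD (c ρ : ℝ) (hc : 0 ≤ c) (u : Eu n) :
    Convex ℝ {w : Eu n | c * ‖w‖ < ⟪w, u⟫ ∧ ‖w‖ ≤ ρ} := by
  intro x hx y hy s t hs ht hst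
  have h1 : ‖s • x + t • y‖ ≤ s * ‖x‖ + t * ‖y‖ := by
    refine (norm_add_le _ _).trans ?_
    rw [norm_smul, norm_smul, Real.norm_of_nonneg hs, Real.norm_of_nonneg ht]
  refine ⟨?_, ?_⟩
  · rw [inner_add_left, real_inner_smul_left, real_inner_smul_left]
    have h2 := mul_le_mul_of_nonneg_left h1 hc
    have h3 := mul_le_mul_of_nonneg_left hx.1.le hs
    have h4 := mul_le_mul_of_nonneg_left hy.1.le ht
    rcases hs.eq_or_lt with rfl | hs'
    · have := mul_lt_mul_of_pos_left hy.1 (show 0 < t by linarith)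
      linarith
    · have := mul_lt_mul_of_pos_left hx.1 hs'
      linarith
  · have h3 := mul_le_mul_of_nonneg_left hx.2 hs
    have h4 := mul_le_mul_of_nonneg_left hy.2 ht
    have h5 : s * ρ + t * ρ = ρ := by rw [← add_mul, hst, one_mul]
    linarith

theorem inner_le (hu : ‖u‖ = 1) (v : Eu n) : ⟪v, u⟫ ≤ ‖v‖ := by
  simpa [hu] using real_inner_le_norm v u

theorem inn (hu : ‖u‖ = 1) (hg : StrictMonoOn g (Ioi 0)) (h0 : ∀ ρ, 0 < ρ → 0 < g ρ) :
    IsPreconnected {v : Eu n | v ≠ 0 ∧ g ‖v‖ * ‖v‖ < ⟪v, u⟫} := by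
  have sub : ∀ ρ, 0 < ρ → {w : Eu n | g ρ * ‖w‖ < ⟪w, u⟫ ∧ ‖w‖ ≤ ρ} ⊆
      {v : Eu n | v ≠ 0 ∧ g ‖v‖ * ‖v‖ < ⟪v, u⟫} := by
    intro ρ hρ w hw
    have hne : w ≠ 0 := by
      rintro rfl
      simpa using hw.1
    refine ⟨hne, lt_of_le_of_lt (mul_le_mul_of_nonneg_right ?_ (norm_nonneg _)) hw.1⟩
    exact hg.monotoneOn (norm_pos_iff.2 hne) hρ hw.2
  have mem : ∀ v : Eu n, v ≠ 0 → g ‖v‖ * ‖v‖ < ⟪v, u⟫ → ∀ s, 0 < s → s ≤ ‖v‖ →
      s • u ∈ {w : Eu n | g ‖v‖ * ‖w‖ < ⟪w, u⟫ ∧ ‖w‖ ≤ ‖v‖} := by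
    intro v hv h s hs hsv
    have h1 : g ‖v‖ < 1 := by
      have := h.trans_le (inner_le hu v)
      exact (mul_lt_iff_lt_one_left (norm_pos_iff.2 hv)).1 this
    have h2 : ‖s • u‖ = s := by rw [norm_smul, hu, mul_one, Real.norm_of_nonneg hs.le]
    refine ⟨?_, h2.le.trans hsv⟩
    rw [h2, real_inner_smul_left, real_inner_self_eq_norm_sq, hu]
    nlinarith
  refine isPreconnected_of_forall_pair fun x hx y hy => ?_
  have px := norm_pos_iff.2 hx.1
  have py := norm_pos_iff.2 hy.1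
  refine ⟨_, union_subset (sub _ px) (sub _ py), Or.inl ⟨hx.2, le_rfl⟩, Or.inr ⟨hy.2, le_rfl⟩, ?_⟩
  exact IsPreconnected.union (min ‖x‖ ‖y‖ • u)
    (mem x hx.1 hx.2 _ (lt_min px py) (min_le_left _ _))
    (mem y hy.1 hy.2 _ (lt_min px py) (min_le_right _ _))
    (convD _ _ (h0 _ px).le u).isPreconnected (convD _ _ (h0 _ py).le u).isPreconnected

theorem far (hu : ‖u‖ = 1) (hg : StrictMonoOn g (Ioi 0)) {R : ℝ} (hR : 0 < R) (h1 : g R = 1)
    (v : Eu n) (hv : R < ‖v‖) : ⟪v, u⟫ < g ‖v‖ * ‖v‖ := by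
  have h2 : g R < g ‖v‖ := hg hR (hR.trans hv) hv
  have := inner_le hu v
  nlinarith

theorem out (hn : 2 ≤ n) (hu : ‖u‖ = 1) (hg : StrictMonoOn g (Ioi 0)) {R : ℝ} (hR : 0 < R)
    (h1 : g R = 1) : IsPreconnected {v : Eu n | v ≠ 0 ∧ ⟪v, u⟫ < g ‖v‖ * ‖v‖} := by
  have hE : (closedBall (0 : Eu n) R)ᶜ ⊆ {v : Eu n | v ≠ 0 ∧ ⟪v, u⟫ < g ‖v‖ * ‖v‖} := by
    intro v hv
    have h : R < ‖v‖ := not_le.1 fun h => hv (mem_closedBall_zero_iff.2 h)
    exact ⟨norm_pos_iff.1 (hR.trans h), far hu hg hR h1 v h⟩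
  refine isPreconnected_of_forall ((2 * R) • u) fun y hy => ?_
  have py := norm_pos_iff.2 hy.1
  refine ⟨(closedBall (0 : Eu n) R)ᶜ ∪ (fun s : ℝ => s • y) '' Ici 1, union_subset hE ?_,
    Or.inl ?_, Or.inr ⟨1, le_refl (1 : ℝ), one_smul _ _⟩, ?_⟩
  · rintro _ ⟨s, hs, rfl⟩
    have hs1 : (1 : ℝ) ≤ s := hs
    have hs0 : 0 < s := by linarith
    have e : ‖s • y‖ = s * ‖y‖ := by rw [norm_smul, Real.norm_of_nonneg hs0.le]
    refine ⟨smul_ne_zero hs0.ne' hy.1, ?_⟩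
    simp only
    rw [e, real_inner_smul_left]
    have a1 : g ‖y‖ ≤ g (s * ‖y‖) :=
      hg.monotoneOn py (mul_pos hs0 py) (le_mul_of_one_le_left py.le hs1)
    have a2 := mul_lt_mul_of_pos_left hy.2 hs0
    have a3 := mul_le_mul_of_nonneg_right a1 (mul_pos hs0 py).le
    linarith
  · rw [mem_compl_iff, mem_closedBall_zero_iff, norm_smul, hu, mul_one,
      Real.norm_of_nonneg (by linarith)]
    linarith
  · refine IsPreconnected.union ((1 + R / ‖y‖) • y) ?_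
      ⟨1 + R / ‖y‖, show (1 : ℝ) ≤ 1 + R / ‖y‖ from le_add_of_nonneg_right (by positivity), rfl⟩
      (RigBall.conn hn hR)
      (isPreconnected_Ici.image _ (continuous_id.smul continuous_const).continuousOn)
    rw [mem_compl_iff, mem_closedBall_zero_iff, norm_smul, Real.norm_of_nonneg (by positivity),
      add_mul, div_mul_cancel₀ _ py.ne']
    linarith

theorem null (hg : StrictMonoOn g (Ioi 0))
    (hm : MeasurableSet {v : Eu n | v ≠ 0 ∧ ⟪v, u⟫ = g ‖v‖ * ‖v‖}) :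
    volume {v : Eu n | v ≠ 0 ∧ ⟪v, u⟫ = g ‖v‖ * ‖v‖} = 0 := by
  by_contra hne
  have key : ∀ c c' : ℝ, c < c' → Disjoint
      (Real.exp c • {v : Eu n | v ≠ 0 ∧ ⟪v, u⟫ = g ‖v‖ * ‖v‖})
      (Real.exp c' • {v : Eu n | v ≠ 0 ∧ ⟪v, u⟫ = g ‖v‖ * ‖v‖}) := by
    intro c c' h
    refine disjoint_left.2 ?_
    rintro _ ⟨v, hv, rfl⟩ ⟨w, hw, e⟩
    simp only at e
    have p := Real.exp_pos c
    have p' := Real.exp_pos c'
    have pv := norm_pos_iff.2 hv.1
    have pw := norm_pos_iff.2 hw.1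
    have e1 : Real.exp c' * ‖w‖ = Real.exp c * ‖v‖ := by
      have := congrArg norm e
      rwa [norm_smul, norm_smul, Real.norm_of_nonneg p.le, Real.norm_of_nonneg p'.le] at this
    have e2 : Real.exp c' * ⟪w, u⟫ = Real.exp c * ⟪v, u⟫ := by
      rw [← real_inner_smul_left, ← real_inner_smul_left, e]
    have l1 : ‖w‖ < ‖v‖ := by
      have := Real.exp_lt_exp.2 h
      nlinarith
    have l2 : g ‖w‖ < g ‖v‖ := hg pw pv l1
    rw [hv.2, hw.2, mul_left_comm, e1, mul_left_comm (Real.exp c)] at e2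
    exact l2.ne (mul_right_cancel₀ (mul_pos p pv).ne' e2)
  have hc := Measure.countable_meas_pos_of_disjoint_iUnion (μ := (volume : Measure (Eu n)))
    (As := fun c : ℝ => Real.exp c • {v : Eu n | v ≠ 0 ∧ ⟪v, u⟫ = g ‖v‖ * ‖v‖})
    (fun c => hm.const_smul₀ _) fun c c' h => by
      rcases lt_or_gt_of_ne h with h | h
      · exact key c c' h
      · exact (key c' c h).symm
  refine Set.not_countable_univ (hc.mono fun c _ => ?_)
  simp only [mem_ofPred_eq]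
  rw [Measure.addHaar_smul]
  exact ENNReal.mul_pos (ENNReal.ofReal_pos.2 (abs_pos.2 (pow_pos (Real.exp_pos c) _).ne')).ne' hne

theorem cs_pos (b r : ℝ) : 0 < 1 + b ^ 2 * qf b r := by
  have := mul_nonneg (sq_nonneg b) (qf_nonneg b r)
  linarith

theorem ratio {b ρ : ℝ} (hb : 0 ≤ b) (hρ : 0 < ρ) :
    qf b ρ / sn b ρ = sn b (ρ / 2) / (1 + b ^ 2 * qf b (ρ / 2)) := by
  have h1 := sn_add b (ρ / 2) (ρ / 2)
  rw [add_halves] at h1
  rw [div_eq_div_iff (sn_pos hb hρ).ne' (cs_pos b _).ne', h1, qf_half b ρ]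
  ring

theorem mono {b : ℝ} (hb : 0 ≤ b) : StrictMonoOn (fun ρ => qf b ρ / sn b ρ) (Ioi 0) := by
  intro s hs t ht hst
  simp only
  rw [ratio hb hs, ratio hb ht, div_lt_div_iff₀ (cs_pos b _) (cs_pos b _)]
  have h1 := sn_add b (t / 2) (-(s / 2))
  rw [qf_neg, sn_neg] at h1
  have h2 := sn_pos hb (show 0 < t / 2 + -(s / 2) by linarith)
  linarith

end LCapAux

open LCapAux in
theorem cap_pf : CapStmt := by
  intro n b r u hn hb hr hu
  have hA := cs_pos b r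
  have hB := sn_pos hb hr
  set g : ℝ → ℝ := fun ρ => (1 + b ^ 2 * qf b r) / sn b r * (qf b ρ / sn b ρ) with hg
  have gm : StrictMonoOn g (Ioi 0) := fun s hs t ht hst =>
    mul_lt_mul_of_pos_left (mono hb hs ht hst) (div_pos hA hB)
  have g0 : ∀ ρ, 0 < ρ → 0 < g ρ := fun ρ hρ =>
    mul_pos (div_pos hA hB) (div_pos (qf_pos hb hρ) (sn_pos hb hρ))
  have g1 : g (2 * r) = 1 := by
    rw [hg]
    simp only
    rw [ratio hb (by linarith), show 2 * r / 2 = r by ring]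
    field_simp
  have e : ∀ v : Eu n, v ≠ 0 → 0 < sn b r * sn b ‖v‖ ∧
      (1 + b ^ 2 * qf b r) * qf b ‖v‖ * ‖v‖ = sn b r * sn b ‖v‖ * (g ‖v‖ * ‖v‖) := fun v hv => by
    have := sn_pos hb (norm_pos_iff.2 hv)
    refine ⟨mul_pos hB this, ?_⟩
    rw [hg]
    field_simp
  refine ⟨?_, ?_, ?_, fun v hv => ?_⟩
  · convert inn hu gm g0 using 1
    ext v
    by_cases hv : v = 0
    · simp [hv]
    · simp only [mem_ofPred_eq, (e v hv).2, mul_lt_mul_iff_right₀ (e v hv).1, ne_eq, hv,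
        not_false_eq_true, true_and]
  · convert out hn hu gm (show 0 < 2 * r by linarith) g1 using 1
    ext v
    by_cases hv : v = 0
    · simp [hv]
    · simp only [mem_ofPred_eq, (e v hv).2, mul_lt_mul_iff_right₀ (e v hv).1, ne_eq, hv,
        not_false_eq_true, true_and]
  · have hset : {v : Eu n | v ≠ 0 ∧ ⟪v, u⟫ = g ‖v‖ * ‖v‖} =
        {v : Eu n | sn b r * sn b ‖v‖ * ⟪v, u⟫ = (1 + b ^ 2 * qf b r) * qf b ‖v‖ * ‖v‖} \ {0} := by
      ext v
      by_cases hv : v = 0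
      · simp [hv]
      · simp only [mem_ofPred_eq, Set.mem_sdiff, (e v hv).2, mul_right_inj' (e v hv).1.ne', ne_eq, hv,
          not_false_eq_true, true_and, mem_singleton_iff, and_true]
    have c1 := continuous_sn b
    have c2 := continuous_qf b
    have hcl : IsClosed {v : Eu n |
        sn b r * sn b ‖v‖ * ⟪v, u⟫ = (1 + b ^ 2 * qf b r) * qf b ‖v‖ * ‖v‖} :=
      isClosed_eq (by fun_prop) (by fun_prop)
    have h := null (u := u) gm (hset ▸ hcl.measurableSet.diff (measurableSet_singleton _))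
    have : Nontrivial (Eu n) := ⟨⟨u, 0, norm_ne_zero_iff.1 (by rw [hu]; exact one_ne_zero)⟩⟩
    rwa [hset, measure_sdiff_null (measure_singleton _)] at h
  · have hv0 : v ≠ 0 := norm_pos_iff.1 (by linarith)
    rw [(e v hv0).2]
    exact mul_lt_mul_of_pos_left (far hu gm (by linarith) g1 v hv) (e v hv0).1

end Vale.Agent.P219
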