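import Vale.Agent.P219.LoTool
import Vale.Agent.P219.Core

/-! P219: the theorem in a global chart in dimension two. -/

open scoped Manifold ContDiff ENNReal RealInnerProductSpace Topology
open MeasureTheory Set Filter

namespace Vale.Agent.P219

namespace LCore2Aux

theorem om_two : om 2 = Real.pi := by
  unfold om
  rw [measureReal_def, EuclideanSpace.volume_ball_fin_two]
  simp [Real.pi_pos.le]

theorem mV_two (b r : ℝ) : mV 2 b r = 2 * Real.pi * qf b r := by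
  unfold mV
  rw [om_two]
  have h : ∫ t in (0 : ℝ)..r, sn b t ^ (2 - 1) = qf b r - qf b 0 := by
    simp only [Nat.add_one_sub_one, pow_one]
    exact intervalIntegral.integral_eq_sub_of_hasDerivAt (fun x _ => hasDerivAt_qf b x)
      ((continuous_sn b).intervalIntegrable _ _)
  rw [h, qf_zero, sub_zero]
  norm_num

theorem mA_two (b r : ℝ) : mA 2 b r = 2 * Real.pi * sn b r := by
  unfold mA
  rw [om_two]
  norm_num

theorem prof_two {b W : ℝ} (hb : 0 ≤ b) (hP : Prof 2 b) (hW : 0 ≤ W) :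
    0 ≤ prof 2 b W ∧ prof 2 b W ^ 2 = 4 * Real.pi * W + b ^ 2 * W ^ 2 := by
  obtain ⟨r, hr, rfl⟩ := hP.surj W hW
  rw [hP.val r hr, mA_two, mV_two]
  refine ⟨mul_nonneg (by positivity) (sn_nonneg hb hr), ?_⟩
  rw [mul_pow, sn_sq]
  ring

theorem tdiv_neg {n : ℕ} (G : Met n) (A : Eu n → Eu n →L[ℝ] Eu n) (N Y : Eu n → Eu n)
    (x : Eu n) : tdiv G A N (fun y => -Y y) x = -tdiv G A N Y x := by
  have h : ∀ ξ, lie G (fun y => -Y y) x ξ = -lie G Y x ξ := by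
    intro ξ
    unfold lie
    rw [fderiv_fun_neg]
    simp only [map_neg, neg_apply]
    ring
  unfold tdiv
  simp only [h, Finset.sum_neg_distrib]
  ring

theorem fv_le (hva : VarStmt) {n : ℕ} {G : Met n} {A : Eu n → Eu n →L[ℝ] Eu n} {Ω : Set (Eu n)}
    {μ : Measure (Eu n)} {N : Eu n → Eu n} {I : ℝ → ℝ} {H : ℝ} (hG : Rm G) (hA : Frame G A)
    (hΩ : MeasurableSet Ω) (hbd : Bornology.IsBounded Ω) (hB : Bd G Ω μ N)
    (hI : ∀ Ω' : Set (Eu n), MeasurableSet Ω' → Bornology.IsBounded Ω' →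
      ENNReal.ofReal (I (vol G Ω')) ≤ per G Ω')
    (he : μ.real univ = I (vol G Ω)) (hp : 0 < μ.real univ) (hd : HasDerivAt I H (vol G Ω))
    (Y : Eu n → Eu n) (hY1 : ContDiff ℝ 1 Y) (hY2 : HasCompactSupport Y) :
    H * ∫ x, G x (N x) (Y x) ∂μ ≤ ∫ x, tdiv G A N Y x ∂μ := by
  obtain ⟨hv1, hv2, hv3⟩ := hva n G A Ω μ N Y hG hA hΩ hbd hB hY1 hY2
  have hv0 : vol G ((fun x => x + (0 : ℝ) • Y x) '' Ω) = vol G Ω := by simp
  have hder : HasDerivAt (fun ε : ℝ => I (vol G ((fun x => x + ε • Y x) '' Ω)))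
      (H * ∫ x, G x (N x) (Y x) ∂μ) 0 := by
    have h1 : HasDerivAt I H (vol G ((fun x => x + (0 : ℝ) • Y x) '' Ω)) := by rwa [hv0]
    exact h1.comp 0 hv3
  refine Fv.cmp hder fun η hη => ?_
  have h1 : ∀ᶠ ε : ℝ in 𝓝[>] 0, 0 < μ.real univ + ε * (∫ x, tdiv G A N Y x ∂μ + η) := by
    have h2 : Tendsto (fun ε : ℝ => μ.real univ + ε * (∫ x, tdiv G A N Y x ∂μ + η)) (𝓝 0)
        (𝓝 (μ.real univ + 0 * (∫ x, tdiv G A N Y x ∂μ + η))) :=
      (continuous_const.add (continuous_id.mul continuous_const)).tendsto 0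
    rw [zero_mul, add_zero] at h2
    exact (h2.eventually (lt_mem_nhds hp)).filter_mono nhdsWithin_le_nhds
  filter_upwards [h1, hv2 η hη, hv1.filter_mono nhdsWithin_le_nhds] with ε h2 h3 h5
  have hc : Continuous fun x => x + ε • Y x :=
    continuous_id.add (hY1.continuous.const_smul ε)
  have h4 : Bornology.IsBounded ((fun x => x + ε • Y x) '' Ω) :=
    (hbd.isCompact_closure.image hc).isBounded.subset (image_mono subset_closure)
  have h6 := (hI _ h5 h4).trans h3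
  rw [ENNReal.ofReal_le_ofReal_iff h2.le] at h6
  rw [hv0]
  linarith

end LCore2Aux

open LCore2Aux in
theorem core2_pf (hp : ProfStmt) (hg : Geo2Stmt) (hr : RieszStmt) (hva : VarStmt) (ht : TwoStmt)
    (hi : IsoTwoStmt) (he : EssStmt) (hrt : RigTwoStmt) (hpt : RigPtStmt) (hv : RigVolStmt) :
    CoreN 2 := by
  intro G κ Ω hκ hG hΩ hbd
  have hb0 : 0 ≤ √(-κ) := Real.sqrt_nonneg _
  have hκ' : κ = -√(-κ) ^ 2 := by rw [Real.sq_sqrt (by linarith), neg_neg]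
  generalize √(-κ) = b at hb0 hκ' ⊢
  subst hκ'
  have hP := hp 2 b le_rfl hb0
  obtain ⟨Q, V, X, ex, hgeo⟩ := hg 2 G b hb0 hG
  obtain ⟨A, hA⟩ := frame_pf 2 G hG.toRm
  have hT := ht G b Q V X ex hG.toRm hgeo
  have hI : ∀ Ω' : Set (Eu 2), MeasurableSet Ω' → Bornology.IsBounded Ω' →
      ENNReal.ofReal (prof 2 b (vol G Ω')) ≤ per G Ω' := by
    intro Ω' h1 h2
    by_cases hfin : per G Ω' = ⊤
    · rw [hfin]; exact le_top
    obtain ⟨μ, N, hB⟩ := hr 2 G Ω' (by norm_num) hG.toRm h1 h2 hfin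
    have h3 := (hi G b Q V X ex _ _ _ Ω' μ N hG.toRm hgeo hT h1 h2 hB).1
    obtain ⟨h4, h5⟩ := prof_two hb0 hP (Core.vol_nonneg G Ω')
    rw [← h5, measureReal_def, hB.mass] at h3
    rw [ENNReal.ofReal_le_iff_le_toReal hfin]
    exact (abs_le_of_sq_le_sq' h3 ENNReal.toReal_nonneg).2
  refine ⟨hI Ω hΩ hbd, fun hV hE => ?_⟩
  obtain ⟨r, hr0, hvol⟩ := hP.surj _ hV.le
  have hr1 : 0 < r := by
    rcases hr0.eq_or_lt with rfl | h
    · rw [hP.zero] at hvol; linarith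
    · exact h
  obtain ⟨μ, N, hB⟩ := hr 2 G Ω (by norm_num) hG.toRm hΩ hbd
    (by rw [hE]; exact ENNReal.ofReal_ne_top)
  obtain ⟨h4, h5⟩ := prof_two hb0 hP hV.le
  have hM : μ.real univ = prof 2 b (vol G Ω) := by
    rw [measureReal_def, hB.mass, hE, ENNReal.toReal_ofReal h4]
  have hsn := sn_pos hb0 hr1
  have hq := qf_nonneg b r
  have hMp : 0 < μ.real univ := by
    rw [hM, ← hvol, hP.val r hr0, mA_two]
    have := Real.pi_pos
    positivity
  have hd : HasDerivAt (prof 2 b) ((1 + b ^ 2 * qf b r) / sn b r) (vol G Ω) := by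
    rw [← hvol]
    simpa using hP.der r hr1
  have hH : b < (1 + b ^ 2 * qf b r) / sn b r := by
    rw [lt_div_iff₀ hsn]
    refine lt_of_pow_lt_pow_left₀ 2 (by positivity) ?_
    rw [cs_sq, mul_pow]
    linarith
  have hfv : ∀ Y, ContDiff ℝ 1 Y → HasCompactSupport Y →
      ∫ x, tdiv G A N Y x ∂μ = (1 + b ^ 2 * qf b r) / sn b r * ∫ x, G x (N x) (Y x) ∂μ := by
    intro Y hY1 hY2
    have h1 := fv_le hva hG.toRm hA hΩ hbd hB hI hM hMp hd Y hY1 hY2
    have h2 := fv_le hva hG.toRm hA hΩ hbd hB hI hM hMp hd (fun y => -Y y) hY1.neg hY2.neg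
    simp only [tdiv_neg, map_neg, integral_neg] at h2
    linarith
  obtain ⟨e1, e2⟩ := (hi G b Q V X ex _ _ _ Ω μ N hG.toRm hgeo hT hΩ hbd hB).2
    (by rw [hM, h5])
  have e3 := he 2 G Ω μ N _ hG.toRm hΩ hbd hB hT.hc e2
  have e4 := hrt G A b _ Q V X ex _ _ _ Ω μ N hb0 hH hG.toRm hA hgeo hT hbd hB hfv e1 e3
  obtain ⟨z, hae⟩ := hpt 2 G b Q V X ex Ω μ N r le_rfl hb0 hr1 hG.toRm hgeo hΩ hbd hB hvol.symm hV
    (e4.mono fun y hy => hy.mono fun x hx => by rw [hx]; field_simp)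
  refine ⟨r, ex z, hr1, hgeo.exsm z, hae, ?_⟩
  refine hv 2 G b (ex z) r (by norm_num) hb0 hr1 hG.toRm ((hgeo.exsm z).of_le (by simp))
    (ex z).injective (hgeo.rauch z) ?_
  rw [hvol]
  exact (setIntegral_congr_set hae).ge

end Vale.Agent.P219
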