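import Vale.Agent.P219.LoTool
import Vale.Agent.P219.Core

/-! P219: the theorem in a global chart in dimension three. -/

open scoped Manifold ContDiff ENNReal RealInnerProductSpace Topology
open MeasureTheory Set Filter

namespace Vale.Agent.P219

namespace LCore3Aux

theorem mA_three (b r : ℝ) : mA 3 b r = 4 * Real.pi * sn b r ^ 2 := by
  have h : om 3 = Real.pi * 4 / 3 := by
    unfold om
    rw [Measure.real, EuclideanSpace.volume_ball_fin_three]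
    simp only [ENNReal.ofReal_one, one_pow, one_mul]
    exact ENNReal.toReal_ofReal (by have := Real.pi_pos; positivity)
  unfold mA
  rw [h]
  norm_num
  ring_nf
  simp

theorem key (hr : RieszStmt) (ho : Ok0Stmt) (hw : WillStmt) {b : ℝ} (hb : 0 ≤ b)
    (hp : Prof 3 b) {G : Met 3} (hG : Rm G) {A : Eu 3 → Eu 3 →L[ℝ] Eu 3} (hA : Frame G A)
    {Q : Eu 3 → Eu 3 → ℝ} {V X : Eu 3 → Eu 3 → Eu 3} {ex : Eu 3 → Eu 3 ≃ₜ Eu 3}
    (hg : Geo G b Q V X ex) {a0 δ r : ℝ} (ha : 0 ≤ a0) (hδ : 0 < δ) (hδ1 : δ ≤ 1) (hr0 : 0 < r)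
    {Ω : Set (Eu 3)} (hm : IsMin G {x | Q 0 x ≤ a0} (fun v => δ * prof 3 b v) Ω)
    (hv : vol G Ω = mV 3 b r) :
    mA 3 b r ≤ (per G Ω).toReal ∧ (δ = 1 → (per G Ω).toReal ≤ mA 3 b r →
      ∃ μ N, Bd G Ω μ N ∧ ∀ᵐ z ∂μ, ∀ᵐ x ∂μ,
        sn b r * fderiv ℝ (Q z) x (N x) = (1 + b ^ 2 * qf b r) * Q z x) := by
  have hbd : Bornology.IsBounded Ω := (hg.proper 0 a0).isBounded.subset hm.sub
  obtain ⟨μ, N, hB⟩ := hr 3 G Ω (by omega) hG hm.meas hbd hm.fin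
  have hsn := sn_pos hb hr0
  have hq := qf_nonneg b r
  have hcs : 0 < 1 + b ^ 2 * qf b r := by positivity
  have hV : 0 < vol G Ω := by
    rw [hv, ← hp.zero]
    exact hp.mono (mem_Ici.2 le_rfl) (mem_Ici.2 hr0.le) hr0
  have hd : HasDerivAt (fun v => δ * prof 3 b v)
      (δ * (2 * (1 + b ^ 2 * qf b r) / sn b r)) (vol G Ω) := by
    rw [hv]; simpa using (hp.der r hr0).const_mul δ
  have hok := ho 3 G A b _ a0 0 Q V X ex _ Ω μ N (by omega) hb (by positivity) ha hG hA hg hm hB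
    hd hV
  obtain ⟨s1, s2⟩ := hw 3 _ hok rfl
  have hM : μ.real univ = (per G Ω).toReal := by rw [Measure.real, hB.mass]
  simp only [mkDat, Dat.q] at s1 s2
  have hc : (δ * (2 * (1 + b ^ 2 * qf b r) / sn b r)) ^ 2 / 4 - b ^ 2 =
      1 / sn b r ^ 2 - (1 - δ ^ 2) * ((1 + b ^ 2 * qf b r) / sn b r) ^ 2 := by
    have := cs_sq b r
    field_simp
    linear_combination 4 * this
  rw [hc, hM] at s1 s2
  have hP : 0 ≤ (per G Ω).toReal := ENNReal.toReal_nonneg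
  rw [mA_three]
  constructor
  · have h2 : 0 ≤ (1 - δ ^ 2) * ((1 + b ^ 2 * qf b r) / sn b r) ^ 2 :=
      mul_nonneg (by nlinarith) (sq_nonneg _)
    have h4 : 4 * Real.pi ≤ 1 / sn b r ^ 2 * (per G Ω).toReal := by nlinarith
    rwa [one_div, inv_mul_eq_div, le_div_iff₀ (by positivity)] at h4
  · rintro rfl hle
    have hz := s2 (by
      rw [one_pow, sub_self, zero_mul, sub_zero, one_div, inv_mul_eq_div,
        div_le_iff₀ (by positivity)]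
      exact hle)
    refine ⟨μ, N, hB, hz.mono fun z hz => hz.mono fun x hx => ?_⟩
    rw [hx]
    field_simp

theorem ineq (hr : RieszStmt) (hmin : MinStmt) (ho : Ok0Stmt) (hw : WillStmt) {b : ℝ}
    (hb : 0 ≤ b) (hp : Prof 3 b) {G : Met 3} (hG : Rm G) {A : Eu 3 → Eu 3 →L[ℝ] Eu 3}
    (hA : Frame G A) {Q : Eu 3 → Eu 3 → ℝ} {V X : Eu 3 → Eu 3 → Eu 3}
    {ex : Eu 3 → Eu 3 ≃ₜ Eu 3} (hg : Geo G b Q V X ex) {Ω : Set (Eu 3)} (hΩ : MeasurableSet Ω)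
    (hbd : Bornology.IsBounded Ω) : ENNReal.ofReal (prof 3 b (vol G Ω)) ≤ per G Ω := by
  by_contra hlt
  rw [not_le] at hlt
  have hfin : per G Ω ≠ ⊤ := hlt.ne_top
  have hP : 0 ≤ (per G Ω).toReal := ENNReal.toReal_nonneg
  have h1 : (per G Ω).toReal < prof 3 b (vol G Ω) := by
    rwa [← ENNReal.ofReal_toReal hfin, ENNReal.ofReal_lt_ofReal_iff_of_nonneg hP] at hlt
  have h2 : 0 < prof 3 b (vol G Ω) := hP.trans_lt h1
  obtain ⟨δ, hδ, hδ1⟩ := exists_between ((div_lt_one h2).2 h1)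
  have hδ0 : 0 < δ := (div_nonneg hP h2.le).trans_lt hδ
  rw [div_lt_iff₀ h2] at hδ
  obtain ⟨a0, ha, hsub⟩ := Core.exists_a0 hg hbd
  obtain ⟨Ω', hm⟩ := hmin 3 G _ (fun v => δ * prof 3 b v) hG (hg.proper 0 a0)
    (continuousOn_const.mul hp.cont)
  have h3 := hm.le Ω hΩ hsub hfin
  obtain ⟨r, hr0, hv⟩ := hp.surj _ (Core.vol_nonneg G Ω')
  have hP' : 0 ≤ (per G Ω').toReal := ENNReal.toReal_nonneg
  rw [← hv, hp.val r hr0] at h3
  rcases hr0.eq_or_lt with rfl | hr1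
  · rw [Core.mA_zero (by omega)] at h3
    linarith
  · have h4 := (key hr ho hw hb hp hG hA hg ha hδ0 hδ1.le hr1 hm hv.symm).1
    nlinarith

end LCore3Aux

theorem core3_pf (hp : ProfStmt) (hg : Geo2Stmt) (hr : RieszStmt) (hm : MinStmt) (ho : Ok0Stmt)
    (hw : WillStmt) (hpt : RigPtStmt) (hv : RigVolStmt) : CoreN 3 := by
  intro G κ Ω hκ hG hΩ hbd
  have hb0 : 0 ≤ √(-κ) := Real.sqrt_nonneg _
  have hκ' : κ = -√(-κ) ^ 2 := by rw [Real.sq_sqrt (by linarith), neg_neg]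
  generalize √(-κ) = b at hb0 hκ' ⊢
  subst hκ'
  have hP := hp 3 b (by omega) hb0
  obtain ⟨Q, V, X, ex, hgeo2⟩ := hg 3 G b hb0 hG
  have hgeo := hgeo2.toGeo
  obtain ⟨A, hA⟩ := frame_pf 3 G hG.toRm
  have hI : ∀ Ω' : Set (Eu 3), MeasurableSet Ω' → Bornology.IsBounded Ω' →
      ENNReal.ofReal (prof 3 b (vol G Ω')) ≤ per G Ω' := fun Ω' h1 h2 =>
    LCore3Aux.ineq hr hm ho hw hb0 hP hG.toRm hA hgeo h1 h2
  refine ⟨hI Ω hΩ hbd, fun hV he => ?_⟩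
  obtain ⟨r, hr0, hvol⟩ := hP.surj _ hV.le
  have hr1 : 0 < r := by
    rcases hr0.eq_or_lt with rfl | h
    · rw [hP.zero] at hvol; linarith
    · exact h
  have hA0 : 0 ≤ mA 3 b r := by
    rw [Core.mA_eq (by omega)]
    exact mul_nonneg (sph_pos _).le (pow_nonneg (sn_nonneg hb0 hr0) _)
  have hpe : (per G Ω).toReal = mA 3 b r := by
    rw [he, ← hvol, hP.val r hr0, ENNReal.toReal_ofReal hA0]
  obtain ⟨a0, ha, hsub⟩ := Core.exists_a0 hgeo hbd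
  have hmin : IsMin G {x | Q 0 x ≤ a0} (fun v => 1 * prof 3 b v) Ω := by
    refine ⟨hΩ, hsub, by rw [he]; exact ENNReal.ofReal_ne_top, fun Ω' h1 h2 h3 => ?_⟩
    have h4 := hI Ω' h1 ((hgeo.proper 0 a0).isBounded.subset h2)
    rw [ENNReal.ofReal_le_iff_le_toReal h3] at h4
    rw [hpe, ← hvol, hP.val r hr0]
    linarith
  obtain ⟨μ, N, hB, hz⟩ := (LCore3Aux.key hr ho hw hb0 hP hG.toRm hA hgeo ha one_pos le_rfl hr1
    hmin hvol.symm).2 rfl hpe.le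
  have hc : Continuous fun p : (Eu 3 × Eu 3) × Eu 3 × Eu 3 =>
      sn b r * fderiv ℝ (Q p.1.1) p.2.1 p.2.2 - (1 + b ^ 2 * qf b r) * Q p.1.1 p.2.1 := by
    have c1 : Continuous fun p : (Eu 3 × Eu 3) × Eu 3 × Eu 3 => (p.1.1, p.2) := by fun_prop
    have c2 : Continuous fun p : (Eu 3 × Eu 3) × Eu 3 × Eu 3 => (p.1.1, p.2.1) := by fun_prop
    exact (continuous_const.mul ((hgeo2.dQ_smooth hG.toRm).continuous.comp c1)).sub
      (continuous_const.mul (hgeo.contQ.comp c2))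
  have hsw := hB.swap hc (hz.mono fun z hz => hz.mono fun x hx => sub_eq_zero.2 hx)
  obtain ⟨z, hae⟩ := hpt 3 G b Q V X ex Ω μ N r (by omega) hb0 hr1 hG.toRm hgeo2 hΩ hbd hB
    hvol.symm hV (hsw.mono fun y hy => hy.mono fun x hx => sub_eq_zero.1 hx)
  refine ⟨r, ex z, hr1, hgeo.exsm z, hae, ?_⟩
  refine hv 3 G b (ex z) r (by omega) hb0 hr1 hG.toRm ((hgeo.exsm z).of_le (by simp))
    (ex z).injective (hgeo.rauch z) ?_
  rw [hvol]
  exact (setIntegral_congr_set hae).ge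

end Vale.Agent.P219
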