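import Vale.Agent.P219.LoTool

/-! The double integral identity in dimension two. -/

open scoped Manifold ContDiff ENNReal RealInnerProductSpace Topology
open MeasureTheory Set Filter

namespace Vale.Agent.P219

namespace LDblAux

/-- The cut off weight. -/
noncomputable def rho (b ε q : ℝ) : ℝ := ((q + ε) * (2 + b ^ 2 * q))⁻¹

theorem den_pos (b : ℝ) {ε q : ℝ} (hε : 0 < ε) (hq : 0 ≤ q) : 0 < (q + ε) * (2 + b ^ 2 * q) := by
  positivity

theorem rho_deriv (b : ℝ) {ε q : ℝ} (hε : 0 < ε) (hq : 0 ≤ q) :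
    HasDerivAt (rho b ε) (-(rho b ε q ^ 2 * (2 * (1 + b ^ 2 * q) + b ^ 2 * ε))) q := by
  have h1 : HasDerivAt (fun q : ℝ => (q + ε) * (2 + b ^ 2 * q))
      (1 * (2 + b ^ 2 * q) + (q + ε) * (b ^ 2 * 1)) q :=
    ((hasDerivAt_id q).add_const ε).mul (((hasDerivAt_id q).const_mul (b ^ 2)).const_add 2)
  refine (h1.inv (den_pos b hε hq).ne').congr_deriv ?_
  unfold rho
  rw [inv_pow]
  ring

theorem rho_id (b : ℝ) {ε q : ℝ} (hε : 0 < ε) (hq : 0 ≤ q) :
    2 * (1 + b ^ 2 * q) * rho b ε q -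
      (2 * q + b ^ 2 * q ^ 2) * (rho b ε q ^ 2 * (2 * (1 + b ^ 2 * q) + b ^ 2 * ε)) =
        ε / (q + ε) ^ 2 := by
  have h1 : q + ε ≠ 0 := by positivity
  have h2 : 2 + b ^ 2 * q ≠ 0 := by positivity
  unfold rho
  field_simp
  ring

variable {G : Met 2} {b : ℝ} {Q : Eu 2 → Eu 2 → ℝ} {V X : Eu 2 → Eu 2 → Eu 2}
  {ex : Eu 2 → Eu 2 ≃ₜ Eu 2} {Z : Eu 2 → Eu 2 → Eu 2 → Eu 2} {ψ h : Eu 2 → Eu 2 → ℝ}
  {Ω : Set (Eu 2)} {μ : Measure (Eu 2)} {N : Eu 2 → Eu 2} {ε : ℝ}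

theorem rho_smooth (hg : Geo2 G b Q V X ex) (hε : 0 < ε) :
    ContDiff ℝ 1 fun p : Eu 2 × Eu 2 => rho b ε (Q p.1 p.2) := by
  have h1 : ContDiff ℝ 1 fun p : Eu 2 × Eu 2 => Q p.1 p.2 := hg.Qsm.of_le (by norm_num)
  exact ((h1.add contDiff_const).mul (contDiff_const.add (contDiff_const.mul h1))).inv
    fun p => (den_pos b hε (hg.toGeo.Q_nonneg _ _)).ne'

theorem rho_smooth' (hg : Geo2 G b Q V X ex) (hε : 0 < ε) (z : Eu 2) :
    ContDiff ℝ 1 fun x => rho b ε (Q z x) :=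
  (rho_smooth hg hε).comp (contDiff_const.prodMk contDiff_id)

theorem dvg_rho (hG : Rm G) (hg : Geo2 G b Q V X ex) (hε : 0 < ε) (z x : Eu 2)
    {Y : Eu 2 → Eu 2} (hY : ContDiff ℝ 1 Y) :
    dvg (fun y => wt G y • (rho b ε (Q z y) • Y y)) x =
      -(rho b ε (Q z x) ^ 2 * (2 * (1 + b ^ 2 * Q z x) + b ^ 2 * ε)) *
          (wt G x * fderiv ℝ (Q z) x (Y x)) +
        rho b ε (Q z x) * dvg (fun y => wt G y • Y y) x := by
  have e : (fun y => wt G y • (rho b ε (Q z y) • Y y)) =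
      fun y => rho b ε (Q z y) • (wt G y • Y y) := funext fun y => smul_comm _ _ _
  have hw : ContDiff ℝ 1 (wt G) := hG.wt_smooth.of_le (by exact_mod_cast le_top)
  have hQ : DifferentiableAt ℝ (Q z) x := (hg.Q_smooth z).differentiable (by simp) x
  have hd := (rho_deriv b hε (hg.toGeo.Q_nonneg z x)).comp_hasFDerivAt x hQ.hasFDerivAt
  have hd' : fderiv ℝ (fun y => rho b ε (Q z y)) x = _ := hd.fderiv
  have hY' : ContDiff ℝ 1 fun y => wt G y • Y y := hw.smul hY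
  rw [e, B.dvg_smul ((rho_smooth' hg hε z).differentiable one_ne_zero x)
    (hY'.differentiable one_ne_zero x), hd']
  simp only [ContinuousLinearMap.smul_apply, map_smul, smul_eq_mul]
  ring

theorem step1 (hG : Rm G) (hg : Geo2 G b Q V X ex) (hT : Two G b Q V Z ψ h)
    (hm : MeasurableSet Ω) (hΩ : Bornology.IsBounded Ω) (hB : Bd G Ω μ N) (hε : 0 < ε)
    (y η : Eu 2) :
    ∫ x, G x (N x) (Z y η x) / ((Q x y + ε) * (2 + b ^ 2 * Q x y)) ∂μ =
      ∫ x in Ω, (wt G x * (fderiv ℝ (Q x) y η * (ψ x y * rho b ε (Q x y))) +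
        wt G x * (fderiv ℝ (Q x) y η * (ε / (Q x y + ε) ^ 2))) := by
  have h1 := hB.gauss' hm hΩ ((rho_smooth' hg hε y).smul (hT.Zsm y η))
  refine Eq.trans ?_ (h1.symm.trans ?_)
  · refine integral_congr_ae (Eventually.of_forall fun x => ?_)
    simp only [Pi.smul_apply', map_smul, smul_eq_mul, rho, hg.symm y x]
    rw [div_eq_inv_mul]
  · refine integral_congr_ae (Eventually.of_forall fun x => ?_)
    have h2 := dvg_rho hG hg hε y x (hT.Zsm y η)
    rw [hT.Zdiv, hT.Zq, hg.symm y x] at h2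
    have h3 := rho_id b hε (hg.toGeo.Q_nonneg x y)
    refine h2.trans ?_
    simp only [ss, cs]
    rw [← h3]
    ring

theorem step2 (hG : Rm G) (hg : Geo2 G b Q V X ex) (hT : Two G b Q V Z ψ h)
    (hm : MeasurableSet Ω) (hΩ : Bornology.IsBounded Ω) (hB : Bd G Ω μ N) (hε : 0 < ε)
    (x : Eu 2) :
    ∫ y, fderiv ℝ (Q x) y (N y) * (ψ x y * rho b ε (Q x y)) ∂μ =
      ∫ y in Ω, wt G y * ((b ^ 2 * ss b Q x y + h x y) /
        ((Q x y + ε) * (2 + b ^ 2 * Q x y)) + ψ x y * (ε / (Q x y + ε) ^ 2)) := by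
  have hY : ContDiff ℝ 1 fun y => ψ x y • V x y :=
    (hT.psm.comp (contDiff_const.prodMk contDiff_id)).smul (hg.Vsm x)
  have h1 := hB.gauss' hm hΩ ((rho_smooth' hg hε x).smul hY)
  refine Eq.trans ?_ (h1.symm.trans ?_)
  · refine integral_congr_ae (Eventually.of_forall fun y => ?_)
    simp only [Pi.smul_apply', map_smul, smul_eq_mul]
    rw [hG.symm y (N y), hg.grad]
    ring
  · refine integral_congr_ae (Eventually.of_forall fun y => ?_)
    have h2 := dvg_rho hG hg hε x y hY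
    rw [hT.Tdiv, map_smul, ← hg.grad, hg.eik, smul_eq_mul] at h2
    have h3 := rho_id b hε (hg.toGeo.Q_nonneg x y)
    refine h2.trans ?_
    have h4 : ∀ a : ℝ, a / ((Q x y + ε) * (2 + b ^ 2 * Q x y)) = a * rho b ε (Q x y) :=
      fun a => div_eq_mul_inv _ _
    simp only [cs, h4]
    rw [← h3]
    ring

end LDblAux

open LDblAux in
theorem dbl_pf : DblStmt := by
  intro G b Q V X ex Z ψ h Ω μ N hG hg hT hm hΩ hB ε hε
  have := hB.fin
  have : IsFiniteMeasure (volume.restrict Ω) :=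
    isFiniteMeasure_restrict.2 hΩ.measure_lt_top.ne
  have hν : ∀ᵐ x ∂(volume.restrict Ω), x ∈ closure Ω :=
    (ae_restrict_mem hm).mono fun x hx => subset_closure hx
  have cP : Continuous fun p : (Eu 2 × Eu 2) × Eu 2 × Eu 2 => (p.2.1, p.1.1) := by fun_prop
  have cw : Continuous fun p : (Eu 2 × Eu 2) × Eu 2 × Eu 2 => wt G p.2.1 :=
    hG.wt_cont.comp (by fun_prop)
  have cd : Continuous fun p : (Eu 2 × Eu 2) × Eu 2 × Eu 2 => fderiv ℝ (Q p.2.1) p.1.1 p.1.2 :=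
    (hg.dQ_smooth hG).continuous.comp
      (show Continuous fun p : (Eu 2 × Eu 2) × Eu 2 × Eu 2 => (p.2.1, p.1.1, p.1.2) by fun_prop)
  have cQ : Continuous fun p : (Eu 2 × Eu 2) × Eu 2 × Eu 2 => Q p.2.1 p.1.1 :=
    hg.toGeo.contQ.comp cP
  have i1 : Integrable (fun p : Eu 2 × Eu 2 => wt G p.2 *
      (fderiv ℝ (Q p.2) p.1 (N p.1) * (ψ p.2 p.1 * rho b ε (Q p.2 p.1))))
      (μ.prod (volume.restrict Ω)) :=
    hB.integ_prod hG hΩ hΩ.isCompact_closure hν (M := fun _ => 0) measurable_const (C := 0)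
      (fun _ _ => norm_zero.le)
      (cw.mul (cd.mul ((hT.psm.continuous.comp cP).mul ((rho_smooth hg hε).continuous.comp cP))))
  have i2 : Integrable (fun p : Eu 2 × Eu 2 => wt G p.2 *
      (fderiv ℝ (Q p.2) p.1 (N p.1) * (ε / (Q p.2 p.1 + ε) ^ 2)))
      (μ.prod (volume.restrict Ω)) :=
    hB.integ_prod hG hΩ hΩ.isCompact_closure hν (M := fun _ => 0) measurable_const (C := 0)
      (fun _ _ => norm_zero.le)
      (cw.mul (cd.mul (continuous_const.div ((cQ.add continuous_const).pow 2) fun p =>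
        (pow_pos (add_pos_of_nonneg_of_pos (hg.toGeo.Q_nonneg _ _) hε) 2).ne')))
  simp only [step1 hG hg hT hm hΩ hB hε]
  refine (integral_integral_add i1 i2).trans ?_
  congr 1
  refine (integral_integral_swap (f := fun y x => wt G x *
      (fderiv ℝ (Q x) y (N y) * (ψ x y * rho b ε (Q x y)))) i1).trans ?_
  refine integral_congr_ae (Eventually.of_forall fun x => ?_)
  simp only [integral_const_mul, step2 hG hg hT hm hΩ hB hε]

end Vale.Agent.P219
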