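import Vale.Agent.P219.Lo
import Vale.Agent.P219.Frame

/-! The mass at the diagonal. -/

open scoped Manifold ContDiff ENNReal RealInnerProductSpace Topology
open MeasureTheory Set Filter Metric

namespace Vale.Agent.P219

namespace LDeltaAux

theorem real_cball (x : Eu 2) {r : ℝ} (hr : 0 ≤ r) :
    volume.real (closedBall x r) = Real.pi * r ^ 2 := by
  rw [measureReal_def, EuclideanSpace.volume_closedBall_fin_two, ENNReal.toReal_mul,
    ENNReal.toReal_pow, ENNReal.toReal_ofReal hr, ENNReal.toReal_ofReal Real.pi_pos.le, mul_comm]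

theorem ball_int {R : ℝ} (hR : 0 ≤ R) :
    ∫ t in closedBall (0 : Eu 2) R, 1 / (‖t‖ ^ 2 + 1) ^ 2 = Real.pi * (R ^ 2 / (R ^ 2 + 1)) := by
  have h1 : ∫ t in closedBall (0 : Eu 2) R, 1 / (‖t‖ ^ 2 + 1) ^ 2 =
      ∫ t : Eu 2, (Iic R).indicator (fun r : ℝ => 1 / (r ^ 2 + 1) ^ 2) ‖t‖ := by
    rw [← integral_indicator measurableSet_closedBall]
    congr 1
    funext t
    by_cases h : ‖t‖ ≤ R
    · rw [indicator_of_mem (mem_closedBall_zero_iff.2 h), indicator_of_mem (mem_Iic.2 h)]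
    · rw [indicator_of_notMem (fun h' => h (mem_closedBall_zero_iff.1 h')),
        indicator_of_notMem (fun h' => h (mem_Iic.1 h'))]
  have h2 : volume.real (ball (0 : Eu 2) 1) = Real.pi := by
    rw [measureReal_def, EuclideanSpace.volume_ball_fin_two]
    simp [Real.pi_pos.le]
  have h3 : ∫ y in Ioi (0 : ℝ), y ^ (2 - 1) •
      (Iic R).indicator (fun r : ℝ => 1 / (r ^ 2 + 1) ^ 2) y =
      ∫ y in (0 : ℝ)..R, y / (y ^ 2 + 1) ^ 2 := by
    rw [intervalIntegral.integral_of_le hR, ← Ioi_inter_Iic,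
      ← setIntegral_indicator measurableSet_Iic]
    congr 1
    funext y
    by_cases h : y ∈ Iic R
    · simp only [indicator_of_mem h, smul_eq_mul]
      ring
    · simp only [indicator_of_notMem h, smul_zero]
  have h4 : ∫ y in (0 : ℝ)..R, y / (y ^ 2 + 1) ^ 2 =
      -(1 / 2) * (R ^ 2 + 1)⁻¹ - -(1 / 2) * ((0 : ℝ) ^ 2 + 1)⁻¹ := by
    refine intervalIntegral.integral_eq_sub_of_hasDerivAt
      (f := fun y : ℝ => -(1 / 2) * (y ^ 2 + 1)⁻¹) (fun y _ => ?_) ?_
    · have h5 : y ^ 2 + 1 ≠ 0 := by positivity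
      have h6 := (((hasDerivAt_pow 2 y).add_const 1).inv h5).const_mul (-(1 / 2) : ℝ)
      refine h6.congr_deriv ?_
      field_simp
      norm_num
    · exact Continuous.intervalIntegrable (continuous_id.div (by fun_prop) fun y => by positivity) _ _
  rw [h1, integral_fun_norm_addHaar, finrank_euclideanSpace_fin, h2, h3, h4]
  simp only [nsmul_eq_mul, smul_eq_mul]
  field_simp
  ring

/-- Lower bound for an integral over `Ω` by an integral over an ellipse. -/
theorem core {Ω : Set (Eu 2)} (hΩ : MeasurableSet Ω) {F k : Eu 2 → ℝ} (hF : IntegrableOn F Ω)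
    (hF0 : ∀ y, 0 ≤ F y) (hk : Continuous k) {c R r : ℝ} (hc : 0 ≤ c) (hR : 0 ≤ R)
    (hkc : ∀ y, k y ≤ c) (x : Eu 2) (L : Eu 2 →L[ℝ] Eu 2) (hL : Function.Injective L)
    (h1 : ∀ t, k (x + L t) = c * (1 / (‖t‖ ^ 2 + 1) ^ 2))
    (h2 : ∀ t, ‖t‖ ≤ R → ‖L t‖ ≤ r ∧ k (x + L t) ≤ F (x + L t)) :
    |L.det| * (c * (Real.pi * (R ^ 2 / (R ^ 2 + 1)))) - c * volume.real (closedBall x r \ Ω) ≤
      ∫ y in Ω, F y := by
  set D := (fun t => x + L t) '' closedBall (0 : Eu 2) R with hD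
  have hDc : IsCompact D := (isCompact_closedBall _ _).image (by fun_prop)
  have hDm := hDc.measurableSet
  have hDs : D ⊆ closedBall x r := by
    rintro _ ⟨t, ht, rfl⟩
    rw [mem_closedBall, dist_eq_norm, add_sub_cancel_left]
    exact (h2 t (mem_closedBall_zero_iff.1 ht)).1
  have hkD : IntegrableOn k D := hk.continuousOn.integrableOn_compact hDc
  have e1 : ∫ y in D, k y = |L.det| * (c * (Real.pi * (R ^ 2 / (R ^ 2 + 1)))) := by
    rw [hD, integral_image_eq_integral_abs_det_fderiv_smul volume measurableSet_closedBall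
      (f' := fun _ => L) (fun t _ => (L.hasFDerivAt.const_add x).hasFDerivWithinAt)
      (fun t _ t' _ h => hL (add_left_cancel h))]
    simp only [h1, smul_eq_mul]
    rw [integral_const_mul, integral_const_mul, ball_int hR]
  have e2 := integral_inter_add_sdiff hΩ hkD
  have hfin : volume (closedBall x r \ Ω) ≠ ⊤ :=
    ((measure_mono sdiff_subset).trans_lt measure_closedBall_lt_top).ne
  have hfin' : volume (D \ Ω) ≠ ⊤ :=
    ((measure_mono (sdiff_subset_sdiff_left hDs)).trans_lt hfin.lt_top).ne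
  have e3 : ∫ y in D \ Ω, k y ≤ c * volume.real (closedBall x r \ Ω) := by
    calc ∫ y in D \ Ω, k y ≤ ∫ _ in D \ Ω, c :=
          setIntegral_mono_on (hkD.mono_set sdiff_subset) (integrableOn_const hfin')
            (hDm.diff hΩ) fun y _ => hkc y
      _ = c * volume.real (D \ Ω) := by rw [setIntegral_const, smul_eq_mul, mul_comm]
      _ ≤ c * volume.real (closedBall x r \ Ω) :=
          mul_le_mul_of_nonneg_left (measureReal_mono (sdiff_subset_sdiff_left hDs) hfin) hc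
  have e4 : ∫ y in D ∩ Ω, k y ≤ ∫ y in Ω, F y := by
    calc ∫ y in D ∩ Ω, k y ≤ ∫ y in D ∩ Ω, F y := by
          refine setIntegral_mono_on (hkD.mono_set inter_subset_left)
            (hF.mono_set inter_subset_right) (hDm.inter hΩ) ?_
          rintro _ ⟨⟨t, ht, rfl⟩, -⟩
          exact (h2 t (mem_closedBall_zero_iff.1 ht)).2
      _ ≤ ∫ y in Ω, F y :=
          setIntegral_mono_set hF (Eventually.of_forall hF0) inter_subset_right.eventuallyLE
  linarith

theorem dens {Ω : Set (Eu 2)} (hΩ : MeasurableSet Ω) {x : Eu 2}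
    (h : Tendsto (fun r => volume (Ω ∩ closedBall x r) / volume (closedBall x r)) (𝓝[>] 0) (𝓝 1))
    {θ : ℝ} (hθ : 0 < θ) :
    ∀ᶠ r in 𝓝[>] (0 : ℝ), volume.real (closedBall x r \ Ω) ≤ θ * r ^ 2 := by
  have h1 := (ENNReal.tendsto_toReal ENNReal.one_ne_top).comp h
  rw [ENNReal.toReal_one] at h1
  have h2 : 1 - θ / Real.pi < 1 := by linarith [div_pos hθ Real.pi_pos]
  filter_upwards [h1.eventually (lt_mem_nhds h2), self_mem_nhdsWithin] with r h3 hr
  have hr' : 0 < r := hr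
  have h4 := measureReal_inter_add_sdiff (μ := volume) (s := closedBall x r) hΩ
    measure_closedBall_lt_top.ne
  simp only [Function.comp, ENNReal.toReal_div] at h3
  rw [← measureReal_def, ← measureReal_def, inter_comm] at h3
  rw [real_cball x hr'.le] at h3 h4
  rw [lt_div_iff₀ (by positivity)] at h3
  have h5 : (1 - θ / Real.pi) * (Real.pi * r ^ 2) = Real.pi * r ^ 2 - θ * r ^ 2 := by
    field_simp
  linarith

theorem det_frame {G : Met 2} (hG : Rm G) {A : Eu 2 → Eu 2 →L[ℝ] Eu 2} (hA : Frame G A)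
    (x : Eu 2) : |(A x).det| * wt G x = 1 := by
  have h1 := B.det_gram (G x) (A x)
  rw [← B.wt_sq hG] at h1
  simp only [hA.iso] at h1
  rw [Matrix.det_fin_two] at h1
  simp only [Matrix.of_apply, EuclideanSpace.inner_single_left] at h1
  norm_num at h1
  have h2 : (|(A x).det| * wt G x) ^ 2 = 1 ^ 2 := by
    rw [mul_pow, sq_abs, one_pow]
    exact h1.symm
  exact (pow_left_inj₀ (mul_nonneg (abs_nonneg _) (hG.wt_pos x).le) zero_le_one two_ne_zero).1 h2

theorem num {δ : ℝ} (hδ : 0 < δ) :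
    4 * Real.pi * (1 - 3 * δ) ≤ 4 / (1 + δ) ^ 2 * (Real.pi * (δ⁻¹ / (δ⁻¹ + 1))) := by
  have h1 : 4 / (1 + δ) ^ 2 * (Real.pi * (δ⁻¹ / (δ⁻¹ + 1))) =
      4 * Real.pi * (1 / (1 + δ) ^ 3) := by
    field_simp
  rw [h1]
  refine mul_le_mul_of_nonneg_left ?_ (by positivity)
  rw [le_div_iff₀ (by positivity)]
  nlinarith [sq_nonneg δ, pow_pos hδ 3, pow_pos hδ 4]

variable {G : Met 2} {b : ℝ} {Q : Eu 2 → Eu 2 → ℝ} {V X : Eu 2 → Eu 2 → Eu 2}
  {ex : Eu 2 → Eu 2 ≃ₜ Eu 2} {ψ : Eu 2 → Eu 2 → ℝ} {Ω : Set (Eu 2)}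

theorem Q_nonneg (hg : Geo2 G b Q V X ex) (x y : Eu 2) : 0 ≤ Q x y := by
  by_cases h : y = x
  · rw [h, hg.zero]
  · exact (hg.pos x y h).le

theorem cont (hG : Rm G) (hg : Geo2 G b Q V X ex) (hψ : Continuous fun p : Eu 2 × Eu 2 => ψ p.1 p.2)
    {ε : ℝ} (hε : 0 < ε) :
    Continuous fun p : Eu 2 × Eu 2 => wt G p.2 * (ψ p.1 p.2 * (ε / (Q p.1 p.2 + ε) ^ 2)) :=
  (hG.wt_cont.comp continuous_snd).mul (hψ.mul (continuous_const.div
    ((hg.Qs.continuous.add continuous_const).pow 2) fun p => by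
      have := Q_nonneg hg p.1 p.2
      positivity))

theorem num2 {w ψ q ε κ τ : ℝ} (hw : 0 < w) (hε : 0 < ε) (hκ : 0 < κ) (hτ : 0 ≤ τ) (hq : 0 ≤ q)
    (h1 : 2 * w / κ ≤ ψ) (h2 : q ≤ ε * τ) :
    2 * w / κ / ε * (1 / (τ + 1) ^ 2) ≤ ψ * (ε / (q + ε) ^ 2) := by
  have h9 : ε / (ε * (τ + 1)) ^ 2 ≤ ε / (q + ε) ^ 2 :=
    div_le_div_of_nonneg_left hε.le (by positivity)
      (pow_le_pow_left₀ (by positivity) (by linarith) 2)
  refine le_trans (le_of_eq ?_) (mul_le_mul h1 h9 (by positivity)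
    (le_trans (by positivity) h1))
  field_simp

theorem fixed (hG : Rm G) (hg : Geo2 G b Q V X ex)
    (hψ : Continuous fun p : Eu 2 × Eu 2 => ψ p.1 p.2) (h0 : ∀ x y, 0 ≤ ψ x y)
    (hΩ : MeasurableSet Ω) (hb : Bornology.IsBounded Ω) {x : Eu 2} {L : Eu 2 →L[ℝ] Eu 2}
    {ε s κ R r : ℝ} (hε : 0 < ε) (hs : 0 < s) (hκ : 0 < κ) (hR : 0 ≤ R) (hs2 : s ^ 2 = 2 * ε / κ)
    (hGL : ∀ t, G x (L t) (L t) = s ^ 2 * ‖t‖ ^ 2) (hL : ∀ t, ‖t‖ ≤ R → ‖L t‖ ≤ r)
    (h3 : ∀ y ∈ closedBall x r, 2 * wt G x / κ < wt G y * ψ x y ∧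
      Q x y ≤ κ * G x (y - x) (y - x) / 2) :
    |L.det| * (2 * wt G x / κ / ε * (Real.pi * (R ^ 2 / (R ^ 2 + 1)))) -
      2 * wt G x / κ / ε * volume.real (closedBall x r \ Ω) ≤
      ∫ y in Ω, wt G y * (ψ x y * (ε / (Q x y + ε) ^ 2)) := by
  have hw := hG.wt_pos x
  have hc : 0 < 2 * wt G x / κ / ε := by positivity
  have hcont : Continuous fun y => wt G y * (ψ x y * (ε / (Q x y + ε) ^ 2)) := by
    simpa only [Function.comp_def] using (cont hG hg hψ hε).comp (Continuous.prodMk_right x)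
  have hk : ∀ t, G x (x + L t - x) (x + L t - x) / s ^ 2 = ‖t‖ ^ 2 := fun t => by
    rw [add_sub_cancel_left, hGL, mul_div_cancel_left₀ _ (pow_pos hs 2).ne']
  have hGc : Continuous fun y => G x (y - x) (y - x) := by fun_prop
  refine core hΩ
    (k := fun y => 2 * wt G x / κ / ε * (1 / (G x (y - x) (y - x) / s ^ 2 + 1) ^ 2))
    ((hcont.continuousOn.integrableOn_compact hb.isCompact_closure).mono_set subset_closure)
    (fun y => ?_) (continuous_const.mul (continuous_const.div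
      (((hGc.div_const _).add continuous_const).pow 2) fun y => ?_)) hc.le hR (fun y => ?_) x L
    ((injective_iff_map_eq_zero _).2 fun t ht => ?_) (fun t => by rw [hk]) fun t ht => ?_
  · have := hG.wt_pos y
    have := h0 x y
    positivity
  · have := hG.nonneg x (y - x)
    show (G x (y - x) (y - x) / s ^ 2 + 1) ^ 2 ≠ 0
    positivity
  · have h4 := hG.nonneg x (y - x)
    refine mul_le_of_le_one_right hc.le ?_
    rw [div_le_one (by positivity)]
    exact one_le_pow₀ (le_add_of_nonneg_left (by positivity))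
  · have h4 := hGL t
    rw [ht, map_zero] at h4
    simpa [hs.ne'] using h4.symm
  · refine ⟨hL t ht, ?_⟩
    obtain ⟨h5, h6⟩ := h3 (x + L t) (by
      rw [mem_closedBall, dist_eq_norm, add_sub_cancel_left]
      exact hL t ht)
    rw [add_sub_cancel_left, hGL] at h6
    rw [hk, ← mul_assoc]
    refine num2 hw hε hκ (sq_nonneg _) (Q_nonneg hg _ _) h5.le (h6.trans (le_of_eq ?_))
    rw [hs2]
    field_simp

theorem num3 {w ε δ η a R s m : ℝ} (hw : 0 < w) (hε : 0 < ε) (hδ : 0 < δ) (hη : 0 < η)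
    (ha : 0 < a) (hR : 0 < R) (hs2 : s ^ 2 = 2 * ε / (1 + δ)) (hR2 : R ^ 2 = δ⁻¹)
    (hδη : 4 * Real.pi * (3 * δ) = η / 2)
    (hm : m ≤ η / 2 / (4 * w * a ^ 2 * R ^ 2) * (s * a * R) ^ 2) :
    4 * Real.pi - η ≤ s ^ 2 / w * (2 * w / (1 + δ) / ε * (Real.pi * (R ^ 2 / (R ^ 2 + 1)))) -
      2 * w / (1 + δ) / ε * m := by
  have e2 : s ^ 2 / w * (2 * w / (1 + δ) / ε * (Real.pi * (R ^ 2 / (R ^ 2 + 1)))) =
      4 / (1 + δ) ^ 2 * (Real.pi * (δ⁻¹ / (δ⁻¹ + 1))) := by
    rw [hs2, hR2]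
    field_simp
    ring
  have e3 : 2 * w / (1 + δ) / ε * m ≤ η / 2 := by
    refine (mul_le_mul_of_nonneg_left hm (by positivity)).trans ?_
    have e4 : 2 * w / (1 + δ) / ε *
        (η / 2 / (4 * w * a ^ 2 * R ^ 2) * (s * a * R) ^ 2) = η / 2 / (1 + δ) ^ 2 := by
      rw [mul_pow, mul_pow, hs2]
      field_simp
      ring
    rw [e4]
    exact div_le_self (by positivity) (one_le_pow₀ (by linarith))
  linarith [num hδ]

theorem ptwise (hG : Rm G) (hg : Geo2 G b Q V X ex)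
    (hψ : Continuous fun p : Eu 2 × Eu 2 => ψ p.1 p.2) (h0 : ∀ x y, 0 ≤ ψ x y)
    (h2 : ∀ x, 2 ≤ ψ x x) (hΩ : MeasurableSet Ω) (hb : Bornology.IsBounded Ω) {x : Eu 2}
    (h : Tendsto (fun r => volume (Ω ∩ closedBall x r) / volume (closedBall x r)) (𝓝[>] 0) (𝓝 1))
    {η : ℝ} (hη : 0 < η) : ∀ᶠ ε in 𝓝[>] (0 : ℝ),
      4 * Real.pi - η ≤ ∫ y in Ω, wt G y * (ψ x y * (ε / (Q x y + ε) ^ 2)) := by
  obtain ⟨A, hA⟩ := frame_pf 2 G hG
  have hw := hG.wt_pos x
  have hdet := det_frame hG hA x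
  obtain ⟨δ, hδ, hδη⟩ : ∃ δ : ℝ, 0 < δ ∧ 4 * Real.pi * (3 * δ) = η / 2 :=
    ⟨η / (24 * Real.pi), by positivity, by field_simp; ring⟩
  obtain ⟨R, hR, hR2⟩ : ∃ R : ℝ, 0 < R ∧ R ^ 2 = δ⁻¹ :=
    ⟨√δ⁻¹, Real.sqrt_pos.2 (inv_pos.2 hδ), Real.sq_sqrt (inv_pos.2 hδ).le⟩
  obtain ⟨a, ha, hAa⟩ : ∃ a : ℝ, 0 < a ∧ ‖A x‖ ≤ a :=
    ⟨‖A x‖ + 1, by positivity, by linarith⟩
  have hκ : 0 < 1 + δ := by linarith
  have n1 : ∀ᶠ y in 𝓝 x, 2 * wt G x / (1 + δ) < wt G y * ψ x y := by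
    refine (hG.wt_cont.mul (hψ.comp (Continuous.prodMk_right x))).continuousAt.eventually
      (lt_mem_nhds ?_)
    show 2 * wt G x / (1 + δ) < wt G x * ψ x x
    rw [div_lt_iff₀ hκ]
    nlinarith [mul_le_mul_of_nonneg_left (h2 x) hw.le, mul_pos hw hδ,
      mul_le_mul_of_nonneg_left (h2 x) (mul_pos hw hδ).le]
  have n2 := eventually_closedBall_subset (n1.and (hg.near x δ hδ))
  have hθ : 0 < η / 2 / (4 * wt G x * a ^ 2 * R ^ 2) := by positivity
  have n3 := (dens hΩ h hθ).and (n2.filter_mono nhdsWithin_le_nhds)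
  have t1 : Tendsto (fun ε : ℝ => √(2 * ε / (1 + δ)) * a * R) (𝓝[>] 0) (𝓝[>] 0) := by
    refine tendsto_nhdsWithin_iff.2 ⟨?_, ?_⟩
    · have : Continuous fun ε : ℝ => √(2 * ε / (1 + δ)) * a * R := by fun_prop
      simpa using (this.tendsto 0).mono_left nhdsWithin_le_nhds
    · filter_upwards [self_mem_nhdsWithin] with ε hε
      have : 0 < ε := hε
      show 0 < √(2 * ε / (1 + δ)) * a * R
      positivity
  filter_upwards [t1.eventually n3, self_mem_nhdsWithin] with ε h3 hε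
  have hε' : 0 < ε := hε
  have hs : 0 < √(2 * ε / (1 + δ)) := by positivity
  have hs2 : √(2 * ε / (1 + δ)) ^ 2 = 2 * ε / (1 + δ) := Real.sq_sqrt (by positivity)
  generalize √(2 * ε / (1 + δ)) = s at h3 hs hs2
  have hGL : ∀ t, G x ((s • A x) t) ((s • A x) t) = s ^ 2 * ‖t‖ ^ 2 := by
    intro t
    simp only [smul_apply, map_smul, smul_eq_mul, hA.iso, real_inner_self_eq_norm_sq]
    ring
  have hL : ∀ t, ‖t‖ ≤ R → ‖(s • A x) t‖ ≤ s * a * R := by
    intro t ht
    rw [smul_apply, norm_smul, Real.norm_of_nonneg hs.le, mul_assoc]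
    exact mul_le_mul_of_nonneg_left (((A x).le_opNorm t).trans
      (mul_le_mul hAa ht (norm_nonneg _) ha.le)) hs.le
  refine le_trans ?_ (fixed hG hg hψ h0 hΩ hb hε' hs hκ hR.le hs2 hGL hL fun y hy => h3.2 hy)
  have e1 : |(s • A x).det| = s ^ 2 / wt G x := by
    rw [ContinuousLinearMap.det, ContinuousLinearMap.toLinearMap_smul, LinearMap.det_smul,
      finrank_euclideanSpace_fin, abs_mul, abs_of_pos (pow_pos hs 2), eq_div_iff hw.ne',
      mul_assoc]
    exact mul_right_eq_self₀.2 (Or.inl hdet)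
  rw [e1]
  exact num3 hw hε' hδ hη ha hR hs2 hR2 hδη h3.1

end LDeltaAux

theorem delta_pf : DeltaStmt := by
  intro G b Q V X ex ψ Ω hG hg hψ h0 h2 hΩ hb η hη
  have hK := hb.isCompact_closure
  have hw : IntegrableOn (wt G) Ω :=
    (hG.wt_cont.continuousOn.integrableOn_compact hK).mono_set subset_closure
  have hint : ∀ ε : ℝ, 0 < ε → IntegrableOn
      (fun x => wt G x * ∫ y in Ω, wt G y * (ψ x y * (ε / (Q x y + ε) ^ 2))) Ω := by
    intro ε hε
    have h1 : IntegrableOn (fun p : Eu 2 × Eu 2 =>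
        wt G p.1 * (wt G p.2 * (ψ p.1 p.2 * (ε / (Q p.1 p.2 + ε) ^ 2)))) (Ω ×ˢ Ω)
        (volume.prod volume) :=
      (((hG.wt_cont.comp continuous_fst).mul
        (LDeltaAux.cont hG hg hψ hε)).continuousOn.integrableOn_compact (hK.prod hK)).mono_set
        (prod_mono subset_closure subset_closure)
    rw [IntegrableOn, ← Measure.prod_restrict] at h1
    simpa only [IntegrableOn, integral_const_mul] using h1.integral_prod_left
  have hnn : ∀ ε : ℝ, 0 < ε → ∀ x,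
      0 ≤ wt G x * ∫ y in Ω, wt G y * (ψ x y * (ε / (Q x y + ε) ^ 2)) := fun ε hε x =>
    mul_nonneg (hG.wt_pos x).le (integral_nonneg fun y => by
      have := hG.wt_pos y
      have := h0 x y
      positivity)
  have hlim : Tendsto (fun ε : ℝ => ∫ x in Ω,
      min (wt G x * ∫ y in Ω, wt G y * (ψ x y * (ε / (Q x y + ε) ^ 2))) (4 * Real.pi * wt G x))
      (𝓝[>] 0) (𝓝 (∫ x in Ω, 4 * Real.pi * wt G x)) := by
    refine tendsto_integral_filter_of_dominated_convergence (fun x => 4 * Real.pi * wt G x)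
      ?_ ?_ (hw.const_mul _) ?_
    · filter_upwards [self_mem_nhdsWithin] with ε hε
      exact ((hint ε hε).inf (hw.const_mul _)).aestronglyMeasurable
    · filter_upwards [self_mem_nhdsWithin] with ε hε
      refine Eventually.of_forall fun x => ?_
      have := hG.wt_pos x
      rw [Real.norm_of_nonneg (le_min (hnn ε hε x) (by positivity))]
      exact min_le_right _ _
    · filter_upwards [Besicovitch.ae_tendsto_measure_inter_div volume Ω] with x hx
      refine tendsto_order.2 ⟨fun a ha => ?_, fun a ha =>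
        Eventually.of_forall fun ε => (min_le_right _ _).trans_lt ha⟩
      have hx0 := hG.wt_pos x
      have h3 : 0 < (4 * Real.pi * wt G x - a) / (2 * wt G x) :=
        div_pos (sub_pos.2 ha) (by positivity)
      filter_upwards [LDeltaAux.ptwise hG hg hψ h0 h2 hΩ hb hx h3] with ε h4
      refine lt_min ?_ ha
      have h5 := mul_le_mul_of_nonneg_left h4 hx0.le
      have h6 : wt G x * (4 * Real.pi - (4 * Real.pi * wt G x - a) / (2 * wt G x)) =
          (4 * Real.pi * wt G x + a) / 2 := by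
        field_simp
        ring
      linarith
  rw [integral_const_mul] at hlim
  filter_upwards [hlim.eventually (lt_mem_nhds (sub_lt_self _ hη)), self_mem_nhdsWithin]
    with ε h3 hε
  exact h3.le.trans (integral_mono ((hint ε hε).inf (hw.const_mul _)) (hint ε hε)
    fun x => min_le_left _ _)

end Vale.Agent.P219
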