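import Vale.Agent.P219.Lo

/-! The error term of the first integration. -/

open scoped Manifold ContDiff ENNReal RealInnerProductSpace Topology
open MeasureTheory Set Filter

namespace Vale.Agent.P219

namespace LErrAux

/-- The model integrand. -/
noncomputable def fm (u : Eu 2) : ℝ := ((1 + ‖u‖ ^ 2) * √(1 + ‖u‖ ^ 2))⁻¹

theorem fm_nonneg (u : Eu 2) : 0 ≤ fm u := by unfold fm; positivity

theorem fm_int : Integrable fm := by
  have h := integrable_rpow_neg_one_add_norm_sq (E := Eu 2) (μ := volume) (r := 3)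
    (by simp; norm_num)
  refine h.congr (Eventually.of_forall fun u => ?_)
  have h0 : (0 : ℝ) < 1 + ‖u‖ ^ 2 := by positivity
  simp only [fm]
  rw [show (-3 / 2 : ℝ) = -(1 + 1 / 2) by norm_num, Real.rpow_neg h0.le, Real.rpow_add h0,
    Real.rpow_one, Real.sqrt_eq_rpow]

theorem pt {q δ T : ℝ} (hq : 0 ≤ q) (hδ : 0 < δ) (hT : 0 < T) (h : δ ^ 2 * T ≤ q + δ ^ 2) :
    √q * (δ ^ 2 / (q + δ ^ 2) ^ 2) ≤ δ⁻¹ * (T * √T)⁻¹ := by
  obtain ⟨r, hr0, hr⟩ : ∃ r : ℝ, 0 < r ∧ r ^ 2 = q + δ ^ 2 :=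
    ⟨√(q + δ ^ 2), Real.sqrt_pos.2 (by positivity), Real.sq_sqrt (by positivity)⟩
  obtain ⟨t, ht0, ht⟩ : ∃ t : ℝ, 0 < t ∧ t ^ 2 = T := ⟨√T, Real.sqrt_pos.2 hT, Real.sq_sqrt hT.le⟩
  have h1 : √q ≤ r := Real.sqrt_le_iff.2 ⟨hr0.le, by rw [hr]; nlinarith [sq_nonneg δ]⟩
  have h2 : δ * t ≤ r := by
    refine (pow_le_pow_iff_left₀ (by positivity) hr0.le two_ne_zero).1 ?_
    rw [mul_pow, ht, hr]; exact h
  have h3 : (δ * t) ^ 3 ≤ r ^ 3 := pow_le_pow_left₀ (by positivity) h2 3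
  rw [← hr, ← ht, Real.sqrt_sq ht0.le]
  calc √q * (δ ^ 2 / (r ^ 2) ^ 2) ≤ r * (δ ^ 2 / (r ^ 2) ^ 2) := by gcongr
    _ = δ ^ 2 / r ^ 3 := by field_simp
    _ ≤ δ ^ 2 / (δ * t) ^ 3 := by gcongr
    _ = δ⁻¹ * (t ^ 2 * t)⁻¹ := by field_simp

theorem scale (a : ℝ) (y : Eu 2) :
    ∫ x, fm (a • (x - y)) = (a ^ 2)⁻¹ * ∫ x, fm x := by
  rw [integral_sub_right_eq_self (fun x => fm (a • x)) y, Measure.integral_comp_smul]
  simp [abs_of_nonneg (sq_nonneg a)]

end LErrAux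

open LErrAux in
theorem err_pf (hq : QLowStmt) : ErrStmt := by
  intro G b Q V X ex K hG hg hK η hη
  obtain ⟨c, hc, hcQ⟩ := hq 2 G b Q V X ex K hG hg hK
  obtain ⟨M, hM⟩ := (hK.prod hK).bddAbove_image hg.Qs.continuous.continuousOn
  obtain ⟨W, hW⟩ := hK.bddAbove_image hG.wt_cont.continuousOn
  obtain ⟨C, hC⟩ : ∃ C, C = max W 0 * √(2 + b ^ 2 * M) := ⟨_, rfl⟩
  have hC0 : 0 ≤ C := by rw [hC]; positivity
  obtain ⟨J, hJ⟩ : ∃ J, J = ∫ x, fm x := ⟨_, rfl⟩
  have hlim : Tendsto (fun ε : ℝ => C * J / c * √ε) (𝓝[>] 0) (𝓝 0) := by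
    have h1 : Continuous fun ε : ℝ => C * J / c * √ε := by fun_prop
    have h2 := h1.tendsto 0
    simp only [Real.sqrt_zero, mul_zero] at h2
    exact h2.mono_left nhdsWithin_le_nhds
  filter_upwards [hlim.eventually (ge_mem_nhds hη), self_mem_nhdsWithin] with ε h1 hε y hy
  obtain ⟨δ, hδ, rfl⟩ : ∃ δ : ℝ, 0 < δ ∧ ε = δ ^ 2 :=
    ⟨√ε, Real.sqrt_pos.2 hε, (Real.sq_sqrt (le_of_lt hε)).symm⟩
  rw [Real.sqrt_sq hδ.le] at h1
  refine le_trans ?_ h1
  have ha : √c / δ ≠ 0 := by positivity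
  have ha2 : (√c / δ) ^ 2 = c / δ ^ 2 := by rw [div_pow, Real.sq_sqrt hc.le]
  have hi : Integrable fun x : Eu 2 => C * (δ⁻¹ * fm ((√c / δ) • (x - y))) :=
    (((fm_int.comp_smul ha).comp_sub_right y).const_mul _).const_mul _
  calc ∫ x in K, wt G x * (√(ss b Q x y) * (δ ^ 2 / (Q x y + δ ^ 2) ^ 2))
      ≤ ∫ x in K, C * (δ⁻¹ * fm ((√c / δ) • (x - y))) := by
        refine integral_mono_of_nonneg (Eventually.of_forall fun x => ?_) hi.integrableOn
          ((ae_restrict_mem hK.measurableSet).mono fun x hx => ?_)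
        · have := hG.wt_pos x
          simp only [Pi.zero_apply]
          positivity
        · have e1 := hcQ x hx y hy
          have e0 : 0 ≤ Q x y := le_trans (by positivity) e1
          have e2 : Q x y ≤ M := hM ⟨(x, y), ⟨hx, hy⟩, rfl⟩
          have e3 : wt G x ≤ max W 0 := (hW ⟨x, hx, rfl⟩).trans (le_max_left _ _)
          have e4 : √(ss b Q x y) ≤ √(2 + b ^ 2 * M) * √(Q x y) := by
            rw [← Real.sqrt_mul' _ e0]
            refine Real.sqrt_le_sqrt ?_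
            have := mul_le_mul_of_nonneg_left e2 (mul_nonneg (sq_nonneg b) e0)
            unfold ss
            nlinarith
          have e5 := pt (T := 1 + ‖(√c / δ) • (x - y)‖ ^ 2) e0 hδ (by positivity) (by
            rw [norm_smul, mul_pow, Real.norm_eq_abs, sq_abs, ha2]
            have : δ ^ 2 * (1 + c / δ ^ 2 * ‖x - y‖ ^ 2) = c * ‖x - y‖ ^ 2 + δ ^ 2 := by
              field_simp
              ring
            rw [this]
            linarith)
          calc wt G x * (√(ss b Q x y) * (δ ^ 2 / (Q x y + δ ^ 2) ^ 2))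
              ≤ max W 0 * (√(2 + b ^ 2 * M) * √(Q x y) * (δ ^ 2 / (Q x y + δ ^ 2) ^ 2)) := by
                gcongr
            _ = C * (√(Q x y) * (δ ^ 2 / (Q x y + δ ^ 2) ^ 2)) := by rw [hC]; ring
            _ ≤ _ := mul_le_mul_of_nonneg_left e5 hC0
    _ ≤ ∫ x, C * (δ⁻¹ * fm ((√c / δ) • (x - y))) := by
        refine setIntegral_le_integral hi (Eventually.of_forall fun x => ?_)
        have := fm_nonneg ((√c / δ) • (x - y))
        simp only [Pi.zero_apply]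
        positivity
    _ = C * J / c * δ := by
        rw [integral_const_mul, integral_const_mul, scale, ha2, ← hJ]
        field_simp

end Vale.Agent.P219
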