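import Vale.Agent.P219.LoTool

/-! The perimeter measure lives on the essential closure. -/

open scoped Manifold ContDiff ENNReal RealInnerProductSpace Topology
open MeasureTheory Set Filter

namespace Vale.Agent.P219

namespace LEssAux

variable {n : ℕ} {G : Met n} {Ω : Set (Eu n)} {μ : Measure (Eu n)} {N : Eu n → Eu n}

theorem closed (hG : Rm G) (hb : Bornology.IsBounded Ω) (h : Bd G Ω μ N) {C : Set (Eu n)}
    (hC : IsClosed C) (h0 : ∀ᵐ x ∂(volume.restrict Ω), x ∈ C) : ∀ᵐ x ∂μ, x ∈ C := by
  have := h.fin
  have h1 : ∀ i : Fin n, ∀ᵐ x ∂μ, x ∈ Cᶜ → G x (N x) (ee i) = 0 := by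
    intro i
    have hi : Integrable (fun x => G x (N x) (ee i)) μ :=
      h.integ hG hb (Φ := fun p => G p.1 p.2 (ee i))
        (((hG.smooth.continuous.comp continuous_fst).clm_apply continuous_snd).clm_apply
          continuous_const)
    refine hC.isOpen_compl.ae_eq_zero_of_integral_contDiff_smul_eq_zero
      (hi.locallyIntegrable.locallyIntegrableOn _) fun g g1 g2 g3 => ?_
    have h2 := h.gauss (fun x => g x • ee i) ((g1.of_le (by simp)).smul contDiff_const)
      g2.smul_right
    simp only [map_smul] at h2
    rw [← h2]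
    refine integral_eq_zero_of_ae (h0.mono fun x hx => B.dvg_eq_zero fun h3 => ?_)
    exact g3 (tsupport_smul_subset_left _ _ (tsupport_smul_subset_right _ _ h3)) hx
  filter_upwards [ae_all_iff.2 h1] with x hx
  by_contra h2
  have h3 := B.clm_sum (G x (N x)) (N x)
  simp [h.unit, hx _ h2] at h3

end LEssAux

theorem ess_pf : EssStmt := by
  intro n G Ω μ N h hG _ hb hBd hc h0
  have h1 : ∀ᵐ x ∂(volume.restrict Ω), ∀ y ∈ (volume.restrict Ω).support, h x y = 0 := by
    filter_upwards [h0] with x hx
    exact Measure.support_subset_of_isClosed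
      (isClosed_eq (hc.comp (continuous_const.prodMk continuous_id)) continuous_const) hx
  filter_upwards [LEssAux.closed hG hb hBd Measure.isClosed_support Measure.support_mem_ae]
    with y hy
  exact LEssAux.closed hG hb hBd
    (isClosed_eq (hc.comp (continuous_id.prodMk continuous_const)) continuous_const)
    (h1.mono fun x hx => hx y hy)

end Vale.Agent.P219
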