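import Vale.Agent.P219.StmS
import Vale.Agent.P219.BDet

/-! Interfaces for the dimensions two and three. -/

open scoped Manifold ContDiff ENNReal RealInnerProductSpace Topology
open MeasureTheory Set Filter

namespace Vale.Agent.P219

open Vale.Agent.P255 Vale.Agent.P234

section Gen

variable {n : ℕ}

/-- More geometry. -/
structure Geo2 (G : Met n) (b : ℝ) (Q : Eu n → Eu n → ℝ) (V X : Eu n → Eu n → Eu n)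
    (ex : Eu n → Eu n ≃ₜ Eu n) : Prop extends Geo G b Q V X ex where
  Qs : ContDiff ℝ ∞ fun p : Eu n × Eu n => Q p.1 p.2
  Vs : ContDiff ℝ ∞ fun p : Eu n × Eu n => V p.1 p.2
  cos' : ∀ o z x, Q o x + Q z x + b ^ 2 * Q o x * Q z x - Q o z ≤ G x (V o x) (V z x)
  Xiso : ∀ y η, ∃ u, ‖u‖ ^ 2 = G y η η ∧ ∀ x, fderiv ℝ (Q x) y η = ⟪X y x, u⟫
  Xex : ∀ y v, ‖v‖ • X y (ex y v) = sn b ‖v‖ • v

/-- The hypotheses of the analytic part that make sense in low dimension. -/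
structure Dat.Ok0 (d : Dat n) : Prop where
  hb : 0 ≤ d.b
  hH : 0 < d.H
  ha : 0 ≤ d.a0
  fin : IsFiniteMeasure d.μ
  ne : d.μ ≠ 0
  supp : ∀ᵐ x ∂d.μ, x ∈ d.K
  mτ : ∀ i, Measurable fun x => d.τ x i
  mN : Measurable d.N
  bdd : ∃ C, ∀ x ∈ d.K, (∀ i, ‖d.τ x i‖ ≤ C) ∧ ‖d.N x‖ ≤ C
  Qsm : ContDiff ℝ 2 fun p : Eu n × Eu n => d.Q p.1 p.2
  symm : ∀ z x, d.Q z x = d.Q x z
  zero : ∀ z, d.Q z z = 0
  pos : ∀ z x, x ≠ z → 0 < d.Q z x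
  proper : ∀ z a, IsCompact {x | d.Q z x ≤ a}
  eik : ∀ z x, d.Gam (d.Q z) (d.Q z) x + d.q z x ^ 2 = d.s2 z x
  fv : ∀ z ∈ d.K, ∀ k, ContDiff ℝ 1 k → (∀ x ∈ d.K, 0 ≤ k x) → d.Lam z k ≤ 0
  ld : ∀ᵐ x ∂d.μ, ∀ ε > 0, ∃ᶠ a in 𝓝[>] (0 : ℝ),
    (1 - ε) * om d.m * (2 * a) ^ ((d.m : ℝ) / 2) ≤ d.μ.real {y | d.Q x y < a}

end Gen

/-- The theorem in a global chart in dimension `n`. -/
def CoreN (n : ℕ) : Prop := ∀ (G : Met n) (κ : ℝ) (Ω : Set (Eu n)), κ ≤ 0 → CH G κ →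
  MeasurableSet Ω → Bornology.IsBounded Ω →
  ENNReal.ofReal (prof n √(-κ) (vol G Ω)) ≤ per G Ω ∧
  (0 < vol G Ω → per G Ω = ENNReal.ofReal (prof n √(-κ) (vol G Ω)) →
    ∃ (r : ℝ) (Φ : Eu n ≃ₜ Eu n), 0 < r ∧ ContDiff ℝ ∞ Φ ∧
      Ω =ᵐ[volume] (Φ '' Metric.ball 0 r : Set (Eu n)) ∧
      ∀ v ∈ Metric.ball (0 : Eu n) r, ∀ u,
        G (Φ v) (fderiv ℝ Φ v u) (fderiv ℝ Φ v u) = mg √(-κ) v u)

def Geo2Stmt : Prop := ∀ (n : ℕ) (G : Met n) (b : ℝ), 0 ≤ b → CH G (-b ^ 2) →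
  ∃ Q V X ex, Geo2 G b Q V X ex

def Ok0Stmt : Prop := ∀ (n : ℕ) (G : Met n) (A : Eu n → Eu n →L[ℝ] Eu n) (b H a0 : ℝ) (o : Eu n)
  (Q : Eu n → Eu n → ℝ) (V X : Eu n → Eu n → Eu n) (ex : Eu n → Eu n ≃ₜ Eu n) (I : ℝ → ℝ)
  (Ω : Set (Eu n)) (μ : Measure (Eu n)) (N : Eu n → Eu n), 2 ≤ n → 0 ≤ b → 0 < H → 0 ≤ a0 →
  Rm G → Frame G A → Geo G b Q V X ex → IsMin G {x | Q o x ≤ a0} I Ω → Bd G Ω μ N →
  HasDerivAt I H (vol G Ω) → 0 < vol G Ω → (mkDat G A b H a0 o μ N Q X).Ok0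

def Lip0Stmt : Prop := ∀ (n : ℕ) (d : Dat n), d.Ok0 → ∀ z ∈ d.K, ∀ (h : Eu n → ℝ) (F F' : ℝ → ℝ)
  (a a1 : ℝ), ContDiff ℝ 1 h → (∀ x ∈ d.K, 0 ≤ h x) → Pf F F' a a1 → d.LamF z h F F' a a1 ≤ 0

/-- The Willmore inequality and its equality case. -/
def WillStmt : Prop := ∀ (n : ℕ) (d : Dat n), d.Ok0 → d.m = 2 →
  4 * Real.pi ≤ (d.H ^ 2 / 4 - d.b ^ 2) * d.μ.real univ ∧
  ((d.H ^ 2 / 4 - d.b ^ 2) * d.μ.real univ ≤ 4 * Real.pi →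
    ∀ᵐ z ∂d.μ, ∀ᵐ x ∂d.μ, d.q z x = d.H / 2 * d.Q z x)

/-- Volume comparison for balls. -/
def VolGeStmt : Prop := ∀ (n : ℕ) (G : Met n) (b : ℝ) (Φ : Eu n → Eu n) (r : ℝ), 1 ≤ n → 0 ≤ b →
  0 < r → Rm G → ContDiff ℝ 1 Φ → Function.Injective Φ →
  (∀ v u, mg b v u ≤ G (Φ v) (fderiv ℝ Φ v u) (fderiv ℝ Φ v u)) →
  mV n b r ≤ vol G (Φ '' Metric.ball 0 r)

/-- The model ball through the origin with inner normal `u`, in normal coordinates. -/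
def CapStmt : Prop := ∀ (n : ℕ) (b r : ℝ) (u : Eu n), 2 ≤ n → 0 ≤ b → 0 < r → ‖u‖ = 1 →
  IsPreconnected {v : Eu n | (1 + b ^ 2 * qf b r) * qf b ‖v‖ * ‖v‖ < sn b r * sn b ‖v‖ * ⟪v, u⟫} ∧
  IsPreconnected {v : Eu n | sn b r * sn b ‖v‖ * ⟪v, u⟫ < (1 + b ^ 2 * qf b r) * qf b ‖v‖ * ‖v‖} ∧
  volume {v : Eu n | sn b r * sn b ‖v‖ * ⟪v, u⟫ = (1 + b ^ 2 * qf b r) * qf b ‖v‖ * ‖v‖} = 0 ∧
  ∀ v : Eu n, 2 * r < ‖v‖ → sn b r * sn b ‖v‖ * ⟪v, u⟫ < (1 + b ^ 2 * qf b r) * qf b ‖v‖ * ‖v‖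

/-- Rigidity from the chord condition. -/
def RigPtStmt : Prop := ∀ (n : ℕ) (G : Met n) (b : ℝ) (Q : Eu n → Eu n → ℝ)
  (V X : Eu n → Eu n → Eu n) (ex : Eu n → Eu n ≃ₜ Eu n) (Ω : Set (Eu n)) (μ : Measure (Eu n))
  (N : Eu n → Eu n) (r : ℝ), 2 ≤ n → 0 ≤ b → 0 < r → Rm G → Geo2 G b Q V X ex →
  MeasurableSet Ω → Bornology.IsBounded Ω → Bd G Ω μ N → vol G Ω = mV n b r → 0 < vol G Ω →
  (∀ᵐ y ∂μ, ∀ᵐ x ∂μ, sn b r * fderiv ℝ (Q x) y (N y) = (1 + b ^ 2 * qf b r) * Q x y) →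
  ∃ z, Ω =ᵐ[volume] (ex z '' Metric.ball 0 r : Set (Eu n))

/-! ### Dimension two -/

section Two

variable (G : Met 2) (b : ℝ) (Q : Eu 2 → Eu 2 → ℝ) (V : Eu 2 → Eu 2 → Eu 2)

/-- Rotation by a right angle. -/
noncomputable def rot (x ξ : Eu 2) : Eu 2 :=
  (wt G x)⁻¹ • (G x ξ (ee 0) • ee 1 - G x ξ (ee 1) • ee 0)

/-- Mixed second derivative `∂_x ∂_y Q (ξ, η)`. -/
noncomputable def mx (x y ξ η : Eu 2) : ℝ := fderiv ℝ (fun x' => fderiv ℝ (Q x') y η) x ξ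

/-- `cosh` of the distance. -/
noncomputable def cs (x y : Eu 2) : ℝ := 1 + b ^ 2 * Q x y

/-- `sn²` of the distance. -/
noncomputable def ss (x y : Eu 2) : ℝ := 2 * Q x y + b ^ 2 * Q x y ^ 2

/-- `sn / j`. -/
noncomputable def be (x y : Eu 2) : ℝ :=
  (mx Q x y (ee 0) (ee 0) * mx Q x y (ee 1) (ee 1) - mx Q x y (ee 0) (ee 1) * mx Q x y (ee 1) (ee 0)) /
    (wt G x * wt G y * cs b Q x y)

/-- The Laplacian of `Q y` at `x`. -/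
noncomputable def lap (y x : Eu 2) : ℝ := dvg (fun x' => wt G x' • V y x') x / wt G x

noncomputable def ps (x y : Eu 2) : ℝ := lap G V y x - cs b Q x y + be G b Q x y

noncomputable def hh (x y : Eu 2) : ℝ :=
  (lap G V y x - cs b Q x y) * (lap G V x y - cs b Q x y) - be G b Q x y ^ 2 - b ^ 2 * ss b Q x y

/-- The reflected field. -/
noncomputable def Zn (y η x : Eu 2) : Eu 2 :=
  fderiv ℝ (Q x) y η • V y x + fderiv ℝ (Q x) y (rot G y η) • rot G x (V y x)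

/-- The calibration data. -/
structure Two (Z : Eu 2 → Eu 2 → Eu 2 → Eu 2) (ψ h : Eu 2 → Eu 2 → ℝ) : Prop where
  Zc : Continuous fun p : Eu 2 × Eu 2 × Eu 2 => Z p.1 p.2.1 p.2.2
  Zsm : ∀ y η, ContDiff ℝ 1 (Z y η)
  Znorm : ∀ y η x, G x (Z y η x) (Z y η x) = G y η η * ss b Q x y ^ 2
  Zq : ∀ y η x, fderiv ℝ (Q y) x (Z y η x) = fderiv ℝ (Q x) y η * ss b Q x y
  Zdiv : ∀ y η x, dvg (fun x' => wt G x' • Z y η x') x =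
    wt G x * (fderiv ℝ (Q x) y η * (ψ x y + 2 * cs b Q x y))
  Z0 : ∀ y η, fderiv ℝ (Z y η) y = 0
  psm : ContDiff ℝ 1 fun p : Eu 2 × Eu 2 => ψ p.1 p.2
  p0 : ∀ x y, 0 ≤ ψ x y
  pd : ∀ x, 2 ≤ ψ x x
  Tdiv : ∀ x y, dvg (fun y' => wt G y' • (ψ x y' • V x y')) y =
    wt G y * (2 * cs b Q x y * ψ x y + b ^ 2 * ss b Q x y + h x y)
  hc : Continuous fun p : Eu 2 × Eu 2 => h p.1 p.2
  h0 : ∀ x y, 0 ≤ h x y
  hrig : ∀ x y, h x y = 0 → ψ x y = 2 + b ^ 2 * Q x y ∨ ψ x y = b ^ 2 * Q x y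

end Two

/-- Properties of the mixed derivative. -/
def MixStmt : Prop := ∀ (G : Met 2) (b : ℝ) (Q : Eu 2 → Eu 2 → ℝ) (V X : Eu 2 → Eu 2 → Eu 2)
  (ex : Eu 2 → Eu 2 ≃ₜ Eu 2), Rm G → Geo2 G b Q V X ex →
  (∀ x y η, mx Q x y (V y x) η = cs b Q x y * fderiv ℝ (Q x) y η) ∧
  (∀ x y η, mx Q x y (rot G x (V y x)) (rot G y η) = be G b Q x y * fderiv ℝ (Q x) y η) ∧
  (∀ x y, be G b Q x y ^ 2 ≤ 1) ∧ (∀ x, be G b Q x x = 1) ∧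
  (ContDiff ℝ 1 fun p : Eu 2 × Eu 2 => be G b Q p.1 p.2) ∧
  (ContDiff ℝ 1 fun p : Eu 2 × Eu 2 => lap G V p.1 p.2) ∧ ∀ x y, 2 * cs b Q x y ≤ lap G V y x

/-- Radial derivative of the Laplacian at the other end point. -/
def I1Stmt : Prop := ∀ (G : Met 2) (b : ℝ) (Q : Eu 2 → Eu 2 → ℝ) (V X : Eu 2 → Eu 2 → Eu 2)
  (ex : Eu 2 → Eu 2 ≃ₜ Eu 2), Rm G → Geo2 G b Q V X ex → ∀ x y,
  fderiv ℝ (fun y' => lap G V y' x) y (V x y) = cs b Q x y * lap G V y x - 1 - be G b Q x y ^ 2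

/-- The angular form is closed. -/
def I2Stmt : Prop := ∀ (G : Met 2) (b : ℝ) (Q : Eu 2 → Eu 2 → ℝ) (V X : Eu 2 → Eu 2 → Eu 2)
  (ex : Eu 2 → Eu 2 ≃ₜ Eu 2), Rm G → Geo2 G b Q V X ex → ∀ x y,
  dvg (fun y' => wt G y' • (be G b Q x y' • V x y')) y = wt G y * (2 * cs b Q x y * be G b Q x y)

def TwoStmt : Prop := ∀ (G : Met 2) (b : ℝ) (Q : Eu 2 → Eu 2 → ℝ) (V X : Eu 2 → Eu 2 → Eu 2)
  (ex : Eu 2 → Eu 2 ≃ₜ Eu 2), Rm G → Geo2 G b Q V X ex →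
  Two G b Q V (Zn G Q V) (ps G b Q V) (hh G b Q V)

/-- `Q` dominates the squared Euclidean distance on compact sets. -/
def QLowStmt : Prop := ∀ (n : ℕ) (G : Met n) (b : ℝ) (Q : Eu n → Eu n → ℝ)
  (V X : Eu n → Eu n → Eu n) (ex : Eu n → Eu n ≃ₜ Eu n) (K : Set (Eu n)), Rm G →
  Geo2 G b Q V X ex → IsCompact K → ∃ c > 0, ∀ x ∈ K, ∀ y ∈ K, c * ‖x - y‖ ^ 2 ≤ Q x y

/-- The error term of the first integration. -/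
def ErrStmt : Prop := ∀ (G : Met 2) (b : ℝ) (Q : Eu 2 → Eu 2 → ℝ) (V X : Eu 2 → Eu 2 → Eu 2)
  (ex : Eu 2 → Eu 2 ≃ₜ Eu 2) (K : Set (Eu 2)), Rm G → Geo2 G b Q V X ex → IsCompact K →
  ∀ η > 0, ∀ᶠ ε in 𝓝[>] (0 : ℝ), ∀ y ∈ K,
    ∫ x in K, wt G x * (√(ss b Q x y) * (ε / (Q x y + ε) ^ 2)) ≤ η

/-- The mass at the diagonal. -/
def DeltaStmt : Prop := ∀ (G : Met 2) (b : ℝ) (Q : Eu 2 → Eu 2 → ℝ) (V X : Eu 2 → Eu 2 → Eu 2)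
  (ex : Eu 2 → Eu 2 ≃ₜ Eu 2) (ψ : Eu 2 → Eu 2 → ℝ) (Ω : Set (Eu 2)), Rm G → Geo2 G b Q V X ex →
  (Continuous fun p : Eu 2 × Eu 2 => ψ p.1 p.2) → (∀ x y, 0 ≤ ψ x y) → (∀ x, 2 ≤ ψ x x) →
  MeasurableSet Ω → Bornology.IsBounded Ω → ∀ η > 0, ∀ᶠ ε in 𝓝[>] (0 : ℝ),
    4 * Real.pi * vol G Ω - η ≤
      ∫ x in Ω, wt G x * ∫ y in Ω, wt G y * (ψ x y * (ε / (Q x y + ε) ^ 2))

/-- The double integral identity at level `ε`. -/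
def DblStmt : Prop := ∀ (G : Met 2) (b : ℝ) (Q : Eu 2 → Eu 2 → ℝ) (V X : Eu 2 → Eu 2 → Eu 2)
  (ex : Eu 2 → Eu 2 ≃ₜ Eu 2) (Z : Eu 2 → Eu 2 → Eu 2 → Eu 2) (ψ h : Eu 2 → Eu 2 → ℝ)
  (Ω : Set (Eu 2)) (μ : Measure (Eu 2)) (N : Eu 2 → Eu 2), Rm G → Geo2 G b Q V X ex →
  Two G b Q V Z ψ h → MeasurableSet Ω → Bornology.IsBounded Ω → Bd G Ω μ N → ∀ ε > 0,
  ∫ y, ∫ x, G x (N x) (Z y (N y) x) / ((Q x y + ε) * (2 + b ^ 2 * Q x y)) ∂μ ∂μ =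
    (∫ x in Ω, wt G x * ∫ y in Ω, wt G y * ((b ^ 2 * ss b Q x y + h x y) /
      ((Q x y + ε) * (2 + b ^ 2 * Q x y)) + ψ x y * (ε / (Q x y + ε) ^ 2))) +
    ∫ y, (∫ x in Ω, wt G x * (fderiv ℝ (Q x) y (N y) * (ε / (Q x y + ε) ^ 2))) ∂μ

/-- The isoperimetric inequality in dimension two with its equality conditions. -/
def IsoTwoStmt : Prop := ∀ (G : Met 2) (b : ℝ) (Q : Eu 2 → Eu 2 → ℝ) (V X : Eu 2 → Eu 2 → Eu 2)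
  (ex : Eu 2 → Eu 2 ≃ₜ Eu 2) (Z : Eu 2 → Eu 2 → Eu 2 → Eu 2) (ψ h : Eu 2 → Eu 2 → ℝ)
  (Ω : Set (Eu 2)) (μ : Measure (Eu 2)) (N : Eu 2 → Eu 2), Rm G → Geo2 G b Q V X ex →
  Two G b Q V Z ψ h → MeasurableSet Ω → Bornology.IsBounded Ω → Bd G Ω μ N →
  4 * Real.pi * vol G Ω + b ^ 2 * vol G Ω ^ 2 ≤ μ.real univ ^ 2 ∧
  (μ.real univ ^ 2 ≤ 4 * Real.pi * vol G Ω + b ^ 2 * vol G Ω ^ 2 →
    (∀ᵐ y ∂μ, ∀ᵐ x ∂μ, G x (N x) (Z y (N y) x) = ss b Q x y) ∧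
    ∀ᵐ x ∂(volume.restrict Ω), ∀ᵐ y ∂(volume.restrict Ω), h x y = 0)

/-- The perimeter measure lives on the essential closure. -/
def EssStmt : Prop := ∀ (n : ℕ) (G : Met n) (Ω : Set (Eu n)) (μ : Measure (Eu n))
  (N : Eu n → Eu n) (h : Eu n → Eu n → ℝ), Rm G → MeasurableSet Ω → Bornology.IsBounded Ω →
  Bd G Ω μ N → (Continuous fun p : Eu n × Eu n => h p.1 p.2) →
  (∀ᵐ x ∂(volume.restrict Ω), ∀ᵐ y ∂(volume.restrict Ω), h x y = 0) →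
  ∀ᵐ y ∂μ, ∀ᵐ x ∂μ, h x y = 0

/-- The chord condition in dimension two. -/
def RigTwoStmt : Prop := ∀ (G : Met 2) (A : Eu 2 → Eu 2 →L[ℝ] Eu 2) (b H : ℝ)
  (Q : Eu 2 → Eu 2 → ℝ) (V X : Eu 2 → Eu 2 → Eu 2)
  (ex : Eu 2 → Eu 2 ≃ₜ Eu 2) (Z : Eu 2 → Eu 2 → Eu 2 → Eu 2) (ψ h : Eu 2 → Eu 2 → ℝ)
  (Ω : Set (Eu 2)) (μ : Measure (Eu 2)) (N : Eu 2 → Eu 2), 0 ≤ b → b < H → Rm G → Frame G A →
  Geo2 G b Q V X ex → Two G b Q V Z ψ h → Bornology.IsBounded Ω → Bd G Ω μ N →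
  (∀ Y, ContDiff ℝ 1 Y → HasCompactSupport Y →
    ∫ x, tdiv G A N Y x ∂μ = H * ∫ x, G x (N x) (Y x) ∂μ) →
  (∀ᵐ y ∂μ, ∀ᵐ x ∂μ, G x (N x) (Z y (N y) x) = ss b Q x y) → (∀ᵐ y ∂μ, ∀ᵐ x ∂μ, h x y = 0) →
  ∀ᵐ y ∂μ, ∀ᵐ x ∂μ, fderiv ℝ (Q x) y (N y) = H * Q x y

/-! ### The rotation -/

section Rot

variable {G : Met 2}

theorem ee2 (u : Eu 2) : u = u 0 • ee 0 + u 1 • ee 1 := by
  conv_lhs => rw [← sum_ee u]
  simp [Fin.sum_univ_two]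

theorem bil2 (B : Eu 2 →L[ℝ] Eu 2 →L[ℝ] ℝ) (u v : Eu 2) :
    B u v = u 0 * v 0 * B (ee 0) (ee 0) + u 0 * v 1 * B (ee 0) (ee 1) +
      u 1 * v 0 * B (ee 1) (ee 0) + u 1 * v 1 * B (ee 1) (ee 1) := by
  rw [bil_eq_sum]; simp only [Fin.sum_univ_two]; ring

theorem lin2 (L : Eu 2 →L[ℝ] ℝ) (u : Eu 2) : L u = u 0 * L (ee 0) + u 1 * L (ee 1) := by
  conv_lhs => rw [ee2 u]
  simp

theorem Rm.wt_sq2 (h : Rm G) (x : Eu 2) :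
    wt G x ^ 2 = G x (ee 0) (ee 0) * G x (ee 1) (ee 1) - G x (ee 0) (ee 1) ^ 2 := by
  unfold wt
  rw [Real.sq_sqrt (h.det_pos x).le, Matrix.det_fin_two]
  simp only [Matrix.of_apply]
  rw [h.symm x (ee 1) (ee 0)]; ring

theorem rot_zero (x ξ : Eu 2) : rot G x ξ 0 = -((wt G x)⁻¹ * G x ξ (ee 1)) := by simp [rot]

theorem rot_one (x ξ : Eu 2) : rot G x ξ 1 = (wt G x)⁻¹ * G x ξ (ee 0) := by simp [rot]

theorem Rm.rot_left (h : Rm G) (x ξ η : Eu 2) :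
    G x (rot G x ξ) η = wt G x * (ξ 0 * η 1 - ξ 1 * η 0) := by
  have h1 := h.wt_sq2 x
  have h2 := (h.wt_pos x).ne'
  rw [bil2, rot_zero, rot_one, bil2 (G x) ξ (ee 0), bil2 (G x) ξ (ee 1), h.symm x (ee 1) (ee 0)]
  simp only [PiLp.single_apply, Fin.isValue, ↓reduceIte, zero_ne_one, one_ne_zero]
  field_simp
  rw [h1]; ring

theorem Rm.rot_skew (h : Rm G) (x ξ η : Eu 2) : G x (rot G x ξ) η = -G x ξ (rot G x η) := by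
  rw [h.symm x ξ, h.rot_left, h.rot_left]; ring

theorem Rm.rot_self (h : Rm G) (x ξ : Eu 2) : G x (rot G x ξ) ξ = 0 := by
  rw [h.rot_left]; ring

theorem Rm.rot_iso (h : Rm G) (x ξ η : Eu 2) : G x (rot G x ξ) (rot G x η) = G x ξ η := by
  have h2 := (h.wt_pos x).ne'
  rw [h.symm, h.rot_left, rot_zero, rot_one, lin2 (G x ξ) η]
  field_simp
  ring

theorem Rm.rot_rot (h : Rm G) (x ξ : Eu 2) : rot G x (rot G x ξ) = -ξ := by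
  have h2 := (h.wt_pos x).ne'
  ext i
  fin_cases i
  · simp [rot_zero, h.rot_left, h2]
  · simp [rot_one, h.rot_left, h2]

theorem Rm.rot_pyth (h : Rm G) (x ξ η : Eu 2) :
    G x ξ η ^ 2 + G x (rot G x ξ) η ^ 2 = G x ξ ξ * G x η η := by
  rw [h.rot_left, mul_pow, h.wt_sq2, bil2 (G x) ξ η, bil2 (G x) ξ ξ, bil2 (G x) η η,
    h.symm x (ee 1) (ee 0)]
  ring

/-- Expansion in the orthogonal basis `ξ, rot ξ`. -/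
theorem Rm.rot_exp (h : Rm G) (x ξ η : Eu 2) :
    G x ξ ξ • η = G x ξ η • ξ + G x (rot G x ξ) η • rot G x ξ := by
  have h2 := (h.wt_pos x).ne'
  have e0 := bil2 (G x) ξ (ee 0)
  have e1 := bil2 (G x) ξ (ee 1)
  simp only [PiLp.single_apply, Fin.isValue, ↓reduceIte, zero_ne_one, one_ne_zero] at e0 e1
  ext i
  fin_cases i
  · simp only [Fin.zero_eta, PiLp.smul_apply, PiLp.add_apply, smul_eq_mul, rot_zero, h.rot_left]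
    rw [lin2 (G x ξ) ξ, lin2 (G x ξ) η]
    field_simp
    ring
  · simp only [Fin.mk_one, PiLp.smul_apply, PiLp.add_apply, smul_eq_mul, rot_one, h.rot_left]
    rw [lin2 (G x ξ) ξ, lin2 (G x ξ) η]
    field_simp
    ring

theorem rot_add (x ξ η : Eu 2) : rot G x (ξ + η) = rot G x ξ + rot G x η := by
  ext i
  fin_cases i
  · simp [rot_zero]; ring
  · simp [rot_one]; ring

theorem rot_smul (x : Eu 2) (c : ℝ) (ξ : Eu 2) : rot G x (c • ξ) = c • rot G x ξ := by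
  ext i
  fin_cases i
  · simp [rot_zero]; ring
  · simp [rot_one]; ring

theorem Rm.rot_smooth (h : Rm G) : ContDiff ℝ ∞ fun p : Eu 2 × Eu 2 => rot G p.1 p.2 := by
  have h1 : ∀ i : Fin 2, ContDiff ℝ ∞ fun p : Eu 2 × Eu 2 => G p.1 p.2 (ee i) := fun i =>
    ((h.smooth.comp contDiff_fst).clm_apply contDiff_snd).clm_apply contDiff_const
  exact ((h.wt_smooth.inv fun x => (h.wt_pos x).ne').comp contDiff_fst).smul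
    (((h1 0).smul contDiff_const).sub ((h1 1).smul contDiff_const))

end Rot

end Vale.Agent.P219
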