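import Vale.Agent.P219.Defs

/-! Isometry with a model ball, stated through the pulled back metric. -/

open scoped Manifold ContDiff

namespace Vale.Agent.P219

variable {E : Type} [NormedAddCommGroup E] [NormedSpace ℝ E]
  {M : Type} [TopologicalSpace M] [ChartedSpace E M]

variable (E) in
/-- The differential of `Φ` at `v`. -/
noncomputable def dmap {A : Type} [NormedAddCommGroup A] [NormedSpace ℝ A] (Φ : A → M) (v : A) :
    A →L[ℝ] E :=
  mfderiv 𝓘(ℝ, A) 𝓘(ℝ, E) Φ v

variable (E) in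
/-- The image of the vector `u` under the differential of `Φ` at `v`. -/
noncomputable def push {A : Type} [NormedAddCommGroup A] [NormedSpace ℝ A] (Φ : A → M) (v u : A) :
    E :=
  dmap E Φ v u

variable (E) in
/-- `Φ` is smooth on `s`. -/
def SmoothOn {n : ℕ} (Φ : Eu n → M) (s : Set (Eu n)) : Prop :=
  ContMDiffOn 𝓘(ℝ, Eu n) 𝓘(ℝ, E) ∞ Φ s

/-- `Ω` with the metric `g` is isometric to a geodesic ball of the space form of curvature
`-b²`. -/
def ModelBall (n : ℕ) (b : ℝ) (g : M → E →L[ℝ] E →L[ℝ] ℝ) (Ω : Set M) : Prop :=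
  ∃ (r : ℝ) (Φ : Eu n → M), 0 < r ∧ SmoothOn E Φ (Metric.ball 0 r) ∧
    Set.BijOn Φ (Metric.ball 0 r) Ω ∧
    ∀ v ∈ Metric.ball (0 : Eu n) r, ∀ u : Eu n, g (Φ v) (push E Φ v u) (push E Φ v u) = mg b v u

end Vale.Agent.P219
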