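import Vale.Agent.P219.UMain
import Vale.Agent.P219.Lo
import Vale.Agent.P219.Stmt

/-! From the global chart to the manifold in a fixed dimension. -/

open scoped Manifold ContDiff ENNReal RealInnerProductSpace Topology
open MeasureTheory Set Filter

set_option maxSynthPendingDepth 3

namespace Vale.Agent.P219

open Vale.Agent.P255 Vale.Agent.P234 U

theorem finalN {n : ℕ} (hc : CoreN n) (h1n : 1 ≤ n) (E : Type) [NormedAddCommGroup E]
    [NormedSpace ℝ E] [FiniteDimensional ℝ E] (M : Type) [MetricSpace M] [CompleteSpace M]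
    [SimplyConnectedSpace M] [ChartedSpace E M] [IsManifold 𝓘(ℝ, E) ∞ M] [MeasurableSpace M]
    [BorelSpace M] (g : RMetric E M) (hd : IsGeodesicDist g)
    (hn : Module.finrank ℝ E = n) (κ : ℝ) (hκ : κ ≤ 0)
    (hs : SecLE (E := E) g.inner κ) (Ω : Set M) (hΩ : SmoothBdry E Ω)
    (hb : Bornology.IsBounded Ω) :
    (μHE[n] : Measure M) Ω ≠ ⊤ ∧
    ENNReal.ofReal (prof n √(-κ) ((μHE[n] : Measure M) Ω).toReal) ≤
      (μHE[n - 1] : Measure M) (frontier Ω) ∧
    (Ω.Nonempty → (μHE[n - 1] : Measure M) (frontier Ω) =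
      ENNReal.ofReal (prof n √(-κ) ((μHE[n] : Measure M) Ω).toReal) →
      ModelBall (E := E) n √(-κ) g.inner Ω) := by
  have hl := lm_of_metric g hd
  have hcp := cpl_pf E M _ hl
  have hK : NPC (E := E) (M := M) g.inner := fun e he y hy =>
    (hl.toIsRM.cm he).nonpos hy fun u v huv => (hs e he y hy u v huv).trans hκ
  obtain ⟨Ψ, G, hG⟩ := exp_pf E M _ n hn hl.toIsRM hK hcp
  have hCH := ch_pf nat_pf E M _ n Ψ G κ hl.toIsRM hcp hs hG
  obtain ⟨hlip, hbl⟩ := biL_pf E M _ n Ψ G hl hG hCH.toRm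
  obtain ⟨hv, hlow⟩ := vol_pf M n Ψ G hCH.toRm hbl
  obtain ⟨m, rfl⟩ : ∃ m, n = m + 1 := ⟨n - 1, by omega⟩
  have hS := hG.smB hΩ
  have hb' : Bornology.IsBounded (Ψ ⁻¹' Ω) := by
    obtain ⟨C, hC⟩ := Metric.isBounded_iff.1 hb
    exact Metric.isBounded_iff.2 ⟨C, fun a ha b hb => by
      rw [dist_eq_norm]
      exact (hlip a b).trans (hC ha hb)⟩
  have hm := hS.1.measurableSet
  have hint : IntegrableOn (wt G) (Ψ ⁻¹' Ω) :=
    (hCH.toRm.wt_cont.continuousOn.integrableOn_compact hb'.isCompact_closure).mono_set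
      subset_closure
  have hvol : (μHE[m + 1] : Measure M) Ω = ENNReal.ofReal (vol G (Ψ ⁻¹' Ω)) := by
    rw [vol, ofReal_integral_eq_lintegral_ofReal hint
      (Eventually.of_forall fun x => (hCH.toRm.wt_pos x).le), ← hv _ hm,
      image_preimage_eq _ Ψ.surjective]
  have hv0 : 0 ≤ vol G (Ψ ⁻¹' Ω) := integral_nonneg fun x => (hCH.toRm.wt_pos x).le
  have hper : per G (Ψ ⁻¹' Ω) ≤ (μHE[m + 1 - 1] : Measure M) (frontier Ω) := by
    have a := per_pf (loc_pf lin_pf dir_pf) m G _ _ hCH.toRm (hlow m) hS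
    rwa [Measure.map_apply Ψ.symm.measurable isClosed_frontier.measurableSet,
      ← Ψ.preimage_frontier, ← preimage_comp, Ψ.self_comp_symm, preimage_id] at a
  obtain ⟨c1, c2⟩ := hc G κ _ hκ hCH hm hb'
  rw [hvol, ENNReal.toReal_ofReal hv0]
  refine ⟨ENNReal.ofReal_ne_top, c1.trans hper, fun hne he => ?_⟩
  have hpos : 0 < vol G (Ψ ⁻¹' Ω) := by
    rw [vol, setIntegral_pos_iff_support_of_nonneg_ae
      (Eventually.of_forall fun x => (hCH.toRm.wt_pos x).le) hint]
    have : Function.support (wt G) = univ := eq_univ_of_forall fun x => (hCH.toRm.wt_pos x).ne'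
    rw [this, univ_inter]
    exact hS.1.measure_pos _ (hne.preimage Ψ.surjective)
  obtain ⟨r, Φ, a1, a2, a3, a4⟩ := c2 hpos (le_antisymm (he ▸ hper) c1)
  exact hG.model a1 a2 (reg_pf _ _ Φ r a1 hS a3) a4

end Vale.Agent.P219
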