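import Vale.Agent.P219.Lo
import Vale.Agent.P219.GMain

/-! More geometry of Cartan-Hadamard metrics. -/

open scoped ContDiff RealInnerProductSpace Topology
open Set Filter

set_option maxSynthPendingDepth 3

namespace Vale.Agent.P219

namespace G

open Vale.Agent.P255

variable {n : ℕ} {G : Met n} {b : ℝ} {F k : ℝ → ℝ} {e l : Eu n → Eu n → Eu n}
  {A : Eu n → Eu n ≃L[ℝ] Eu n}

theorem Ctx.geo2 (h : Ctx G b F k e l A) :
    Geo2 G b (QQ G F l) (VV G k l) (XX G k l A) h.ex := by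
  have iso : ∀ z v u, G z v (A z u) = ⟪(A z).symm v, u⟫ := fun z v u => by
    rw [← h.iso z, ContinuousLinearEquiv.apply_symm_apply]
  refine ⟨h.geo q_pf hess_pf cos_pf tri_pf x_pf, h.ent.Fsm.comp h.Dsm,
    (h.ent.ksm.comp h.Dsm).smul (h.lg.lsm.comp (contDiff_snd.prodMk contDiff_fst)).neg,
    cos_pf n G b F k e l A h (hess_pf n G b F k e l A h),
    fun y η => ⟨-(A y).symm η, ?_, fun x => ?_⟩, fun y v => ?_⟩
  · rw [norm_neg, ← real_inner_self_eq_norm_sq, ← iso, ContinuousLinearEquiv.apply_symm_apply]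
  · rw [(h.hQ x y).fderiv, VV, XX, h.Dsymm y x, inner_smul_left, inner_neg_right, ← iso,
      ContinuousLinearEquiv.apply_symm_apply]
    simp only [map_smul, map_neg, smul_apply, neg_apply, smul_eq_mul, conj_trivial]
  · change ‖v‖ • k (G y (l y (e y (A y v))) (l y (e y (A y v)))) • (A y).symm (l y (e y (A y v))) = _
    rw [h.lg.le, h.iso, real_inner_self_eq_norm_sq, ContinuousLinearEquiv.symm_apply_apply,
      smul_smul, h.ent.ks]

end G

open G in
theorem geo2_pf : Geo2Stmt := by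
  intro n G b hb h
  have hR := h.toRm
  obtain ⟨F, k, h1⟩ := ent_pf b hb
  obtain ⟨Γ, h2⟩ := flow_pf n G _ h
  have h3 := curv_pf n G _ h
  have h4 := gauss_pf n G Γ hR h2
  have h5 := cov_pf n G Γ hR h2 fun y u v => (h3 y u v).trans
    (mul_nonpos_of_nonpos_of_nonneg (neg_nonpos.2 (sq_nonneg b))
      (sub_nonneg.2 (Vale.Agent.P219.G.Rm.cs hR y u v)))
  have h6 := gen_pf n G b F k Γ hR h2 h4 (jac_pf cmp_pf n G b F k Γ hR h1 h2 h4 h3)
  obtain ⟨l, h7⟩ := log_pf n Γ h2.smooth h5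
  obtain ⟨B, hB⟩ := frame_pf n G hR
  have h8 : ∀ x, Function.Injective (B x) := fun x => (injective_iff_map_eq_zero _).2 fun u hu => by
    have := hB.iso x u u
    rw [hu, map_zero] at this
    exact inner_self_eq_zero.1 this.symm
  let A : Eu n → Eu n ≃L[ℝ] Eu n := fun x =>
    (LinearEquiv.ofInjectiveEndo (B x : Eu n →ₗ[ℝ] Eu n) (h8 x)).toContinuousLinearEquiv
  have h9 : Ctx G b F k (xp Γ) l A := ⟨hb, hR, h1, lg_pf n G b F k Γ l hR h2 h4 h6 h7, hB.iso⟩
  exact ⟨_, _, _, _, h9.geo2⟩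

end Vale.Agent.P219
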