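import Vale.Agent.P219.Lo

/-! Radial derivative of the Laplacian at the other end point. -/

open scoped Manifold ContDiff ENNReal RealInnerProductSpace Topology
open MeasureTheory Set Filter

namespace Vale.Agent.P219

open Vale.Agent.P255 Vale.Agent.P234

namespace LI1Aux

section Calc

variable {E H : Type} [NormedAddCommGroup E] [NormedSpace ℝ E] [NormedAddCommGroup H]
  [NormedSpace ℝ H] {f : E → E → H}

theorem fd_right (hf : Differentiable ℝ fun p : E × E => f p.1 p.2) (y x ξ : E) :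
    fderiv ℝ (f y) x ξ = fderiv ℝ (fun p : E × E => f p.1 p.2) (y, x) (0, ξ) := by
  have k : HasFDerivAt (f y) ((fderiv ℝ (fun p : E × E => f p.1 p.2) (y, x)).comp
      (ContinuousLinearMap.inr ℝ E E)) x :=
    (hf (y, x)).hasFDerivAt.comp x (hasFDerivAt_prodMk_right y x)
  rw [k.fderiv]
  rfl

theorem fd_left (hf : Differentiable ℝ fun p : E × E => f p.1 p.2) (y x η : E) :
    fderiv ℝ (fun y' => f y' x) y η = fderiv ℝ (fun p : E × E => f p.1 p.2) (y, x) (η, 0) := by
  have k : HasFDerivAt (fun y' => f y' x) ((fderiv ℝ (fun p : E × E => f p.1 p.2) (y, x)).comp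
      (ContinuousLinearMap.inl ℝ E E)) y :=
    HasFDerivAt.comp (f := fun y' => (y', x)) y (hf (y, x)).hasFDerivAt
      (hasFDerivAt_prodMk_left (𝕜 := ℝ) y x)
  rw [k.fderiv]
  rfl

theorem sm_dir (hf : ContDiff ℝ ∞ fun p : E × E => f p.1 p.2) (w : E × E) :
    ContDiff ℝ ∞ fun p : E × E => fderiv ℝ (fun p : E × E => f p.1 p.2) p w :=
  (hf.fderiv_right (m := ∞) (by simp)).clm_apply contDiff_const

theorem sm_right (hf : ContDiff ℝ ∞ fun p : E × E => f p.1 p.2) (ξ : E) :
    ContDiff ℝ ∞ fun p : E × E => fderiv ℝ (f p.1) p.2 ξ := by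
  have e : (fun p : E × E => fderiv ℝ (f p.1) p.2 ξ) =
      fun p : E × E => fderiv ℝ (fun p : E × E => f p.1 p.2) p (0, ξ) :=
    funext fun p => fd_right (hf.differentiable (by simp)) p.1 p.2 ξ
  rw [e]
  exact sm_dir hf _

theorem sm_left (hf : ContDiff ℝ ∞ fun p : E × E => f p.1 p.2) (η : E) :
    ContDiff ℝ ∞ fun p : E × E => fderiv ℝ (fun y' => f y' p.2) p.1 η := by
  have e : (fun p : E × E => fderiv ℝ (fun y' => f y' p.2) p.1 η) =
      fun p : E × E => fderiv ℝ (fun p : E × E => f p.1 p.2) p (η, 0) :=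
    funext fun p => fd_left (hf.differentiable (by simp)) p.1 p.2 η
  rw [e]
  exact sm_dir hf _

theorem fd_dir {F : E × E → H} (hF : ContDiff ℝ ∞ F) (p u w : E × E) :
    fderiv ℝ (fun p => fderiv ℝ F p w) p u = fderiv ℝ (fderiv ℝ F) p u w := by
  have h : DifferentiableAt ℝ (fderiv ℝ F) p :=
    (hF.fderiv_right (m := ∞) (by simp)).differentiable (by simp) p
  rw [fderiv_clm_apply h (differentiableAt_const w)]
  simp

/-- Mixed derivatives commute. -/
theorem comm (hf : ContDiff ℝ ∞ fun p : E × E => f p.1 p.2) (y x η ξ : E) :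
    fderiv ℝ (fun y' => fderiv ℝ (f y') x ξ) y η =
      fderiv ℝ (fun x' => fderiv ℝ (fun y' => f y' x') y η) x ξ := by
  have hd := hf.differentiable (by simp)
  have h1 := fd_left (f := fun y x => fderiv ℝ (f y) x ξ)
    ((sm_right hf ξ).differentiable (by simp)) y x η
  have h2 := fd_right (f := fun y x => fderiv ℝ (fun y' => f y' x) y η)
    ((sm_left hf η).differentiable (by simp)) y x ξ
  have e1 : (fun p : E × E => fderiv ℝ (f p.1) p.2 ξ) =
      fun p : E × E => fderiv ℝ (fun p : E × E => f p.1 p.2) p (0, ξ) :=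
    funext fun p => fd_right hd p.1 p.2 ξ
  have e2 : (fun p : E × E => fderiv ℝ (fun y' => f y' p.2) p.1 η) =
      fun p : E × E => fderiv ℝ (fun p : E × E => f p.1 p.2) p (η, 0) :=
    funext fun p => fd_left hd p.1 p.2 η
  rw [h1, h2, e1, e2, fd_dir hf, fd_dir hf]
  have h2 : ContDiff ℝ 2 fun p : E × E => f p.1 p.2 := hf.of_le (WithTop.coe_le_coe.2 le_top)
  exact (h2.contDiffAt.isSymmSndFDerivAt (by simp)).eq _ _

theorem sm_x (hf : ContDiff ℝ ∞ fun p : E × E => f p.1 p.2) (y : E) : ContDiff ℝ ∞ (f y) :=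
  hf.comp (contDiff_prodMk_right y)

theorem sm_y (hf : ContDiff ℝ ∞ fun p : E × E => f p.1 p.2) (x : E) :
    ContDiff ℝ ∞ fun y => f y x :=
  hf.comp (contDiff_prodMk_left x)

end Calc

theorem dvg_add' {n : ℕ} {Y Z : Eu n → Eu n} {x : Eu n} (hY : DifferentiableAt ℝ Y x)
    (hZ : DifferentiableAt ℝ Z x) : dvg (fun y => Y y + Z y) x = dvg Y x + dvg Z x := by
  unfold dvg
  rw [fderiv_fun_add hY hZ, ← Finset.sum_add_distrib]
  rfl

theorem fd_dvg {n : ℕ} {f : Eu n → Eu n → Eu n}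
    (hf : ContDiff ℝ ∞ fun p : Eu n × Eu n => f p.1 p.2) (y x η : Eu n) :
    DifferentiableAt ℝ (fun y' => dvg (f y') x) y ∧
    fderiv ℝ (fun y' => dvg (f y') x) y η =
      dvg (fun x' => fderiv ℝ (fun y' => f y' x') y η) x := by
  have k : ∀ i : Fin n, HasFDerivAt (fun y' => fderiv ℝ (f y') x (ee i) i)
      ((EuclideanSpace.proj (𝕜 := ℝ) i).comp
        (fderiv ℝ (fun y' => fderiv ℝ (f y') x (ee i)) y)) y := fun i =>
    (EuclideanSpace.proj (𝕜 := ℝ) i).hasFDerivAt.comp y
      ((sm_y (f := fun y x => fderiv ℝ (f y) x (ee i)) (sm_right hf (ee i)) x).differentiable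
        (by simp) y).hasFDerivAt
  have k2 := HasFDerivAt.fun_sum (u := Finset.univ) fun i _ => k i
  refine ⟨k2.differentiableAt, ?_⟩
  unfold dvg
  rw [k2.fderiv, sum_apply]
  refine Finset.sum_congr rfl fun i _ => ?_
  rw [← comm hf y x η (ee i)]
  rfl

variable {G : Met 2} {b : ℝ} {Q : Eu 2 → Eu 2 → ℝ} {V X : Eu 2 → Eu 2 → Eu 2}
  {ex : Eu 2 → Eu 2 ≃ₜ Eu 2}

/-- Variation of the gradient field in the base point. -/
noncomputable def W (V : Eu 2 → Eu 2 → Eu 2) (y η x : Eu 2) : Eu 2 :=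
  fderiv ℝ (fun y' => V y' x) y η

theorem W_sm (g : Geo2 G b Q V X ex) (y η : Eu 2) : ContDiff ℝ ∞ (W V y η) :=
  sm_x (f := fun y x => W V y η x) (sm_left g.Vs η) y

theorem a_sm (g : Geo2 G b Q V X ex) (y η : Eu 2) :
    ContDiff ℝ ∞ fun x => fderiv ℝ (Q x) y η :=
  sm_y (f := fun x y => fderiv ℝ (Q x) y η) (sm_right g.Qs η) y

theorem mx_symm (g : Geo2 G b Q V X ex) (x y ξ η : Eu 2) : mx Q x y ξ η = mx Q y x η ξ := by
  unfold mx
  rw [comm g.Qs x y ξ η]
  have e : ∀ y', (fun x' => Q x' y') = Q y' := fun y' => funext fun x' => g.symm x' y'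
  simp only [e]

theorem G_W (g : Geo2 G b Q V X ex) (y η x ξ : Eu 2) :
    G x (W V y η x) ξ = mx Q x y ξ η := by
  rw [mx_symm g]
  have e : (fun y' => fderiv ℝ (Q y') x ξ) = fun y' => (G x).flip ξ (V y' x) :=
    funext fun y' => (g.grad y' x ξ).symm
  have k : HasFDerivAt (fun y' => (G x).flip ξ (V y' x))
      (((G x).flip ξ).comp (fderiv ℝ (fun y' => V y' x) y)) y :=
    ((G x).flip ξ).hasFDerivAt.comp y ((sm_y g.Vs x).differentiable (by simp) y).hasFDerivAt
  unfold mx
  rw [e, k.fderiv]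
  rfl

theorem fd_lap (h : Rm G) (g : Geo2 G b Q V X ex) (y x η : Eu 2) :
    fderiv ℝ (fun y' => lap G V y' x) y η =
      dvg (fun x' => wt G x' • W V y η x') x / wt G x := by
  have hf : ContDiff ℝ ∞ fun p : Eu 2 × Eu 2 => wt G p.2 • V p.1 p.2 :=
    (h.wt_smooth.comp contDiff_snd).smul g.Vs
  obtain ⟨k1, k2⟩ := fd_dvg (f := fun y x => wt G x • V y x) hf y x η
  have e : (fun x' => fderiv ℝ (fun y' => wt G x' • V y' x') y η) =
      fun x' => wt G x' • W V y η x' := by
    funext x'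
    rw [fderiv_fun_const_smul ((sm_y g.Vs x').differentiable (by simp) y)]
    rfl
  rw [e] at k2
  rw [← k2]
  have e2 : (fun y' => lap G V y' x) =
      fun y' => (wt G x)⁻¹ * dvg (fun x' => wt G x' • V y' x') x :=
    funext fun y' => div_eq_inv_mul _ _
  rw [e2, fderiv_const_mul k1, div_eq_inv_mul]
  rfl

theorem nondeg (h : Rm G) {x u v : Eu 2} (e : ∀ ξ, G x u ξ = G x v ξ) : u = v := by
  by_contra hne
  have := h.pos x (u - v) (sub_ne_zero.2 hne)
  rw [map_sub (G x), sub_apply, e, sub_self] at this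
  exact lt_irrefl _ this

theorem unit (h : Rm G) (y : Eu 2) : ∃ e : Eu 2, G y e e = 1 := by
  have h0 : (ee 0 : Eu 2) ≠ 0 := by
    intro e
    have := congrArg (fun v : Eu 2 => v 0) e
    simp at this
  have hp := h.pos y _ h0
  refine ⟨(√(G y (ee 0) (ee 0)))⁻¹ • ee 0, ?_⟩
  rw [map_smul, map_smul, smul_apply, smul_eq_mul, smul_eq_mul, ← mul_assoc, ← mul_inv,
    Real.mul_self_sqrt hp.le, inv_mul_cancel₀ hp.ne']

theorem ss_symm (g : Geo2 G b Q V X ex) (x y : Eu 2) : ss b Q x y = ss b Q y x := by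
  unfold ss
  rw [g.symm x y]

theorem V_exp (h : Rm G) (g : Geo2 G b Q V X ex) {y e : Eu 2} (he : G y e e = 1) (x : Eu 2) :
    V x y = fderiv ℝ (Q x) y e • e + fderiv ℝ (Q x) y (rot G y e) • rot G y e := by
  have := h.rot_exp y e (V x y)
  rw [he, one_smul, h.symm y e, h.symm y (rot G y e), g.grad, g.grad] at this
  exact this

theorem a_sq (h : Rm G) (g : Geo2 G b Q V X ex) {y e : Eu 2} (he : G y e e = 1) (x : Eu 2) :
    fderiv ℝ (Q x) y e ^ 2 + fderiv ℝ (Q x) y (rot G y e) ^ 2 = ss b Q x y := by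
  have := h.rot_pyth y e (V x y)
  rw [he, one_mul, h.symm y e, h.symm y (rot G y e), g.grad x y e, g.grad x y (rot G y e),
    g.eik] at this
  exact this

theorem W_sq (h : Rm G) (g : Geo2 G b Q V X ex)
    (m1 : ∀ x y η, mx Q x y (V y x) η = cs b Q x y * fderiv ℝ (Q x) y η)
    (m2 : ∀ x y η, mx Q x y (rot G x (V y x)) (rot G y η) = be G b Q x y * fderiv ℝ (Q x) y η)
    (m5 : ContDiff ℝ 1 fun p : Eu 2 × Eu 2 => be G b Q p.1 p.2)
    {y e : Eu 2} (he : G y e e = 1) (x : Eu 2) :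
    G x (W V y e x) (W V y e x) + G x (W V y (rot G y e) x) (W V y (rot G y e) x) =
      cs b Q x y ^ 2 + be G b Q x y ^ 2 := by
  have c1 : ∀ η, Continuous fun x => G x (W V y η x) (W V y η x) := fun η =>
    (h.smooth.continuous.clm_apply (W_sm g y η).continuous).clm_apply (W_sm g y η).continuous
  have c2 : Continuous fun x => cs b Q x y ^ 2 + be G b Q x y ^ 2 :=
    ((continuous_const.add (continuous_const.mul (sm_y g.Qs y).continuous)).pow 2).add
      ((m5.continuous.comp (Continuous.prodMk_left y)).pow 2)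
  refine congrFun (Continuous.ext_on (dense_compl_singleton y) ((c1 e).add (c1 _)) c2 ?_) x
  intro x hx
  have hq : 0 < Q y x := g.pos y x hx
  have hs : 0 < ss b Q y x := by
    unfold ss
    positivity
  have p1 := h.rot_pyth x (V y x) (W V y e x)
  have p2 := h.rot_pyth x (V y x) (W V y (rot G y e) x)
  have q1 : mx Q x y (rot G x (V y x)) e = -(be G b Q x y * fderiv ℝ (Q x) y (rot G y e)) := by
    have := m2 x y (-rot G y e)
    rw [← neg_one_smul ℝ (rot G y e), rot_smul, h.rot_rot, neg_one_smul, neg_neg, map_smul,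
      smul_eq_mul] at this
    rw [this]
    ring
  rw [h.symm x (V y x) (W V y e x), h.symm x (rot G x (V y x)), G_W g, G_W g, m1, q1,
    g.eik] at p1
  rw [h.symm x (V y x) (W V y (rot G y e) x), h.symm x (rot G x (V y x)), G_W g, G_W g, m1, m2,
    g.eik] at p2
  have a := a_sq h g he x
  rw [ss_symm g] at a
  refine mul_left_cancel₀ hs.ne' ?_
  have e1 : ss b Q y x = 2 * Q y x + b ^ 2 * Q y x ^ 2 := rfl
  rw [← e1] at p1 p2
  simp only [Pi.add_apply]
  linear_combination (-1) * p1 - p2 + (cs b Q x y ^ 2 + be G b Q x y ^ 2) * a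

end LI1Aux

open LI1Aux in
theorem i1_pf (hm : MixStmt) : I1Stmt := by
  intro G b Q V X ex h g x y
  obtain ⟨m1, m2, -, -, m5, -, -⟩ := hm G b Q V X ex h g
  obtain ⟨e, he⟩ := unit h y
  have hw := (h.wt_pos x).ne'
  have dw : ∀ η x, DifferentiableAt ℝ (fun x' => wt G x' • W V y η x') x := fun η x =>
    (h.wt_smooth.smul (W_sm g y η)).differentiable (by simp) x
  have da : ∀ η x, DifferentiableAt ℝ (fun x' => fderiv ℝ (Q x') y η) x := fun η x =>
    (a_sm g y η).differentiable (by simp) x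
  have dq : DifferentiableAt ℝ (Q y) x := (sm_x g.Qs y).differentiable (by simp) x
  have dv : DifferentiableAt ℝ (fun x' => wt G x' • V y x') x :=
    (h.wt_smooth.smul (sm_x g.Vs y)).differentiable (by simp) x
  have ecs : (fun x' => cs b Q x' y) = fun x' => 1 + b ^ 2 * Q y x' :=
    funext fun x' => by rw [cs, g.symm x' y]
  have dc : HasFDerivAt (fun x' => cs b Q x' y) (b ^ 2 • fderiv ℝ (Q y) x) x := by
    rw [ecs]
    exact (dq.hasFDerivAt.const_mul (b ^ 2)).const_add 1
  have id1 : (fun x' => fderiv ℝ (Q x') y e • (wt G x' • W V y e x') +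
      fderiv ℝ (Q x') y (rot G y e) • (wt G x' • W V y (rot G y e) x')) =
      fun x' => cs b Q x' y • (wt G x' • V y x') := by
    funext x'
    have k : W V y (V x' y) x' = cs b Q x' y • V y x' := by
      refine nondeg h (x := x') fun ξ => ?_
      rw [G_W g, mx_symm g, m1, map_smul, smul_apply, smul_eq_mul, g.grad, cs, cs, g.symm x' y]
    have k2 : W V y (V x' y) x' = fderiv ℝ (Q x') y e • W V y e x' +
        fderiv ℝ (Q x') y (rot G y e) • W V y (rot G y e) x' := by
      unfold W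
      conv_lhs => rw [V_exp h g he x']
      rw [map_add, map_smul, map_smul]
    rw [smul_comm (cs b Q x' y), ← k, k2, smul_add, smul_comm (wt G x'), smul_comm (wt G x')]
  have id2 := congrArg (fun Y => dvg Y x) id1
  rw [dvg_add' ((da _ _).fun_smul (dw _ _)) ((da _ _).fun_smul (dw _ _)),
    B.dvg_smul (da _ _) (dw _ _), B.dvg_smul (da _ _) (dw _ _),
    B.dvg_smul dc.differentiableAt dv, dc.fderiv, map_smul, map_smul, map_smul, smul_apply,
    ← g.grad y x (V y x), g.eik] at id2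
  have n1 : ∀ η, fderiv ℝ (fun x' => fderiv ℝ (Q x') y η) x (W V y η x) =
      G x (W V y η x) (W V y η x) := fun η => (G_W g y η x _).symm
  rw [n1, n1] at id2
  have n2 := W_sq h g m1 m2 m5 he x
  have n3 : dvg (fun x' => wt G x' • V y x') x = wt G x * lap G V y x := by
    rw [lap, mul_div_cancel₀ _ hw]
  have n4 : cs b Q x y ^ 2 = 1 + b ^ 2 * (2 * Q y x + b ^ 2 * Q y x ^ 2) := by
    rw [cs, g.symm x y]
    ring
  rw [n3] at id2
  simp only [smul_eq_mul] at id2
  conv_lhs => rw [V_exp h g he x]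
  rw [map_add, map_smul, map_smul, fd_lap h g, fd_lap h g, smul_eq_mul, smul_eq_mul]
  field_simp
  linear_combination id2 - wt G x * n2 - wt G x * n4

end Vale.Agent.P219
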