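import Vale.Agent.P219.Lo

/-! The angular form is closed. -/

open scoped Manifold ContDiff ENNReal RealInnerProductSpace Topology
open MeasureTheory Set Filter

namespace Vale.Agent.P219

open Vale.Agent.P255 Vale.Agent.P234

namespace LI2Aux

theorem fd_fst {W : Type*} [NormedAddCommGroup W] [NormedSpace ℝ W] {g : Eu 2 × Eu 2 → W}
    {x y : Eu 2} (hg : DifferentiableAt ℝ g (x, y)) (ξ : Eu 2) :
    fderiv ℝ (fun x' => g (x', y)) x ξ = fderiv ℝ g (x, y) (ξ, 0) := by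
  have h := HasFDerivAt.comp (f := fun x' : Eu 2 => (x', y)) x hg.hasFDerivAt
    (hasFDerivAt_prodMk_left (𝕜 := ℝ) x y)
  rw [show (fun x' => g (x', y)) = g ∘ fun x' => (x', y) from rfl, h.fderiv]
  simp

theorem fd_snd {W : Type*} [NormedAddCommGroup W] [NormedSpace ℝ W] {g : Eu 2 × Eu 2 → W}
    {x y : Eu 2} (hg : DifferentiableAt ℝ g (x, y)) (η : Eu 2) :
    fderiv ℝ (fun y' => g (x, y')) y η = fderiv ℝ g (x, y) (0, η) := by
  have h := hg.hasFDerivAt.comp y (hasFDerivAt_prodMk_right x y)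
  rw [show (fun y' => g (x, y')) = g ∘ fun y' => (x, y') from rfl, h.fderiv]
  simp

theorem fd_app {E : Type*} [NormedAddCommGroup E] [NormedSpace ℝ E] {F : E → ℝ}
    (hF : ContDiff ℝ 2 F) (p u v : E) :
    fderiv ℝ (fun q => fderiv ℝ F q v) p u = fderiv ℝ (fderiv ℝ F) p u v := by
  have h1 : Differentiable ℝ (fderiv ℝ F) :=
    (hF.fderiv_right (m := 1) (by norm_num)).differentiable (by norm_num)
  rw [fderiv_clm_apply (h1 p) (differentiableAt_const v)]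
  simp

theorem fd_symm {E : Type*} [NormedAddCommGroup E] [NormedSpace ℝ E] {F : E → ℝ}
    (hF : ContDiff ℝ 2 F) (p u v : E) :
    fderiv ℝ (fun q => fderiv ℝ F q v) p u = fderiv ℝ (fun q => fderiv ℝ F q u) p v := by
  rw [fd_app hF, fd_app hF]
  exact (hF.contDiffAt.isSymmSndFDerivAt (by simp)) u v

theorem diff_app {E : Type*} [NormedAddCommGroup E] [NormedSpace ℝ E] {F : E → ℝ}
    (hF : ContDiff ℝ 2 F) (v : E) : Differentiable ℝ fun q => fderiv ℝ F q v :=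
  ((hF.fderiv_right (m := 1) (by norm_num)).clm_apply contDiff_const).differentiable (by norm_num)

theorem fd_wr {a0 a1 : Eu 2 → ℝ} (h0 : ContDiff ℝ 2 a0) (h1 : ContDiff ℝ 2 a1) (c : ℝ)
    (y v : Eu 2) :
    HasFDerivAt (fun y => c * (a0 y * fderiv ℝ a1 y v - a1 y * fderiv ℝ a0 y v))
      (c • ((a0 y • fderiv ℝ (fun q => fderiv ℝ a1 q v) y + fderiv ℝ a1 y v • fderiv ℝ a0 y) -
        (a1 y • fderiv ℝ (fun q => fderiv ℝ a0 q v) y + fderiv ℝ a0 y v • fderiv ℝ a1 y))) y := by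
  have d0 := (h0.differentiable (by norm_num) y).hasFDerivAt
  have d1 := (h1.differentiable (by norm_num) y).hasFDerivAt
  exact ((d0.mul (diff_app h1 v y).hasFDerivAt).sub
    (d1.mul (diff_app h0 v y).hasFDerivAt)).const_mul c

theorem dvg_two {P R : Eu 2 → ℝ} {y : Eu 2} (hP : DifferentiableAt ℝ P y)
    (hR : DifferentiableAt ℝ R y) :
    dvg (fun y => P y • (ee 0 : Eu 2) - R y • (ee 1 : Eu 2)) y =
      fderiv ℝ P y (ee 0) - fderiv ℝ R y (ee 1) := by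
  have h := (hP.hasFDerivAt.smul_const (ee 0 : Eu 2)).sub (hR.hasFDerivAt.smul_const (ee 1 : Eu 2))
  unfold dvg
  rw [show (fun y => P y • (ee 0 : Eu 2) - R y • (ee 1 : Eu 2)) =
    (fun y => P y • (ee 0 : Eu 2)) - fun y => R y • (ee 1 : Eu 2) from rfl, h.fderiv]
  simp [sub_eq_add_neg]

theorem dvg_wr {a0 a1 : Eu 2 → ℝ} (h0 : ContDiff ℝ 2 a0) (h1 : ContDiff ℝ 2 a1) (c : ℝ)
    (y : Eu 2) :
    dvg (fun y => (c * (a0 y * fderiv ℝ a1 y (ee 1) - a1 y * fderiv ℝ a0 y (ee 1))) • (ee 0 : Eu 2) -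
      (c * (a0 y * fderiv ℝ a1 y (ee 0) - a1 y * fderiv ℝ a0 y (ee 0))) • (ee 1 : Eu 2)) y =
      2 * c * (fderiv ℝ a0 y (ee 0) * fderiv ℝ a1 y (ee 1) -
        fderiv ℝ a0 y (ee 1) * fderiv ℝ a1 y (ee 0)) := by
  have e1 := fd_wr h0 h1 c y (ee 1)
  have e0 := fd_wr h0 h1 c y (ee 0)
  rw [dvg_two e1.differentiableAt e0.differentiableAt, e1.fderiv, e0.fderiv]
  simp only [smul_apply, sub_apply, add_apply, smul_eq_mul]
  rw [fd_symm h0 y (ee 0) (ee 1), fd_symm h1 y (ee 0) (ee 1)]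
  ring

end LI2Aux

open LI2Aux

theorem i2_pf (hm : MixStmt) : I2Stmt := by
  intro G b Q V X ex hG hg x y
  obtain ⟨-, h2, -⟩ := hm G b Q V X ex hG hg
  obtain ⟨F, hFd⟩ : ∃ F : Eu 2 × Eu 2 → ℝ, F = fun p => Q p.1 p.2 := ⟨_, rfl⟩
  have hF : ContDiff ℝ ∞ F := hFd ▸ hg.Qs
  have hF2 : ContDiff ℝ 2 F := hF.of_le (by norm_cast)
  have hFd1 : Differentiable ℝ F := hF2.differentiable (by norm_num)
  obtain ⟨a, ha⟩ : ∃ a : Fin 2 → Eu 2 → ℝ, a = fun i y => fderiv ℝ F (x, y) (ee i, 0) := ⟨_, rfl⟩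
  have hs : ∀ i, ContDiff ℝ 2 (a i) := fun i => by
    rw [ha]
    exact ((hF.fderiv_right (m := 2) (by norm_cast)).comp (contDiff_const.prodMk contDiff_id)).clm_apply
      contDiff_const
  have hQ1 : ∀ y', Q y' = fun x' => F (x', y') := fun y' => by
    funext x'; rw [hFd]; exact hg.symm _ _
  have hQ2 : ∀ x', Q x' = fun y' => F (x', y') := fun x' => by
    funext y'; rw [hFd]
  have hga : ∀ i y', G x (V y' x) (ee i) = a i y' := fun i y' => by
    rw [hg.grad, hQ1 y', fd_fst (hFd1 _), ha]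
  have hmx : ∀ i y' η, mx Q x y' (ee i) η = fderiv ℝ (a i) y' η := fun i y' η => by
    have e1 : (fun x' => fderiv ℝ (Q x') y' η) = fun x' => fderiv ℝ F (x', y') (0, η) := by
      funext x'; rw [hQ2 x', fd_snd (hFd1 _)]
    unfold mx
    rw [e1, fd_fst (g := fun p => fderiv ℝ F p (0, η)) (diff_app hF2 _ _), ha,
      fd_snd (g := fun p => fderiv ℝ F p (ee i, 0)) (diff_app hF2 _ _), fd_symm hF2]
  have hk : ∀ y' η, (wt G x)⁻¹ * (a 0 y' * fderiv ℝ (a 1) y' η - a 1 y' * fderiv ℝ (a 0) y' η) =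
      be G b Q x y' * (wt G y' * (η 1 * V x y' 0 - η 0 * V x y' 1)) := fun y' η => by
    have e := h2 x y' (rot G y' (-η))
    rw [hG.rot_rot, neg_neg, ← hg.grad, hG.symm y' (V x y'), hG.rot_left] at e
    have e' : mx Q x y' (rot G x (V y' x)) η = rot G x (V y' x) 0 * mx Q x y' (ee 0) η +
        rot G x (V y' x) 1 * mx Q x y' (ee 1) η := lin2 _ _
    rw [e', rot_zero, rot_one, hga, hga, hmx, hmx] at e
    simp only [PiLp.neg_apply] at e
    linarith
  have hY : (fun y' => wt G y' • (be G b Q x y' • V x y')) = fun y =>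
      ((wt G x)⁻¹ * (a 0 y * fderiv ℝ (a 1) y (ee 1) - a 1 y * fderiv ℝ (a 0) y (ee 1))) •
        (ee 0 : Eu 2) -
      ((wt G x)⁻¹ * (a 0 y * fderiv ℝ (a 1) y (ee 0) - a 1 y * fderiv ℝ (a 0) y (ee 0))) •
        (ee 1 : Eu 2) := by
    funext y'
    rw [hk, hk]
    ext i
    fin_cases i
    · simp; ring
    · simp; ring
  rw [hY, dvg_wr (hs 0) (hs 1)]
  have hq : 0 ≤ Q x y := by
    rcases eq_or_ne y x with h | h
    · rw [h, hg.zero]
    · exact (hg.pos x y h).le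
  have hc : cs b Q x y ≠ 0 := by
    unfold cs; positivity
  have hx := (hG.wt_pos x).ne'
  have hy := (hG.wt_pos y).ne'
  unfold be
  rw [hmx, hmx, hmx, hmx]
  field_simp

end Vale.Agent.P219
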