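import Vale.Agent.P219.LoTool

/-! The isoperimetric inequality in dimension two. -/

open scoped Manifold ContDiff ENNReal RealInnerProductSpace Topology
open MeasureTheory Set Filter

namespace Vale.Agent.P219

namespace LIsoTwoAux

variable {G : Met 2} {b : ℝ} {Q : Eu 2 → Eu 2 → ℝ} {V X : Eu 2 → Eu 2 → Eu 2}
  {ex : Eu 2 → Eu 2 ≃ₜ Eu 2} {Z : Eu 2 → Eu 2 → Eu 2 → Eu 2} {ψ h : Eu 2 → Eu 2 → ℝ}
  {Ω : Set (Eu 2)} {μ : Measure (Eu 2)} {N : Eu 2 → Eu 2}

theorem integ2 (hΩ : Bornology.IsBounded Ω) {f : Eu 2 × Eu 2 → ℝ} (hf : Continuous f) :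
    Integrable f ((volume.restrict Ω).prod (volume.restrict Ω)) := by
  rw [Measure.prod_restrict]
  exact (hf.continuousOn.integrableOn_compact
    (hΩ.isCompact_closure.prod hΩ.isCompact_closure)).mono_set
    (prod_mono subset_closure subset_closure)

theorem cont2 (hG : Rm G) {f : Eu 2 → Eu 2 → ℝ} (hf : Continuous fun p : Eu 2 × Eu 2 => f p.1 p.2) :
    Continuous fun p : Eu 2 × Eu 2 => wt G p.1 * (wt G p.2 * f p.1 p.2) :=
  (hG.wt_cont.comp continuous_fst).mul ((hG.wt_cont.comp continuous_snd).mul hf)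

theorem iter (hG : Rm G) (hΩ : Bornology.IsBounded Ω) (f : Eu 2 → Eu 2 → ℝ)
    (hf : Continuous fun p : Eu 2 × Eu 2 => f p.1 p.2) :
    ∫ x in Ω, wt G x * ∫ y in Ω, wt G y * f x y =
      ∫ p, wt G p.1 * (wt G p.2 * f p.1 p.2) ∂(volume.restrict Ω).prod (volume.restrict Ω) := by
  rw [integral_prod _ (integ2 hΩ (cont2 hG hf))]
  simp only [integral_const_mul]

theorem R_pos (hg : Geo G b Q V X ex) {ε : ℝ} (hε : 0 < ε) (x y : Eu 2) :
    0 < (Q x y + ε) * (2 + b ^ 2 * Q x y) := by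
  have := hg.Q_nonneg x y
  positivity

theorem R_cont (hg : Geo G b Q V X ex) (ε : ℝ) :
    Continuous fun p : Eu 2 × Eu 2 => (Q p.1 p.2 + ε) * (2 + b ^ 2 * Q p.1 p.2) :=
  (hg.contQ.add continuous_const).mul (continuous_const.add (continuous_const.mul hg.contQ))

theorem ss_cont (hg : Geo G b Q V X ex) : Continuous fun p : Eu 2 × Eu 2 => ss b Q p.1 p.2 :=
  (continuous_const.mul hg.contQ).add (continuous_const.mul (hg.contQ.pow 2))

theorem ss_nonneg (hg : Geo G b Q V X ex) (x y : Eu 2) : 0 ≤ ss b Q x y := by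
  have := hg.Q_nonneg x y
  unfold ss
  positivity

theorem g_le (hG : Rm G) (hg : Geo G b Q V X ex) (hT : Two G b Q V Z ψ h) (hB : Bd G Ω μ N)
    (x y : Eu 2) : G x (N x) (Z y (N y) x) ≤ ss b Q x y := by
  have h1 := hG.cs x (N x) (Z y (N y) x)
  rw [hT.Znorm, hB.unit, hB.unit, one_mul, one_mul] at h1
  exact (le_abs_self _).trans (abs_le_of_sq_le_sq' h1 (ss_nonneg hg x y) |> abs_le.mpr)

/-- integrability of the boundary terms -/
theorem integB (hG : Rm G) (hg : Geo G b Q V X ex) (hT : Two G b Q V Z ψ h) (hB : Bd G Ω μ N)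
    (hΩ : Bornology.IsBounded Ω) {ε : ℝ} (hε : 0 < ε) (c : ℝ) :
    Integrable (fun p : Eu 2 × Eu 2 => (c * ss b Q p.2 p.1 - G p.2 (N p.2) (Z p.1 (N p.1) p.2)) /
      ((Q p.2 p.1 + ε) * (2 + b ^ 2 * Q p.2 p.1))) (μ.prod μ) := by
  haveI := hB.fin
  obtain ⟨C, hC⟩ := hB.bddN hG hΩ.isCompact_closure
  have s : Continuous fun q : (Eu 2 × Eu 2) × Eu 2 × Eu 2 => (q.2.1, q.1.1) := by fun_prop
  have s' : Continuous fun q : (Eu 2 × Eu 2) × Eu 2 × Eu 2 => (q.1.1, q.1.2, q.2.1) := by fun_prop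
  have c1 : Continuous fun q : (Eu 2 × Eu 2) × Eu 2 × Eu 2 =>
      G q.2.1 q.2.2 (Z q.1.1 q.1.2 q.2.1) :=
    ((hG.smooth.continuous.comp (continuous_fst.comp continuous_snd)).clm_apply
      (continuous_snd.comp continuous_snd)).clm_apply (hT.Zc.comp s')
  exact hB.integ_prod hG hΩ hΩ.isCompact_closure hB.ae_closure hB.meas hC
    (Φ := fun q => (c * ss b Q q.2.1 q.1.1 - G q.2.1 q.2.2 (Z q.1.1 q.1.2 q.2.1)) /
      ((Q q.2.1 q.1.1 + ε) * (2 + b ^ 2 * Q q.2.1 q.1.1)))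
    (((continuous_const.mul ((ss_cont hg).comp s)).sub c1).div ((R_cont hg ε).comp s)
      fun q => (R_pos hg hε _ _).ne')

theorem lhs (hG : Rm G) (hg : Geo G b Q V X ex) (hT : Two G b Q V Z ψ h) (hB : Bd G Ω μ N)
    (hΩ : Bornology.IsBounded Ω) {ε : ℝ} (hε : 0 < ε) (hε1 : ε ≤ 1) :
    ∫ y, ∫ x, G x (N x) (Z y (N y) x) / ((Q x y + ε) * (2 + b ^ 2 * Q x y)) ∂μ ∂μ ≤
      μ.real univ ^ 2 - ∫ p, (1 * ss b Q p.2 p.1 - G p.2 (N p.2) (Z p.1 (N p.1) p.2)) /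
        ((Q p.2 p.1 + 1) * (2 + b ^ 2 * Q p.2 p.1)) ∂μ.prod μ := by
  haveI := hB.fin
  have i0 : Integrable (fun p : Eu 2 × Eu 2 => G p.2 (N p.2) (Z p.1 (N p.1) p.2) /
      ((Q p.2 p.1 + ε) * (2 + b ^ 2 * Q p.2 p.1))) (μ.prod μ) := by
    refine (integB hG hg hT hB hΩ hε 0).neg.congr (Eventually.of_forall fun p => ?_)
    simp only [Pi.neg_apply]
    ring
  have i1 := integB hG hg hT hB hΩ one_pos 1
  have e1 : μ.real univ ^ 2 = ∫ _ : Eu 2 × Eu 2, (1 : ℝ) ∂μ.prod μ := by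
    have := integral_prod_mul (μ := μ) (ν := μ) (fun _ => (1 : ℝ)) (fun _ => (1 : ℝ))
    simp only [mul_one, integral_const, smul_eq_mul] at this ⊢
    rw [this, sq]
  rw [← integral_prod _ i0, e1, ← integral_sub (integrable_const _) i1]
  refine integral_mono i0 ((integrable_const _).sub i1) fun p => ?_
  have a1 := g_le hG hg hT hB p.2 p.1
  have a2 := hg.Q_nonneg p.2 p.1
  have a3 := R_pos hg hε p.2 p.1
  have a4 : (1 * ss b Q p.2 p.1 - G p.2 (N p.2) (Z p.1 (N p.1) p.2)) /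
      ((Q p.2 p.1 + 1) * (2 + b ^ 2 * Q p.2 p.1)) ≤
      (1 * ss b Q p.2 p.1 - G p.2 (N p.2) (Z p.1 (N p.1) p.2)) /
      ((Q p.2 p.1 + ε) * (2 + b ^ 2 * Q p.2 p.1)) :=
    div_le_div_of_nonneg_left (by linarith) a3
      (mul_le_mul_of_nonneg_right (by linarith) (by positivity))
  have a5 : ss b Q p.2 p.1 / ((Q p.2 p.1 + ε) * (2 + b ^ 2 * Q p.2 p.1)) ≤ 1 := by
    rw [div_le_one a3]
    unfold ss
    have : 0 ≤ ε * (2 + b ^ 2 * Q p.2 p.1) := by positivity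
    nlinarith
  rw [one_mul] at a4 ⊢
  rw [sub_div _ _ ((Q p.2 p.1 + ε) * (2 + b ^ 2 * Q p.2 p.1))] at a4
  beta_reduce
  linarith

theorem err (hG : Rm G) (hg : Geo G b Q V X ex) (hB : Bd G Ω μ N)
    (hΩ : Bornology.IsBounded Ω) {ε η : ℝ} (hε : 0 < ε)
    (H : ∀ y ∈ closure Ω,
      ∫ x in closure Ω, wt G x * (√(ss b Q x y) * (ε / (Q x y + ε) ^ 2)) ≤ η) :
    -(η * μ.real univ) ≤
      ∫ y, (∫ x in Ω, wt G x * (fderiv ℝ (Q x) y (N y) * (ε / (Q x y + ε) ^ 2))) ∂μ := by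
  haveI := hB.fin
  refine neg_le_of_abs_le ?_
  rw [← Real.norm_eq_abs]
  refine norm_integral_le_of_norm_le_const (hB.ae_closure.mono fun y hy => ?_)
  have s : Continuous fun x : Eu 2 => (x, y) := by fun_prop
  have hpos : ∀ x, 0 < (Q x y + ε) ^ 2 := fun x => by
    have := hg.Q_nonneg x y
    positivity
  have c1 : Continuous fun x => wt G x * (√(ss b Q x y) * (ε / (Q x y + ε) ^ 2)) :=
    hG.wt_cont.mul (((ss_cont hg).comp s).sqrt.mul (continuous_const.div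
      (((hg.contQ.comp s).add continuous_const).pow 2) fun x => (hpos x).ne'))
  have i1 : IntegrableOn (fun x => wt G x * (√(ss b Q x y) * (ε / (Q x y + ε) ^ 2)))
      (closure Ω) := c1.continuousOn.integrableOn_compact hΩ.isCompact_closure
  refine le_trans (norm_integral_le_of_norm_le (i1.mono_set subset_closure)
    (Eventually.of_forall fun x => ?_)) (le_trans (setIntegral_mono_set i1
      (Eventually.of_forall fun x => ?_) (HasSubset.Subset.eventuallyLE subset_closure)) (H y hy))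
  · have a1 := hg.dQ_sq_le hG x y (N y)
    rw [hB.unit, mul_one] at a1
    have a2 : |fderiv ℝ (Q x) y (N y)| ≤ √(ss b Q x y) := Real.abs_le_sqrt a1
    have a3 := (hG.wt_pos x).le
    have a4 : 0 ≤ ε / (Q x y + ε) ^ 2 := div_nonneg hε.le (hpos x).le
    rw [Real.norm_eq_abs, abs_mul, abs_mul, abs_of_nonneg a3, abs_of_nonneg a4]
    exact mul_le_mul_of_nonneg_left (mul_le_mul_of_nonneg_right a2 a4) a3
  · exact mul_nonneg (hG.wt_pos x).le
      (mul_nonneg (Real.sqrt_nonneg _) (div_nonneg hε.le (hpos x).le))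

theorem qq_cont (hg : Geo G b Q V X ex) {ε : ℝ} (hε : 0 < ε) :
    Continuous fun p : Eu 2 × Eu 2 => Q p.1 p.2 / (Q p.1 p.2 + ε) :=
  hg.contQ.div (hg.contQ.add continuous_const) fun p => by
    have := hg.Q_nonneg p.1 p.2
    positivity

theorem lim (hG : Rm G) (hg : Geo G b Q V X ex) (hΩ : Bornology.IsBounded Ω) :
    Tendsto (fun ε : ℝ => ∫ p, wt G p.1 * (wt G p.2 * (Q p.1 p.2 / (Q p.1 p.2 + ε)))
      ∂(volume.restrict Ω).prod (volume.restrict Ω)) (𝓝[>] 0) (𝓝 (vol G Ω ^ 2)) := by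
  have e1 : vol G Ω ^ 2 =
      ∫ p, wt G p.1 * wt G p.2 ∂(volume.restrict Ω).prod (volume.restrict Ω) := by
    rw [integral_prod_mul, sq]
    rfl
  rw [e1]
  refine tendsto_integral_filter_of_dominated_convergence (fun p => wt G p.1 * wt G p.2) ?_ ?_
    (integ2 hΩ ((hG.wt_cont.comp continuous_fst).mul (hG.wt_cont.comp continuous_snd))) ?_
  · filter_upwards [self_mem_nhdsWithin] with ε hε
    exact (cont2 hG (f := fun x y => Q x y / (Q x y + ε)) (qq_cont hg hε)).aestronglyMeasurable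
  · filter_upwards [self_mem_nhdsWithin] with ε hε
    refine Eventually.of_forall fun p => ?_
    have a0 : (0 : ℝ) < ε := hε
    have a1 := hG.wt_pos p.1
    have a2 := hG.wt_pos p.2
    have a3 := hg.Q_nonneg p.1 p.2
    have a4 : Q p.1 p.2 / (Q p.1 p.2 + ε) ≤ 1 := by
      rw [div_le_one (by positivity)]
      linarith
    rw [Real.norm_eq_abs, abs_of_nonneg (by positivity)]
    exact mul_le_mul_of_nonneg_left (mul_le_of_le_one_right a2.le a4) a1.le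
  · have hd : ∀ᵐ p : Eu 2 × Eu 2 ∂(volume.restrict Ω).prod (volume.restrict Ω), p.2 ≠ p.1 := by
      refine (Measure.ae_prod_iff_ae_ae ?_).2 (Eventually.of_forall fun x => ?_)
      · exact (isClosed_eq continuous_snd continuous_fst).isOpen_compl.measurableSet
      · exact ae_restrict_of_ae (compl_mem_ae_iff.2 (measure_singleton x))
    filter_upwards [hd] with p hp
    have a1 := hg.pos p.1 p.2 hp
    have c : ContinuousAt (fun ε : ℝ => wt G p.1 * (wt G p.2 * (Q p.1 p.2 / (Q p.1 p.2 + ε)))) 0 :=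
      continuousAt_const.mul (continuousAt_const.mul (continuousAt_const.div
        (continuousAt_const.add continuousAt_id) (by simpa using a1.ne')))
    have := c.tendsto.mono_left (nhdsWithin_le_nhds (s := Ioi (0 : ℝ)))
    simpa [a1.ne'] using this

theorem hR_cont (hg : Geo G b Q V X ex) (hT : Two G b Q V Z ψ h) :
    Continuous fun p : Eu 2 × Eu 2 => h p.1 p.2 / ((Q p.1 p.2 + 1) * (2 + b ^ 2 * Q p.1 p.2)) :=
  hT.hc.div (R_cont hg 1) fun p => (R_pos hg one_pos p.1 p.2).ne'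

theorem rhs (hG : Rm G) (hg : Geo G b Q V X ex) (hT : Two G b Q V Z ψ h)
    (hΩ : Bornology.IsBounded Ω) {ε : ℝ} (hε : 0 < ε) (hε1 : ε ≤ 1) :
    b ^ 2 * (∫ p, wt G p.1 * (wt G p.2 * (Q p.1 p.2 / (Q p.1 p.2 + ε)))
        ∂(volume.restrict Ω).prod (volume.restrict Ω)) +
      (∫ p, wt G p.1 * (wt G p.2 * (h p.1 p.2 / ((Q p.1 p.2 + 1) * (2 + b ^ 2 * Q p.1 p.2))))
        ∂(volume.restrict Ω).prod (volume.restrict Ω)) +
      (∫ x in Ω, wt G x * ∫ y in Ω, wt G y * (ψ x y * (ε / (Q x y + ε) ^ 2))) ≤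
    ∫ x in Ω, wt G x * ∫ y in Ω, wt G y * ((b ^ 2 * ss b Q x y + h x y) /
      ((Q x y + ε) * (2 + b ^ 2 * Q x y)) + ψ x y * (ε / (Q x y + ε) ^ 2)) := by
  have c1 : Continuous fun p : Eu 2 × Eu 2 => ψ p.1 p.2 * (ε / (Q p.1 p.2 + ε) ^ 2) :=
    hT.psm.continuous.mul (continuous_const.div ((hg.contQ.add continuous_const).pow 2) fun p => by
      have := hg.Q_nonneg p.1 p.2
      positivity)
  have c2 : Continuous fun p : Eu 2 × Eu 2 => (b ^ 2 * ss b Q p.1 p.2 + h p.1 p.2) /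
      ((Q p.1 p.2 + ε) * (2 + b ^ 2 * Q p.1 p.2)) + ψ p.1 p.2 * (ε / (Q p.1 p.2 + ε) ^ 2) :=
    (((continuous_const.mul (ss_cont hg)).add hT.hc).div (R_cont hg ε)
      fun p => (R_pos hg hε p.1 p.2).ne').add c1
  have i1 := (integ2 hΩ (cont2 hG (f := fun x y => Q x y / (Q x y + ε)) (qq_cont hg hε))).const_mul
    (b ^ 2)
  have i2 := integ2 hΩ (cont2 hG (f := fun x y => h x y / ((Q x y + 1) * (2 + b ^ 2 * Q x y)))
    (hR_cont hg hT))
  have i3 := integ2 hΩ (cont2 hG (f := fun x y => ψ x y * (ε / (Q x y + ε) ^ 2)) c1)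
  have i4 := integ2 hΩ (cont2 hG (f := fun x y => (b ^ 2 * ss b Q x y + h x y) /
      ((Q x y + ε) * (2 + b ^ 2 * Q x y)) + ψ x y * (ε / (Q x y + ε) ^ 2)) c2)
  rw [iter hG hΩ _ c1, iter hG hΩ _ c2, ← integral_const_mul, ← integral_add' i1 i2,
    ← integral_add' (i1.add i2) i3]
  refine integral_mono ((i1.add i2).add i3) i4 fun p => ?_
  have a1 := hG.wt_pos p.1
  have a2 := hG.wt_pos p.2
  have a3 := hg.Q_nonneg p.1 p.2
  have a4 : h p.1 p.2 / ((Q p.1 p.2 + 1) * (2 + b ^ 2 * Q p.1 p.2)) ≤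
      h p.1 p.2 / ((Q p.1 p.2 + ε) * (2 + b ^ 2 * Q p.1 p.2)) :=
    div_le_div_of_nonneg_left (hT.h0 _ _) (R_pos hg hε _ _)
      (mul_le_mul_of_nonneg_right (by linarith) (by positivity))
  have a5 : (b ^ 2 * ss b Q p.1 p.2 + h p.1 p.2) / ((Q p.1 p.2 + ε) * (2 + b ^ 2 * Q p.1 p.2)) =
      b ^ 2 * (Q p.1 p.2 / (Q p.1 p.2 + ε)) +
        h p.1 p.2 / ((Q p.1 p.2 + ε) * (2 + b ^ 2 * Q p.1 p.2)) := by
    have b1 : Q p.1 p.2 + ε ≠ 0 := by positivity
    have b2 : 2 + b ^ 2 * Q p.1 p.2 ≠ 0 := by positivity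
    unfold ss
    field_simp
  have a6 := mul_le_mul_of_nonneg_left a4 (mul_pos a1 a2).le
  simp only [Pi.add_apply]
  rw [a5]
  linarith

end LIsoTwoAux

open LIsoTwoAux in
theorem isoTwo_pf (hd : DblStmt) (he : ErrStmt) (hδ : DeltaStmt) : IsoTwoStmt := by
  intro G b Q V X ex Z ψ h Ω μ N hG hg hT hm hΩ hB
  haveI := hB.fin
  have hg' := hg.toGeo
  have iA := integB hG hg' hT hB hΩ one_pos 1
  have iB := integ2 hΩ (cont2 hG (f := fun x y => h x y / ((Q x y + 1) * (2 + b ^ 2 * Q x y)))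
    (hR_cont hg' hT))
  have pA : ∀ p : Eu 2 × Eu 2, 0 ≤ (1 * ss b Q p.2 p.1 - G p.2 (N p.2) (Z p.1 (N p.1) p.2)) /
      ((Q p.2 p.1 + 1) * (2 + b ^ 2 * Q p.2 p.1)) := fun p =>
    div_nonneg (by linarith [g_le hG hg' hT hB p.2 p.1]) (R_pos hg' one_pos _ _).le
  have pB : ∀ p : Eu 2 × Eu 2,
      0 ≤ wt G p.1 * (wt G p.2 * (h p.1 p.2 / ((Q p.1 p.2 + 1) * (2 + b ^ 2 * Q p.1 p.2)))) :=
    fun p => mul_nonneg (hG.wt_pos _).le (mul_nonneg (hG.wt_pos _).le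
      (div_nonneg (hT.h0 _ _) (R_pos hg' one_pos _ _).le))
  have eA := integral_eq_zero_iff_of_nonneg pA iA
  have eB := integral_eq_zero_iff_of_nonneg pB iB
  have nA := integral_nonneg_of_ae (μ := μ.prod μ) (Eventually.of_forall pA)
  have nB := integral_nonneg_of_ae (μ := (volume.restrict Ω).prod (volume.restrict Ω))
    (Eventually.of_forall pB)
  have hL := fun ε (h0 : 0 < ε) (h1 : ε ≤ 1) => lhs hG hg' hT hB hΩ h0 h1
  have hR := fun ε (h0 : 0 < ε) (h1 : ε ≤ 1) => rhs hG hg' hT hΩ h0 h1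
  generalize (∫ p, (1 * ss b Q p.2 p.1 - G p.2 (N p.2) (Z p.1 (N p.1) p.2)) /
    ((Q p.2 p.1 + 1) * (2 + b ^ 2 * Q p.2 p.1)) ∂μ.prod μ) = A at eA nA hL
  generalize (∫ p, wt G p.1 * (wt G p.2 * (h p.1 p.2 / ((Q p.1 p.2 + 1) * (2 + b ^ 2 * Q p.1 p.2))))
    ∂(volume.restrict Ω).prod (volume.restrict Ω)) = B at eB nB hR
  have hM : 0 ≤ μ.real univ := measureReal_nonneg
  have key : A + B + 4 * Real.pi * vol G Ω + b ^ 2 * vol G Ω ^ 2 ≤ μ.real univ ^ 2 := by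
    refine le_of_forall_pos_le_add fun θ hθ => ?_
    obtain ⟨η, hη, hηθ⟩ : ∃ η > 0, η * (1 + μ.real univ + b ^ 2) = θ :=
      ⟨θ / (1 + μ.real univ + b ^ 2), by positivity, div_mul_cancel₀ _ (by positivity)⟩
    have ev1 := he G b Q V X ex _ hG hg hΩ.isCompact_closure η hη
    have ev2 := hδ G b Q V X ex ψ Ω hG hg hT.psm.continuous hT.p0 hT.pd hm hΩ η hη
    have ev3 := (lim hG hg' hΩ).eventually (lt_mem_nhds (sub_lt_self (vol G Ω ^ 2) hη))
    have ev4 : ∀ᶠ ε : ℝ in 𝓝[>] 0, ε ∈ Ioc (0 : ℝ) 1 := Ioc_mem_nhdsGT one_pos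
    obtain ⟨ε, h1, h2, h3, h4⟩ := (ev1.and (ev2.and (ev3.and ev4))).exists
    have k1 := hL ε h4.1 h4.2
    have k2 := hR ε h4.1 h4.2
    have k3 := err hG hg' hB hΩ h4.1 h1
    have k4 := hd G b Q V X ex Z ψ h Ω μ N hG hg hT hm hΩ hB ε h4.1
    have k5 := mul_le_mul_of_nonneg_left h3.le (sq_nonneg b)
    linarith
  refine ⟨by linarith, fun hle => ⟨?_, ?_⟩⟩
  · have := Measure.ae_ae_of_ae_prod (eA.1 (by linarith))
    refine this.mono fun y hy => hy.mono fun x hx => ?_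
    have a1 := R_pos hg' one_pos x y
    simp only [Pi.zero_apply, div_eq_zero_iff, a1.ne', or_false] at hx
    linarith
  · have := Measure.ae_ae_of_ae_prod (eB.1 (by linarith))
    refine this.mono fun x hx => hx.mono fun y hy => ?_
    have a1 := R_pos hg' one_pos x y
    simpa only [Pi.zero_apply, mul_eq_zero, div_eq_zero_iff, a1.ne', (hG.wt_pos x).ne',
      (hG.wt_pos y).ne', or_false, false_or] using hy

end Vale.Agent.P219
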