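import Vale.Agent.P219.Lo
import Vale.Agent.P219.Frame

/-! Properties of the mixed second derivative of `Q` in dimension two. -/

open scoped ContDiff RealInnerProductSpace Topology
open Set Filter

namespace Vale.Agent.P219

namespace LMixAux

section Gen

variable {E F : Type} [NormedAddCommGroup E] [NormedSpace ℝ E] [NormedAddCommGroup F]
  [NormedSpace ℝ F]

theorem hd1 {f : E × E → F} (hf : Differentiable ℝ f) (x y : E) :
    HasFDerivAt (fun x' => f (x', y))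
      ((fderiv ℝ f (x, y)).comp (ContinuousLinearMap.inl ℝ E E)) x :=
  (hf (x, y)).hasFDerivAt.comp x (hasFDerivAt_prodMk_left x y)

theorem hd2 {f : E × E → F} (hf : Differentiable ℝ f) (x y : E) :
    HasFDerivAt (fun y' => f (x, y'))
      ((fderiv ℝ f (x, y)).comp (ContinuousLinearMap.inr ℝ E E)) y :=
  (hf (x, y)).hasFDerivAt.comp y (hasFDerivAt_prodMk_right x y)

theorem d1 {f : E × E → F} (hf : Differentiable ℝ f) (x y ξ : E) :
    fderiv ℝ (fun x' => f (x', y)) x ξ = fderiv ℝ f (x, y) (ξ, 0) := by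
  rw [(hd1 hf x y).fderiv]; rfl

theorem d2 {f : E × E → F} (hf : Differentiable ℝ f) (x y η : E) :
    fderiv ℝ (fun y' => f (x, y')) y η = fderiv ℝ f (x, y) (0, η) := by
  rw [(hd2 hf x y).fderiv]; rfl

theorem dapp {f : E → (E × E) →L[ℝ] F} {x : E} (hf : DifferentiableAt ℝ f x) (v : E × E) (ξ : E) :
    fderiv ℝ (fun x' => f x' v) x ξ = fderiv ℝ f x ξ v := by
  rw [fderiv_clm_apply hf (differentiableAt_const v)]
  simp

end Gen

variable {G : Met 2} {b : ℝ} {Q : Eu 2 → Eu 2 → ℝ} {V X : Eu 2 → Eu 2 → Eu 2}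
  {ex : Eu 2 → Eu 2 ≃ₜ Eu 2}

/-- The second derivative of the joint function. -/
noncomputable def D2 (Q : Eu 2 → Eu 2 → ℝ) :
    Eu 2 × Eu 2 → (Eu 2 × Eu 2) →L[ℝ] (Eu 2 × Eu 2) →L[ℝ] ℝ :=
  fderiv ℝ (fderiv ℝ fun p : Eu 2 × Eu 2 => Q p.1 p.2)

theorem sm1 (h : Geo2 G b Q V X ex) :
    ContDiff ℝ 2 (fderiv ℝ fun p : Eu 2 × Eu 2 => Q p.1 p.2) :=
  (contDiff_infty.1 h.Qs 3).fderiv_right (by norm_num)

theorem sm2 (h : Geo2 G b Q V X ex) : ContDiff ℝ 1 (D2 Q) :=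
  (sm1 h).fderiv_right (by norm_num)

theorem dQ (h : Geo2 G b Q V X ex) : Differentiable ℝ fun p : Eu 2 × Eu 2 => Q p.1 p.2 :=
  h.Qs.differentiable (by simp)

theorem dV (h : Geo2 G b Q V X ex) : Differentiable ℝ fun p : Eu 2 × Eu 2 => V p.1 p.2 :=
  h.Vs.differentiable (by simp)

theorem mx_eq (h : Geo2 G b Q V X ex) (x y ξ η : Eu 2) :
    mx Q x y ξ η = D2 Q (x, y) (ξ, 0) (0, η) := by
  have h1 := (sm1 h).differentiable (by simp)
  have h2 : (fun x' => fderiv ℝ (Q x') y η) =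
      fun x' => fderiv ℝ (fun p : Eu 2 × Eu 2 => Q p.1 p.2) (x', y) (0, η) :=
    funext fun x' => d2 (dQ h) x' y η
  rw [mx, h2, dapp (hd1 h1 x y).differentiableAt, d1 h1]
  rfl

theorem mx_symm (h : Geo2 G b Q V X ex) (x y ξ η : Eu 2) : mx Q y x η ξ = mx Q x y ξ η := by
  have h1 := (sm1 h).differentiable (by simp)
  have h2 : (fun y' => fderiv ℝ (Q y') x ξ) =
      fun y' => fderiv ℝ (fun p : Eu 2 × Eu 2 => Q p.1 p.2) (x, y') (ξ, 0) := by
    funext y'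
    rw [← d1 (dQ h) x y' ξ, show Q y' = fun x' => Q x' y' from funext fun x' => h.symm y' x']
  rw [mx_eq h x, mx, h2, dapp (hd2 h1 x y).differentiableAt, d2 h1]
  exact (h.Qsm.contDiffAt.isSymmSndFDerivAt (by simp)).eq _ _

/-- The mixed derivative as a bilinear form. -/
theorem mx_bil (h : Geo2 G b Q V X ex) (x y : Eu 2) :
    ∃ B : Eu 2 →L[ℝ] Eu 2 →L[ℝ] ℝ, ∀ ξ η, mx Q x y ξ η = B ξ η :=
  ⟨(D2 Q (x, y)).bilinearComp (ContinuousLinearMap.inl ℝ _ _) (ContinuousLinearMap.inr ℝ _ _),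
    fun ξ η => mx_eq h x y ξ η⟩

theorem mx_V (h : Geo2 G b Q V X ex) (x y ξ η : Eu 2) :
    mx Q x y ξ η = G x (fderiv ℝ (fun y' => V y' x) y η) ξ := by
  have h1 : DifferentiableAt ℝ (fun y' => V y' x) y := (hd1 (dV h) y x).differentiableAt
  have h2 : (fun y' => fderiv ℝ (Q y') x ξ) = fun y' => (G x).flip ξ (V y' x) :=
    funext fun y' => (h.grad y' x ξ).symm
  rw [← mx_symm h, mx, h2]
  exact congrArg (fun L : Eu 2 →L[ℝ] ℝ => L η)
    (((G x).flip ξ).hasFDerivAt.comp y h1.hasFDerivAt).fderiv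

theorem Q_nonneg (h : Geo2 G b Q V X ex) (x y : Eu 2) : 0 ≤ Q x y := by
  by_cases hxy : y = x
  · rw [hxy, h.zero]
  · exact (h.pos x y hxy).le

theorem cs_pos (h : Geo2 G b Q V X ex) (x y : Eu 2) : 0 < cs b Q x y := by
  have := Q_nonneg h x y
  unfold cs
  positivity

theorem ss_pos (h : Geo2 G b Q V X ex) {x y : Eu 2} (hxy : y ≠ x) : 0 < ss b Q x y := by
  have := h.pos x y hxy
  unfold ss
  positivity

theorem V_diag (hG : Rm G) (h : Geo2 G b Q V X ex) (x : Eu 2) : V x x = 0 := by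
  by_contra hc
  have h1 := hG.pos x _ hc
  rw [h.eik, h.zero] at h1
  simp at h1

theorem p1 (hG : Rm G) (h : Geo2 G b Q V X ex) (x y η : Eu 2) :
    mx Q x y (V y x) η = cs b Q x y * fderiv ℝ (Q x) y η := by
  have h1 := (hd1 (dV h) y x).differentiableAt.hasFDerivAt
  have h2 := (hd2 (dQ h) x y).differentiableAt.hasFDerivAt
  have h3 := ((G x).hasFDerivAt.comp y h1).clm_apply h1
  have h4 := (h2.const_mul 2).add ((h2.pow 2).const_mul (b ^ 2))
  have h5 : (fun y' => G x (V y' x) (V y' x)) = fun y' => 2 * Q x y' + b ^ 2 * Q x y' ^ 2 :=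
    funext fun y' => by rw [h.eik, h.symm y' x]
  have h6 := congrArg (fun L : Eu 2 →L[ℝ] ℝ => L η) ((h5 ▸ h3).unique h4)
  rw [mx_V h, cs]
  simp only [add_apply, ContinuousLinearMap.comp_apply, ContinuousLinearMap.flip_apply,
    Function.comp, smul_apply, smul_eq_mul, nsmul_eq_mul] at h6
  rw [hG.symm x (V y x)] at h6
  norm_num at h6
  linarith

theorem det2 (B : Eu 2 →L[ℝ] Eu 2 →L[ℝ] ℝ) (a a' c c' : Eu 2) :
    B a c * B a' c' - B a c' * B a' c =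
      (B (ee 0) (ee 0) * B (ee 1) (ee 1) - B (ee 0) (ee 1) * B (ee 1) (ee 0)) *
        ((a 0 * a' 1 - a 1 * a' 0) * (c 0 * c' 1 - c 1 * c' 0)) := by
  rw [bil2 B a c, bil2 B a' c', bil2 B a c', bil2 B a' c]
  ring

theorem p2 (hG : Rm G) (h : Geo2 G b Q V X ex) (x y η : Eu 2) :
    mx Q x y (rot G x (V y x)) (rot G y η) = be G b Q x y * fderiv ℝ (Q x) y η := by
  obtain ⟨B, hB⟩ := mx_bil h x y
  by_cases hxy : y = x
  · subst hxy
    rw [← h.grad, V_diag hG h, hB]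
    simp [rot]
  have h1 := det2 B (V y x) (rot G x (V y x)) (V x y) (rot G y η)
  have h2 : B (V y x) (V x y) = cs b Q x y * ss b Q x y := by
    rw [← hB, p1 hG h, ← h.grad, h.eik, ss]
  have h3 : B (rot G x (V y x)) (V x y) = 0 := by
    rw [← hB, ← mx_symm h, p1 hG h, ← h.grad, hG.symm, hG.rot_self, mul_zero]
  have h4 := hG.rot_left x (V y x) (rot G x (V y x))
  rw [hG.rot_iso, h.eik, h.symm y x, ← ss] at h4
  have h5 := hG.rot_left y (V x y) (rot G y η)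
  rw [hG.rot_iso, h.grad] at h5
  have hx := (hG.wt_pos x).ne'
  have hy := (hG.wt_pos y).ne'
  have hc := (cs_pos h x y).ne'
  have hs := (ss_pos h hxy).ne'
  have h6 : V y x 0 * rot G x (V y x) 1 - V y x 1 * rot G x (V y x) 0 = ss b Q x y / wt G x := by
    rw [h4]; field_simp
  have h7 : V x y 0 * rot G y η 1 - V x y 1 * rot G y η 0 = fderiv ℝ (Q x) y η / wt G y := by
    rw [h5]; field_simp
  rw [h2, h3, mul_zero, sub_zero, h6, h7] at h1
  rw [be, hB, hB, hB, hB, hB]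
  refine mul_left_cancel₀ (mul_ne_zero hc hs) (h1.trans ?_)
  field_simp

theorem mx_sq (h : Geo2 G b Q V X ex) (x y ξ η : Eu 2) :
    mx Q x y ξ η ^ 2 ≤ (G x ξ ξ + b ^ 2 * fderiv ℝ (Q y) x ξ ^ 2) * G y η η := by
  obtain ⟨u, hu, h1⟩ := h.Xiso y η
  have h2 : (fun x' => fderiv ℝ (Q x') y η) = fun x' => innerSL ℝ u (X y x') :=
    funext fun x' => (h1 x').trans (real_inner_comm _ _)
  have h3 : mx Q x y ξ η = ⟪u, fderiv ℝ (X y) x ξ⟫ := by
    rw [mx, h2]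
    exact congrArg (fun L : Eu 2 →L[ℝ] ℝ => L ξ) ((innerSL ℝ u).hasFDerivAt.comp x
      ((h.Xsm y).differentiable one_ne_zero x).hasFDerivAt).fderiv
  rw [h3, ← hu, ← sq_abs]
  refine (pow_le_pow_left₀ (abs_nonneg _) (abs_real_inner_le_norm _ _) 2).trans ?_
  rw [mul_pow, mul_comm]
  exact mul_le_mul_of_nonneg_right (h.Xcon y x ξ) (sq_nonneg _)

theorem mx_diag (hG : Rm G) (h : Geo2 G b Q V X ex) (x ξ : Eu 2) : mx Q x x ξ ξ = -G x ξ ξ := by
  have h1 := mx_sq h x x ξ ξ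
  rw [← h.grad, V_diag hG h] at h1
  have h2 := h.hess x x ξ
  rw [lie, V_diag hG h, h.zero] at h2
  have h3 : HasFDerivAt (fun y => V y y) ((fderiv ℝ (fun p : Eu 2 × Eu 2 => V p.1 p.2) (x, x)).comp
      ((ContinuousLinearMap.id ℝ _).prod (ContinuousLinearMap.id ℝ _))) x :=
    HasFDerivAt.comp (f := fun y => (y, y)) x (dV h (x, x)).hasFDerivAt
      ((hasFDerivAt_id x).prodMk (hasFDerivAt_id x))
  rw [show (fun y => V y y) = fun _ => 0 from funext (V_diag hG h)] at h3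
  have h4 : fderiv ℝ (fun p : Eu 2 × Eu 2 => V p.1 p.2) (x, x) (ξ, ξ) = 0 :=
    congrArg (fun L : Eu 2 →L[ℝ] Eu 2 => L ξ) (h3.unique (hasFDerivAt_const _ _))
  rw [show (ξ, ξ) = (ξ, 0) + (0, ξ) by simp, map_add, ← d1 (dV h), ← d2 (dV h)] at h4
  have h5 : mx Q x x ξ ξ + G x (fderiv ℝ (V x) x ξ) ξ = 0 := by
    rw [mx_V h, ← add_apply, ← map_add]
    exact (congrArg (fun v => G x v ξ) h4).trans (by simp)
  have h6 := hG.nonneg x ξ
  simp only [map_zero, zero_apply] at h1 h2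
  have h7 := abs_le_of_sq_le_sq' (a := mx Q x x ξ ξ) (b := G x ξ ξ) (by linarith) h6
  linarith [h7.1]

theorem p4 (hG : Rm G) (h : Geo2 G b Q V X ex) (x : Eu 2) : be G b Q x x = 1 := by
  obtain ⟨B, hB⟩ := mx_bil h x x
  have h1 := mx_diag hG h x (ee 0 + ee 1)
  have h2 := mx_diag hG h x (ee 0)
  have h3 := mx_diag hG h x (ee 1)
  have h4 := mx_symm h x x (ee 0) (ee 1)
  have h5 := hG.symm x (ee 1) (ee 0)
  have h6 := hG.wt_sq2 x
  have h7 := (hG.wt_pos x).ne'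
  simp only [hB, map_add, add_apply] at h1 h2 h3 h4
  have h8 : B (ee 0) (ee 1) = -G x (ee 0) (ee 1) := by linarith
  rw [be, hB, hB, hB, hB, cs, h.zero, h4, h8, h2, h3, div_eq_one_iff_eq (by simpa using h7)]
  linarith

theorem p3 (hG : Rm G) (h : Geo2 G b Q V X ex) (x y : Eu 2) : be G b Q x y ^ 2 ≤ 1 := by
  by_cases hxy : y = x
  · rw [hxy, p4 hG h, one_pow]
  have h1 := mx_sq h x y (rot G x (V y x)) (rot G y (V x y))
  rw [p2 hG h, ← h.grad, ← h.grad, hG.symm x (V y x), hG.rot_self, hG.rot_iso, hG.rot_iso, h.eik,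
    h.eik, h.symm y x, ← ss] at h1
  have hs := ss_pos h hxy
  refine le_of_mul_le_mul_right ?_ (pow_pos hs 2)
  linarith

theorem p5 (hG : Rm G) (h : Geo2 G b Q V X ex) :
    ContDiff ℝ 1 fun p : Eu 2 × Eu 2 => be G b Q p.1 p.2 := by
  have h1 : ∀ ξ η, ContDiff ℝ 1 fun p : Eu 2 × Eu 2 => mx Q p.1 p.2 ξ η := fun ξ η => by
    simp only [mx_eq h]
    exact ((sm2 h).clm_apply contDiff_const).clm_apply contDiff_const
  refine (((h1 _ _).mul (h1 _ _)).sub ((h1 _ _).mul (h1 _ _))).div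
    ((((B.wt1 hG).comp contDiff_fst).mul ((B.wt1 hG).comp contDiff_snd)).mul
      (contDiff_const.add (contDiff_const.mul (h.Qsm.of_le (by norm_num))))) fun p => ?_
  exact (mul_pos (mul_pos (hG.wt_pos _) (hG.wt_pos _)) (cs_pos h _ _)).ne'

theorem p6 (hG : Rm G) (h : Geo2 G b Q V X ex) :
    ContDiff ℝ 1 fun p : Eu 2 × Eu 2 => lap G V p.1 p.2 := by
  have h1 : ContDiff ℝ 2 fun p : Eu 2 × Eu 2 => wt G p.2 • V p.1 p.2 :=
    contDiff_infty.1 ((hG.wt_smooth.comp contDiff_snd).smul h.Vs) 2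
  have h2 : ContDiff ℝ 1 (fderiv ℝ fun p : Eu 2 × Eu 2 => wt G p.2 • V p.1 p.2) :=
    h1.fderiv_right (by norm_num)
  have h3 : ∀ y x v, fderiv ℝ (fun x' => wt G x' • V y x') x v =
      fderiv ℝ (fun p : Eu 2 × Eu 2 => wt G p.2 • V p.1 p.2) (y, x) (0, v) :=
    d2 (h1.differentiable (by simp))
  simp only [lap, dvg, h3]
  exact (ContDiff.sum fun i _ => (EuclideanSpace.proj (𝕜 := ℝ) i).contDiff.comp
    (h2.clm_apply contDiff_const)).div ((B.wt1 hG).comp contDiff_snd) fun p => (hG.wt_pos _).ne'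

theorem p7 (hG : Rm G) (h : Geo2 G b Q V X ex) (x y : Eu 2) : 2 * cs b Q x y ≤ lap G V y x := by
  obtain ⟨A, hA⟩ := frame_pf 2 G hG
  have h1 := B.sum_lie hG hA (h.Vsm y) x
  have h2 := h.hess y x (A x (ee 0))
  have h3 := h.hess y x (A x (ee 1))
  rw [hA.iso, real_inner_self_eq_norm_sq, PiLp.norm_single, h.symm y x] at h2 h3
  rw [Fin.sum_univ_two] at h1
  rw [lap, cs, div_eq_mul_inv]
  simp only [norm_one, one_pow, mul_one] at h2 h3
  linarith

end LMixAux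

open LMixAux in
theorem mix_pf : MixStmt := fun _ _ _ _ _ _ hG h =>
  ⟨p1 hG h, p2 hG h, p3 hG h, p4 hG h, p5 hG h, p6 hG h, p7 hG h⟩

end Vale.Agent.P219
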