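import Vale.Agent.P219.Lo

/-! `Q` dominates the squared Euclidean distance on compact sets. -/

open scoped Manifold ContDiff ENNReal RealInnerProductSpace Topology
open MeasureTheory Set Filter

namespace Vale.Agent.P219

open Vale.Agent.P255 Vale.Agent.P234

namespace LQLowAux

theorem mono1 {f f' : ℝ → ℝ} (hd : ∀ s, HasDerivAt f (f' s) s)
    (h : ∀ s ∈ Icc (0 : ℝ) 1, 0 ≤ f' s) : ∀ s ∈ Icc (0 : ℝ) 1, f 0 ≤ f s := by
  have hm : MonotoneOn f (Icc 0 1) := by
    refine monotoneOn_of_deriv_nonneg (convex_Icc 0 1)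
      (fun s _ => (hd s).continuousAt.continuousWithinAt)
      (fun s _ => (hd s).differentiableAt.differentiableWithinAt) fun s hs => ?_
    rw [(hd s).deriv]
    exact h s (interior_subset hs)
  exact fun s hs => hm ⟨le_rfl, zero_le_one⟩ hs hs.1

theorem two_step {f f' f'' : ℝ → ℝ} {a : ℝ} (hd : ∀ s, HasDerivAt f (f' s) s)
    (hd2 : ∀ s, HasDerivAt f' (f'' s) s) (h0 : f 0 = 0) (h1 : f' 0 = 0)
    (h : ∀ s ∈ Icc (0 : ℝ) 1, a ≤ f'' s) : a / 2 ≤ f 1 := by
  have e1 := mono1 (f := fun s => f' s - a * s) (f' := fun s => f'' s - a * 1)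
    (fun s => (hd2 s).sub ((hasDerivAt_id' s).const_mul a)) fun s hs => by
      have := h s hs
      linarith
  have e2 := mono1 (f := fun s => f s - a / 2 * (s * s))
    (f' := fun s => f' s - a / 2 * (1 * s + s * 1))
    (fun s => (hd s).sub (((hasDerivAt_id' s).mul (hasDerivAt_id' s)).const_mul (a / 2)))
    (fun s hs => by
      have := e1 s hs
      simp only [h1] at this
      linarith) 1 ⟨zero_le_one, le_rfl⟩
  simp only [h0] at e2
  linarith

theorem gen_bd {E F : Type} [NormedAddCommGroup E] [NormedSpace ℝ E] [NormedAddCommGroup F]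
    [NormedSpace ℝ F] {G : E → F} (h : ContDiff ℝ ∞ G) {B : Set E} (hB : IsCompact B) :
    ∃ C > 0, ∀ w ∈ B, ∀ u, ‖fderiv ℝ G w u‖ ≤ C * ‖u‖ := by
  obtain ⟨C0, hC0⟩ := hB.exists_bound_of_continuousOn
    (h.continuous_fderiv (by simp)).continuousOn
  refine ⟨max C0 1, lt_max_of_lt_right one_pos, fun w hw u => ?_⟩
  exact ((fderiv ℝ G w).le_opNorm u).trans
    (mul_le_mul_of_nonneg_right ((hC0 w hw).trans (le_max_left _ _)) (norm_nonneg u))

variable {n : ℕ}

theorem tri_bd {G : Met n} (hG : Rm G) {B : Set (Eu n)} (hB : IsCompact B) :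
    ∃ C > 0, ∀ w ∈ B, ∀ u v z, |fderiv ℝ G w u v z| ≤ C * ‖u‖ * ‖v‖ * ‖z‖ := by
  obtain ⟨C, hC, h⟩ := gen_bd hG.smooth hB
  refine ⟨C, hC, fun w hw u v z => ((fderiv ℝ G w u).le_opNorm₂ v z).trans ?_⟩
  exact mul_le_mul_of_nonneg_right (mul_le_mul_of_nonneg_right (h w hw u) (norm_nonneg v))
    (norm_nonneg z)

variable {G : Met n} {b : ℝ} {Q : Eu n → Eu n → ℝ} {V X : Eu n → Eu n → Eu n}
  {ex : Eu n → Eu n ≃ₜ Eu n}

theorem V0 (hG : Rm G) (hg : Geo G b Q V X ex) (x : Eu n) : V x x = 0 := by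
  by_contra h
  have h1 := hG.pos x _ h
  rw [hg.eik, hg.zero] at h1
  simp at h1

theorem line (hG : Rm G) (hg : Geo G b Q V X ex) (x v : Eu n) (a : ℝ)
    (h : ∀ s ∈ Icc (0 : ℝ) 1, a ≤ fderiv ℝ G (x + s • v) v (V x (x + s • v)) v +
      G (x + s • v) (fderiv ℝ (V x) (x + s • v) v) v) : a / 2 ≤ Q x (x + v) := by
  have hl : ∀ s : ℝ, HasDerivAt (fun s : ℝ => x + s • v) v s := fun s => by
    simpa using ((hasDerivAt_id' s).smul_const v).const_add x
  have hQ : Differentiable ℝ (Q x) :=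
    (hg.Qsm.comp (contDiff_const.prodMk contDiff_id)).differentiable (by norm_num)
  have hV : Differentiable ℝ (V x) := (hg.Vsm x).differentiable (by norm_num)
  have h1 := two_step (f := fun s : ℝ => Q x (x + s • v))
    (f' := fun s : ℝ => G (x + s • v) (V x (x + s • v)) v)
    (f'' := fun s : ℝ => fderiv ℝ G (x + s • v) v (V x (x + s • v)) v +
      G (x + s • v) (fderiv ℝ (V x) (x + s • v) v) v) (a := a) (fun s => by
      rw [hg.grad]
      exact (hQ _).hasFDerivAt.comp_hasDerivAt s (hl s)) (fun s => by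
      have e1 := (hG.smooth.differentiable (by simp) (x + s • v)).hasFDerivAt.comp_hasDerivAt s
        (hl s)
      have e2 := (hV _).hasFDerivAt.comp_hasDerivAt s (hl s)
      have e3 := (e1.clm_apply e2).clm_apply (hasDerivAt_const s v)
      simpa using e3) (by simp [hg.zero]) (by simp [V0 hG hg]) h
  simpa using h1

theorem near (hG : Rm G) (hg : Geo2 G b Q V X ex) (R : ℝ) : ∃ c > 0, ∃ δ > 0,
    ∀ x ∈ Metric.closedBall (0 : Eu n) R, ∀ y ∈ Metric.closedBall (0 : Eu n) R,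
      ‖x - y‖ < δ → c * ‖x - y‖ ^ 2 ≤ Q x y := by
  have hB := isCompact_closedBall (0 : Eu n) R
  obtain ⟨c, hc, h1⟩ := hG.coercive hB
  obtain ⟨C, hC, hC'⟩ := tri_bd hG hB
  have huc := (hB.prod hB).uniformContinuousOn_of_continuous hg.Vs.continuous.continuousOn
  obtain ⟨δ, hδ, h2⟩ := Metric.uniformContinuousOn_iff.1 huc (c / (3 * C)) (by positivity)
  refine ⟨c / 4, by positivity, δ, hδ, fun x hx y hy hxy => ?_⟩
  have h3 := line hG hg.toGeo x (y - x) (c / 2 * ‖y - x‖ ^ 2) fun s hs => by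
    have hw : x + s • (y - x) ∈ Metric.closedBall (0 : Eu n) R :=
      (convex_closedBall (0 : Eu n) R).add_smul_sub_mem hx hy hs
    have hd : dist (x, x + s • (y - x)) (x, x) < δ := by
      rw [Prod.dist_eq, dist_self, dist_eq_norm, add_sub_cancel_left, norm_smul,
        Real.norm_of_nonneg hs.1, norm_sub_rev]
      have := mul_le_of_le_one_left (norm_nonneg (x - y)) hs.2
      exact max_lt hδ (this.trans_lt hxy)
    have h4 := h2 (x, x + s • (y - x)) ⟨hx, hw⟩ (x, x) ⟨hx, hx⟩ hd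
    simp only [V0 hG hg.toGeo, dist_zero_right] at h4
    generalize x + s • (y - x) = w at hw h4 ⊢
    generalize y - x = v
    have h5 := hg.hess x w v
    unfold lie at h5
    have h6 := h1 w hw v
    have h7 := abs_le.1 (hC' w hw v (V x w) v)
    have h8 := abs_le.1 (hC' w hw (V x w) v v)
    have h9 : C * ‖V x w‖ ≤ c / 3 := by
      have e : C * (c / (3 * C)) = c / 3 := by field_simp
      rw [← e]
      exact mul_le_mul_of_nonneg_left h4.le hC.le
    have h10 := mul_le_mul_of_nonneg_right h9 (sq_nonneg ‖v‖)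
    have hq : 0 ≤ Q x w := by
      by_cases e : w = x
      · rw [e, hg.zero]
      · exact (hg.pos x w e).le
    have h11 : 0 ≤ b ^ 2 * Q x w * G w v v :=
      mul_nonneg (mul_nonneg (sq_nonneg b) hq) (le_trans (by positivity) h6)
    nlinarith
  rw [add_sub_cancel, norm_sub_rev] at h3
  linarith

end LQLowAux

theorem qLow_pf : QLowStmt := by
  intro n G b Q V X ex K hG hg hK
  obtain ⟨R, hR0, hR⟩ := hK.isBounded.subset_closedBall_lt 0 (0 : Eu n)
  obtain ⟨c, hc, δ, hδ, h1⟩ := LQLowAux.near hG hg R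
  have hS : IsCompact ((K ×ˢ K) ∩ {p : Eu n × Eu n | δ ≤ ‖p.1 - p.2‖}) :=
    (hK.prod hK).inter_right (isClosed_le continuous_const (continuous_fst.sub continuous_snd).norm)
  obtain ⟨m, hm, h2⟩ := hS.exists_forall_le' (a := 0) hg.Qs.continuous.continuousOn
    fun p hp => hg.pos p.1 p.2 fun e => by
      have h3 : δ ≤ ‖p.1 - p.2‖ := hp.2
      rw [e, sub_self, norm_zero] at h3
      linarith
  refine ⟨min c (m / (2 * R) ^ 2), lt_min hc (by positivity), fun x hx y hy => ?_⟩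
  by_cases h : ‖x - y‖ < δ
  · exact le_trans (mul_le_mul_of_nonneg_right (min_le_left _ _) (sq_nonneg _))
      (h1 x (hR hx) y (hR hy) h)
  · have h3 := h2 (x, y) ⟨⟨hx, hy⟩, not_lt.1 h⟩
    have h4 : ‖x - y‖ ≤ 2 * R := by
      have e1 := mem_closedBall_zero_iff.1 (hR hx)
      have e2 := mem_closedBall_zero_iff.1 (hR hy)
      have e3 := norm_sub_le x y
      linarith
    have h5 : ‖x - y‖ ^ 2 ≤ (2 * R) ^ 2 := pow_le_pow_left₀ (norm_nonneg _) h4 2
    have h6 : m / (2 * R) ^ 2 * (2 * R) ^ 2 = m := by field_simp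
    have h7 : min c (m / (2 * R) ^ 2) * ‖x - y‖ ^ 2 ≤ m / (2 * R) ^ 2 * (2 * R) ^ 2 :=
      mul_le_mul (min_le_right _ _) h5 (sq_nonneg _) (by positivity)
    exact h7.trans (h6.le.trans h3)

end Vale.Agent.P219
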