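import Vale.Agent.P219.LoTool

/-! P219: the chord condition in dimension two. -/

open scoped Manifold ContDiff ENNReal RealInnerProductSpace Topology
open MeasureTheory Set Filter

namespace Vale.Agent.P219

namespace LRigTwoAux

variable {n : ℕ}

theorem lie_smul {G : Met n} {W : Eu n → Eu n} {θ : Eu n → ℝ} {x : Eu n}
    (hθ : DifferentiableAt ℝ θ x) (hW : DifferentiableAt ℝ W x) (ξ : Eu n) :
    lie G (fun y => θ y • W y) x ξ =
      θ x * lie G W x ξ + 2 * fderiv ℝ θ x ξ * G x (W x) ξ := by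
  unfold lie
  rw [fderiv_fun_smul hθ hW]
  simp only [map_smul, map_add, ContinuousLinearMap.add_apply, ContinuousLinearMap.smul_apply,
    ContinuousLinearMap.smulRight_apply, smul_eq_mul]
  ring

theorem lie_vec (G : Met n) (W : Eu n → Eu n) (x ξ : Eu n) (c : ℝ) :
    lie G W x (c • ξ) = c ^ 2 * lie G W x ξ := by
  unfold lie
  simp only [map_smul, ContinuousLinearMap.smul_apply, smul_eq_mul]
  ring

theorem lie_self {G : Met n} (hG : Rm G) {W : Eu n → Eu n} {x : Eu n}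
    (hW : DifferentiableAt ℝ W x) :
    fderiv ℝ (fun y => G y (W y) (W y)) x (W x) = lie G W x (W x) := by
  have h1 : HasFDerivAt G (fderiv ℝ G x) x :=
    (hG.smooth.differentiable (by simp) x).hasFDerivAt
  rw [((h1.clm_apply hW.hasFDerivAt).clm_apply hW.hasFDerivAt).fderiv]
  unfold lie
  simp only [ContinuousLinearMap.add_apply, ContinuousLinearMap.comp_apply,
    ContinuousLinearMap.flip_apply]
  rw [hG.symm x (W x)]
  ring

theorem alg {a b H q ψ : ℝ} (hb : 0 ≤ b) (hH : b < H) (hq : 0 ≤ q)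
    (ha : a ^ 2 ≤ 2 * q + b ^ 2 * q ^ 2) (hf : a * ψ - H * (2 * q + b ^ 2 * q ^ 2) = 0)
    (hψ : ψ = 2 + b ^ 2 * q ∨ ψ = b ^ 2 * q) : a = H * q := by
  have h2 : 0 < 2 + b ^ 2 * q := by positivity
  rcases hψ with rfl | rfl
  · apply mul_right_cancel₀ h2.ne'
    linear_combination hf
  · rcases hq.eq_or_lt with rfl | hq0
    · have : a ^ 2 ≤ 0 := by simpa using ha
      simpa using le_antisymm this (sq_nonneg a)
    · exfalso
      have h3 : a * b ^ 2 = H * (2 + b ^ 2 * q) := by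
        apply mul_right_cancel₀ hq0.ne'
        linear_combination hf
      have h4 : H ^ 2 * (2 + b ^ 2 * q) * (2 + b ^ 2 * q) ≤ b ^ 4 * q * (2 + b ^ 2 * q) := by
        have h5 := mul_le_mul_of_nonneg_left ha (by positivity : 0 ≤ b ^ 4)
        have h6 : H ^ 2 * (2 + b ^ 2 * q) * (2 + b ^ 2 * q) = b ^ 4 * a ^ 2 := by
          linear_combination (-(a * b ^ 2 + H * (2 + b ^ 2 * q))) * h3
        rw [h6]
        linarith
      have h7 := le_of_mul_le_mul_right h4 h2
      have h8 : b ^ 2 < H ^ 2 := by nlinarith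
      have h9 : b ^ 2 * (b ^ 2 * q) ≤ H ^ 2 * (b ^ 2 * q) :=
        mul_le_mul_of_nonneg_right h8.le (by positivity)
      nlinarith [sq_nonneg b]

variable {G : Met 2} {A : Eu 2 → Eu 2 →L[ℝ] Eu 2} {b : ℝ} {Q : Eu 2 → Eu 2 → ℝ}
  {V X : Eu 2 → Eu 2 → Eu 2} {ex : Eu 2 → Eu 2 ≃ₜ Eu 2} {Z : Eu 2 → Eu 2 → Eu 2 → Eu 2}
  {ψ h : Eu 2 → Eu 2 → ℝ}

theorem lie_Z (hG : Rm G) (hg : Geo2 G b Q V X ex) (ht : Two G b Q V Z ψ h) {y η x ν : Eu 2}
    (hη : G y η η = 1) (hx : Z y η x = ss b Q x y • ν) :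
    lie G (Z y η) x ν = 4 * cs b Q x y * fderiv ℝ (Q x) y η := by
  rcases eq_or_ne y x with rfl | hne
  · have h0 : Z y η y = 0 := by rw [hx, ss, hg.zero]; simp
    rw [← hg.grad, hg.toGeo.V_self hG, lie, h0, ht.Z0]
    simp
  · have hq := hg.pos x y hne
    have hs : ss b Q x y ≠ 0 := by unfold ss; positivity
    have hW := (ht.Zsm y η).differentiable one_ne_zero x
    have h1 := lie_self hG hW
    have h2 : (fun x => G x (Z y η x) (Z y η x)) =
        fun x => (2 * Q y x + b ^ 2 * Q y x ^ 2) ^ 2 := by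
      funext x'
      rw [ht.Znorm, hη, one_mul, ss, hg.symm]
    have h3 : HasFDerivAt (Q y) (fderiv ℝ (Q y) x) x :=
      ((hg.Q_smooth y).differentiable (by simp) x).hasFDerivAt
    rw [h2, (((h3.const_mul 2).fun_add ((h3.pow 2).const_mul (b ^ 2))).pow 2).fderiv] at h1
    simp only [ContinuousLinearMap.add_apply, ContinuousLinearMap.smul_apply, smul_eq_mul,
      ht.Zq] at h1
    rw [hx, lie_vec, hg.symm y x] at h1
    apply mul_left_cancel₀ (pow_ne_zero 2 hs)
    rw [← h1]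
    unfold ss cs
    simp
    ring

theorem tdiv_eq (hG : Rm G) (hA : Frame G A) (hg : Geo2 G b Q V X ex) (ht : Two G b Q V Z ψ h)
    {N : Eu 2 → Eu 2} {y η x : Eu 2} (hη : G y η η = 1) (hN : G x (N x) (N x) = 1)
    (hx : G x (N x) (Z y η x) = ss b Q x y) {θ : Eu 2 → ℝ} (hθ : ContDiff ℝ 1 θ) :
    tdiv G A N (fun x => θ x • Z y η x) x = θ x * (fderiv ℝ (Q x) y η * ψ x y) := by
  have h1 : Z y η x = ss b Q x y • N x :=
    hG.eq_smul hN (by rw [ht.Znorm, hη, one_mul]) hx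
  have hW := (ht.Zsm y η).differentiable one_ne_zero x
  have hθ' := hθ.differentiable one_ne_zero x
  have hw := (hG.wt_pos x).ne'
  have h2 : (fun x' => wt G x' • θ x' • Z y η x') = fun x' => θ x' • wt G x' • Z y η x' := by
    funext x'; rw [smul_comm]
  have h3 : ContDiff ℝ 1 fun x => θ x • Z y η x := hθ.smul (ht.Zsm y η)
  have h4 : DifferentiableAt ℝ (fun x' => wt G x' • Z y η x') x :=
    ((B.wt1 hG).differentiable one_ne_zero x).smul hW
  unfold tdiv
  rw [B.sum_lie hG hA h3, lie_smul hθ' hW, lie_Z hG hg ht hη h1, h2, B.dvg_smul hθ' h4, ht.Zdiv,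
    hG.symm x _ (N x), hx, h1]
  simp only [map_smul, smul_eq_mul]
  field_simp
  ring

end LRigTwoAux

open LRigTwoAux in
theorem rigTwo_pf : RigTwoStmt := by
  intro G A b H Q V X ex Z ψ h Ω μ N hb hH hG hA hg ht hΩ hB hfv h1 h2
  filter_upwards [h1, h2] with y hy1 hy2
  have hη := hB.unit y
  have c1 : ContDiff ℝ 1 fun x => fderiv ℝ (Q x) y (N y) :=
    ((hg.dQ_smooth hG).comp (contDiff_id.prodMk contDiff_const :
      ContDiff ℝ ∞ fun x : Eu 2 => (x, y, N y))).of_le (by simp)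
  have c2 : ContDiff ℝ 1 fun x => ψ x y := ht.psm.comp (contDiff_id.prodMk contDiff_const)
  have c3 : ContDiff ℝ 1 fun x => Q x y :=
    (hg.Qs.comp (contDiff_id.prodMk contDiff_const :
      ContDiff ℝ ∞ fun x : Eu 2 => (x, y))).of_le (by simp)
  have c4 : ContDiff ℝ 1 fun x => ss b Q x y :=
    (contDiff_const.mul c3).add (contDiff_const.mul (c3.pow 2))
  set f : Eu 2 → ℝ := fun x => fderiv ℝ (Q x) y (N y) * ψ x y - H * ss b Q x y with hf
  have c5 : ContDiff ℝ 1 f := (c1.mul c2).sub (contDiff_const.mul c4)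
  obtain ⟨R, hR⟩ := hΩ.isCompact_closure.isBounded.subset_ball (0 : Eu 2)
  obtain ⟨χ, f1, f0, f2, -⟩ := B.exists_cut (s := (Metric.ball (0 : Eu 2) (R + 1))ᶜ)
    (t := Metric.closedBall 0 R) Metric.isOpen_ball.isClosed_compl Metric.isClosed_closedBall
    (disjoint_compl_left_iff_subset.2 (Metric.closedBall_subset_ball (by linarith)))
  have hχ : ∀ᵐ x ∂μ, χ x = 1 :=
    hB.ae_closure.mono fun x hx => f2 x (Metric.ball_subset_closedBall (hR hx))
  have hc : HasCompactSupport fun x => (χ x * f x) • Z y (N y) x :=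
    HasCompactSupport.intro (isCompact_closedBall (0 : Eu 2) (R + 1)) fun x hx => by
      rw [f0 x fun hb => hx (Metric.ball_subset_closedBall hb), zero_mul, zero_smul]
  have e := hfv _ ((f1.mul c5).smul (ht.Zsm y (N y))) hc
  have e1 : ∫ x, tdiv G A N (fun x => (χ x * f x) • Z y (N y) x) x ∂μ =
      ∫ x, f x * (fderiv ℝ (Q x) y (N y) * ψ x y) ∂μ := by
    refine integral_congr_ae ?_
    filter_upwards [hy1, hχ] with x hx hx'
    rw [tdiv_eq hG hA hg ht hη (hB.unit x) hx (f1.mul c5), hx', one_mul]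
  have e2 : ∫ x, G x (N x) ((χ x * f x) • Z y (N y) x) ∂μ = ∫ x, f x * ss b Q x y ∂μ := by
    refine integral_congr_ae ?_
    filter_upwards [hy1, hχ] with x hx hx'
    rw [map_smul, hx, hx', one_mul, smul_eq_mul]
  have hi : ∀ {g : Eu 2 → ℝ}, Continuous g → Integrable g μ := fun hg' =>
    hB.integ hG hΩ (hg'.comp continuous_fst)
  have e3 : ∫ x, f x ^ 2 ∂μ = 0 := by
    have : (fun x => f x ^ 2) =
        fun x => f x * (fderiv ℝ (Q x) y (N y) * ψ x y) - H * (f x * ss b Q x y) := by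
      funext x; simp only [hf]; ring
    rw [this, integral_sub (hi (c5.mul (c1.mul c2)).continuous)
      ((hi (c5.mul c4).continuous).const_mul H), integral_const_mul, ← e1, ← e2]
    exact sub_eq_zero.2 e
  have e4 := (integral_eq_zero_iff_of_nonneg (fun x => sq_nonneg (f x))
    (hi (c5.pow 2).continuous)).1 e3
  filter_upwards [e4, hy2] with x hx hx'
  have h3 := hg.toGeo.dQ_sq_le hG x y (N y)
  rw [hη, mul_one] at h3
  exact alg hb hH (hg.toGeo.Q_nonneg x y) h3 (pow_eq_zero_iff two_ne_zero |>.1 hx)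
    (ht.hrig x y hx')

end Vale.Agent.P219
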