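import Vale.Agent.P219.Lo

/-! The calibration data in dimension two. -/

open scoped Manifold ContDiff RealInnerProductSpace Topology
open MeasureTheory Set Filter

namespace Vale.Agent.P219

namespace LTwoAux

variable {G : Met 2} {b : ℝ} {Q : Eu 2 → Eu 2 → ℝ} {V X : Eu 2 → Eu 2 → Eu 2}
  {ex : Eu 2 → Eu 2 ≃ₜ Eu 2}

theorem dvg_add {Y Y' : Eu 2 → Eu 2} {x : Eu 2} (hY : DifferentiableAt ℝ Y x)
    (hY' : DifferentiableAt ℝ Y' x) : dvg (fun y => Y y + Y' y) x = dvg Y x + dvg Y' x := by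
  unfold dvg
  rw [fderiv_fun_add hY hY', ← Finset.sum_add_distrib]
  simp

theorem dvg_sub {Y Y' : Eu 2 → Eu 2} {x : Eu 2} (hY : DifferentiableAt ℝ Y x)
    (hY' : DifferentiableAt ℝ Y' x) : dvg (fun y => Y y - Y' y) x = dvg Y x - dvg Y' x := by
  unfold dvg
  rw [fderiv_fun_sub hY hY', ← Finset.sum_sub_distrib]
  simp

theorem one_le : (1 : WithTop ℕ∞) ≤ ∞ := by exact_mod_cast le_top

theorem ne0 : (∞ : WithTop ℕ∞) ≠ 0 := by simp

theorem Q_nonneg (g : Geo2 G b Q V X ex) (x y : Eu 2) : 0 ≤ Q x y := by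
  by_cases h : y = x
  · rw [h, g.zero]
  · exact (g.pos x y h).le

theorem cs_one (g : Geo2 G b Q V X ex) (x y : Eu 2) : 1 ≤ cs b Q x y := by
  have := mul_nonneg (sq_nonneg b) (Q_nonneg g x y)
  unfold cs; linarith

theorem cs_symm (g : Geo2 G b Q V X ex) (x y : Eu 2) : cs b Q y x = cs b Q x y := by
  unfold cs; rw [g.symm]

theorem cs_sq2 (x y : Eu 2) : cs b Q x y ^ 2 = 1 + b ^ 2 * ss b Q x y := by
  unfold cs ss; ring

theorem eik1 (g : Geo2 G b Q V X ex) (x y : Eu 2) : G y (V x y) (V x y) = ss b Q x y := g.eik x y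

theorem eik2 (g : Geo2 G b Q V X ex) (x y : Eu 2) : G x (V y x) (V y x) = ss b Q x y := by
  rw [g.eik, g.symm]; rfl

theorem V_self (hG : Rm G) (g : Geo2 G b Q V X ex) (y : Eu 2) : V y y = 0 := by
  by_contra h
  have h1 := hG.pos y _ h
  rw [g.eik, g.zero] at h1
  simp at h1

section Sm

variable {P : Type} [NormedAddCommGroup P] [NormedSpace ℝ P] {f h k : P → Eu 2}

theorem V_sm (g : Geo2 G b Q V X ex) (hf : ContDiff ℝ ∞ f) (hh : ContDiff ℝ ∞ h) :
    ContDiff ℝ ∞ fun p => V (f p) (h p) := g.Vs.comp (hf.prodMk hh)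

theorem rot_sm (hG : Rm G) (hf : ContDiff ℝ ∞ f) (hh : ContDiff ℝ ∞ h) :
    ContDiff ℝ ∞ fun p => rot G (f p) (h p) := by
  have := hG.rot_smooth.comp (hf.prodMk hh)
  simpa only [Function.comp_def] using this

theorem dQ_sm (hG : Rm G) (g : Geo2 G b Q V X ex) (hf : ContDiff ℝ ∞ f) (hh : ContDiff ℝ ∞ h)
    (hk : ContDiff ℝ ∞ k) : ContDiff ℝ ∞ fun p => fderiv ℝ (Q (f p)) (h p) (k p) := by
  simp only [← g.grad]
  exact ((hG.smooth.comp hh).clm_apply (V_sm g hf hh)).clm_apply hk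

theorem Z_sm (hG : Rm G) (g : Geo2 G b Q V X ex) (hf : ContDiff ℝ ∞ f) (hh : ContDiff ℝ ∞ h)
    (hk : ContDiff ℝ ∞ k) : ContDiff ℝ ∞ fun p => Zn G Q V (f p) (h p) (k p) :=
  ((dQ_sm hG g hk hf hh).smul (V_sm g hf hk)).add
    ((dQ_sm hG g hk hf (rot_sm hG hf hh)).smul (rot_sm hG hk (V_sm g hf hk)))

end Sm

theorem dvg_V (hG : Rm G) (y x : Eu 2) :
    dvg (fun x' => wt G x' • V y x') x = wt G x * lap G V y x := by
  have := (hG.wt_pos x).ne'
  unfold lap
  field_simp

theorem dvg_rot (hG : Rm G) (g : Geo2 G b Q V X ex) (y x : Eu 2) :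
    dvg (fun x' => wt G x' • rot G x' (V y x')) x = 0 := by
  have e : (fun x' => wt G x' • rot G x' (V y x')) = fun x' =>
      fderiv ℝ (Q y) x' (ee 0) • ee 1 - fderiv ℝ (Q y) x' (ee 1) • ee 0 := by
    funext x'
    rw [rot, smul_inv_smul₀ (hG.wt_pos x').ne', g.grad, g.grad]
  have hd : ∀ v, DifferentiableAt ℝ (fun x' => fderiv ℝ (Q y) x' v) x := fun v =>
    (dQ_sm hG g contDiff_const contDiff_id contDiff_const).differentiable ne0 x
  have hQ : ContDiff ℝ 2 (Q y) := g.Qsm.comp (contDiff_const.prodMk contDiff_id)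
  have hD : DifferentiableAt ℝ (fderiv ℝ (Q y)) x :=
    (hQ.fderiv_right (m := 1) (by norm_num)).differentiable one_ne_zero x
  have hs := (hQ.contDiffAt (x := x)).isSymmSndFDerivAt (by simp)
  rw [e, dvg_sub ((hd _).smul_const _) ((hd _).smul_const _), B.dvg_smul_const (hd _),
    B.dvg_smul_const (hd _), fderiv_clm_apply hD (differentiableAt_const _),
    fderiv_clm_apply hD (differentiableAt_const _)]
  simp [hs.eq (ee 1) (ee 0)]

theorem fderiv_smul_zero {a : Eu 2 → ℝ} {W : Eu 2 → Eu 2} {y : Eu 2}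
    (ha : DifferentiableAt ℝ a y) (hW : DifferentiableAt ℝ W y) (h1 : a y = 0) (h2 : W y = 0) :
    fderiv ℝ (fun x => a x • W x) y = 0 := by
  rw [fderiv_fun_smul ha hW, h1, h2]
  simp

theorem sl1 {F : Eu 2 → Eu 2 → ℝ} (h : ContDiff ℝ 1 fun p : Eu 2 × Eu 2 => F p.1 p.2)
    (x y : Eu 2) : DifferentiableAt ℝ (fun y' => F x y') y :=
  (h.comp (contDiff_const.prodMk contDiff_id)).differentiable one_ne_zero y

theorem sl2 {F : Eu 2 → Eu 2 → ℝ} (h : ContDiff ℝ 1 fun p : Eu 2 × Eu 2 => F p.1 p.2)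
    (x y : Eu 2) : DifferentiableAt ℝ (fun y' => F y' x) y :=
  (h.comp (contDiff_id.prodMk contDiff_const)).differentiable one_ne_zero y

theorem sw {F : Eu 2 → Eu 2 → ℝ} (h : ContDiff ℝ 1 fun p : Eu 2 × Eu 2 => F p.1 p.2) :
    ContDiff ℝ 1 fun p : Eu 2 × Eu 2 => F p.2 p.1 :=
  h.comp (contDiff_snd.prodMk contDiff_fst)

end LTwoAux

open LTwoAux in
theorem two_pf (hm : MixStmt) (h1 : I1Stmt) (h2 : I2Stmt) : TwoStmt := by
  intro G b Q V X ex hG g
  obtain ⟨m1, m2, m3, m4, m5, m6, m7⟩ := hm G b Q V X ex hG g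
  have hw : Differentiable ℝ (wt G) := hG.wt_smooth.differentiable ne0
  have hV : ∀ y, Differentiable ℝ (V y) := fun y => (g.Vsm y).differentiable one_ne_zero
  have hR : ∀ y, Differentiable ℝ fun x => rot G x (V y x) := fun y =>
    (rot_sm hG contDiff_id (V_sm g contDiff_const contDiff_id)).differentiable ne0
  have ha : ∀ y η, Differentiable ℝ fun x => fderiv ℝ (Q x) y η := fun y η =>
    (dQ_sm hG g contDiff_id contDiff_const contDiff_const).differentiable ne0
  have hQ1 : ContDiff ℝ 1 fun p : Eu 2 × Eu 2 => Q p.1 p.2 := g.Qs.of_le one_le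
  have hcs : ContDiff ℝ 1 fun p : Eu 2 × Eu 2 => cs b Q p.1 p.2 :=
    contDiff_const.add (contDiff_const.mul hQ1)
  have hss : ContDiff ℝ 1 fun p : Eu 2 × Eu 2 => ss b Q p.1 p.2 :=
    (contDiff_const.mul hQ1).add (contDiff_const.mul (hQ1.pow 2))
  have m6' : ContDiff ℝ 1 fun p : Eu 2 × Eu 2 => lap G V p.2 p.1 :=
    sw m6
  have hbe : ∀ x y, -1 ≤ be G b Q x y := fun x y => by nlinarith [m3 x y]
  have hD : ∀ x y, cs b Q x y ≤ lap G V y x - cs b Q x y := fun x y => by linarith [m7 x y]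
  have hD' : ∀ x y, cs b Q x y ≤ lap G V x y - cs b Q x y := fun x y => by
    have := m7 y x
    rw [cs_symm g] at this
    linarith
  refine ⟨(Z_sm hG g contDiff_fst (contDiff_fst.comp contDiff_snd)
      (contDiff_snd.comp contDiff_snd)).continuous,
    fun y η => (Z_sm hG g contDiff_const contDiff_const contDiff_id).of_le one_le,
    fun y η x => ?_, fun y η x => ?_, fun y η x => ?_, fun y η => ?_, (m6'.sub hcs).add m5,
    fun x y => ?_, fun x => ?_, fun x y => ?_,
    (((m6'.sub hcs).mul (m6.sub hcs)).sub (m5.pow 2)).continuous.sub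
      (continuous_const.mul hss.continuous), fun x y => ?_, fun x y h => ?_⟩
  · have e1 := hG.rot_pyth y (V x y) η
    rw [hG.rot_skew, eik1 g, neg_sq] at e1
    have e2 := hG.rot_self x (V y x)
    unfold Zn
    simp only [map_add, map_smul, add_apply, smul_apply,
      smul_eq_mul]
    rw [hG.rot_iso, hG.symm x (V y x) (rot G x (V y x)), e2, eik2 g, ← g.grad, ← g.grad]
    linear_combination ss b Q x y * e1
  · rw [← g.grad y x]
    unfold Zn
    simp only [map_add, map_smul, smul_eq_mul]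
    rw [hG.symm x (V y x) (rot G x (V y x)), hG.rot_self, eik2 g]
    ring
  · have e : (fun x' => wt G x' • Zn G Q V y η x') = fun x' =>
        fderiv ℝ (Q x') y η • (wt G x' • V y x') +
          fderiv ℝ (Q x') y (rot G y η) • (wt G x' • rot G x' (V y x')) := by
      funext x'
      rw [Zn, smul_add, smul_comm (wt G x'), smul_comm (wt G x')]
    have d1 : DifferentiableAt ℝ (fun x' => wt G x' • V y x') x := (hw x).fun_smul (hV y x)
    have d2 : DifferentiableAt ℝ (fun x' => wt G x' • rot G x' (V y x')) x := (hw x).fun_smul (hR y x)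
    have e1 := m1 x y η
    have e2 := m2 x y η
    unfold mx at e1 e2
    rw [e, dvg_add ((ha y η x).fun_smul d1) ((ha y (rot G y η) x).fun_smul d2), B.dvg_smul (ha y η x) d1,
      B.dvg_smul (ha y (rot G y η) x) d2, dvg_V hG y x, dvg_rot hG g y x, map_smul, map_smul, e1, e2]
    simp only [smul_eq_mul, ps]
    ring
  · have e0 := V_self hG g y
    have a0 : ∀ η, fderiv ℝ (Q y) y η = 0 := fun η => by rw [← g.grad, e0]; simp
    have r0 : rot G y (V y y) = 0 := by rw [e0]; simp [rot]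
    have e : Zn G Q V y η = fun x => fderiv ℝ (Q x) y η • V y x +
        fderiv ℝ (Q x) y (rot G y η) • rot G x (V y x) := rfl
    rw [e, fderiv_fun_add ((ha y η y).fun_smul (hV y y)) ((ha y (rot G y η) y).fun_smul (hR y y)),
      fderiv_smul_zero (ha y η y) (hV y y) (a0 _) e0,
      fderiv_smul_zero (ha y (rot G y η) y) (hR y y) (a0 _) r0, add_zero]
  · unfold ps
    linarith [hD x y, cs_one g x y, hbe x y]
  · unfold ps
    linarith [hD x x, cs_one g x x, m4 x]
  · have e : (fun y' => wt G y' • (ps G b Q V x y' • V x y')) = fun y' =>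
        (lap G V y' x - cs b Q x y') • (wt G y' • V x y') +
          wt G y' • (be G b Q x y' • V x y') := by
      funext y'
      rw [ps, add_smul, smul_add, smul_comm (wt G y')]
    have d1 : DifferentiableAt ℝ (fun y' => wt G y' • V x y') y := (hw y).fun_smul (hV x y)
    have dl : DifferentiableAt ℝ (fun y' => lap G V y' x) y :=
      sl2 m6 x y
    have dq : DifferentiableAt ℝ (Q x) y :=
      sl1 hQ1 x y
    have dc : HasFDerivAt (fun y' => cs b Q x y') (b ^ 2 • fderiv ℝ (Q x) y) y :=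
      (dq.hasFDerivAt.const_mul (b ^ 2)).const_add 1
    have db : DifferentiableAt ℝ (fun y' => be G b Q x y') y :=
      sl1 m5 x y
    have dD : DifferentiableAt ℝ (fun y' => lap G V y' x - cs b Q x y') y :=
      dl.sub dc.differentiableAt
    rw [e, dvg_add (dD.fun_smul d1) ((hw y).fun_smul (db.fun_smul (hV x y))),
      B.dvg_smul dD d1, dvg_V hG x y,
      h2 G b Q V X ex hG g x y, map_smul, (dl.hasFDerivAt.fun_sub dc).fderiv]
    simp only [sub_apply, smul_apply, smul_eq_mul]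
    rw [h1 G b Q V X ex hG g x y, ← g.grad x y, eik1 g]
    simp only [ps, hh]
    linear_combination wt G y * cs_sq2 (b := b) (Q := Q) x y
  · unfold hh
    have := mul_le_mul (hD x y) (hD' x y) (by linarith [cs_one g x y])
      (by linarith [cs_one g x y, hD x y])
    nlinarith [cs_sq2 (b := b) (Q := Q) x y, m3 x y]
  · unfold hh at h
    have c1 := cs_one g x y
    have c2 := cs_sq2 (b := b) (Q := Q) x y
    have d1 := hD x y
    have d2 := hD' x y
    have d3 := m3 x y
    have d4 := mul_le_mul d1 d2 (by linarith) (by linarith)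
    have e1 : be G b Q x y ^ 2 = 1 := by nlinarith
    have e2 : lap G V y x - cs b Q x y = cs b Q x y := by
      by_contra hne
      have h3 : cs b Q x y < lap G V y x - cs b Q x y := lt_of_le_of_ne d1 (Ne.symm hne)
      nlinarith [mul_lt_mul_of_pos_right h3 (by linarith : 0 < lap G V x y - cs b Q x y),
        mul_le_mul_of_nonneg_left d2 (by linarith : 0 ≤ cs b Q x y)]
    unfold ps
    rw [e2]
    rcases sq_eq_one_iff.1 e1 with e3 | e3
    · left; rw [e3, cs]; ring
    · right; rw [e3, cs]; ring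

end Vale.Agent.P219
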