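import Vale.Agent.P219.LoAlg

/-! The Willmore inequality and its equality case. -/

open scoped ENNReal RealInnerProductSpace Topology
open MeasureTheory Set Filter

namespace Vale.Agent.P219

namespace LWillAux

theorem om_two : om 2 = Real.pi := by
  unfold om
  rw [Measure.real, EuclideanSpace.volume_ball_fin_two]
  simp [Real.pi_pos.le]

theorem pf {a a1 : ℝ} (ha : 0 < a) (ha1 : a < a1) :
    Pf (fun s => s⁻¹ - a1⁻¹) (fun s => -(s ^ 2)⁻¹) a a1 where
  lt := ha1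
  der s hs := (hasDerivAt_inv (ha.trans_le hs.1).ne').sub_const _
  cont := (continuousOn_id.pow 2).inv₀ (fun s hs => pow_ne_zero _ (ha.trans_le hs.1).ne') |>.neg
  np s _ := neg_nonpos.2 (by positivity)
  zero := sub_self _

variable {n : ℕ} {d : Dat n} {z : Eu n}

/-- the defect outside the ball -/
noncomputable def E (d : Dat n) (z : Eu n) (a : ℝ) (x : Eu n) : ℝ :=
  if a < d.Q z x then (d.q z x / d.Q z x - d.H / 2) ^ 2 else 0

noncomputable def W (d : Dat n) (z x : Eu n) : ℝ := 2 * (1 + d.b ^ 2 * d.Q z x) - d.H * d.q z x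

noncomputable def J (d : Dat n) (z : Eu n) (a : ℝ) (x : Eu n) : ℝ :=
  E d z a x + if a < d.Q z x then -(d.H ^ 2 / 4 - d.b ^ 2) else a⁻¹ * W d z x

theorem mG (o : d.Ok0) (a : ℝ) : MeasurableSet {x | a < d.Q z x} :=
  (isOpen_lt continuous_const (o.Qc z)).measurableSet

theorem mL (o : d.Ok0) (a : ℝ) : MeasurableSet {x | d.Q z x < a} :=
  (isOpen_lt (o.Qc z) continuous_const).measurableSet

theorem E_nonneg (a : ℝ) (x : Eu n) : 0 ≤ E d z a x := by
  unfold E
  split_ifs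
  · positivity
  · exact le_rfl

theorem E_anti {a a' : ℝ} (h : a ≤ a') (x : Eu n) : E d z a' x ≤ E d z a x := by
  by_cases hx : a' < d.Q z x
  · simp only [E, if_pos hx, if_pos (h.trans_lt hx), le_refl]
  · rw [E, if_neg hx]
    exact E_nonneg a x

theorem bm_E (o : d.Ok0) {a : ℝ} (ha : 0 < a) : d.BM (E d z a) := by
  have c1 : Continuous fun x => (max (d.Q z x) a)⁻¹ :=
    ((o.Qc z).max continuous_const).inv₀ fun x => (lt_max_of_lt_right ha).ne'
  have := Dat.BM.ite (P := fun x => a < d.Q z x) (mG o a)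
    ((((o.bm_q z).mul (o.bm_cont c1)).sub (Dat.bm_const (d.H / 2))).pow 2) (Dat.bm_const 0)
  refine (congrArg d.BM (funext fun x => ?_)).mp this
  unfold E
  split_ifs with hx
  · rw [max_eq_left hx.le, div_eq_mul_inv (d.q z x)]
  · rfl

theorem bm_W (o : d.Ok0) : d.BM (W d z) :=
  (((Dat.bm_const 1).add ((o.bm_Q z).const_mul _)).const_mul 2).sub ((o.bm_q z).const_mul _)

theorem bm_J (o : d.Ok0) {a : ℝ} (ha : 0 < a) : d.BM (J d z a) :=
  (bm_E o ha).add (Dat.BM.ite (P := fun x => a < d.Q z x) (mG o a) (Dat.bm_const _)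
    ((bm_W o).const_mul _))

theorem J_step (o : d.Ok0) (hm : d.m = 2) (hz : z ∈ d.K) {a a1 : ℝ} (ha : 0 < a) (ha1 : a < a1)
    (hK : ∀ x ∈ d.K, d.Q z x < a1) : ∫ x, J d z a x ∂d.μ ≤ a1⁻¹ * ∫ x, W d z x ∂d.μ := by
  have h := lip0_pf n d o z hz (fun _ => 1) _ _ a a1 contDiff_const (fun _ _ => zero_le_one)
    (pf ha ha1)
  unfold Dat.LamF at h
  rw [Measure.restrict_eq_self_of_ae_mem (s := {x | d.Q z x < a1})
    (o.supp.mono fun x hx => hK x hx)] at h
  have e : ∀ x, (1 * ((max (d.Q z x) a)⁻¹ - a1⁻¹) * (d.m * (1 + d.b ^ 2 * d.Q z x)) +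
      1 * (if a < d.Q z x then -(d.Q z x ^ 2)⁻¹ else 0) * d.Gam (d.Q z) (d.Q z) x +
      ((max (d.Q z x) a)⁻¹ - a1⁻¹) * d.Gam (fun _ => 1) (d.Q z) x
      - d.H * 1 * ((max (d.Q z x) a)⁻¹ - a1⁻¹) * d.q z x) = J d z a x - a1⁻¹ * W d z x := by
    intro x
    have e1 : d.Gam (d.Q z) (d.Q z) x = 2 * d.Q z x + d.b ^ 2 * d.Q z x ^ 2 - d.q z x ^ 2 := by
      have := o.eik z x
      unfold Dat.s2 at this
      linarith
    rw [Dat.Gam_const, e1, hm]
    unfold J E W
    by_cases hx : a < d.Q z x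
    · have h0 : d.Q z x ≠ 0 := (ha.trans hx).ne'
      simp only [if_pos hx, max_eq_left hx.le]
      push_cast
      field_simp
      ring
    · simp only [if_neg hx, max_eq_right (not_lt.1 hx)]
      push_cast
      ring
  simp only [e] at h
  rw [integral_sub ((bm_J o ha).integrable0 o) (((bm_W o).const_mul _).integrable0 o),
    integral_const_mul] at h
  linarith

theorem J_le (o : d.Ok0) (hm : d.m = 2) (hz : z ∈ d.K) {a : ℝ} (ha : 0 < a) :
    ∫ x, J d z a x ∂d.μ ≤ 0 := by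
  obtain ⟨M, -, hM⟩ := o.Qmax
  have ht : Tendsto (fun a1 : ℝ => a1⁻¹ * ∫ x, W d z x ∂d.μ) atTop (𝓝 (0 * ∫ x, W d z x ∂d.μ)) :=
    tendsto_inv_atTop_zero.mul_const _
  rw [zero_mul] at ht
  refine ge_of_tendsto ht ?_
  filter_upwards [eventually_gt_atTop a, eventually_gt_atTop M] with a1 h1 h2
  exact J_step o hm hz ha h1 fun x hx => (hM z hz x hx).trans_lt h2

theorem key (o : d.Ok0) (hm : d.m = 2) (hz : z ∈ d.K) {a δ : ℝ} (ha : 0 < a) (hδ : δ ≤ 2)
    (hs : d.H * √(2 * a + d.b ^ 2 * a ^ 2) ≤ δ) :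
    (2 - δ) * a⁻¹ * d.μ.real {x | d.Q z x < a} + ∫ x, E d z a x ∂d.μ ≤
      (d.H ^ 2 / 4 - d.b ^ 2) * d.μ.real {x | a < d.Q z x} := by
  have b1 := (Dat.bm_const (d := d) ((2 - δ) * a⁻¹)).indicator (mL (z := z) o a)
  have b2 := (Dat.bm_const (d := d) (d.H ^ 2 / 4 - d.b ^ 2)).indicator (mG (z := z) o a)
  have h := (o.int_mono ((b1.add (bm_E (z := z) o ha)).sub b2) (bm_J o ha) fun x _ => ?_).trans
    (J_le o hm hz ha)
  · rw [integral_sub ((b1.add (bm_E o ha)).integrable0 o) (b2.integrable0 o),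
      integral_add (b1.integrable0 o) ((bm_E o ha).integrable0 o),
      integral_indicator_const _ (mL o a), integral_indicator_const _ (mG o a), smul_eq_mul,
      smul_eq_mul] at h
    linarith
  · unfold J
    by_cases hx : a < d.Q z x
    · rw [if_pos hx, indicator_of_mem (show x ∈ {x | a < d.Q z x} from hx),
        indicator_of_notMem (show x ∉ {x | d.Q z x < a} from hx.le.not_gt)]
      linarith
    · rw [if_neg hx, indicator_of_notMem (show x ∉ {x | a < d.Q z x} from hx)]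
      have h0 := o.Q_nonneg z x
      have h1 : d.Q z x ≤ a := not_lt.1 hx
      have h2 : √(d.s2 z x) ≤ √(2 * a + d.b ^ 2 * a ^ 2) := by
        refine Real.sqrt_le_sqrt ?_
        unfold Dat.s2
        gcongr
      have h3 := mul_le_mul_of_nonneg_left ((abs_le.1 (o.abs_q_le z x)).2.trans h2) o.hH.le
      have h4 : 2 - δ ≤ W d z x := by
        unfold W
        nlinarith [mul_nonneg (sq_nonneg d.b) h0]
      have h5 : (2 - δ) * a⁻¹ ≤ a⁻¹ * W d z x := by
        rw [mul_comm]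
        exact mul_le_mul_of_nonneg_left h4 (inv_pos.2 ha).le
      have h6 : {x | d.Q z x < a}.indicator (fun _ => (2 - δ) * a⁻¹) x ≤ (2 - δ) * a⁻¹ :=
        indicator_le_self' (fun _ _ => mul_nonneg (sub_nonneg.2 hδ) (inv_pos.2 ha).le) x
      linarith

theorem main (o : d.Ok0) (hm : d.m = 2) (hz : z ∈ d.K)
    (hd : ∀ ε > 0, ∃ᶠ a in 𝓝[>] (0 : ℝ),
      (1 - ε) * om d.m * (2 * a) ^ ((d.m : ℝ) / 2) ≤ d.μ.real {y | d.Q z y < a})
    {a0 : ℝ} (h0 : 0 < a0) :
    4 * Real.pi + ∫ x, E d z a0 x ∂d.μ ≤ (d.H ^ 2 / 4 - d.b ^ 2) * d.μ.real univ := by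
  have := o.fin
  have hπ := Real.pi_pos
  have step : ∀ ε ∈ Ioo (0 : ℝ) 1, 4 * Real.pi * (1 - ε) ^ 2 + ∫ x, E d z a0 x ∂d.μ ≤
      (d.H ^ 2 / 4 - d.b ^ 2) * d.μ.real univ := by
    intro ε ⟨hε, hε1⟩
    have c1 : Tendsto (fun a : ℝ => d.H * √(2 * a + d.b ^ 2 * a ^ 2)) (𝓝[>] 0)
        (𝓝 (d.H * √(2 * 0 + d.b ^ 2 * 0 ^ 2))) :=
      tendsto_nhdsWithin_of_tendsto_nhds (Continuous.tendsto (by fun_prop) 0)
    rw [show 2 * (0 : ℝ) + d.b ^ 2 * 0 ^ 2 = 0 by ring, Real.sqrt_zero, mul_zero] at c1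
    obtain ⟨a, h1, ⟨ha, ha0⟩, h2⟩ := ((hd ε hε).and_eventually (Eventually.and
      (p := fun a => a ∈ Ioo 0 a0) (Ioo_mem_nhdsGT h0) (c1.eventually (ge_mem_nhds (show 0 < 2 * ε by linarith))))).exists
    have k := key o hm hz ha (by linarith) h2
    rw [hm, om_two] at h1
    simp only [Nat.cast_ofNat, ne_eq, OfNat.ofNat_ne_zero, not_false_eq_true, div_self,
      Real.rpow_one] at h1
    have h3 : 4 * Real.pi * (1 - ε) ^ 2 ≤ (2 - 2 * ε) * a⁻¹ * d.μ.real {x | d.Q z x < a} := by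
      refine le_trans (le_of_eq ?_) (mul_le_mul_of_nonneg_left h1
        (mul_nonneg (by linarith) (inv_pos.2 ha).le))
      field_simp
      ring
    have h4 := o.int_mono (bm_E (z := z) o h0) (bm_E o ha) fun x _ => E_anti ha0.le x
    have h5 : 0 ≤ ∫ x, E d z a x ∂d.μ := integral_nonneg fun x => E_nonneg a x
    have h6 : 0 < 4 * Real.pi * (1 - ε) ^ 2 := by
      have : 0 < 1 - ε := by linarith
      positivity
    have h7 : 0 ≤ d.μ.real {x | a < d.Q z x} := measureReal_nonneg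
    have h8 : 0 ≤ d.H ^ 2 / 4 - d.b ^ 2 := by
      by_contra hc
      have := mul_nonpos_of_nonpos_of_nonneg (not_le.1 hc).le h7
      linarith
    have h9 := mul_le_mul_of_nonneg_left
      (measureReal_mono (μ := d.μ) (subset_univ {x | a < d.Q z x})) h8
    linarith
  have ht : Tendsto (fun ε : ℝ => 4 * Real.pi * (1 - ε) ^ 2 + ∫ x, E d z a0 x ∂d.μ) (𝓝[>] 0)
      (𝓝 (4 * Real.pi * (1 - 0) ^ 2 + ∫ x, E d z a0 x ∂d.μ)) :=
    tendsto_nhdsWithin_of_tendsto_nhds (Continuous.tendsto (by fun_prop) 0)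
  have := le_of_tendsto ht (mem_of_superset (Ioo_mem_nhdsGT one_pos) step)
  simpa using this

end LWillAux

open LWillAux in
theorem will_pf : WillStmt := by
  intro n d o hm
  have hne : (ae d.μ).NeBot := ae_neBot.2 o.ne
  refine ⟨?_, fun hle => ?_⟩
  · obtain ⟨z, hz, hd⟩ := (o.supp.and o.ld).exists
    have h1 := main o hm hz hd one_pos
    have h2 : 0 ≤ ∫ x, E d z 1 x ∂d.μ := integral_nonneg fun x => E_nonneg 1 x
    linarith
  · filter_upwards [o.supp, o.ld] with z hz hd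
    have h1 : ∀ j : ℕ, ∀ᵐ x ∂d.μ, E d z (1 / ((j : ℝ) + 1)) x = 0 := fun j => by
      have h0 : 0 < 1 / ((j : ℝ) + 1) := Nat.one_div_pos_of_nat
      have h2 := main o hm hz hd h0
      exact (integral_eq_zero_iff_of_nonneg (fun x => E_nonneg _ x)
        ((bm_E o h0).integrable0 o)).1
        (le_antisymm (by linarith) (integral_nonneg fun x => E_nonneg _ x))
    filter_upwards [ae_all_iff.2 h1] with x hx
    rcases (o.Q_nonneg z x).eq_or_lt with h0 | h0
    · have h2 := o.abs_q_le z x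
      unfold Dat.s2 at h2
      rw [← h0] at h2 ⊢
      simpa using h2
    · obtain ⟨j, hj⟩ := exists_nat_one_div_lt h0
      have h2 := hx j
      rw [E, if_pos hj] at h2
      have h3 := sub_eq_zero.1 (pow_eq_zero_iff two_ne_zero |>.1 h2)
      rwa [div_eq_iff h0.ne'] at h3

end Vale.Agent.P219
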