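import Vale.Agent.P219.Wt
import Vale.Agent.P219.Trig

/-! P219 part F: the analytic hypotheses hold for a minimiser. -/

open scoped ContDiff ENNReal RealInnerProductSpace Topology
open MeasureTheory Set Filter Metric

namespace Vale.Agent.P219

namespace OkX

variable {n : ℕ} {G : Met n} {A : Eu n → Eu n →L[ℝ] Eu n}

theorem pars (hA : Frame G A) (x u w : Eu n) :
    ∑ i, G x u (A x (ee i)) * G x w (A x (ee i)) = G x u w := by
  have h1 : Function.Injective (A x) := (injective_iff_map_eq_zero _).2 fun v hv => by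
    have := hA.iso x v v
    rw [hv, map_zero] at this
    exact inner_self_eq_zero.1 this.symm
  have h2 := LinearMap.surjective_of_injective (f := (A x).toLinearMap) h1
  obtain ⟨u, rfl⟩ := h2 u
  obtain ⟨w, rfl⟩ := h2 w
  simp only [ContinuousLinearMap.coe_coe, hA.iso]
  rw [← (EuclideanSpace.basisFun (Fin n) ℝ).sum_inner_mul_inner u w]
  exact Finset.sum_congr rfl fun i _ => by
    rw [EuclideanSpace.basisFun_apply, real_inner_comm w]

theorem tau_sq (hG : Rm G) (hA : Frame G A) {x N : Eu n} (hN : G x N N = 1) (i : Fin n) :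
    G x (A x (ee i) - G x (A x (ee i)) N • N) (A x (ee i) - G x (A x (ee i)) N • N) =
      1 - G x N (A x (ee i)) * G x N (A x (ee i)) := by
  have h1 : G x (A x (ee i)) (A x (ee i)) = 1 := by rw [hA.iso]; simp
  simp only [map_sub, map_smul, sub_apply, smul_apply, smul_eq_mul, h1, hN,
    hG.symm x (A x (ee i)) N]
  ring

theorem tau_sum (hG : Rm G) (hA : Frame G A) {x N : Eu n} (hN : G x N N = 1) (V : Eu n) :
    ∑ i, G x V (A x (ee i) - G x (A x (ee i)) N • N) *
      G x V (A x (ee i) - G x (A x (ee i)) N • N) + G x V N ^ 2 = G x V V := by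
  have h1 : ∀ i, G x V (A x (ee i) - G x (A x (ee i)) N • N) *
      G x V (A x (ee i) - G x (A x (ee i)) N • N) = G x V (A x (ee i)) * G x V (A x (ee i))
        - 2 * G x V N * (G x V (A x (ee i)) * G x N (A x (ee i)))
        + G x V N ^ 2 * (G x N (A x (ee i)) * G x N (A x (ee i))) := fun i => by
    simp only [map_sub, map_smul, smul_eq_mul, hG.symm x (A x (ee i)) N]
    ring
  simp only [h1, Finset.sum_add_distrib, Finset.sum_sub_distrib, ← Finset.mul_sum, pars hA, hN]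
  ring

theorem ne_zero {Ω : Set (Eu n)} {μ : Measure (Eu n)} {N : Eu n → Eu n} (hn : 1 ≤ n) (hG : Rm G)
    (hm : MeasurableSet Ω) (hB : Bornology.IsBounded Ω) (h : Bd G Ω μ N) (hv : 0 < vol G Ω) :
    μ ≠ 0 := by
  rintro rfl
  obtain ⟨R, hR, hΩ⟩ := hB.subset_ball_lt 0 0
  let χ : ContDiffBump (0 : Eu n) := ⟨R, R + 1, hR, lt_add_one R⟩
  have h1 := h.gauss (fun y => ((wt G y)⁻¹ * χ y) • y)
    ((((hG.wt_smooth.of_le (by simp)).inv fun y => (hG.wt_pos y).ne').mul χ.contDiff).smul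
      contDiff_id) (χ.hasCompactSupport.mul_left.smul_right)
  rw [integral_zero_measure, flux, setIntegral_congr_fun hm (g := fun _ => (n : ℝ)) fun x hx => ?_,
    setIntegral_const, smul_eq_mul, mul_eq_zero] at h1
  · have h2 : (n : ℝ) ≠ 0 := Nat.cast_ne_zero.2 (by omega)
    rw [measureReal_eq_zero_iff hB.measure_lt_top.ne, or_iff_left h2] at h1
    exact hv.ne' (setIntegral_measure_zero _ h1)
  · have e : (fun y => wt G y • ((wt G y)⁻¹ * χ y) • y) =ᶠ[𝓝 x] id := by
      filter_upwards [isOpen_ball.mem_nhds (hΩ hx)] with y hy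
      rw [χ.one_of_mem_closedBall (ball_subset_closedBall hy), mul_one,
        smul_inv_smul₀ (hG.wt_pos y).ne', id]
    simp [dvg, e.fderiv_eq]

theorem ld (hG : Rm G) {Q : Eu n → ℝ} {x : Eu n} {μ : Measure (Eu n)} [IsFiniteMeasure μ]
    {m : ℕ} (hQ : ∀ ε > 0, ∀ᶠ y in 𝓝 x, Q y ≤ (1 + ε) * G x (y - x) (y - x) / 2)
    (h : ∀ ε > 0, ∃ᶠ r in 𝓝[>] (0 : ℝ),
      (1 - ε) * om m * r ^ m ≤ μ.real {y | G x (y - x) (y - x) ≤ r ^ 2}) (ε : ℝ) (hε : 0 < ε) :
    ∃ᶠ a in 𝓝[>] (0 : ℝ), (1 - ε) * om m * (2 * a) ^ ((m : ℝ) / 2) ≤ μ.real {y | Q y < a} := by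
  have h1 : ∀ᶠ η : ℝ in 𝓝 0, (1 - ε) * (1 + η) ^ m < 1 - η :=
    ContinuousAt.eventually_lt (f := fun η : ℝ => (1 - ε) * (1 + η) ^ m) (g := fun η => 1 - η)
      (by fun_prop) (by fun_prop) (by simpa using hε)
  obtain ⟨η, h2, η0⟩ := ((h1.filter_mono nhdsWithin_le_nhds).and
    (self_mem_nhdsWithin (s := Ioi (0 : ℝ)))).exists
  have η0 : 0 < η := η0
  obtain ⟨δ, δ0, hδ⟩ := Metric.eventually_nhds_iff_ball.1 (hQ η η0)
  obtain ⟨c, c0, hc⟩ := hG.coercive (isCompact_singleton (x := x))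
  have h3 : ∀ᶠ r : ℝ in 𝓝 0, r ^ 2 < c * δ ^ 2 :=
    ContinuousAt.eventually_lt (f := fun r : ℝ => r ^ 2) (g := fun _ => c * δ ^ 2)
      (by fun_prop) (by fun_prop) (by rw [zero_pow two_ne_zero]; positivity)
  have ht : Tendsto (fun r : ℝ => ((1 + η) * r) ^ 2 / 2) (𝓝[>] 0) (𝓝[>] 0) := by
    refine tendsto_nhdsWithin_iff.2 ⟨Tendsto.mono_left ?_ nhdsWithin_le_nhds, ?_⟩
    · exact Continuous.tendsto' (by fun_prop) _ _ (by simp)
    · filter_upwards [self_mem_nhdsWithin] with r hr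
      have : 0 < r := hr
      exact mem_Ioi.2 (by positivity)
  refine ht.frequently (((h η η0).and_eventually ((h3.filter_mono nhdsWithin_le_nhds).and
    self_mem_nhdsWithin)).mono fun r hr => ?_)
  obtain ⟨a1, a2, r0⟩ := hr
  have r0 : 0 < r := r0
  have e1 : (2 * (((1 + η) * r) ^ 2 / 2)) ^ ((m : ℝ) / 2) = (1 + η) ^ m * r ^ m := by
    rw [mul_div_cancel₀ _ two_ne_zero, ← Real.rpow_natCast, ← Real.rpow_mul (by positivity),
      ← mul_pow, ← Real.rpow_natCast]
    congr 1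
    push_cast
    ring
  rw [e1]
  refine le_trans ?_ (a1.trans (measureReal_mono (fun y hy => ?_) (measure_ne_top _ _)))
  · have := mul_le_mul_of_nonneg_right h2.le (mul_pos (om_pos m) (pow_pos r0 m)).le
    linarith
  · have b1 : G x (y - x) (y - x) ≤ r ^ 2 := hy
    have b2 := hδ y (by
      rw [mem_ball, dist_eq_norm]
      exact lt_of_pow_lt_pow_left₀ 2 δ0.le
        (lt_of_mul_lt_mul_left (((hc x rfl _).trans b1).trans_lt a2) c0.le))
    have b3 := mul_le_mul_of_nonneg_left b1 (by positivity : 0 ≤ 1 + η)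
    have b4 : 0 < η * (1 + η) * r ^ 2 := by positivity
    show Q y < ((1 + η) * r) ^ 2 / 2
    linarith

end OkX

theorem ok_pf (hf : FvStmt) (hd : DensStmt) : OkStmt := by
  intro n G A b H a0 o Q V X ex I Ω μ N hn hb hH ha hG hA hg hmin hBd hI hv
  have hK := hg.proper o a0
  have hB : Bornology.IsBounded Ω := hK.isBounded.subset hmin.sub
  have := hBd.fin
  refine
    { hm := Nat.le_sub_one_of_lt hn, hb := hb, hH := hH, ha := ha, fin := hBd.fin
      ne := OkX.ne_zero (by omega) hG hmin.meas hB hBd hv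
      supp := measure_mono_null
        (compl_subset_compl.2 (closure_minimal hmin.sub hK.isClosed)) hBd.supp
      mτ := fun i => ?_, mN := hBd.meas, bdd := ?_, Qsm := hg.Qsm, symm := hg.symm
      zero := hg.zero, pos := hg.pos, proper := hg.proper, tri := hg.tri
      cos := fun z => ⟨V o z, fun x => ?_⟩, eik := fun z x => ?_, Xsm := hg.Xsm
      Xnorm := hg.Xnorm, Xcon := fun z x => ?_, Xbal := hg.Xbal
      fv := hf n G A b H a0 o Q V X ex I Ω μ N (by omega) hG hA hg hmin hBd hI, ld := ?_ }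
  · have c1 : Continuous fun x => A x (ee i) := hA.cont.clm_apply continuous_const
    have c2 : Continuous fun p : Eu n × Eu n => G p.1 (A p.1 (ee i)) p.2 :=
      ((hG.smooth.continuous.clm_apply c1).comp continuous_fst).clm_apply continuous_snd
    exact c1.measurable.sub ((c2.measurable.comp (measurable_id.prodMk hBd.meas)).smul hBd.meas)
  · obtain ⟨c, c0, hc⟩ := hG.coercive hK
    have h1 : ∀ x ∈ {x | Q o x ≤ a0}, ∀ v, G x v v ≤ 1 → ‖v‖ ≤ √(1 / c) := fun x hx v h =>
      Real.le_sqrt_of_sq_le ((le_div_iff₀' c0).2 ((hc x hx v).trans h))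
    refine ⟨√(1 / c), fun x hx => ⟨fun i => h1 x hx _ ?_, h1 x hx _ (hBd.unit x).le⟩⟩
    exact (OkX.tau_sq hG hA (hBd.unit x) i).trans_le (sub_le_self _ (mul_self_nonneg _))
  · exact (hg.cos o x z).trans_eq ((hG.symm _ _ _).trans (hg.grad x z _))
  · have h1 := (OkX.tau_sum hG hA (hBd.unit x) (V z x)).trans (hg.eik z x)
    simp only [hg.grad] at h1
    exact h1
  · refine (Finset.sum_le_sum fun i _ => hg.Xcon z x _).trans (le_of_eq ?_)
    simp only [mkDat, Dat.Gam, OkX.tau_sq hG hA (hBd.unit x), Finset.sum_add_distrib,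
      Finset.sum_sub_distrib, OkX.pars hA, hBd.unit, ← Finset.mul_sum, sq]
    rw [Nat.cast_sub (by omega)]
    simp
  · filter_upwards [hd n G Ω μ N (by omega) hG hmin.meas hB hBd] with x hx
    exact OkX.ld (μ := μ) hG (hg.near x) hx

end Vale.Agent.P219
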