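import Vale.Agent.P219.Trig

/-! Part R: a ball with the model volume is a model ball. -/

open scoped ENNReal RealInnerProductSpace Topology Matrix
open MeasureTheory Set Filter

namespace Vale.Agent.P219

namespace RV

variable {n : ℕ}

/-- Gram matrix. -/
noncomputable def gram (g : Eu n →L[ℝ] Eu n →L[ℝ] ℝ) : Matrix (Fin n) (Fin n) ℝ :=
  Matrix.of fun i j => g (EuclideanSpace.single i 1) (EuclideanSpace.single j 1)

theorem expand (u : Eu n) : u = ∑ i, u i • (EuclideanSpace.single i 1 : Eu n) := by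
  have h := (EuclideanSpace.basisFun (Fin n) ℝ).sum_repr u
  simpa using h.symm

theorem bil_eq (g : Eu n →L[ℝ] Eu n →L[ℝ] ℝ) (u w : Eu n) :
    g u w = (fun i => u i) ⬝ᵥ (gram g *ᵥ fun i => w i) := by
  conv_lhs => rw [expand u, expand w]
  simp only [map_sum, map_smul, sum_apply, smul_apply,
    smul_eq_mul, dotProduct, Matrix.mulVec, gram, Matrix.of_apply, Finset.mul_sum]
  rw [Finset.sum_comm]
  refine Finset.sum_congr rfl fun i _ => Finset.sum_congr rfl fun j _ => ?_
  ring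

theorem det_gram_comp (g : Eu n →L[ℝ] Eu n →L[ℝ] ℝ) (T : Eu n →L[ℝ] Eu n) :
    (gram (g.bilinearComp T T)).det = T.det ^ 2 * (gram g).det := by
  let b := (EuclideanSpace.basisFun (Fin n) ℝ).toBasis
  let A : Matrix (Fin n) (Fin n) ℝ := LinearMap.toMatrix b b (T : Eu n →ₗ[ℝ] Eu n)
  have hA : ∀ i j, A i j = T (EuclideanSpace.single j 1) i := by
    intro i j
    simp [A, b, LinearMap.toMatrix_apply]
  have h1 : gram (g.bilinearComp T T) = Aᵀ * (gram g * A) := by
    ext i j
    have : gram (g.bilinearComp T T) i j =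
        g (T (EuclideanSpace.single i 1)) (T (EuclideanSpace.single j 1)) := by
      simp [gram]
    rw [this, bil_eq]
    simp only [dotProduct, Matrix.mulVec, Matrix.mul_apply, Matrix.transpose_apply, hA]
  have h2 : A.det = T.det := LinearMap.det_toMatrix b _
  rw [h1, Matrix.det_mul, Matrix.det_mul, Matrix.det_transpose, h2]
  ring

theorem det_gram_ge (g : Eu n →L[ℝ] Eu n →L[ℝ] ℝ) (hs : ∀ u w, g u w = g w u)
    (h : ∀ u, ‖u‖ ^ 2 ≤ g u u) :
    1 ≤ (gram g).det ∧ ((gram g).det ≤ 1 → ∀ u, g u u = ‖u‖ ^ 2) := by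
  have hH : (gram g).IsHermitian := by
    ext i j
    simp [gram, hs (EuclideanSpace.single j 1)]
  have he : ∀ i, 1 ≤ hH.eigenvalues i := by
    intro i
    rw [hH.eigenvalues_eq i]
    have h1 := h (hH.eigenvectorBasis i)
    rw [hH.eigenvectorBasis.orthonormal.1 i, bil_eq] at h1
    simpa using h1
  have hd : (gram g).det = ∏ i, hH.eigenvalues i := by
    simpa using hH.det_eq_prod_eigenvalues
  refine ⟨hd ▸ Finset.one_le_prod fun i _ => he i, fun h1 u => ?_⟩
  have h2 : ∀ i, hH.eigenvalues i = 1 := by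
    intro i
    refine le_antisymm ?_ (he i)
    rw [hd, ← Finset.mul_prod_erase _ _ (Finset.mem_univ i)] at h1
    have h3 : 1 ≤ ∏ j ∈ Finset.univ.erase i, hH.eigenvalues j :=
      Finset.one_le_prod fun j _ => he j
    nlinarith [he i]
  have h3 : gram g = 1 := by
    rw [hH.spectral_theorem]
    have : Matrix.diagonal (RCLike.ofReal ∘ hH.eigenvalues) = (1 : Matrix (Fin n) (Fin n) ℝ) := by
      rw [← Matrix.diagonal_one]
      congr 1
      funext i
      simp [h2 i]
    rw [this, map_one]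
  rw [bil_eq, h3, Matrix.one_mulVec, EuclideanSpace.real_norm_sq_eq]
  simp [dotProduct, sq]

theorem key (g : Eu n →L[ℝ] Eu n →L[ℝ] ℝ) (hs : ∀ u w, g u w = g w u) (T : Eu n →L[ℝ] Eu n)
    (h : ∀ u, ‖u‖ ^ 2 ≤ g (T u) (T u)) :
    1 ≤ |T.det| * √(gram g).det ∧
      (|T.det| * √(gram g).det ≤ 1 → ∀ u, g (T u) (T u) = ‖u‖ ^ 2) := by
  obtain ⟨h1, h2⟩ := det_gram_ge (g.bilinearComp T T) (fun u w => by simp [hs (T u)])
    (fun u => by simpa using h u)
  have e : √(gram (g.bilinearComp T T)).det = |T.det| * √(gram g).det := by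
    rw [det_gram_comp, Real.sqrt_mul (sq_nonneg _), Real.sqrt_sq_eq_abs]
  rw [← e]
  refine ⟨Real.one_le_sqrt.mpr h1, fun h3 u => ?_⟩
  simpa using h2 (Real.sqrt_le_one.mp h3) u

/-- `sn b t / t`, continuously extended. -/
noncomputable def sq (b t : ℝ) : ℝ := dslope (sn b) 0 t

theorem sq_zero (b : ℝ) : sq b 0 = 1 := by
  rw [sq, dslope_same, (hasDerivAt_sn b 0).deriv, qf_zero]
  simp

theorem sq_ne (b : ℝ) {t : ℝ} (ht : t ≠ 0) : sq b t = sn b t / t := by
  rw [sq, dslope_of_ne _ ht, slope_def_field, sn_zero]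
  simp

theorem continuous_sq (b : ℝ) : Continuous (sq b) := by
  rw [← continuousOn_univ]
  exact (continuousOn_dslope univ_mem).mpr
    ⟨(continuous_sn b).continuousOn, (hasDerivAt_sn b 0).differentiableAt⟩

theorem sq_pos {b t : ℝ} (hb : 0 ≤ b) (ht : 0 ≤ t) : 0 < sq b t := by
  rcases ht.eq_or_lt with rfl | h
  · rw [sq_zero]
    exact one_pos
  · rw [sq_ne b h.ne']
    exact div_pos (sn_pos hb h) h

theorem exists_K (hn : 1 ≤ n) {b : ℝ} (hb : 0 ≤ b) (v : Eu n) :
    ∃ K : Eu n →L[ℝ] Eu n, K.det = (sq b ‖v‖ ^ (n - 1))⁻¹ ∧ ∀ u, mg b v (K u) = ‖u‖ ^ 2 := by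
  by_cases hv : v = 0
  · refine ⟨ContinuousLinearMap.id ℝ _, ?_, fun u => by simp [mg, hv]⟩
    simp [hv, sq_zero, ContinuousLinearMap.det]
  have hr : 0 < ‖v‖ := norm_pos_iff.mpr hv
  have hs := sq_pos hb hr.le
  set s := sq b ‖v‖ with hsd
  let K : Eu n →L[ℝ] Eu n := s⁻¹ • (ContinuousLinearMap.id ℝ _ +
    (((s - 1) / ‖v‖ ^ 2) • innerSL ℝ v).smulRight v)
  have hK : ∀ u, K u = s⁻¹ • (u + ((s - 1) / ‖v‖ ^ 2 * ⟪v, u⟫) • v) := by
    intro u
    simp [K]
  refine ⟨K, ?_, fun u => ?_⟩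
  · have h1 : (K : Eu n →ₗ[ℝ] Eu n) = s⁻¹ • LinearMap.transvection
        ((((s - 1) / ‖v‖ ^ 2) • innerSL ℝ v : Eu n →L[ℝ] ℝ) : Eu n →ₗ[ℝ] ℝ) v := by
      ext1 u
      simp [hK, LinearMap.transvection.apply]
    rw [ContinuousLinearMap.det, h1, LinearMap.det_smul, LinearMap.transvection.det]
    have h2 : (((((s - 1) / ‖v‖ ^ 2) • innerSL ℝ v : Eu n →L[ℝ] ℝ) : Eu n →ₗ[ℝ] ℝ) v) = s - 1 := by
      simp only [ContinuousLinearMap.coe_coe, smul_apply, innerSL_apply_apply,
        real_inner_self_eq_norm_sq, smul_eq_mul]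
      field_simp
    rw [h2, finrank_euclideanSpace_fin]
    obtain ⟨k, rfl⟩ : ∃ k, n = k + 1 := ⟨n - 1, by omega⟩
    simp only [Nat.add_sub_cancel, pow_succ, inv_pow]
    field_simp
    ring
  · have h1 : ⟪v, K u⟫ = ⟪v, u⟫ := by
      rw [hK, inner_smul_right, inner_add_right, inner_smul_right, real_inner_self_eq_norm_sq]
      field_simp
      ring
    have h2 : ‖K u‖ ^ 2 = s⁻¹ ^ 2 * (‖u‖ ^ 2 + (s ^ 2 - 1) * (⟪v, u⟫ / ‖v‖) ^ 2) := by
      rw [hK, norm_smul, mul_pow, norm_add_sq_real, inner_smul_right, norm_smul, mul_pow,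
        Real.norm_eq_abs, Real.norm_eq_abs, sq_abs, sq_abs, real_inner_comm v u]
      field_simp
      ring
    rw [mg, if_neg hv, h1, h2, ← sq_ne b hr.ne', ← hsd]
    field_simp
    ring

theorem polar (hn : 1 ≤ n) (b : ℝ) {r : ℝ} (hr : 0 < r) :
    ∫ v in Metric.ball (0 : Eu n) r, sq b ‖v‖ ^ (n - 1) = mV n b r := by
  have : Nontrivial (Eu n) := by
    have : Nonempty (Fin n) := ⟨⟨0, hn⟩⟩
    infer_instance
  have h := integral_fun_norm_addHaar (volume : Measure (Eu n))
    (indicator (Iio r) fun t => sq b t ^ (n - 1))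
  rw [← integral_indicator measurableSet_ball]
  have h1 : (indicator (Metric.ball (0 : Eu n) r) fun v => sq b ‖v‖ ^ (n - 1)) =
      fun v : Eu n => indicator (Iio r) (fun t => sq b t ^ (n - 1)) ‖v‖ := by
    funext v
    simp only [indicator, mem_ball_zero_iff, mem_Iio]
  rw [h1, h, finrank_euclideanSpace_fin, mV, om, nsmul_eq_mul, smul_eq_mul, ← mul_assoc]
  congr 1
  rw [intervalIntegral.integral_of_le hr.le, integral_Ioc_eq_integral_Ioo,
    ← Ioi_inter_Iio, inter_comm, ← Measure.restrict_restrict measurableSet_Iio,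
    ← integral_indicator measurableSet_Iio]
  refine setIntegral_congr_fun measurableSet_Ioi fun t ht => ?_
  have ht0 : t ≠ 0 := ne_of_gt ht
  by_cases h2 : t ∈ Iio r
  · simp only [indicator_of_mem h2, smul_eq_mul, sq_ne b ht0, div_pow]
    field_simp
  · simp [indicator_of_notMem h2]

theorem continuous_wt {G : Met n} (hG : Rm G) : Continuous (wt G) := by
  have hc := hG.smooth.continuous
  unfold wt
  refine Real.continuous_sqrt.comp (Continuous.matrix_det ?_)
  refine continuous_matrix fun i j => ?_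
  simp only [Matrix.of_apply]
  exact (hc.clm_apply continuous_const).clm_apply continuous_const

end RV

theorem rigVol_pf : RigVolStmt := by
  intro n G b Φ r hn hb hr hG hΦ hinj hge hvol
  have hd : Continuous (fderiv ℝ Φ) := hΦ.continuous_fderiv one_ne_zero
  let F : Eu n → ℝ := fun v => |(fderiv ℝ Φ v).det| * wt G (Φ v)
  let H : Eu n → ℝ := fun v => RV.sq b ‖v‖ ^ (n - 1)
  have cF : Continuous F := (ContinuousLinearMap.continuous_det.comp hd).abs.mul
    ((RV.continuous_wt hG).comp hΦ.continuous)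
  have cH : Continuous H := ((RV.continuous_sq b).comp continuous_norm).pow _
  have pH : ∀ v, 0 < H v := fun v => pow_pos (RV.sq_pos hb (norm_nonneg v)) _
  have hk : ∀ v, H v ≤ F v ∧ (F v ≤ H v →
      ∀ u, G (Φ v) (fderiv ℝ Φ v u) (fderiv ℝ Φ v u) = mg b v u) := by
    intro v
    obtain ⟨K, hK, hm⟩ := RV.exists_K hn hb v
    obtain ⟨h1, h2⟩ := RV.key (G (Φ v)) (hG.symm _) ((fderiv ℝ Φ v).comp K)
      (fun u => (hm u).symm.trans_le (hge v (K u)))
    have e : |((fderiv ℝ Φ v).comp K).det| * √(RV.gram (G (Φ v))).det = F v / H v := by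
      have e1 : ((fderiv ℝ Φ v).comp K).det = (fderiv ℝ Φ v).det * K.det :=
        LinearMap.det_comp _ _
      rw [e1, hK, abs_mul, abs_inv, abs_of_pos (pH v)]
      simp only [F, H, wt, RV.gram]
      ring
    rw [e] at h1 h2
    refine ⟨(one_le_div (pH v)).mp h1, fun h u => ?_⟩
    have hK0 : LinearMap.det (K : Eu n →ₗ[ℝ] Eu n) ≠ 0 := by
      have : K.det ≠ 0 := hK ▸ inv_ne_zero (pH v).ne'
      exact this
    obtain ⟨w, hw⟩ := (LinearMap.equivOfDetNeZero _ hK0).surjective u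
    have hw' : K w = u := hw
    rw [← hw', hm w]
    exact h2 ((div_le_one (pH v)).mpr h) w
  have hv : vol G (Φ '' Metric.ball 0 r) = ∫ v in Metric.ball (0 : Eu n) r, F v :=
    integral_image_eq_integral_abs_det_fderiv_smul volume measurableSet_ball
      (fun v _ => (hΦ.differentiable one_ne_zero v).hasFDerivAt.hasFDerivWithinAt)
      hinj.injOn (wt G)
  have iF : IntegrableOn F (Metric.ball (0 : Eu n) r) :=
    (cF.continuousOn.integrableOn_compact (isCompact_closedBall 0 r)).mono_set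
      Metric.ball_subset_closedBall
  have iH : IntegrableOn H (Metric.ball (0 : Eu n) r) :=
    (cH.continuousOn.integrableOn_compact (isCompact_closedBall 0 r)).mono_set
      Metric.ball_subset_closedBall
  have h0 : ∫ v in Metric.ball (0 : Eu n) r, (F v - H v) = 0 := by
    refine le_antisymm ?_ (integral_nonneg fun v => sub_nonneg.mpr (hk v).1)
    rw [integral_sub iF iH, ← hv, RV.polar hn b hr]
    exact sub_nonpos.mpr hvol
  have h1 := (setIntegral_eq_zero_iff_of_nonneg_ae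
    (Eventually.of_forall fun v => sub_nonneg.mpr (hk v).1) (iF.sub iH)).mp h0
  have h2 := Measure.eqOn_open_of_ae_eq h1 Metric.isOpen_ball (cF.sub cH).continuousOn
    continuousOn_const
  intro v hv
  exact (hk v).2 (sub_nonpos.mp (h2 hv).le)

end Vale.Agent.P219
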