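import Vale.Agent.P219.Lo
import Vale.Agent.P219.BTool
import Vale.Agent.P219.Frame
import Vale.Agent.P219.Fv
import Vale.Agent.P219.Ok
import Vale.Agent.P219.RigVol

/-! Tools for the dimensions two and three. -/

open scoped Manifold ContDiff ENNReal RealInnerProductSpace Topology
open MeasureTheory Set Filter

namespace Vale.Agent.P219

variable {n : ℕ} {G : Met n} {b : ℝ} {Q : Eu n → Eu n → ℝ} {V X : Eu n → Eu n → Eu n}
  {ex : Eu n → Eu n ≃ₜ Eu n} {Ω : Set (Eu n)} {μ : Measure (Eu n)} {N : Eu n → Eu n}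

/-- Cauchy-Schwarz. -/
theorem Rm.cs (h : Rm G) (x u v : Eu n) : G x u v ^ 2 ≤ G x u u * G x v v := by
  have h1 : ∀ t : ℝ, 0 ≤ G x v v * (t * t) + 2 * G x u v * t + G x u u := fun t => by
    have := h.nonneg x (u + t • v)
    simp only [map_add, map_smul, ContinuousLinearMap.add_apply, ContinuousLinearMap.smul_apply,
      smul_eq_mul] at this
    rw [h.symm x v u] at this
    linarith
  have := discrim_le_zero h1
  unfold discrim at this
  nlinarith

/-- Equality in Cauchy-Schwarz. -/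
theorem Rm.eq_smul (h : Rm G) {x u v : Eu n} {s : ℝ} (hu : G x u u = 1) (hv : G x v v = s ^ 2)
    (huv : G x u v = s) : v = s • u := by
  by_contra hne
  have := h.pos x (v - s • u) (sub_ne_zero.2 hne)
  simp only [map_sub, map_smul, ContinuousLinearMap.sub_apply, ContinuousLinearMap.smul_apply,
    smul_eq_mul] at this
  rw [h.symm x v u, hu, hv, huv] at this
  nlinarith

theorem Geo.Q_nonneg (h : Geo G b Q V X ex) (z x : Eu n) : 0 ≤ Q z x := by
  rcases eq_or_ne x z with rfl | hx
  · exact (h.zero _).ge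
  · exact (h.pos z x hx).le

theorem Geo.contQ (h : Geo G b Q V X ex) : Continuous fun p : Eu n × Eu n => Q p.1 p.2 :=
  h.Qsm.continuous

theorem Geo.V_self (h : Geo G b Q V X ex) (hG : Rm G) (x : Eu n) : V x x = 0 := by
  by_contra hne
  have := hG.pos x _ hne
  rw [h.eik, h.zero] at this
  simp at this

theorem Geo2.Q_smooth (h : Geo2 G b Q V X ex) (z : Eu n) : ContDiff ℝ ∞ (Q z) :=
  h.Qs.comp (contDiff_const.prodMk contDiff_id)

theorem Geo2.V_smooth (h : Geo2 G b Q V X ex) (z : Eu n) : ContDiff ℝ ∞ (V z) :=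
  h.Vs.comp (contDiff_const.prodMk contDiff_id)

/-- Joint smoothness of `(x, y, η) ↦ dQ_x(y) η`. -/
theorem Geo2.dQ_smooth (h : Geo2 G b Q V X ex) (hG : Rm G) :
    ContDiff ℝ ∞ fun p : Eu n × Eu n × Eu n => fderiv ℝ (Q p.1) p.2.1 p.2.2 := by
  simp only [← h.grad]
  exact ((hG.smooth.comp (contDiff_fst.comp contDiff_snd)).clm_apply
    (h.Vs.comp (contDiff_fst.prodMk (contDiff_fst.comp contDiff_snd)))).clm_apply
    (contDiff_snd.comp contDiff_snd)

theorem Geo.dQ_sq_le (h : Geo G b Q V X ex) (hG : Rm G) (x y η : Eu n) :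
    fderiv ℝ (Q x) y η ^ 2 ≤ (2 * Q x y + b ^ 2 * Q x y ^ 2) * G y η η := by
  rw [← h.grad, ← h.eik]; exact hG.cs _ _ _

theorem Bd.ae_closure (h : Bd G Ω μ N) : ∀ᵐ x ∂μ, x ∈ closure Ω := h.supp

theorem Bd.bddN (h : Bd G Ω μ N) (hG : Rm G) {K : Set (Eu n)} (hK : IsCompact K) :
    ∃ C, ∀ x ∈ K, ‖N x‖ ≤ C := by
  obtain ⟨c, c0, hc⟩ := hG.coercive hK
  exact ⟨√(1 / c), fun x hx =>
    Real.le_sqrt_of_sq_le ((le_div_iff₀' c0).2 ((hc x hx _).trans (h.unit x).le))⟩

/-- Continuous functions of the point and the normal are integrable. -/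
theorem Bd.integ (h : Bd G Ω μ N) (hG : Rm G) (hΩ : Bornology.IsBounded Ω)
    {Φ : Eu n × Eu n → ℝ} (hΦ : Continuous Φ) : Integrable (fun x => Φ (x, N x)) μ := by
  obtain ⟨A, hA⟩ := frame_pf n G hG
  haveI := h.fin
  exact Fv.integ hA hΩ.isCompact_closure h.ae_closure h.meas h.unit hΦ

/-- The same on a product of `μ` with a finite measure `ν` carried by a compact set. -/
theorem Bd.integ_prod (h : Bd G Ω μ N) (hG : Rm G) (hΩ : Bornology.IsBounded Ω)
    {ν : Measure (Eu n)} [IsFiniteMeasure ν] {K : Set (Eu n)} (hK : IsCompact K)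
    (hν : ∀ᵐ x ∂ν, x ∈ K) {M : Eu n → Eu n} (hM : Measurable M) {C : ℝ} (hC : ∀ x ∈ K, ‖M x‖ ≤ C)
    {Φ : (Eu n × Eu n) × Eu n × Eu n → ℝ} (hΦ : Continuous Φ) :
    Integrable (fun p : Eu n × Eu n => Φ ((p.1, N p.1), (p.2, M p.2))) (μ.prod ν) := by
  haveI := h.fin
  obtain ⟨D, hD⟩ := h.bddN hG hΩ.isCompact_closure
  obtain ⟨B, hB⟩ := ((hΩ.isCompact_closure.prod (isCompact_closedBall (0 : Eu n) D)).prod
    (hK.prod (isCompact_closedBall (0 : Eu n) C))).exists_bound_of_continuousOn hΦ.continuousOn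
  refine (integrable_const B).mono' (hΦ.measurable.comp
    ((measurable_fst.prodMk (h.meas.comp measurable_fst)).prodMk
      (measurable_snd.prodMk (hM.comp measurable_snd)))).aestronglyMeasurable ?_
  filter_upwards [Measure.quasiMeasurePreserving_fst.ae h.ae_closure,
    Measure.quasiMeasurePreserving_snd.ae hν] with p h1 h2
  exact hB _ ⟨⟨h1, mem_closedBall_zero_iff.2 (hD _ h1)⟩, h2, mem_closedBall_zero_iff.2 (hC _ h2)⟩

/-- The Gauss formula without compact support. -/
theorem Bd.gauss' (h : Bd G Ω μ N) (hm : MeasurableSet Ω) (hΩ : Bornology.IsBounded Ω)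
    {Y : Eu n → Eu n} (hY : ContDiff ℝ 1 Y) :
    ∫ x in Ω, dvg (fun y => wt G y • Y y) x = ∫ x, G x (N x) (Y x) ∂μ := by
  obtain ⟨R, hR⟩ := hΩ.isCompact_closure.isBounded.subset_ball (0 : Eu n)
  obtain ⟨f, f1, f0, f2, -⟩ := B.exists_cut (s := (Metric.ball (0 : Eu n) (R + 1))ᶜ)
    (t := Metric.closedBall 0 R) Metric.isOpen_ball.isClosed_compl Metric.isClosed_closedBall
    (disjoint_compl_left_iff_subset.2 (Metric.closedBall_subset_ball (by linarith)))
  have hc : HasCompactSupport fun x => f x • Y x :=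
    HasCompactSupport.intro (isCompact_closedBall (0 : Eu n) (R + 1)) fun x hx => by
      rw [f0 x fun hb => hx (Metric.ball_subset_closedBall hb), zero_smul]
  have := h.gauss (fun x => f x • Y x) (f1.smul hY) hc
  unfold flux at this
  have e2 : ∫ x, G x (N x) (f x • Y x) ∂μ = ∫ x, G x (N x) (Y x) ∂μ :=
    integral_congr_ae (h.ae_closure.mono fun x hx => by
      simp only [f2 x (Metric.ball_subset_closedBall (hR hx)), one_smul])
  rw [← e2, ← this]
  · refine setIntegral_congr_fun hm fun x hx => ?_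
    have e : (fun y => wt G y • Y y) =ᶠ[𝓝 x] fun y => wt G y • f y • Y y := by
      filter_upwards [Metric.isOpen_ball.mem_nhds (hR (subset_closure hx))] with y hy
      rw [f2 y (Metric.ball_subset_closedBall hy), one_smul]
    simp only [dvg, e.fderiv_eq]

/-- Exchange of two almost everywhere quantifiers. -/
theorem Bd.swap (h : Bd G Ω μ N) {Φ : (Eu n × Eu n) × Eu n × Eu n → ℝ} (hΦ : Continuous Φ)
    (H : ∀ᵐ x ∂μ, ∀ᵐ y ∂μ, Φ ((x, N x), (y, N y)) = 0) :
    ∀ᵐ y ∂μ, ∀ᵐ x ∂μ, Φ ((x, N x), (y, N y)) = 0 := by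
  haveI := h.fin
  refine (Measure.ae_ae_comm (p := fun x y => Φ ((x, N x), (y, N y)) = 0) ?_).1 H
  exact measurableSet_eq_fun (hΦ.measurable.comp
    ((measurable_fst.prodMk (h.meas.comp measurable_fst)).prodMk
      (measurable_snd.prodMk (h.meas.comp measurable_snd)))) measurable_const

theorem ok0_pf (hf : FvStmt) (hd : DensStmt) : Ok0Stmt := by
  intro n G A b H a0 o Q V X ex I Ω μ N hn hb hH ha hG hA hg hmin hBd hI hv
  have hK := hg.proper o a0
  have hB : Bornology.IsBounded Ω := hK.isBounded.subset hmin.sub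
  have := hBd.fin
  refine
    { hb := hb, hH := hH, ha := ha, fin := hBd.fin
      ne := OkX.ne_zero (by omega) hG hmin.meas hB hBd hv
      supp := measure_mono_null
        (compl_subset_compl.2 (closure_minimal hmin.sub hK.isClosed)) hBd.supp
      mτ := fun i => ?_, mN := hBd.meas, bdd := ?_, Qsm := hg.Qsm, symm := hg.symm
      zero := hg.zero, pos := hg.pos, proper := hg.proper, eik := fun z x => ?_
      fv := hf n G A b H a0 o Q V X ex I Ω μ N (by omega) hG hA hg hmin hBd hI, ld := ?_ }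
  · have c1 : Continuous fun x => A x (ee i) := hA.cont.clm_apply continuous_const
    have c2 : Continuous fun p : Eu n × Eu n => G p.1 (A p.1 (ee i)) p.2 :=
      ((hG.smooth.continuous.clm_apply c1).comp continuous_fst).clm_apply continuous_snd
    exact c1.measurable.sub ((c2.measurable.comp (measurable_id.prodMk hBd.meas)).smul hBd.meas)
  · obtain ⟨c, c0, hc⟩ := hG.coercive hK
    have h1 : ∀ x ∈ {x | Q o x ≤ a0}, ∀ v, G x v v ≤ 1 → ‖v‖ ≤ √(1 / c) := fun x hx v h =>
      Real.le_sqrt_of_sq_le ((le_div_iff₀' c0).2 ((hc x hx v).trans h))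
    refine ⟨√(1 / c), fun x hx => ⟨fun i => h1 x hx _ ?_, h1 x hx _ (hBd.unit x).le⟩⟩
    exact (OkX.tau_sq hG hA (hBd.unit x) i).trans_le (sub_le_self _ (mul_self_nonneg _))
  · have h1 := (OkX.tau_sum hG hA (hBd.unit x) (V z x)).trans (hg.eik z x)
    simp only [hg.grad] at h1
    exact h1
  · filter_upwards [hd n G Ω μ N (by omega) hG hmin.meas hB hBd] with x hx
    exact OkX.ld (μ := μ) hG (hg.near x) hx

theorem volGe_pf : VolGeStmt := by
  intro n G b Φ r hn hb hr hG hΦ hinj hge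
  have hd : Continuous (fderiv ℝ Φ) := hΦ.continuous_fderiv one_ne_zero
  let F : Eu n → ℝ := fun v => |(fderiv ℝ Φ v).det| * wt G (Φ v)
  let H : Eu n → ℝ := fun v => RV.sq b ‖v‖ ^ (n - 1)
  have cF : Continuous F := (ContinuousLinearMap.continuous_det.comp hd).abs.mul
    ((RV.continuous_wt hG).comp hΦ.continuous)
  have cH : Continuous H := ((RV.continuous_sq b).comp continuous_norm).pow _
  have pH : ∀ v, 0 < H v := fun v => pow_pos (RV.sq_pos hb (norm_nonneg v)) _
  have hk : ∀ v, H v ≤ F v := by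
    intro v
    obtain ⟨K, hK, hm⟩ := RV.exists_K hn hb v
    obtain ⟨h1, -⟩ := RV.key (G (Φ v)) (hG.symm _) ((fderiv ℝ Φ v).comp K)
      (fun u => (hm u).symm.trans_le (hge v (K u)))
    have e : |((fderiv ℝ Φ v).comp K).det| * √(RV.gram (G (Φ v))).det = F v / H v := by
      have e1 : ((fderiv ℝ Φ v).comp K).det = (fderiv ℝ Φ v).det * K.det :=
        LinearMap.det_comp _ _
      rw [e1, hK, abs_mul, abs_inv, abs_of_pos (pH v)]
      simp only [F, H, wt, RV.gram]
      ring
    rw [e] at h1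
    exact (one_le_div (pH v)).mp h1
  have hv : vol G (Φ '' Metric.ball 0 r) = ∫ v in Metric.ball (0 : Eu n) r, F v :=
    integral_image_eq_integral_abs_det_fderiv_smul volume measurableSet_ball
      (fun v _ => (hΦ.differentiable one_ne_zero v).hasFDerivAt.hasFDerivWithinAt)
      hinj.injOn (wt G)
  have iF : IntegrableOn F (Metric.ball (0 : Eu n) r) :=
    (cF.continuousOn.integrableOn_compact (isCompact_closedBall 0 r)).mono_set
      Metric.ball_subset_closedBall
  have iH : IntegrableOn H (Metric.ball (0 : Eu n) r) :=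
    (cH.continuousOn.integrableOn_compact (isCompact_closedBall 0 r)).mono_set
      Metric.ball_subset_closedBall
  rw [hv, ← RV.polar hn b hr]
  exact integral_mono iH iF hk

end Vale.Agent.P219
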