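import Vale.Agent.P219.Main
import Vale.Agent.P219.LFin
import Vale.Agent.P219.LGeo
import Vale.Agent.P219.LoTool
import Vale.Agent.P219.LMix
import Vale.Agent.P219.LI1
import Vale.Agent.P219.LI2
import Vale.Agent.P219.LTwo
import Vale.Agent.P219.LWill
import Vale.Agent.P219.LCap
import Vale.Agent.P219.LQLow
import Vale.Agent.P219.LErr
import Vale.Agent.P219.LDelta
import Vale.Agent.P219.LDbl
import Vale.Agent.P219.LIsoTwo
import Vale.Agent.P219.LEss
import Vale.Agent.P219.LRigTwo
import Vale.Agent.P219.LRigPt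
import Vale.Agent.P219.LCore3
import Vale.Agent.P219.LCore2

/-! Assembly in all dimensions. -/

namespace Vale.Agent.P219

theorem core_two : CoreN 2 :=
  core2_pf prof_pf geo2_pf (riesz_pf frame_pf) var_pf
    (two_pf mix_pf (i1_pf mix_pf) (i2_pf mix_pf))
    (isoTwo_pf dbl_pf (err_pf qLow_pf) delta_pf) ess_pf rigTwo_pf (rigPt_pf cap_pf) rigVol_pf

theorem core_three : CoreN 3 :=
  core3_pf prof_pf geo2_pf (riesz_pf frame_pf) min_pf
    (ok0_pf (fv_pf var_pf) (dens_pf frame_pf)) will_pf (rigPt_pf cap_pf) rigVol_pf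

theorem coreN_all {n : ℕ} (hn : 2 ≤ n) : CoreN n := by
  rcases hn.eq_or_lt with rfl | h
  · exact core_two
  rcases (Nat.succ_le_of_lt h).eq_or_lt with rfl | h
  · exact core_three
  · exact fun G κ Ω => core_all n G κ Ω h

end Vale.Agent.P219
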