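import Vale.Agent.P219.LoTool
import Vale.Agent.P219.RigBall
import Vale.Agent.P219.Const

/-! P219, low dimension: rigidity from the chord condition. -/

open scoped ContDiff ENNReal Topology RealInnerProductSpace
open MeasureTheory Set Filter Metric

namespace Vale.Agent.P219

theorem rigPt_pf (hc : CapStmt) : RigPtStmt := by
  intro n G b Q V X ex Ω μ N r hn hb hr hG hg hm hB hBd hvol hv hae
  have : (ae μ).NeBot := ae_neBot.2 (OkX.ne_zero (by omega) hG hm hB hBd hv)
  obtain ⟨y, hy⟩ := hae.exists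
  obtain ⟨u, hu, hX⟩ := hg.Xiso y (N y)
  rw [hBd.unit] at hu
  have hu1 : ‖u‖ = 1 := (pow_eq_one_iff_of_nonneg (norm_nonneg u) two_ne_zero).1 hu
  obtain ⟨c1, c2, c3, c4⟩ := hc n b r u hn hb hr hu1
  obtain ⟨F, hF⟩ : ∃ F : Eu n → ℝ, F = fun v => sn b r * sn b ‖v‖ * ⟪v, u⟫ := ⟨_, rfl⟩
  obtain ⟨H, hH⟩ : ∃ H : Eu n → ℝ, H = fun v => (1 + b ^ 2 * qf b r) * qf b ‖v‖ * ‖v‖ := ⟨_, rfl⟩
  have cF : Continuous F := by
    have := continuous_sn b
    rw [hF]; fun_prop
  have cH : Continuous H := by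
    have := continuous_qf b
    rw [hH]; fun_prop
  replace c1 : IsPreconnected {v | H v < F v} := by rw [hF, hH]; exact c1
  replace c2 : IsPreconnected {v | F v < H v} := by rw [hF, hH]; exact c2
  replace c3 : volume {v | F v = H v} = 0 := by rw [hF, hH]; exact c3
  replace c4 : ∀ v, 2 * r < ‖v‖ → F v < H v := by rw [hF, hH]; exact c4
  have eQ : ∀ v, Q (ex y v) y = qf b ‖v‖ := fun v => by rw [hg.symm, hg.Qex]
  have key : ∀ v, ‖v‖ * (sn b r * fderiv ℝ (Q (ex y v)) y (N y)
      - (1 + b ^ 2 * qf b r) * Q (ex y v) y) = F v - H v := fun v => by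
    have h1 : ‖v‖ * ⟪X y (ex y v), u⟫ = sn b ‖v‖ * ⟪v, u⟫ := by
      rw [← real_inner_smul_left, hg.Xex, real_inner_smul_left]
    rw [hX, eQ, hF, hH]
    linear_combination sn b r * h1
  have null : ∀ s : Set (Eu n), (∀ v ∈ s, F v ≠ H v) → μ (ex y '' s) = 0 := fun s hs => by
    refine measure_mono_null ?_ hy
    rintro _ ⟨v, hv, rfl⟩ h
    have h1 := key v
    rw [sub_eq_zero.2 h, mul_zero] at h1
    exact hs v hv (sub_eq_zero.1 h1.symm)
  have o1 : IsOpen (ex y '' {v | H v < F v}) := (ex y).isOpenMap _ (isOpen_lt cH cF)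
  have o2 : IsOpen (ex y '' {v | F v < H v}) := (ex y).isOpenMap _ (isOpen_lt cF cH)
  have h1 := const_pf n G Ω _ μ N hG hm hB hBd o1 (c1.image _ (ex y).continuous.continuousOn)
    (null _ fun v hv => (ne_of_lt hv).symm)
  have h2 := const_pf n G Ω _ μ N hG hm hB hBd o2 (c2.image _ (ex y).continuous.continuousOn)
    (null _ fun v hv => ne_of_lt hv)
  have : Nontrivial (Eu n) := (rank_pos_iff_nontrivial (R := ℝ)).1
    (zero_lt_one.trans (RigBall.rank hn))
  have h3 : volume (ex y '' {v | F v = H v}) = 0 :=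
    addHaar_image_eq_zero_of_differentiableOn_of_addHaar_eq_zero volume
      ((hg.exsm y).differentiable (by simp)).differentiableOn c3
  have cov : ∀ x, x ∈ ex y '' {v | H v < F v} ∨ x ∈ ex y '' {v | F v = H v} ∨
      x ∈ ex y '' {v | F v < H v} := fun x => by
    obtain ⟨v, rfl⟩ := (ex y).surjective x
    rcases lt_trichotomy (H v) (F v) with h | h | h
    · exact Or.inl ⟨v, h, rfl⟩
    · exact Or.inr (Or.inl ⟨v, h.symm, rfl⟩)
    · exact Or.inr (Or.inr ⟨v, h, rfl⟩)
  have hK := (isCompact_closedBall (0 : Eu n) (2 * r)).image (ex y).continuous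
  have inK : ∀ s : Set (Eu n), (∀ v ∈ s, H v ≤ F v) → ex y '' s ⊆ ex y '' closedBall 0 (2 * r) :=
    fun s hs => image_mono fun v hv => mem_closedBall_zero_iff.2
      (not_lt.1 fun h => (c4 v h).not_ge (hs v hv))
  have h4 : volume (ex y '' {v | F v < H v} ∩ Ω) = 0 := h2.resolve_right fun h => by
    have a1 : volume (ex y '' {v | F v < H v} \ closure Ω) = 0 :=
      measure_mono_null (sdiff_subset_sdiff_right subset_closure) h
    have a2 := ((o2.sdiff isClosed_closure).measure_eq_zero_iff volume).1 a1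
    rw [sdiff_eq_empty] at a2
    refine noncompact_univ (Eu n) (IsCompact.of_isClosed_subset
      (hK.union hB.isCompact_closure) isClosed_univ fun x _ => ?_)
    rcases cov x with h | h | h
    · exact Or.inl (inK _ (fun v hv => le_of_lt hv) h)
    · exact Or.inl (inK _ (fun v hv => le_of_eq (Eq.symm hv)) h)
    · exact Or.inr (a2 h)
  have h5 : volume (Ω \ ex y '' {v | H v < F v}) = 0 :=
    measure_mono_null (fun x hx => ((cov x).resolve_left hx.2).imp id fun h => ⟨h, hx.1⟩)
      (measure_union_null h3 h4)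
  have h6 : Ω =ᵐ[volume] (ex y '' {v | H v < F v} : Set (Eu n)) := by
    refine ae_eq_set.2 ⟨h5, h1.resolve_left fun h => hv.ne' ?_⟩
    refine setIntegral_measure_zero _ (measure_mono_null (fun x hx => ?_) (measure_union_null h h5))
    by_cases hx' : x ∈ ex y '' {v | H v < F v}
    · exact Or.inl ⟨hx', hx⟩
    · exact Or.inr ⟨hx, hx'⟩
  -- the centre
  obtain ⟨z, hz⟩ : ∃ z, z = ex y (r • u) := ⟨_, rfl⟩
  have nz : ‖r • u‖ = r := by rw [norm_smul, hu1, mul_one, Real.norm_of_nonneg hr.le]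
  have qz : Q z y = qf b r := by rw [hz, eQ, nz]
  have xz : X y z = sn b r • u := by
    have h := hg.Xex y (r • u)
    rw [nz, smul_comm, ← hz] at h
    exact smul_right_injective _ hr.ne' h
  have vz : V z y = sn b r • N y := hG.eq_smul (hBd.unit y) (by rw [hg.eik, qz, sn_sq]) (by
    rw [hG.symm, hg.grad, hX, xz, real_inner_smul_left, real_inner_self_eq_norm_sq, hu, mul_one])
  have sub : ex z '' ball 0 r ⊆ ex y '' {v | H v < F v} := by
    rintro _ ⟨w, hw, rfl⟩
    obtain ⟨v, hv⟩ := (ex y).surjective (ex z w)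
    refine ⟨v, ?_, hv⟩
    have a1 : Q (ex y v) z < qf b r := by
      rw [hv, hg.symm, hg.Qex]
      exact RigBall.qf_lt hb (norm_nonneg _) (mem_ball_zero_iff.1 hw)
    have a2 := hg.cos' (ex y v) z y
    rw [vz, map_smul, smul_eq_mul, hg.grad, qz] at a2
    have a3 : 0 < sn b r * fderiv ℝ (Q (ex y v)) y (N y)
        - (1 + b ^ 2 * qf b r) * Q (ex y v) y := by linarith
    have a4 : v ≠ 0 := by
      rintro rfl
      have a5 := hg.Xnorm y (ex y 0)
      rw [hg.Qex, norm_zero, qf_zero] at a5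
      have a6 : X y (ex y 0) = 0 := by simpa using a5
      rw [hX, eQ, a6, norm_zero, qf_zero] at a3
      simp at a3
    have a5 := mul_pos (norm_pos_iff.2 a4) a3
    rw [key] at a5
    exact sub_pos.1 a5
  have oB : IsOpen (ex z '' ball 0 r) := (ex z).isOpenMap _ isOpen_ball
  have ge := volGe_pf n G b (ex z) r (by omega) hb hr hG ((hg.exsm z).of_le (by simp))
    (ex z).injective (hg.rauch z)
  have iP : IntegrableOn (wt G) (ex y '' {v | H v < F v}) :=
    (hG.wt_cont.continuousOn.integrableOn_compact hK).mono_set (inK _ fun v hv => le_of_lt hv)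
  have e1 := setIntegral_sdiff oB.measurableSet iP sub
  have e2 : vol G Ω = ∫ x in ex y '' {v | H v < F v}, wt G x := setIntegral_congr_set h6
  have h7 : volume (ex y '' {v | H v < F v} \ ex z '' ball 0 r) = 0 := by
    by_contra h
    have := (setIntegral_pos_iff_support_of_nonneg_ae (ae_of_all _ fun x => (hG.wt_pos x).le)
      (iP.mono_set (sdiff_subset (t := ex z '' ball 0 r)))).2 (by
        rw [show Function.support (wt G) = univ from eq_univ_of_forall fun x => (hG.wt_pos x).ne',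
          univ_inter]
        exact pos_iff_ne_zero.2 h)
    unfold vol at ge
    linarith
  exact ⟨z, h6.trans (ae_eq_set.2 ⟨h7, by rw [sdiff_eq_empty.2 sub, measure_empty]⟩)⟩

end Vale.Agent.P219
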