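import Vale.Agent.P219.Alg

/-! Level sets have small conformal measure. -/

open scoped ENNReal RealInnerProductSpace Topology
open MeasureTheory Set Filter

namespace Vale.Agent.P219

namespace LevAux

theorem far {m : ℕ} (hm : (3 : ℝ) ≤ m) {γ α Q T : ℝ} (hγ : 0 < γ) (hα : 0 < α) (hQ : 0 ≤ Q)
    (hT : 0 < T) (h : T * γ ≤ α * Q) :
    (γ + α * Q)⁻¹ ^ m ≤ (γ * (1 + T)) ^ (1 - (m : ℝ) / 2) * α ^ (-((m : ℝ) / 2) - 1) *
      (Q + γ / α) ^ (-((m : ℝ) / 2) - 1) := by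
  have hL : 0 < γ + α * Q := by positivity
  have e1 : γ + α * Q = α * (Q + γ / α) := by field_simp; ring
  have e2 : (γ + α * Q)⁻¹ ^ m
      = (γ + α * Q) ^ (1 - (m : ℝ) / 2) * (γ + α * Q) ^ (-((m : ℝ) / 2) - 1) := by
    rw [← Real.rpow_add hL, inv_pow, ← Real.rpow_natCast, ← Real.rpow_neg hL.le]
    congr 1; ring
  have e3 : (γ + α * Q) ^ (-((m : ℝ) / 2) - 1)
      = α ^ (-((m : ℝ) / 2) - 1) * (Q + γ / α) ^ (-((m : ℝ) / 2) - 1) := by
    rw [e1, Real.mul_rpow hα.le (by positivity)]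
  rw [e2, e3, mul_assoc]
  refine mul_le_mul_of_nonneg_right ?_ (by positivity)
  exact Real.rpow_le_rpow_of_nonpos (by positivity) (by linarith) (by linarith)

theorem cst {m : ℕ} {γ α T C : ℝ} (hγ : 0 < γ) (hα : 0 < α) (hT : 0 < T) (hC : 0 ≤ C)
    (h : 1 ≤ 2 * α * γ) :
    (γ * (1 + T)) ^ (1 - (m : ℝ) / 2) * α ^ (-((m : ℝ) / 2) - 1) * (C / (γ / α)) ≤
      C * 2 ^ ((m : ℝ) / 2) * (1 + T) ^ (1 - (m : ℝ) / 2) := by
  have e1 : γ ^ (1 - (m : ℝ) / 2) = γ * γ ^ (-((m : ℝ) / 2)) := by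
    rw [sub_eq_add_neg, Real.rpow_add hγ, Real.rpow_one]
  have e2 : α ^ (-((m : ℝ) / 2) - 1) = α ^ (-((m : ℝ) / 2)) / α := by
    rw [Real.rpow_sub hα, Real.rpow_one]
  have h1 : (α * γ) ^ (-((m : ℝ) / 2)) ≤ (2⁻¹ : ℝ) ^ (-((m : ℝ) / 2)) :=
    Real.rpow_le_rpow_of_nonpos (by norm_num) (by linarith)
      (by have : (0 : ℝ) ≤ m := Nat.cast_nonneg m; linarith)
  rw [Real.inv_rpow (by norm_num), Real.rpow_neg (by norm_num : (0 : ℝ) ≤ 2), inv_inv,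
    Real.mul_rpow hα.le hγ.le] at h1
  rw [Real.mul_rpow hγ.le (by linarith), e1, e2]
  have e3 : γ * γ ^ (-((m : ℝ) / 2)) * (1 + T) ^ (1 - (m : ℝ) / 2) * (α ^ (-((m : ℝ) / 2)) / α) *
      (C / (γ / α)) = C * (α ^ (-((m : ℝ) / 2)) * γ ^ (-((m : ℝ) / 2))) *
        (1 + T) ^ (1 - (m : ℝ) / 2) := by
    field_simp
  rw [e3]
  exact mul_le_mul_of_nonneg_right (mul_le_mul_of_nonneg_left h1 hC) (by positivity)

theorem sph_nonneg (m : ℕ) : 0 ≤ sph m := by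
  unfold sph om
  positivity

end LevAux

theorem lev_pf (hu : UDStmt) (hn : NearPtStmt) (hp : PotStmt) : LevStmt := by
  intro n d o
  obtain ⟨Cu, hCu, hU⟩ := hu n d o
  refine ⟨Cu * 2 ^ ((d.m : ℝ) / 2), by positivity, fun ε hε T hT => ?_⟩
  obtain ⟨Cn, hCn, T2, hT2, R, hR, γ0, hγ0, hN⟩ := hn n d o ε hε T hT
  obtain ⟨Cp, hCp, hP⟩ := hp n d o T2 hT2 R hR
  refine ⟨Cn + Cn * Cp, by positivity, min γ0 1, lt_min hγ0 one_pos,
    fun z hz γ hγ hγ' v hv δ hδ => ?_⟩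
  obtain ⟨hPi, hP0, hPl⟩ := hP z hz γ hγ (hγ'.trans (min_le_right _ _)) v hv
  have hNe := hN z hz γ hγ (hγ'.trans (min_le_left _ _)) v hv
  have hEr := (o.le_Er hγ hz hv).1
  have hα := Dat.al_pos (d := d) hγ
  have ha : 0 < γ / d.al γ := div_pos hγ hα
  have hS : MeasurableSet {x | (1 + ε) * (d.Uv z γ v + (Cn + Cn * Cp) * d.Er z γ v) / sph d.m + δ
      ≤ v x ^ 2} := measurableSet_le measurable_const (hv.continuous.pow 2).measurable
  have hk : d.BM fun x => (d.Q z x + γ / d.al γ) ^ (-((d.m : ℝ) / 2) - 1) :=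
    o.bm_cont (((o.Qc z).add continuous_const).rpow_const fun x =>
      Or.inl (add_pos_of_nonneg_of_pos (o.Q_nonneg z x) ha).ne')
  obtain ⟨A, hA⟩ : ∃ A : ℝ, A = (γ * (1 + T)) ^ (1 - (d.m : ℝ) / 2) *
    d.al γ ^ (-((d.m : ℝ) / 2) - 1) := ⟨_, rfl⟩
  have hA0 : 0 ≤ A := by rw [hA]; positivity
  have hB0 : 0 ≤ γ⁻¹ ^ d.m * (Cn / δ) := by positivity
  have i1 := hPi.const_mul (γ⁻¹ ^ d.m * (Cn / δ))
  have i2 := (hk.integrable o).const_mul A
  rw [← integral_indicator hS]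
  refine (integral_mono_ae ((((o.bm_lam hγ z).pow d.m).indicator hS).integrable o) (i1.add i2)
    ?_).trans ?_
  · filter_upwards [hNe, hP0] with x hx hx0
    have h1 : 0 ≤ γ⁻¹ ^ d.m * (Cn / δ) * d.Pot z γ T2 R v x := mul_nonneg hB0 hx0
    have h2 : 0 ≤ A * (d.Q z x + γ / d.al γ) ^ (-((d.m : ℝ) / 2) - 1) :=
      mul_nonneg hA0 (Real.rpow_nonneg (add_nonneg (o.Q_nonneg z x) ha.le) _)
    simp only [Pi.add_apply]
    by_cases hxS : x ∈ {x | (1 + ε) * (d.Uv z γ v + (Cn + Cn * Cp) * d.Er z γ v) / sph d.m + δ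
      ≤ v x ^ 2}
    swap
    · rw [indicator_of_notMem hxS]; linarith
    rw [indicator_of_mem hxS]
    rcases le_total (d.al γ * d.Q z x) (T * γ) with h | h
    · have h3 := hx h
      have h4 : (1 + ε) * (d.Uv z γ v + Cn * d.Er z γ v) / sph d.m ≤
          (1 + ε) * (d.Uv z γ v + (Cn + Cn * Cp) * d.Er z γ v) / sph d.m := by
        refine div_le_div_of_nonneg_right (mul_le_mul_of_nonneg_left ?_ (by linarith))
          (LevAux.sph_nonneg _)
        have : 0 ≤ Cn * Cp * d.Er z γ v := by positivity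
        linarith
      have h5 : δ ≤ Cn * d.Pot z γ T2 R v x := by
        have h6 : (1 + ε) * (d.Uv z γ v + (Cn + Cn * Cp) * d.Er z γ v) / sph d.m + δ
          ≤ v x ^ 2 := hxS
        linarith
      have h6 : 1 ≤ Cn / δ * d.Pot z γ T2 R v x := by
        rw [div_mul_eq_mul_div, le_div_iff₀ hδ]; linarith
      have h7 : d.lam z γ x ^ d.m ≤ γ⁻¹ ^ d.m :=
        pow_le_pow_left₀ (o.lam_pos hγ z x).le (o.lam_le hγ z x) _
      have h8 : γ⁻¹ ^ d.m * 1 ≤ γ⁻¹ ^ d.m * (Cn / δ * d.Pot z γ T2 R v x) :=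
        mul_le_mul_of_nonneg_left h6 (by positivity)
      rw [mul_assoc]
      linarith
    · have h3 := LevAux.far o.m3 hγ hα (o.Q_nonneg z x) hT h
      rw [← hA] at h3
      have h4 : d.lam z γ x ^ d.m = (γ + d.al γ * d.Q z x)⁻¹ ^ d.m := rfl
      linarith
  · simp only [Pi.add_apply]
    rw [integral_add i1 i2, integral_const_mul, integral_const_mul]
    have h1 := mul_le_mul_of_nonneg_left hPl hB0
    have h2 := mul_le_mul_of_nonneg_left (hU z hz _ ha) hA0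
    have h3 := LevAux.cst (m := d.m) hγ hα hT hCu.le
      (by rw [Dat.two_al hγ]; nlinarith [sq_nonneg (d.b * γ)])
    rw [← hA] at h3
    have h4 : γ⁻¹ ^ d.m * (Cn / δ) * (Cp * γ ^ d.m * d.Er z γ v) = Cn * Cp * d.Er z γ v / δ := by
      rw [inv_pow]; field_simp
    have h5 : Cn * Cp * d.Er z γ v / δ ≤ (Cn + Cn * Cp) * d.Er z γ v / δ := by
      refine div_le_div_of_nonneg_right ?_ hδ.le
      have : 0 ≤ Cn * d.Er z γ v := by positivity
      linarith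
    linarith

end Vale.Agent.P219
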