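import Vale.Agent.P219.Alg

/-! First variation for Lipschitz radial profiles. -/

open scoped ENNReal RealInnerProductSpace Topology
open MeasureTheory Set Filter

namespace Vale.Agent.P219

namespace LipAux

/-- cutoff -/
noncomputable def chi (a a1 : ℝ) (j : ℕ) (s : ℝ) : ℝ := min 1 (j * max 0 (min (s - a) (a1 - s)))

theorem chi_cont (a a1 : ℝ) (j : ℕ) : Continuous (chi a a1 j) := by
  unfold chi; fun_prop

theorem chi_nonneg (a a1 : ℝ) (j : ℕ) (s : ℝ) : 0 ≤ chi a a1 j s :=
  le_min zero_le_one (mul_nonneg (Nat.cast_nonneg j) (le_max_left _ _))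

theorem chi_le (a a1 : ℝ) (j : ℕ) (s : ℝ) : chi a a1 j s ≤ 1 := min_le_left _ _

theorem chi_zero {a a1 s : ℝ} (j : ℕ) (hs : s ∉ Ioo a a1) : chi a a1 j s = 0 := by
  have : min (s - a) (a1 - s) ≤ 0 := by
    by_contra h
    rw [not_le, lt_min_iff] at h
    exact hs ⟨by linarith [h.1], by linarith [h.2]⟩
  simp [chi, max_eq_left this]

theorem chi_one {a a1 s : ℝ} (hs : s ∈ Ioo a a1) : ∀ᶠ j in atTop, chi a a1 j s = 1 := by
  have h : 0 < min (s - a) (a1 - s) := lt_min (sub_pos.2 hs.1) (sub_pos.2 hs.2)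
  filter_upwards [(tendsto_natCast_atTop_atTop.atTop_mul_const h).eventually_ge_atTop 1] with j hj
  rw [chi, max_eq_right h.le, min_eq_left hj]

theorem approx {F F' : ℝ → ℝ} {a a1 : ℝ} (h : Pf F F' a a1) :
    ∃ (Fj θ : ℕ → ℝ → ℝ) (M : ℝ), (∀ j, Continuous (θ j)) ∧
      (∀ j s, HasDerivAt (Fj j) (θ j s) s) ∧
      (∀ j s, 0 ≤ Fj j s ∧ Fj j s ≤ F (max a (min a1 s))) ∧ (∀ j s, |θ j s| ≤ M) ∧
      (∀ s, F (max a (min a1 s)) ≤ M) ∧
      (∀ s, Tendsto (fun j => Fj j s) atTop (𝓝 (F (max a (min a1 s))))) ∧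
      ∀ s, Tendsto (fun j => θ j s) atTop (𝓝 (if s ∈ Ioo a a1 then F' s else 0)) := by
  have hc : ∀ s, max a (min a1 s) ∈ Icc a a1 := fun s =>
    ⟨le_max_left _ _, max_le h.lt.le (min_le_left _ _)⟩
  have hid : ∀ s ∈ Icc a a1, max a (min a1 s) = s := fun s hs => by
    rw [min_eq_right hs.2, max_eq_right hs.1]
  have fc : Continuous fun s => F' (max a (min a1 s)) :=
    h.cont.comp_continuous (by fun_prop) hc
  obtain ⟨M1, hM1⟩ := isCompact_Icc.exists_bound_of_continuousOn h.cont
  obtain ⟨M2, hM2⟩ := isCompact_Icc.exists_bound_of_continuousOn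
    (show ContinuousOn F (Icc a a1) from fun s hs => (h.der s hs).continuousAt.continuousWithinAt)
  have tc : ∀ j, Continuous fun s => F' (max a (min a1 s)) * chi a a1 j s := fun j =>
    fc.mul (chi_cont a a1 j)
  have tb : ∀ j s, |F' (max a (min a1 s)) * chi a a1 j s| ≤ M1 := fun j s => by
    rw [abs_mul, abs_of_nonneg (chi_nonneg _ _ _ _)]
    exact (mul_le_of_le_one_right (abs_nonneg _) (chi_le _ _ _ _)).trans (hM1 _ (hc s))
  have tl : ∀ s, Tendsto (fun j => F' (max a (min a1 s)) * chi a a1 j s) atTop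
      (𝓝 (if s ∈ Ioo a a1 then F' s else 0)) := fun s => by
    split_ifs with hs
    · refine tendsto_const_nhds.congr' ?_
      filter_upwards [chi_one hs] with j hj
      rw [hj, mul_one, hid s (Ioo_subset_Icc_self hs)]
    · simp only [chi_zero _ hs, mul_zero]
      exact tendsto_const_nhds
  have e1 : ∀ j s, ∫ t in a1..s, F' (max a (min a1 t)) * chi a a1 j t =
      -∫ t in max a (min a1 s)..a1, F' (max a (min a1 t)) * chi a a1 j t := fun j s => by
    rw [← intervalIntegral.integral_symm, ← intervalIntegral.integral_add_adjacent_intervals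
      ((tc j).intervalIntegrable a1 (max a (min a1 s))) ((tc j).intervalIntegrable _ s)]
    have : ∫ t in max a (min a1 s)..s, F' (max a (min a1 t)) * chi a a1 j t =
        ∫ _ in max a (min a1 s)..s, (0 : ℝ) := by
      by_cases hs : s ∈ Icc a a1
      · rw [hid s hs]; simp
      refine intervalIntegral.integral_congr fun t ht => ?_
      rw [chi_zero j, mul_zero]
      intro hI
      rcases lt_or_ge s a with h1 | h1
      · rw [min_eq_right (h1.trans h.lt).le, max_eq_left h1.le, uIcc_of_ge h1.le] at ht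
        linarith [ht.2, hI.1]
      · have h2 : a1 < s := not_le.1 fun h2 => hs ⟨h1, h2⟩
        rw [min_eq_left h2.le, max_eq_right h.lt.le, uIcc_of_le h2.le] at ht
        linarith [ht.1, hI.2]
    rw [this]
    simp
  have e2 : ∀ c ∈ Icc a a1, F c = -∫ t in c..a1, F' (max a (min a1 t)) := fun c hc' => by
    rw [intervalIntegral.integral_eq_sub_of_hasDerivAt (f := F) (fun t ht => ?_)
      (fc.intervalIntegrable _ _), h.zero]
    · ring
    · rw [uIcc_of_le hc'.2] at ht
      have ht' : t ∈ Icc a a1 := ⟨hc'.1.trans ht.1, ht.2⟩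
      rw [hid t ht']
      exact h.der t ht'
  refine ⟨fun j s => ∫ t in a1..s, F' (max a (min a1 t)) * chi a a1 j t,
    fun j s => F' (max a (min a1 s)) * chi a a1 j s, max M1 M2, tc,
    fun j s => ((tc j).integral_hasStrictDerivAt a1 s).hasDerivAt, fun j s => ?_,
    fun j s => (tb j s).trans (le_max_left _ _),
    fun s => ((le_abs_self _).trans (hM2 _ (hc s))).trans (le_max_right _ _), fun s => ?_, tl⟩
  · simp only [e1]
    rw [e2 _ (hc s), neg_le_neg_iff, ← intervalIntegral.integral_neg]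
    refine ⟨intervalIntegral.integral_nonneg (hc s).2 fun t _ => neg_nonneg.2
      (mul_nonpos_of_nonpos_of_nonneg (h.np _ (hc t)) (chi_nonneg _ _ _ _)), ?_⟩
    refine intervalIntegral.integral_mono_on (hc s).2 (fc.intervalIntegrable _ _)
      ((tc j).intervalIntegrable _ _) fun t _ => ?_
    nlinarith [h.np _ (hc t), chi_le a a1 j t]
  · simp only [e1]
    rw [e2 _ (hc s)]
    refine Tendsto.neg (intervalIntegral.tendsto_integral_filter_of_dominated_convergence
      (fun _ => M1) (Eventually.of_forall fun j => (tc j).aestronglyMeasurable)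
      (Eventually.of_forall fun j => Eventually.of_forall fun t _ => tb j t)
      intervalIntegrable_const ?_)
    filter_upwards [measure_eq_zero_iff_ae_notMem.1 (measure_singleton a1)] with t ht hI
    rw [uIoc_of_le (hc s).2] at hI
    have hm : t ∈ Ioo a a1 := ⟨(hc s).1.trans_lt hI.1, lt_of_le_of_ne hI.2 ht⟩
    have := tl t
    rw [if_pos hm] at this
    rw [hid t (Ioo_subset_Icc_self hm)] at this ⊢
    exact this

end LipAux

open LipAux Dat in
theorem lip_pf : LipStmt := by
  intro n d o z hz h F F' a a1 hh h0 hP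
  obtain ⟨Fj, θ, M, c1, c2, c3, c4, c5, c6, c7⟩ := approx hP
  have F1 : ∀ j, ContDiff ℝ 1 (Fj j) := fun j => by
    refine contDiff_one_iff_deriv.2 ⟨fun s => (c2 j s).differentiableAt, ?_⟩
    rw [show deriv (Fj j) = θ j from funext fun s => (c2 j s).deriv]
    exact c1 j
  have k1 : ∀ j, ContDiff ℝ 1 fun x => h x * Fj j (d.Q z x) := fun j =>
    hh.mul ((F1 j).comp (o.Q1 z))
  have bU := (o.bm_Lam z hh).abs.integrable o
  have bW := ((o.bm_cont hh.continuous).mul (o.bm_Gam (o.Q1 z) (o.Q1 z))).abs.integrable o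
  have e : ∀ j x, h x * Fj j (d.Q z x) * (d.m * (1 + d.b ^ 2 * d.Q z x)) +
      d.Gam (fun x => h x * Fj j (d.Q z x)) (d.Q z) x - d.H * (h x * Fj j (d.Q z x)) * d.q z x =
      Fj j (d.Q z x) * (h x * (d.m * (1 + d.b ^ 2 * d.Q z x)) + d.Gam h (d.Q z) x -
        d.H * h x * d.q z x) + θ j (d.Q z x) * (h x * d.Gam (d.Q z) (d.Q z) x) := fun j x => by
    rw [Gam_mul (g := fun y => Fj j (d.Q z y)) (hh.differentiable one_ne_zero x)
      (((F1 j).comp (o.Q1 z)).differentiable one_ne_zero x), Gam_comp (o.Qd z x) (c2 j _)]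
    ring
  have hS : MeasurableSet {x | d.Q z x < a1} := measurableSet_lt (o.Qc z).measurable measurable_const
  have lim : Tendsto (fun j => d.Lam z fun x => h x * Fj j (d.Q z x)) atTop
      (𝓝 (d.LamF z h F F' a a1)) := by
    unfold Lam LamF
    rw [← integral_indicator hS]
    refine tendsto_integral_of_dominated_convergence _
      (fun j => (o.bm_Lam z (k1 j)).1.aestronglyMeasurable)
      ((bU.const_mul M).add (bW.const_mul M)) (fun j => Eventually.of_forall fun x => ?_)
      (Eventually.of_forall fun x => ?_)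
    · rw [e, Real.norm_eq_abs]
      refine (abs_add_le _ _).trans (add_le_add ?_ ?_)
      · rw [abs_mul, abs_of_nonneg (c3 j _).1]
        exact mul_le_mul_of_nonneg_right ((c3 j _).2.trans (c5 _)) (abs_nonneg _)
      · rw [abs_mul]
        exact mul_le_mul_of_nonneg_right (c4 j _) (abs_nonneg _)
    · simp only [e]
      have := ((c6 (d.Q z x)).mul_const (h x * (d.m * (1 + d.b ^ 2 * d.Q z x)) +
        d.Gam h (d.Q z) x - d.H * h x * d.q z x)).add
        ((c7 (d.Q z x)).mul_const (h x * d.Gam (d.Q z) (d.Q z) x))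
      convert this using 2
      by_cases hx : d.Q z x < a1
      · rw [indicator_of_mem (show x ∈ {x | d.Q z x < a1} from hx), min_eq_right hx.le,
          max_comm a]
        simp only [mem_Ioo, hx, and_true]
        ring
      · rw [indicator_of_notMem (show x ∉ {x | d.Q z x < a1} from hx), min_eq_left (not_lt.1 hx),
          max_eq_right hP.lt.le, hP.zero, if_neg fun hI => hx hI.2]
        ring
  refine ⟨le_of_tendsto' lim fun j => o.fv z hz _ (k1 j) fun x hx =>
    mul_nonneg (h0 x hx) (c3 j _).1, fun k hk k0 hle => ge_of_tendsto' lim fun j =>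
    o.Lam_anti hz hk (k1 j) fun x hx => ?_⟩
  have b := mul_le_mul_of_nonneg_left (c3 j (d.Q z x)).2 (h0 x hx)
  by_cases hx' : d.Q z x < a1
  · rw [min_eq_right hx'.le, max_comm a] at b
    exact b.trans (hle x hx hx')
  · rw [min_eq_left (not_lt.1 hx'), max_eq_right hP.lt.le, hP.zero, mul_zero] at b
    exact b.trans (k0 x hx)

end Vale.Agent.P219
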