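import Vale.Agent.P219.Lo
import Vale.Agent.P219.Lip

/-! Basic API for `Ok0` and the first variation for Lipschitz radial profiles. -/

open scoped ENNReal RealInnerProductSpace Topology
open MeasureTheory Set Filter

namespace Vale.Agent.P219

namespace Dat

variable {n : ℕ} {d : Dat n} {f g h k : Eu n → ℝ} {x z : Eu n}

theorem Ok0.cpt (o : d.Ok0) : IsCompact d.K := o.proper _ _

theorem Ok0.o_mem (o : d.Ok0) : d.o ∈ d.K := by
  show d.Q d.o d.o ≤ d.a0
  rw [o.zero]; exact o.ha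

theorem Ok0.Q_nonneg (o : d.Ok0) (z x : Eu n) : 0 ≤ d.Q z x := by
  by_cases hx : x = z
  · rw [hx, o.zero]
  · exact (o.pos z x hx).le

theorem Ok0.contQ (o : d.Ok0) : Continuous fun p : Eu n × Eu n => d.Q p.1 p.2 := o.Qsm.continuous

theorem Ok0.Q2 (o : d.Ok0) (z : Eu n) : ContDiff ℝ 2 (d.Q z) :=
  o.Qsm.comp (contDiff_const.prodMk contDiff_id)

theorem Ok0.Q1 (o : d.Ok0) (z : Eu n) : ContDiff ℝ 1 (d.Q z) := (o.Q2 z).of_le (by norm_num)

theorem Ok0.Qc (o : d.Ok0) (z : Eu n) : Continuous (d.Q z) := (o.Q1 z).continuous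

theorem Ok0.Qd (o : d.Ok0) (z x : Eu n) : DifferentiableAt ℝ (d.Q z) x :=
  (o.Q1 z).differentiable one_ne_zero x

theorem Ok0.Qmax (o : d.Ok0) : ∃ M > 0, ∀ z ∈ d.K, ∀ x ∈ d.K, d.Q z x ≤ M := by
  obtain ⟨M, hM⟩ := ((o.cpt.prod o.cpt).image o.contQ).bddAbove
  exact ⟨max M 1, by positivity, fun z hz x hx =>
    (hM ⟨(z, x), ⟨hz, hx⟩, rfl⟩).trans (le_max_left _ _)⟩

theorem Ok0.mass_pos (o : d.Ok0) : 0 < d.μ.real univ := by
  haveI := o.fin
  exact ENNReal.toReal_pos (by simpa using o.ne) (measure_ne_top _ _)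

theorem BM.integrable0 (o : d.Ok0) (hf : d.BM f) : Integrable f d.μ := by
  haveI := o.fin
  obtain ⟨C, hC⟩ := hf.2
  exact (integrable_const C).mono' hf.1.aestronglyMeasurable (o.supp.mono fun x hx => hC x hx)

theorem Ok0.bm_cont (o : d.Ok0) (hf : Continuous f) : d.BM f := by
  obtain ⟨C, hC⟩ := o.cpt.exists_bound_of_continuousOn hf.continuousOn
  exact ⟨hf.measurable, C, hC⟩

theorem Ok0.bm_fderiv (o : d.Ok0) (hf : ContDiff ℝ 1 f) {v : Eu n → Eu n} (hv : Measurable v)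
    {C : ℝ} (hC : ∀ x ∈ d.K, ‖v x‖ ≤ C) : d.BM fun x => fderiv ℝ f x (v x) := by
  have hc : Continuous (fderiv ℝ f) := hf.continuous_fderiv one_ne_zero
  obtain ⟨D, hD⟩ := o.cpt.exists_bound_of_continuousOn hc.continuousOn
  refine ⟨?_, D * C, fun x hx => ?_⟩
  · have : Continuous fun p : Eu n × Eu n => fderiv ℝ f p.1 p.2 :=
      (hc.comp continuous_fst).clm_apply continuous_snd
    exact this.measurable.comp (measurable_id.prodMk hv)
  · exact ((fderiv ℝ f x).le_opNorm _).trans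
      (mul_le_mul (hD x hx) (hC x hx) (norm_nonneg _) ((norm_nonneg _).trans (hD x hx)))

theorem Ok0.bm_Gam (o : d.Ok0) (hf : ContDiff ℝ 1 f) (hh : ContDiff ℝ 1 h) : d.BM (d.Gam f h) := by
  obtain ⟨C, hC⟩ := o.bdd
  exact bm_sum _ fun i _ => (o.bm_fderiv hf (o.mτ i) fun x hx => (hC x hx).1 i).mul
    (o.bm_fderiv hh (o.mτ i) fun x hx => (hC x hx).1 i)

theorem Ok0.bm_q (o : d.Ok0) (z : Eu n) : d.BM (d.q z) := by
  obtain ⟨C, hC⟩ := o.bdd
  exact o.bm_fderiv (o.Q1 z) o.mN fun x hx => (hC x hx).2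

theorem Ok0.bm_Q (o : d.Ok0) (z : Eu n) : d.BM (d.Q z) := o.bm_cont (o.Qc z)

theorem Ok0.int_mono (o : d.Ok0) (hf : d.BM f) (hg : d.BM g) (hle : ∀ x ∈ d.K, f x ≤ g x) :
    ∫ x, f x ∂d.μ ≤ ∫ x, g x ∂d.μ :=
  integral_mono_ae (hf.integrable0 o) (hg.integrable0 o) (o.supp.mono hle)

theorem Ok0.int_nonneg (o : d.Ok0) (hle : ∀ x ∈ d.K, 0 ≤ f x) : 0 ≤ ∫ x, f x ∂d.μ :=
  integral_nonneg_of_ae (o.supp.mono hle)

theorem Ok0.setInt_mono (o : d.Ok0) {S : Set (Eu n)} (hS : MeasurableSet S) (hf : d.BM f)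
    (hg : d.BM g) (hle : ∀ x ∈ d.K, x ∈ S → f x ≤ g x) :
    ∫ x in S, f x ∂d.μ ≤ ∫ x in S, g x ∂d.μ :=
  setIntegral_mono_on_ae (hf.integrable0 o).integrableOn (hg.integrable0 o).integrableOn hS
    (o.supp.mono hle)

/-- Cauchy-Schwarz. -/
theorem Ok0.s2_nonneg (o : d.Ok0) (z x : Eu n) : 0 ≤ d.s2 z x := by
  have := o.Q_nonneg z x
  unfold s2; positivity

theorem Ok0.GamQ_le (o : d.Ok0) (z x : Eu n) : d.Gam (d.Q z) (d.Q z) x ≤ d.s2 z x := by
  nlinarith [o.eik z x, sq_nonneg (d.q z x)]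

theorem Ok0.abs_q_le (o : d.Ok0) (z x : Eu n) : |d.q z x| ≤ √(d.s2 z x) :=
  Real.abs_le_sqrt (by linarith [o.eik z x, Gam_nonneg (d := d) (d.Q z) x])

theorem Ok0.abs_GamQ_le (o : d.Ok0) (h : Eu n → ℝ) (z x : Eu n) :
    |d.Gam h (d.Q z) x| ≤ √(d.Gam h h x) * √(d.s2 z x) :=
  (abs_Gam_le _ _ _).trans
    (mul_le_mul_of_nonneg_left (Real.sqrt_le_sqrt (o.GamQ_le z x)) (Real.sqrt_nonneg _))

theorem Ok0.bm_Lam (o : d.Ok0) (z : Eu n) (hk : ContDiff ℝ 1 k) : d.BM fun x =>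
    k x * (d.m * (1 + d.b ^ 2 * d.Q z x)) + d.Gam k (d.Q z) x - d.H * k x * d.q z x :=
  (((o.bm_cont hk.continuous).mul
    (((bm_const 1).add ((o.bm_Q z).const_mul _)).const_mul _)).add (o.bm_Gam hk (o.Q1 z))).sub
    (((o.bm_cont hk.continuous).const_mul _).mul (o.bm_q z))

theorem Ok0.Lam_sub (o : d.Ok0) (z : Eu n) (hk : ContDiff ℝ 1 k) (hg : ContDiff ℝ 1 g) :
    d.Lam z (fun x => k x - g x) = d.Lam z k - d.Lam z g := by
  unfold Lam
  rw [← integral_sub ((o.bm_Lam z hk).integrable0 o) ((o.bm_Lam z hg).integrable0 o)]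
  congr 1; ext x
  rw [Gam_sub (hk.differentiable one_ne_zero x) (hg.differentiable one_ne_zero x)]
  ring

theorem Ok0.Lam_anti (o : d.Ok0) (hz : z ∈ d.K) (hk : ContDiff ℝ 1 k) (hg : ContDiff ℝ 1 g)
    (hle : ∀ x ∈ d.K, g x ≤ k x) : d.Lam z k ≤ d.Lam z g := by
  have := o.fv z hz _ (hk.sub hg) fun x hx => sub_nonneg.2 (hle x hx)
  rw [o.Lam_sub z hk hg] at this
  linarith

end Dat

open LipAux Dat in
theorem lip0_pf : Lip0Stmt := by
  intro n d o z hz h F F' a a1 hh h0 hP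
  obtain ⟨Fj, θ, M, c1, c2, c3, c4, c5, c6, c7⟩ := approx hP
  have F1 : ∀ j, ContDiff ℝ 1 (Fj j) := fun j => by
    refine contDiff_one_iff_deriv.2 ⟨fun s => (c2 j s).differentiableAt, ?_⟩
    rw [show deriv (Fj j) = θ j from funext fun s => (c2 j s).deriv]
    exact c1 j
  have k1 : ∀ j, ContDiff ℝ 1 fun x => h x * Fj j (d.Q z x) := fun j =>
    hh.mul ((F1 j).comp (o.Q1 z))
  have bU := (o.bm_Lam z hh).abs.integrable0 o
  have bW := ((o.bm_cont hh.continuous).mul (o.bm_Gam (o.Q1 z) (o.Q1 z))).abs.integrable0 o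
  have e : ∀ j x, h x * Fj j (d.Q z x) * (d.m * (1 + d.b ^ 2 * d.Q z x)) +
      d.Gam (fun x => h x * Fj j (d.Q z x)) (d.Q z) x - d.H * (h x * Fj j (d.Q z x)) * d.q z x =
      Fj j (d.Q z x) * (h x * (d.m * (1 + d.b ^ 2 * d.Q z x)) + d.Gam h (d.Q z) x -
        d.H * h x * d.q z x) + θ j (d.Q z x) * (h x * d.Gam (d.Q z) (d.Q z) x) := fun j x => by
    rw [Gam_mul (g := fun y => Fj j (d.Q z y)) (hh.differentiable one_ne_zero x)
      (((F1 j).comp (o.Q1 z)).differentiable one_ne_zero x), Gam_comp (o.Qd z x) (c2 j _)]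
    ring
  have hS : MeasurableSet {x | d.Q z x < a1} := measurableSet_lt (o.Qc z).measurable measurable_const
  have lim : Tendsto (fun j => d.Lam z fun x => h x * Fj j (d.Q z x)) atTop
      (𝓝 (d.LamF z h F F' a a1)) := by
    unfold Lam LamF
    rw [← integral_indicator hS]
    refine tendsto_integral_of_dominated_convergence _
      (fun j => (o.bm_Lam z (k1 j)).1.aestronglyMeasurable)
      ((bU.const_mul M).add (bW.const_mul M)) (fun j => Eventually.of_forall fun x => ?_)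
      (Eventually.of_forall fun x => ?_)
    · rw [e, Real.norm_eq_abs]
      refine (abs_add_le _ _).trans (add_le_add ?_ ?_)
      · rw [abs_mul, abs_of_nonneg (c3 j _).1]
        exact mul_le_mul_of_nonneg_right ((c3 j _).2.trans (c5 _)) (abs_nonneg _)
      · rw [abs_mul]
        exact mul_le_mul_of_nonneg_right (c4 j _) (abs_nonneg _)
    · simp only [e]
      have := ((c6 (d.Q z x)).mul_const (h x * (d.m * (1 + d.b ^ 2 * d.Q z x)) +
        d.Gam h (d.Q z) x - d.H * h x * d.q z x)).add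
        ((c7 (d.Q z x)).mul_const (h x * d.Gam (d.Q z) (d.Q z) x))
      convert this using 2
      by_cases hx : d.Q z x < a1
      · rw [indicator_of_mem (show x ∈ {x | d.Q z x < a1} from hx), min_eq_right hx.le,
          max_comm a]
        simp only [mem_Ioo, hx, and_true]
        ring
      · rw [indicator_of_notMem (show x ∉ {x | d.Q z x < a1} from hx), min_eq_left (not_lt.1 hx),
          max_eq_right hP.lt.le, hP.zero, if_neg fun hI => hx hI.2]
        ring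
  exact le_of_tendsto' lim fun j => o.fv z hz _ (k1 j) fun x hx =>
    mul_nonneg (h0 x hx) (c3 j _).1

end Vale.Agent.P219
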