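import Vale.Agent.P219.Alg

/-! Pointwise bound near the centre. -/

open scoped ENNReal RealInnerProductSpace Topology
open MeasureTheory Set Filter

namespace Vale.Agent.P219

namespace NearPtAux

theorem pick (h ε : ℝ) (hε : 0 < ε) : ∃ e : ℝ, 0 < e ∧ e < 1 ∧
    ((1 + e) ^ 5) ^ h * (1 + e) ≤ (1 + ε) * (1 - e) := by
  have h1 : ContinuousAt (fun e : ℝ => (1 + ε) * (1 - e) - ((1 + e) ^ 5) ^ h * (1 + e)) 0 := by
    refine ContinuousAt.sub (by fun_prop) (ContinuousAt.mul ?_ (by fun_prop))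
    exact ContinuousAt.rpow_const (by fun_prop) (Or.inl (by norm_num))
  have h2 : ∀ᶠ e : ℝ in 𝓝 0, 0 < (1 + ε) * (1 - e) - ((1 + e) ^ 5) ^ h * (1 + e) :=
    h1.eventually (lt_mem_nhds (by simpa using hε))
  have h3 : ∀ᶠ e : ℝ in 𝓝 0, e < 1 := gt_mem_nhds one_pos
  obtain ⟨e, he, he0⟩ := (((h2.and h3).filter_mono nhdsWithin_le_nhds).and
    (self_mem_nhdsWithin (a := (0 : ℝ)) (s := Ioi 0))).exists
  exact ⟨e, he0, he.2, by linarith [he.1]⟩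

theorem coef {m : ℕ} {o S κ e ε T1 A : ℝ} (ho : 0 < o) (hS : 0 < S) (hκ : 0 < κ) (he : 0 < e)
    (he1 : e < 1) (hT : 0 < T1) (hA0 : 0 ≤ A) (hA : A ≤ ((1 + e) / (2 * T1)) ^ ((m : ℝ) / 2))
    (hk : (1 - e) * S ≤ κ * o * 2 ^ m * (T1 * (1 + e) ^ 4) ^ ((m : ℝ) / 2))
    (hε : ((1 + e) ^ 5) ^ ((m : ℝ) / 2) * (1 + e) ≤ (1 + ε) * (1 - e)) :
    A * (1 + e) / κ ≤ o * 2 ^ ((m : ℝ) / 2) * ((1 + ε) / S) := by
  have h2 : (2 : ℝ) ^ m = 2 ^ ((m : ℝ) / 2) * 2 ^ ((m : ℝ) / 2) := by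
    rw [← Real.rpow_add two_pos, add_halves, Real.rpow_natCast]
  have h3 : ((1 + e) / (2 * T1)) ^ ((m : ℝ) / 2) * 2 ^ ((m : ℝ) / 2) *
      (T1 * (1 + e) ^ 4) ^ ((m : ℝ) / 2) = ((1 + e) ^ 5) ^ ((m : ℝ) / 2) := by
    rw [← Real.mul_rpow (by positivity) (by positivity),
      ← Real.mul_rpow (by positivity) (by positivity)]
    congr 1
    field_simp
  have hp : (0 : ℝ) < 2 ^ ((m : ℝ) / 2) := by positivity
  have hq : 0 < (T1 * (1 + e) ^ 4) ^ ((m : ℝ) / 2) := by positivity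
  have h4 : A * (1 + e) * S * (1 - e) ≤ κ * (o * 2 ^ ((m : ℝ) / 2) * (1 + ε)) * (1 - e) := by
    calc A * (1 + e) * S * (1 - e) = A * (1 + e) * ((1 - e) * S) := by ring
      _ ≤ ((1 + e) / (2 * T1)) ^ ((m : ℝ) / 2) * (1 + e) *
          (κ * o * 2 ^ m * (T1 * (1 + e) ^ 4) ^ ((m : ℝ) / 2)) := by
        have : 0 ≤ (1 - e) * S := mul_nonneg (by linarith) hS.le
        gcongr
      _ = κ * o * 2 ^ ((m : ℝ) / 2) * (((1 + e) ^ 5) ^ ((m : ℝ) / 2) * (1 + e)) := by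
        rw [← h3, h2]; ring
      _ ≤ κ * o * 2 ^ ((m : ℝ) / 2) * ((1 + ε) * (1 - e)) := by gcongr
      _ = _ := by ring
  have h5 := le_of_mul_le_mul_right h4 (by linarith : 0 < 1 - e)
  rw [div_le_iff₀ hκ, ← mul_div_assoc, div_mul_eq_mul_div, le_div_iff₀ hS]
  linarith

theorem tri_bound {a b c β σ T T1 e : ℝ} (ha : 0 ≤ a) (hb : 0 ≤ b) (hc : 0 ≤ c) (hβ : 0 ≤ β)
    (hσ : 0 < σ) (hT : 0 < T) (he : 0 < e) (hT1 : T < e ^ 2 * T1) (h1 : a ≤ T * σ) (h2 : b < T1 * σ)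
    (h3 : β * ((T + T1) * σ) ≤ e) (h : √c ≤ (√a + √b) * (1 + β * (a + b))) :
    c < T1 * (1 + e) ^ 4 * σ := by
  have hT0 : 0 < T1 := by
    by_contra hcon
    nlinarith [sq_nonneg e, not_lt.1 hcon]
  set s := √(T1 * σ) with hs
  have hs0 : 0 < s := Real.sqrt_pos.2 (by positivity)
  have hs2 : s ^ 2 = T1 * σ := Real.sq_sqrt (by positivity)
  have e1 : √b ≤ s := Real.sqrt_le_sqrt h2.le
  have e2 : √a < e * s := by
    refine (Real.sqrt_lt' (by positivity)).2 ?_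
    rw [mul_pow, hs2]
    nlinarith
  have e3 : β * (a + b) ≤ e := le_trans (mul_le_mul_of_nonneg_left (by nlinarith) hβ) h3
  have e4 : √c < (1 + e) ^ 2 * s := by
    have e5 : (√a + √b) * (1 + β * (a + b)) ≤ (√a + √b) * (1 + e) := by
      have := Real.sqrt_nonneg a
      have := Real.sqrt_nonneg b
      gcongr
    have e6 : (√a + √b) * (1 + e) < (e * s + s) * (1 + e) :=
      mul_lt_mul_of_pos_right (by linarith) (by linarith)
    nlinarith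
  have e7 := (Real.sqrt_lt' (by positivity)).1 e4
  rw [mul_pow, hs2] at e7
  nlinarith

theorem scale {m : ℕ} {γ a1 : ℝ} (hγ : 0 < γ) (ha : 0 < a1) :
    a1 ^ (-((m : ℝ) / 2)) * γ ^ m = (γ ^ 2 / a1) ^ ((m : ℝ) / 2) := by
  rw [Real.div_rpow (by positivity) ha.le, Real.rpow_neg ha.le, ← Real.rpow_natCast γ 2,
    ← Real.rpow_mul hγ.le, ← Real.rpow_natCast γ m]
  have : ((2 : ℕ) : ℝ) * ((m : ℝ) / 2) = m := by push_cast; ring
  rw [this]
  ring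

theorem params {β T T1 e γ α : ℝ} (hβ : 0 ≤ β) (hT : 0 < T) (hT1 : 0 < T1) (hγ : 0 < γ)
    (hα : 0 < α) (hα2 : 2 * α * γ = 1 + β * γ ^ 2)
    (hγ0 : γ ≤ min 1 (e / (2 * β * (T + T1) + β + 1))) :
    T1 * (γ / α) ≤ 2 * T1 * γ ^ 2 ∧ β * ((T + T1) * (γ / α)) ≤ e ∧ β * (T1 * (γ / α)) ≤ e ∧
      γ ^ 2 / (T1 * (γ / α)) ≤ (1 + e) / (2 * T1) := by
  have hc0 : 0 < 2 * β * (T + T1) + β + 1 := by positivity
  have hγ1 : γ ≤ 1 := hγ0.trans (min_le_left _ _)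
  have hγ2 : γ ^ 2 * (2 * β * (T + T1) + β + 1) ≤ e := by
    have h1 := (le_div_iff₀ hc0).1 (hγ0.trans (min_le_right _ _))
    have h2 : γ ^ 2 ≤ γ := by nlinarith
    exact le_trans (mul_le_mul_of_nonneg_right h2 hc0.le) h1
  set σ : ℝ := γ / α with hσ
  have hσ0 : 0 < σ := by positivity
  have hσα : α * σ = γ := by rw [hσ]; field_simp
  have hb2 : 0 ≤ β * γ ^ 2 := by positivity
  have hσ2 : σ ≤ 2 * γ ^ 2 := by
    rw [hσ, div_le_iff₀ hα]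
    nlinarith
  have hb1 : 0 ≤ γ ^ 2 * (2 * β * (T + T1)) := by positivity
  have hb3 : β * γ ^ 2 ≤ e := by nlinarith [sq_nonneg γ]
  have hb4 : β * ((T + T1) * σ) ≤ e := by
    have h1 : β * ((T + T1) * σ) ≤ β * ((T + T1) * (2 * γ ^ 2)) := by gcongr
    nlinarith [sq_nonneg γ]
  refine ⟨by nlinarith, hb4, le_trans ?_ hb4, ?_⟩
  · gcongr
    linarith
  · rw [div_le_div_iff₀ (by positivity) (by positivity)]
    have h1 : 2 * γ ^ 2 = (1 + β * γ ^ 2) * σ := by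
      rw [← hα2]
      calc 2 * γ ^ 2 = 2 * γ * (α * σ) := by rw [hσα]; ring
        _ = _ := by ring
    have h2 : (1 + β * γ ^ 2) * σ ≤ (1 + e) * σ := by gcongr
    nlinarith

theorem final {w V A g u e κ I I' J P U C1 E ε S m : ℝ} (hw : 0 < w) (hA : 0 ≤ A) (hg : 0 ≤ g)
    (hu0 : 0 ≤ u) (hu : u ≤ e) (he1 : e < 1) (hκ : 0 < κ) (hI0 : 0 ≤ I) (hI : I ≤ I') (hJ0 : 0 ≤ J)
    (hJ : J ≤ P) (hU : 0 ≤ U) (hC : 0 < C1) (hE : 0 ≤ E) (hε : 0 < ε) (hS : 0 < S) (hm : 0 < m)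
    (hM : w * V ≤ A * (1 + u) * I + √(2 + u) / m * J) (hR : κ * I' ≤ g * (U + C1 * E))
    (hc : A * g * (1 + e) / κ ≤ w * ((1 + ε) / S)) :
    V ≤ (1 + ε) * (U + (C1 + 2 / m / w) * E) / S + (C1 + 2 / m / w) * P := by
  have hW0 : 0 ≤ U + C1 * E := by positivity
  have hP0 : 0 ≤ P := hJ0.trans hJ
  have he0 : 0 ≤ e := hu0.trans hu
  have hsq : √(2 + u) ≤ 2 := Real.sqrt_le_iff.2 ⟨by norm_num, by linarith⟩
  have h1 : I ≤ g * (U + C1 * E) / κ := by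
    rw [le_div_iff₀ hκ, mul_comm]
    exact le_trans (mul_le_mul_of_nonneg_left hI hκ.le) hR
  have h2 : A * (1 + u) * I ≤ w * ((1 + ε) / S) * (U + C1 * E) := by
    calc _ ≤ A * (1 + e) * (g * (U + C1 * E) / κ) := by gcongr
      _ = A * g * (1 + e) / κ * (U + C1 * E) := by ring
      _ ≤ _ := mul_le_mul_of_nonneg_right hc hW0
  have h3 : √(2 + u) / m * J ≤ w * (2 / m / w * P) := by
    have : w * (2 / m / w * P) = 2 / m * P := by field_simp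
    rw [this]
    gcongr
  have h4 : V ≤ (1 + ε) / S * (U + C1 * E) + 2 / m / w * P := by
    refine le_of_mul_le_mul_left ?_ hw
    linarith
  have h5 : U + C1 * E ≤ U + (C1 + 2 / m / w) * E := by
    have : 0 ≤ 2 / m / w * E := by positivity
    linarith
  have h6 : (1 + ε) / S * (U + C1 * E) ≤ (1 + ε) * (U + (C1 + 2 / m / w) * E) / S := by
    rw [div_mul_eq_mul_div]
    gcongr
  have h7 : 0 ≤ C1 * P := by positivity
  linarith

theorem pot_mono {n : ℕ} {d : Dat n} (o : d.Ok) {v : Eu n → ℝ} (hv : ContDiff ℝ 1 v)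
    {z x : Eu n} (hx : Integrable (d.ker x) d.μ) {γ T R a : ℝ}
    (h : ∀ y, d.Q x y < a → d.al γ * d.Q z y < T * γ ∧ d.Q x y < R * γ ^ 2) :
    0 ≤ ∫ y in {y | d.Q x y < a}, (√(d.Gam (fun w => v w ^ 2) (fun w => v w ^ 2) y) +
      d.H * v y ^ 2) * d.ker x y ∂d.μ ∧
    ∫ y in {y | d.Q x y < a}, (√(d.Gam (fun w => v w ^ 2) (fun w => v w ^ 2) y) +
      d.H * v y ^ 2) * d.ker x y ∂d.μ ≤ d.Pot z γ T R v x := by
  have hv2 : ContDiff ℝ 1 fun y => v y ^ 2 := hv.pow 2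
  have hbv : d.BM fun y => v y ^ 2 := o.bm_cont hv2.continuous
  have hg : d.BM fun y => √(d.Gam (fun w => v w ^ 2) (fun w => v w ^ 2) y) + d.H * v y ^ 2 :=
    (o.bm_Gam hv2 hv2).sqrt.add (hbv.const_mul _)
  have hg0 : ∀ y, 0 ≤ (√(d.Gam (fun w => v w ^ 2) (fun w => v w ^ 2) y) + d.H * v y ^ 2) *
      d.ker x y := fun y =>
    mul_nonneg (add_nonneg (Real.sqrt_nonneg _) (mul_nonneg o.hH.le (sq_nonneg _)))
      (o.ker_nonneg x y)
  have hint : Integrable (fun y => (√(d.Gam (fun w => v w ^ 2) (fun w => v w ^ 2) y) +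
      d.H * v y ^ 2) * d.ker x y) d.μ := by
    obtain ⟨hgm, B, hB⟩ := hg
    refine hx.bdd_mul (c := B) hgm.aestronglyMeasurable ?_
    filter_upwards [o.supp] with y hy using hB y hy
  exact ⟨integral_nonneg hg0, setIntegral_mono_set hint.integrableOn (Eventually.of_forall hg0)
    (HasSubset.Subset.eventuallyLE h)⟩

end NearPtAux

open NearPtAux in
theorem nearPt_pf (hm : MonoStmt) (hk : KappaStmt) (hr : RevStmt) (hb : KBStmt) : NearPtStmt := by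
  intro n d o ε hε T hT
  obtain ⟨e, he, he1, heε⟩ := pick ((d.m : ℝ) / 2) ε hε
  obtain ⟨T2, ⟨κ, F, F', a, hK, hκ⟩, hT2⟩ := ((hk d.m (le_trans (by norm_num) o.hm) e he).and
    (eventually_gt_atTop (T / e ^ 2 * (1 + e) ^ 4))).exists
  obtain ⟨T1, rfl⟩ : ∃ T1, T2 = T1 * (1 + e) ^ 4 := ⟨T2 / (1 + e) ^ 4, by field_simp⟩
  have hT1 : T < e ^ 2 * T1 := by
    have h1 := lt_of_mul_lt_mul_right hT2 (by positivity)
    rw [div_lt_iff₀ (by positivity)] at h1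
    linarith
  have hT10 : 0 < T1 := by
    by_contra hcon
    nlinarith [sq_nonneg e, not_lt.1 hcon]
  obtain ⟨C1, hC1, hrev⟩ := hr n d o κ F F' a _ hK
  obtain ⟨_, _, hker⟩ := hb n d o
  have hom := om_pos d.m
  have hS := sph_pos d.m
  have hm0 := o.m_pos
  have hκ0 := hK.k0
  have hw0 : 0 < om d.m * 2 ^ ((d.m : ℝ) / 2) := by positivity
  refine ⟨C1 + 2 / d.m / (om d.m * 2 ^ ((d.m : ℝ) / 2)), by positivity, T1 * (1 + e) ^ 4,
    by positivity, 2 * T1, by positivity,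
    min 1 (e / (2 * d.b ^ 2 * (T + T1) + d.b ^ 2 + 1)), by positivity,
    fun z hz γ hγ hγ0 v hv => ?_⟩
  have hα : 0 < d.al γ := Dat.al_pos hγ
  obtain ⟨p1, p2, p3, p4⟩ := params (sq_nonneg d.b) hT hT10 hγ hα (Dat.two_al hγ) hγ0
  have hσ0 : 0 < γ / d.al γ := by positivity
  have hσα : d.al γ * (γ / d.al γ) = γ := by field_simp
  have hv2 : ContDiff ℝ 1 fun y => v y ^ 2 := hv.pow 2
  have hbv : d.BM fun y => v y ^ 2 := o.bm_cont hv2.continuous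
  have hR := hrev z hz γ hγ (hγ0.trans (min_le_left _ _)) v hv
  filter_upwards [hm n d o, o.supp] with x hx hxK hxz
  have ha1 : 0 < T1 * (γ / d.al γ) := by positivity
  have hM := hx (fun y => v y ^ 2) hv2 (fun y _ => sq_nonneg _) _ ha1
  have hQ : d.Q z x ≤ T * (γ / d.al γ) := by
    refine le_of_mul_le_mul_left ?_ hα
    rw [mul_left_comm, hσα]
    exact hxz
  have hsub : ∀ y, d.Q x y < T1 * (γ / d.al γ) →
      d.al γ * d.Q z y < T1 * (1 + e) ^ 4 * γ := by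
    intro y hy
    have h1 := tri_bound (o.Q_nonneg z x) (o.Q_nonneg x y) (o.Q_nonneg z y) (sq_nonneg d.b) hσ0 hT
      he hT1 hQ hy p2 (o.tri y x z)
    have h2 := mul_lt_mul_of_pos_left h1 hα
    rwa [mul_left_comm, hσα] at h2
  have hI1 : ∫ y in {y | d.Q x y < T1 * (γ / d.al γ)}, v y ^ 2 ∂d.μ ≤
      ∫ y in {y | d.al γ * d.Q z y < T1 * (1 + e) ^ 4 * γ}, v y ^ 2 ∂d.μ :=
    setIntegral_mono_set (hbv.integrable o).integrableOn
      (Eventually.of_forall fun y => sq_nonneg _) (HasSubset.Subset.eventuallyLE hsub)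
  obtain ⟨hJ0, hJ⟩ := pot_mono o hv (hker x hxK).1 fun y hy =>
    ⟨hsub y hy, lt_of_lt_of_le hy p1⟩
  have hcoef := coef hom hS hκ0 he he1 hT10 (by positivity)
    (Real.rpow_le_rpow (by positivity) p4 (by positivity)) hκ heε
  rw [← scale hγ ha1] at hcoef
  exact final hw0 (by positivity) (by positivity) (by positivity) p3 he1 hκ0
    (integral_nonneg fun y => sq_nonneg _) hI1 hJ0 hJ (o.Uv_nonneg hγ z v) hC1
    (o.le_Er hγ hz hv).1 hε hS hm0 hM hR hcoef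

end Vale.Agent.P219
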