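import Vale.Agent.P219.Alg

/-! The potential error is small on average. -/

open scoped ENNReal RealInnerProductSpace Topology
open MeasureTheory Set Filter

namespace Vale.Agent.P219

namespace PotAux

variable {n : ℕ} {d : Dat n}

/-- Fubini for the truncated kernel. -/
theorem fub (o : d.Ok) {C a : ℝ} (hC : ∀ z ∈ d.K, Integrable (d.ker z) d.μ ∧
      ∫ x in {x | d.Q z x < a}, d.ker z x ∂d.μ ≤ C) {w : Eu n → ℝ} (hw : d.BM w)
    (h0 : ∀ y, 0 ≤ w y) :
    Integrable (fun x => ∫ y in {y | d.Q x y < a}, w y * d.ker x y ∂d.μ) d.μ ∧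
      ∫ x, (∫ y in {y | d.Q x y < a}, w y * d.ker x y ∂d.μ) ∂d.μ ≤ C * ∫ y, w y ∂d.μ := by
  have := o.fin
  set G : Eu n → Eu n → ℝ := fun x y =>
    {p : Eu n × Eu n | d.Q p.1 p.2 < a}.indicator (fun p => w p.2 * d.ker p.1 p.2) (x, y) with hG
  have hS : MeasurableSet {p : Eu n × Eu n | d.Q p.1 p.2 < a} :=
    measurableSet_lt o.contQ.measurable measurable_const
  have hS1 : ∀ x, MeasurableSet {y | d.Q x y < a} := fun x =>
    measurableSet_lt (o.Qc x).measurable measurable_const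
  have hGm : Measurable (Function.uncurry G) :=
    ((hw.1.comp measurable_snd).mul o.meas_ker).indicator hS
  have e1 : ∀ x, ∫ y in {y | d.Q x y < a}, w y * d.ker x y ∂d.μ = ∫ y, G x y ∂d.μ := fun x => by
    rw [← integral_indicator (hS1 x)]
    rfl
  have e2 : ∀ y, (fun x => G x y) = {x | d.Q y x < a}.indicator fun x => w y * d.ker y x :=
    fun y => by
      funext x
      simp only [hG, indicator, mem_ofPred_eq, o.symm x y, o.ker_symm x y]
  have g0 : ∀ x y, 0 ≤ G x y := fun x y =>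
    indicator_nonneg (fun p _ => mul_nonneg (h0 _) (o.ker_nonneg _ _)) _
  have e3 : ∀ y ∈ d.K, ∫ x, G x y ∂d.μ ≤ C * w y := fun y hy => by
    rw [e2, integral_indicator (hS1 y), integral_const_mul, mul_comm]
    exact mul_le_mul_of_nonneg_right (hC y hy).2 (h0 y)
  have hI : Integrable (Function.uncurry G) (d.μ.prod d.μ) := by
    rw [integrable_prod_iff' hGm.aestronglyMeasurable]
    refine ⟨o.supp.mono fun y hy => ?_, ?_⟩
    · show Integrable (fun x => G x y) d.μ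
      rw [e2]
      exact ((hC y hy).1.const_mul _).indicator (hS1 y)
    · refine ((hw.const_mul C).integrable o).mono'
        hGm.norm.aestronglyMeasurable.prod_swap.integral_prod_right' (o.supp.mono fun y hy => ?_)
      have : (fun x => ‖Function.uncurry G (x, y)‖) = fun x => G x y :=
        funext fun x => Real.norm_of_nonneg (g0 x y)
      rw [this, Real.norm_of_nonneg (integral_nonneg fun x => g0 x y)]
      exact e3 y hy
  simp only [e1]
  refine ⟨hI.integral_prod_left, ?_⟩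
  rw [integral_integral_swap hI, ← integral_const_mul]
  exact integral_mono_ae hI.integral_prod_right ((hw.const_mul C).integrable o)
    (o.supp.mono e3)

theorem pt {l M v g H : ℝ} {k : ℕ} (hl : 0 < l) (hM : 1 ≤ M * l) (_hg : 0 ≤ g) (hH : 0 ≤ H) :
    √((2 * v) ^ 2 * g) + H * v ^ 2 ≤
      2 * M ^ (k + 1) * (√(v ^ 2 * l ^ (k + 2)) * √(l ^ k * g)) +
        H * M ^ (k + 2) * (v ^ 2 * l ^ (k + 2)) := by
  have e1 : √((2 * v) ^ 2 * g) = 2 * |v| * √g := by
    rw [Real.sqrt_mul (sq_nonneg _), Real.sqrt_sq_eq_abs, abs_mul, abs_two]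
  have e2 : √(v ^ 2 * l ^ (k + 2)) * √(l ^ k * g) = |v| * l ^ (k + 1) * √g := by
    rw [← Real.sqrt_mul (by positivity),
      show v ^ 2 * l ^ (k + 2) * (l ^ k * g) = (v * l ^ (k + 1)) ^ 2 * g by ring,
      Real.sqrt_mul (sq_nonneg _), Real.sqrt_sq_eq_abs, abs_mul, abs_of_pos (pow_pos hl _)]
  have a1 : 1 ≤ (M * l) ^ (k + 1) := one_le_pow₀ hM
  have a2 : 1 ≤ (M * l) ^ (k + 2) := one_le_pow₀ hM
  have b1 : 2 * |v| * √g * 1 ≤ 2 * |v| * √g * (M * l) ^ (k + 1) :=
    mul_le_mul_of_nonneg_left a1 (by positivity)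
  have b2 : H * v ^ 2 * 1 ≤ H * v ^ 2 * (M * l) ^ (k + 2) :=
    mul_le_mul_of_nonneg_left a2 (by positivity)
  rw [e1, e2]
  calc _ ≤ 2 * |v| * √g * (M * l) ^ (k + 1) + H * v ^ 2 * (M * l) ^ (k + 2) := by linarith
    _ = _ := by ring

theorem wint (o : d.Ok) {z : Eu n} {γ T : ℝ} (hγ : 0 < γ) (hT : 0 < T) {v : Eu n → ℝ}
    (hv : ContDiff ℝ 1 v) {k : ℕ} (hk : d.m = k + 2) :
    ∫ y, {y | d.al γ * d.Q z y < T * γ}.indicator
      (fun y => √(d.Gam (fun w => v w ^ 2) (fun w => v w ^ 2) y) + d.H * v y ^ 2) y ∂d.μ ≤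
      2 * (γ * (1 + T)) ^ (k + 1) * √(d.Uv z γ v * d.D1 z γ v) +
        d.H * (γ * (1 + T)) ^ (k + 2) * d.Uv z γ v := by
  have hS : MeasurableSet {y | d.al γ * d.Q z y < T * γ} :=
    measurableSet_lt ((o.Qc z).measurable.const_mul _) measurable_const
  have bv := o.bm_cont hv.continuous
  have bl := o.bm_lam hγ z
  have bU : d.BM fun y => v y ^ 2 * d.lam z γ y ^ (k + 2) := (bv.pow 2).mul (bl.pow _)
  have bD : d.BM fun y => d.lam z γ y ^ k * d.Gam v v y := (bl.pow _).mul (o.bm_Gam hv hv)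
  have bw : d.BM fun y => √(d.Gam (fun w => v w ^ 2) (fun w => v w ^ 2) y) + d.H * v y ^ 2 :=
    (o.bm_Gam (hv.pow 2) (hv.pow 2)).sqrt.add ((bv.pow 2).const_mul _)
  have hH := o.hH
  have b1 := (bU.sqrt.mul bD.sqrt).const_mul (2 * (γ * (1 + T)) ^ (k + 1))
  have b2 := bU.const_mul (d.H * (γ * (1 + T)) ^ (k + 2))
  refine (o.int_mono (bw.indicator hS) (b1.add b2) fun y _ => ?_).trans ?_
  · have hl := o.lam_pos hγ z y
    have hg := Dat.Gam_nonneg (d := d) v y
    by_cases hy : y ∈ {y | d.al γ * d.Q z y < T * γ}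
    · rw [indicator_of_mem hy, Dat.Gam_comp_self (ψ := fun t => t ^ 2) (ψ' := 2 * v y)
        (hv.differentiable one_ne_zero y) (by simpa using hasDerivAt_pow 2 (v y))]
      refine pt hl ?_ hg hH.le
      have hL := o.L_pos hγ z y
      unfold Dat.lam
      rw [← div_eq_mul_inv, le_div_iff₀ hL]
      have hy' : d.al γ * d.Q z y < T * γ := hy
      unfold Dat.L
      linarith
    · rw [indicator_of_notMem hy]
      positivity
  · rw [integral_add (b1.integrable o) (b2.integrable o), integral_const_mul, integral_const_mul]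
    have eU : d.Uv z γ v = ∫ y, v y ^ 2 * d.lam z γ y ^ (k + 2) ∂d.μ := by
      unfold Dat.Uv; rw [hk]
    have eD : d.D1 z γ v = ∫ y, d.lam z γ y ^ k * d.Gam v v y ∂d.μ := by
      unfold Dat.D1; rw [hk, Nat.add_sub_cancel]
    have cs := o.int_cs bU.sqrt bD.sqrt
    have s1 : (fun y => √(v y ^ 2 * d.lam z γ y ^ (k + 2)) ^ 2) =
        fun y => v y ^ 2 * d.lam z γ y ^ (k + 2) := funext fun y =>
      Real.sq_sqrt (mul_nonneg (sq_nonneg _) (pow_nonneg (o.lam_pos hγ z y).le _))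
    have s2 : (fun y => √(d.lam z γ y ^ k * d.Gam v v y) ^ 2) =
        fun y => d.lam z γ y ^ k * d.Gam v v y := funext fun y =>
      Real.sq_sqrt (mul_nonneg (pow_nonneg (o.lam_pos hγ z y).le _) (Dat.Gam_nonneg _ _))
    rw [s1, s2, ← eU, ← eD] at cs
    rw [← eU]
    gcongr

end PotAux

theorem pot_pf (hk : KBStmt) : PotStmt := by
  intro n d o T hT R hR
  obtain ⟨C, hC, hK⟩ := hk n d o
  obtain ⟨k, hm⟩ : ∃ k, d.m = k + 2 := ⟨d.m - 2, by have := o.hm; omega⟩
  have hH := o.hH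
  refine ⟨C * √R * (2 * (1 + T) ^ (k + 1) + d.H * (1 + T) ^ (k + 2)), by positivity,
    fun z hz γ hγ _ v hv => ?_⟩
  have hS : MeasurableSet {y | d.al γ * d.Q z y < T * γ} :=
    measurableSet_lt ((o.Qc z).measurable.const_mul _) measurable_const
  have bw : d.BM fun y => √(d.Gam (fun w => v w ^ 2) (fun w => v w ^ 2) y) + d.H * v y ^ 2 :=
    (o.bm_Gam (hv.pow 2) (hv.pow 2)).sqrt.add (((o.bm_cont hv.continuous).pow 2).const_mul _)
  have w0 : ∀ y, 0 ≤ √(d.Gam (fun w => v w ^ 2) (fun w => v w ^ 2) y) + d.H * v y ^ 2 :=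
    fun y => by positivity
  have ha : 0 < R * γ ^ 2 := by positivity
  have F := PotAux.fub o (C := C * √(R * γ ^ 2)) (a := R * γ ^ 2)
    (fun y hy => ⟨(hK y hy).1, ((hK y hy).2 _ ha).2⟩) (bw.indicator hS)
    (fun y => indicator_nonneg (fun y _ => w0 y) y)
  have e : d.Pot z γ T R v = fun x => ∫ y in {y | d.Q x y < R * γ ^ 2},
      {y | d.al γ * d.Q z y < T * γ}.indicator
        (fun y => √(d.Gam (fun w => v w ^ 2) (fun w => v w ^ 2) y) + d.H * v y ^ 2) y *
        d.ker x y ∂d.μ := by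
    funext x
    unfold Dat.Pot
    simp only [← indicator_mul_left]
    rw [setIntegral_indicator hS, inter_comm]
    rfl
  refine ⟨e ▸ F.1, Eventually.of_forall fun x => ?_, ?_⟩
  · exact integral_nonneg fun y => mul_nonneg (w0 y) (o.ker_nonneg _ _)
  · rw [e]
    refine F.2.trans ?_
    have W := PotAux.wint o (z := z) hγ hT hv hm
    obtain ⟨E0, -, E2, E3⟩ := o.le_Er hγ hz hv
    have s : √(R * γ ^ 2) = √R * γ := by
      rw [Real.sqrt_mul hR.le, Real.sqrt_sq hγ.le]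
    have t1 : 2 * (γ * (1 + T)) ^ (k + 1) * √(d.Uv z γ v * d.D1 z γ v) ≤
        2 * (γ * (1 + T)) ^ (k + 1) * d.Er z γ v := by gcongr
    have t2 : d.H * (γ * (1 + T)) ^ (k + 2) * d.Uv z γ v ≤
        d.H * γ ^ (k + 1) * (1 + T) ^ (k + 2) * d.Er z γ v := by
      calc _ = d.H * γ ^ (k + 1) * (1 + T) ^ (k + 2) * (γ * d.Uv z γ v) := by rw [mul_pow]; ring
        _ ≤ _ := by gcongr
    rw [s, hm]
    calc _ ≤ C * (√R * γ) * (2 * (γ * (1 + T)) ^ (k + 1) * d.Er z γ v +
          d.H * γ ^ (k + 1) * (1 + T) ^ (k + 2) * d.Er z γ v) :=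
          mul_le_mul_of_nonneg_left (W.trans (add_le_add t1 t2)) (by positivity)
      _ = _ := by rw [mul_pow]; ring

end Vale.Agent.P219
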