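import Vale.Agent.P219.Base

/-! Calculus of the model isoperimetric profile. -/

open scoped Topology
open MeasureTheory Set Filter

namespace Vale.Agent.P219

namespace ProfAux

theorem sn_der (b r : ℝ) : HasDerivAt (sn b) (1 + b ^ 2 * qf b r) r := by
  unfold sn qf
  split_ifs with h
  · subst h
    simpa using hasDerivAt_id' r
  · have h1 := (((hasDerivAt_id' r).const_mul b).sinh).div_const b
    refine h1.congr_deriv ?_
    field_simp
    ring

theorem sn_cont (b : ℝ) : Continuous (sn b) :=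
  continuous_iff_continuousAt.2 fun r => (sn_der b r).continuousAt

theorem le_sn {b t : ℝ} (hb : 0 ≤ b) (ht : 0 ≤ t) : t ≤ sn b t := by
  unfold sn
  split_ifs with h
  · exact le_rfl
  · have h1 : 0 < b := lt_of_le_of_ne hb (Ne.symm h)
    rw [le_div_iff₀ h1, mul_comm]
    exact Real.self_le_sinh_iff.2 (mul_nonneg hb ht)

theorem sn_mono {b : ℝ} (hb : 0 ≤ b) : Monotone (sn b) := by
  intro s t hst
  unfold sn
  split_ifs with h
  · exact hst
  · exact div_le_div_of_nonneg_right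
      (Real.sinh_le_sinh.2 (mul_le_mul_of_nonneg_left hst hb)) hb

theorem om_pos (n : ℕ) : 0 < om n :=
  ENNReal.toReal_pos (Metric.measure_ball_pos _ _ one_pos).ne' measure_ball_lt_top.ne

theorem mV_der (n : ℕ) (b r : ℝ) : HasDerivAt (mV n b) (mA n b r) r :=
  (((sn_cont b).fun_pow (n - 1)).integral_hasStrictDerivAt 0 r).hasDerivAt.const_mul _

theorem mA_der (n : ℕ) (b r : ℝ) : HasDerivAt (mA n b)
    (n * om n * (((n - 1 : ℕ) : ℝ) * sn b r ^ (n - 1 - 1) * (1 + b ^ 2 * qf b r))) r :=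
  ((sn_der b r).fun_pow (n - 1)).const_mul _

variable {n : ℕ} {b : ℝ}

theorem mA_pos (hn : 2 ≤ n) (hb : 0 ≤ b) {r : ℝ} (hr : 0 < r) : 0 < mA n b r := by
  have h1 : (0 : ℝ) < n := by exact_mod_cast (by omega : 0 < n)
  exact mul_pos (mul_pos h1 (om_pos n)) (pow_pos (hr.trans_le (le_sn hb hr.le)) _)

theorem mA_mono (hb : 0 ≤ b) : MonotoneOn (mA n b) (Ici 0) := fun _ hs _ _ hst =>
  mul_le_mul_of_nonneg_left (pow_le_pow_left₀ (le_trans hs (le_sn hb hs)) (sn_mono hb hst) _)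
    (mul_nonneg (Nat.cast_nonneg n) (om_pos n).le)

theorem mV_cont (n : ℕ) (b : ℝ) : Continuous (mV n b) :=
  continuous_iff_continuousAt.2 fun r => (mV_der n b r).continuousAt

theorem mV_zero (n : ℕ) (b : ℝ) : mV n b 0 = 0 := by simp [mV]

theorem mV_mono (hn : 2 ≤ n) (hb : 0 ≤ b) : StrictMonoOn (mV n b) (Ici 0) :=
  strictMonoOn_of_deriv_pos (convex_Ici 0) (mV_cont n b).continuousOn fun r hr => by
    rw [interior_Ici] at hr
    rw [(mV_der n b r).deriv]
    exact mA_pos hn hb hr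

theorem mV_surj (hn : 2 ≤ n) (hb : 0 ≤ b) (V : ℝ) (hV : 0 ≤ V) : ∃ r, 0 ≤ r ∧ mV n b r = V := by
  have hc := mA_pos hn hb one_pos
  have h0 : 0 ≤ V / mA n b 1 := div_nonneg hV hc.le
  have h1 := (convex_Ici (1 : ℝ)).mul_sub_le_image_sub_of_le_deriv (mV_cont n b).continuousOn
    (fun r _ => (mV_der n b r).differentiableAt.differentiableWithinAt) (C := mA n b 1)
    (fun r hr => by
      have h2 : 1 ≤ r := interior_subset hr
      rw [(mV_der n b r).deriv]
      exact mA_mono hb (mem_Ici.2 zero_le_one) (mem_Ici.2 (zero_le_one.trans h2)) h2)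
    1 (mem_Ici.2 le_rfl) (1 + V / mA n b 1) (mem_Ici.2 (by linarith)) (by linarith)
  have h2 : mV n b 0 ≤ mV n b 1 :=
    (mV_mono hn hb).monotoneOn (mem_Ici.2 le_rfl) (mem_Ici.2 zero_le_one) zero_le_one
  rw [add_sub_cancel_left, mul_div_cancel₀ _ hc.ne'] at h1
  rw [mV_zero] at h2
  have h3 : V ∈ Icc (mV n b 0) (mV n b (1 + V / mA n b 1)) :=
    ⟨by rw [mV_zero]; exact hV, by linarith⟩
  obtain ⟨r, hr, h⟩ := intermediate_value_Icc (by linarith) (mV_cont n b).continuousOn h3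
  exact ⟨r, hr.1, h⟩

end ProfAux

open ProfAux

theorem prof_pf : ProfStmt := by
  intro n b hn hb
  have hm := mV_mono hn hb
  obtain ⟨g, hg⟩ : ∃ g, g = Function.invFunOn (mV n b) (Ici 0) := ⟨_, rfl⟩
  have hp : prof n b = mA n b ∘ g := by rw [hg]; rfl
  have h1 : ∀ V, 0 ≤ V → 0 ≤ g V ∧ mV n b (g V) = V := fun V hV => by
    rw [hg]
    exact Function.invFunOn_pos (mV_surj hn hb V hV)
  have h2 : ∀ r, 0 ≤ r → g (mV n b r) = r := fun r hr => by
    rw [hg]
    exact hm.injOn.leftInvOn_invFunOn hr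
  have h3 : ∀ r, 0 ≤ r → 0 ≤ mV n b r := fun r hr => by
    rw [← mV_zero n b]
    exact hm.monotoneOn (mem_Ici.2 le_rfl) hr hr
  have h4 : StrictMonoOn g (Ici 0) := fun V hV W hW h =>
    (hm.lt_iff_lt (h1 V hV).1 (h1 W hW).1).1 (by rw [(h1 V hV).2, (h1 W hW).2]; exact h)
  have h5 : g '' Ici 0 = Ici 0 :=
    Subset.antisymm (by rintro _ ⟨V, hV, rfl⟩; exact (h1 V hV).1)
      fun r hr => ⟨_, h3 r hr, h2 r hr⟩
  have h6 : ∀ V, 0 < V → 0 < g V := fun V hV => by
    have := h4 (mem_Ici.2 le_rfl) (mem_Ici.2 hV.le) hV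
    rwa [← mV_zero n b, h2 0 le_rfl] at this
  have h7 : ∀ V, 0 < V → ContinuousAt g V := fun V hV =>
    h4.continuousAt_of_image_mem_nhds (Ici_mem_nhds hV) (by rw [h5]; exact Ici_mem_nhds (h6 V hV))
  have h8 : ContinuousOn g (Ici 0) := fun V hV => by
    rcases (mem_Ici.1 hV).eq_or_lt with h | h
    · subst h
      refine h4.continuousWithinAt_right_of_image_mem_nhdsWithin self_mem_nhdsWithin ?_
      rw [h5, ← mV_zero n b, h2 0 le_rfl, mV_zero]
      exact self_mem_nhdsWithin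
    · exact (h7 V h).continuousWithinAt
  refine ⟨mV_zero n b, hm, mV_surj hn hb, fun r hr => by rw [hp, Function.comp, h2 r hr], ?_, ?_,
    fun r hr => ?_⟩
  · rw [hp]
    exact (continuous_iff_continuousAt.2 fun r => (mA_der n b r).continuousAt).comp_continuousOn h8
  · rw [hp]
    exact fun V hV W hW h => mA_mono hb (h1 V hV).1 (h1 W hW).1 (h4.monotoneOn hV hW h)
  · have hV : 0 < mV n b r := by
      rw [← mV_zero n b]
      exact hm (mem_Ici.2 le_rfl) (mem_Ici.2 hr.le) hr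
    have d1 : HasDerivAt g (mA n b r)⁻¹ (mV n b r) :=
      HasDerivAt.of_local_left_inverse (h7 _ hV) (by rw [h2 r hr.le]; exact mV_der n b r)
        (mA_pos hn hb hr).ne' (by
          filter_upwards [Ici_mem_nhds hV] with W hW using (h1 W hW).2)
    have d2 := mA_der n b r
    rw [← h2 r hr.le] at d2
    rw [hp]
    refine (d2.comp _ d1).congr_deriv ?_
    rw [h2 r hr.le]
    obtain ⟨m, rfl⟩ := Nat.exists_eq_add_of_le' hn
    have e1 : (0 : ℝ) < ((m + 2 : ℕ) : ℝ) := by positivity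
    have e2 := om_pos (m + 2)
    have e3 : 0 < sn b r := hr.trans_le (le_sn hb hr.le)
    have e4 : m + 2 - 1 = m + 1 := rfl
    simp only [mA, e4, Nat.add_sub_cancel]
    field_simp
    ring

end Vale.Agent.P219
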