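import Vale.Agent.P219.Alg

/-! The reverse step. -/

open scoped Topology
open MeasureTheory Set Filter

namespace Vale.Agent.P219

namespace RevAux

open Dat

theorem anti {F F' : ℝ → ℝ} {a T : ℝ} (h : Pf F F' a T) : AntitoneOn F (Icc a T) :=
  antitoneOn_of_deriv_nonpos (convex_Icc a T)
    (fun s hs => (h.der s hs).continuousAt.continuousWithinAt)
    (fun s hs => (h.der s (interior_subset hs)).differentiableAt.differentiableWithinAt)
    fun s hs => by rw [(h.der s (interior_subset hs)).deriv]; exact h.np s (interior_subset hs)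

theorem scale {F F' : ℝ → ℝ} {a T c : ℝ} (h : Pf F F' a T) (hc : 0 < c) :
    Pf (fun s => F (c * s)) (fun s => c * F' (c * s)) (a / c) (T / c) := by
  have hm : ∀ s ∈ Icc (a / c) (T / c), c * s ∈ Icc a T := fun s hs =>
    ⟨by rw [mul_comm]; exact (div_le_iff₀ hc).1 hs.1, by
      rw [mul_comm]; exact (le_div_iff₀ hc).1 hs.2⟩
  refine ⟨div_lt_div_of_pos_right h.lt hc, fun s hs => ?_, ?_, fun s hs => ?_, ?_⟩
  · have := (h.der _ (hm s hs)).comp s ((hasDerivAt_id s).const_mul c)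
    exact this.congr_deriv (by simp [mul_comm])
  · exact continuousOn_const.mul (h.cont.comp (by fun_prop) hm)
  · exact mul_nonpos_of_nonneg_of_nonpos hc.le (h.np _ (hm s hs))
  · show F (c * (T / c)) = 0
    rw [mul_div_cancel₀ _ hc.ne', h.zero]

theorem cl_mem {a T : ℝ} (h : a ≤ T) (s : ℝ) : max a (min s T) ∈ Icc a T :=
  ⟨le_max_left _ _, max_le h (min_le_right _ _)⟩

theorem cont_cl {F : ℝ → ℝ} {a T : ℝ} (h : a ≤ T) (hF : ContinuousOn F (Icc a T)) :
    Continuous fun s => F (max a (min s T)) :=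
  hF.comp_continuous (by fun_prop) (cl_mem h)

/-- First reduction of the integrand. -/
theorem pt1 {h Fm D Q G q s m b H R cM g : ℝ} (hh : 0 ≤ h) (hF : 0 ≤ Fm) (hF1 : Fm ≤ 1)
    (hmF : m * Fm ≤ 1) (hD : D ≤ 0) (hDM : -D ≤ cM) (hQ : 0 ≤ Q) (hH : 0 ≤ H)
    (hs : s = 2 * Q + b ^ 2 * Q ^ 2) (he : G + q ^ 2 = s) (hR : m * Fm + 2 * Q * D ≤ R) :
    h * Fm * (m * (1 + b ^ 2 * Q)) + h * D * G + Fm * g - H * h * Fm * q ≤
      h * R + h * (b ^ 2 * Q) + cM * q ^ 2 * h + |g| + H * h * |q| := by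
  have h1 : D * G ≤ 2 * Q * D + cM * q ^ 2 := by
    have : 2 * Q - q ^ 2 ≤ G := by nlinarith [sq_nonneg (b * Q)]
    nlinarith [sq_nonneg q]
  have h2 : Fm * g ≤ |g| := (mul_le_mul_of_nonneg_left (le_abs_self g) hF).trans
    (mul_le_of_le_one_left (abs_nonneg g) hF1)
  have h3 : -(Fm * q) ≤ |q| := by
    have := mul_le_mul_of_nonneg_left (neg_le_abs q) hF
    have := mul_le_of_le_one_left (abs_nonneg q) hF1
    linarith
  have h4 : m * Fm * (b ^ 2 * Q) ≤ b ^ 2 * Q := mul_le_of_le_one_left (by positivity) hmF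
  have h5 := mul_le_mul_of_nonneg_left h3 (mul_nonneg hH hh)
  have h6 := mul_le_mul_of_nonneg_left h1 hh
  have h7 := mul_le_mul_of_nonneg_left h4 hh
  have h8 := mul_le_mul_of_nonneg_left hR hh
  nlinarith

theorem sq2 (y r : ℝ) : y ^ 2 ≤ 2 * (y - r) ^ 2 + 2 * r ^ 2 := by
  nlinarith [sq_nonneg (y - 2 * r)]

theorem qle {al γ Q T : ℝ} (hγ : 0 < γ) (hγ1 : γ ≤ 1) (hQ : 0 ≤ Q) (hT : 0 < T)
    (h : 1 ≤ 2 * al * γ) (hx : al * Q < T * γ) :
    Q ≤ 2 * T * γ ^ 2 ∧ γ ^ 2 ≤ γ ∧ Q ≤ 2 * T ∧ Q ≤ 2 * T * γ := by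
  have h1 : Q ≤ 2 * T * γ ^ 2 := by nlinarith
  have h2 : γ ^ 2 ≤ γ := by nlinarith
  refine ⟨h1, h2, by nlinarith, by nlinarith⟩

theorem fin3 {a b c x y z : ℝ} (ha : 0 ≤ a) (hb : 0 ≤ b) (hc : 0 ≤ c) (hx : 0 ≤ x) (hy : 0 ≤ y)
    (hz : 0 ≤ z) : a * x + b * y + c * z ≤ (a + b + c + 1) * (x + y + z) := by
  nlinarith [mul_nonneg ha hy, mul_nonneg ha hz, mul_nonneg hb hx, mul_nonneg hb hz,
    mul_nonneg hc hx, mul_nonneg hc hy]

variable {n : ℕ} {d : Dat n}

theorem hag {γ : ℝ} (hγ : 0 < γ) : 1 ≤ 2 * d.al γ * γ := by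
  rw [two_al hγ]; nlinarith [sq_nonneg (d.b * γ)]

theorem errs (o : d.Ok) {T M : ℝ} (hT : 0 < T) (hM : 0 ≤ M) : ∃ C > 0, ∀ z γ, 0 < γ → γ ≤ 1 →
    ∀ v : Eu n → ℝ, ContDiff ℝ 1 v → ∀ x, d.al γ * d.Q z x < T * γ →
    v x ^ 2 * (d.b ^ 2 * d.Q z x) + d.al γ / γ * M * d.q z x ^ 2 * v x ^ 2 +
      |d.Gam (fun y => v y ^ 2) (d.Q z) x| + d.H * v x ^ 2 * |d.q z x| ≤
    C * γ ^ d.m * (γ * (v x ^ 2 * d.lam z γ x ^ d.m) +
      v x ^ 2 * d.lam z γ x ^ (d.m - 2) * (d.al γ * d.q z x * d.lam z γ x - d.H / d.m) ^ 2 +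
      √(v x ^ 2 * d.lam z γ x ^ d.m) * √(d.lam z γ x ^ (d.m - 2) * d.Gam v v x)) := by
  obtain ⟨j, hj⟩ : ∃ j, d.m = j + 2 := ⟨d.m - 2, by have := o.hm; omega⟩
  set G := (1 + T) ^ d.m with hG
  set B := √(4 * T * (1 + d.b ^ 2 * T)) with hB
  have hH := o.hH
  have hG0 : 0 < G := by positivity
  have hB0 : 0 ≤ B := Real.sqrt_nonneg _
  set C1 := G * (2 * T * d.b ^ 2 + d.H * B + 4 * M * (d.H / d.m) ^ 2 * (1 + T) ^ 2) with hC1
  have hC10 : 0 ≤ C1 := by positivity
  refine ⟨C1 + 4 * M * G + 2 * B * G + 1, by positivity, fun z γ hγ hγ1 v hv x hx => ?_⟩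
  have hQ := o.Q_nonneg z x
  have hl := o.lam_pos hγ z x
  have hL := o.L_pos hγ z x
  have hal := al_pos (d := d) hγ
  have hag := hag (d := d) hγ
  obtain ⟨hQ2, hγ2, h1, h1'⟩ := qle hγ hγ1 hQ hT hag hx
  have hLl : d.L z γ x * d.lam z γ x = 1 := mul_inv_cancel₀ hL.ne'
  have hLg : d.L z γ x ≤ γ * (1 + T) := by unfold L; linarith
  set l := d.lam z γ x
  set L' := d.L z γ x
  set Q := d.Q z x
  set q := d.q z x
  set y := d.al γ * q * l with hy
  have hgl : 1 ≤ γ * (1 + T) * l := hLl.ge.trans (mul_le_mul_of_nonneg_right hLg hl.le)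
  have hs : √(d.s2 z x) ≤ γ * B := by
    rw [hB, ← Real.sqrt_sq hγ.le, ← Real.sqrt_mul (sq_nonneg γ)]
    refine Real.sqrt_le_sqrt ?_
    have h2 : d.s2 z x = Q * (2 + d.b ^ 2 * Q) := by unfold s2; ring
    rw [h2]
    calc Q * (2 + d.b ^ 2 * Q) ≤ (2 * T * γ ^ 2) * (2 + d.b ^ 2 * (2 * T)) := by gcongr
      _ = _ := by ring
  set u := v x ^ 2 * l ^ d.m with hu
  have hu0 : 0 ≤ u := by positivity
  have hgm : 0 < γ ^ d.m := by positivity
  have hh : v x ^ 2 ≤ γ ^ d.m * G * u := by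
    have : 1 ≤ (γ * (1 + T) * l) ^ d.m := one_le_pow₀ hgl
    calc v x ^ 2 ≤ v x ^ 2 * (γ * (1 + T) * l) ^ d.m := le_mul_of_one_le_right (sq_nonneg _) this
      _ = _ := by rw [hu, hG, mul_pow, mul_pow]; ring
  have e1 : v x ^ 2 * (d.b ^ 2 * Q) ≤ γ ^ d.m * G * u * (d.b ^ 2 * (2 * T * γ)) := by
    gcongr
  have e2 : d.H * v x ^ 2 * |q| ≤ d.H * (γ ^ d.m * G * u) * (γ * B) := by
    have := (o.abs_q_le z x).trans hs
    gcongr
  set w := v x ^ 2 * l ^ (d.m - 2) * (y - d.H / d.m) ^ 2 with hw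
  have hw0 : 0 ≤ w := by positivity
  have hj2 : d.m - 2 = j := by omega
  have e3 : d.al γ / γ * M * q ^ 2 * v x ^ 2 ≤
      γ ^ d.m * G * (4 * M * w + 4 * M * (d.H / d.m) ^ 2 * (1 + T) ^ 2 * (γ * u)) := by
    have a1 : d.al γ / γ * q ^ 2 ≤ 2 * y ^ 2 * L' ^ 2 := by
      have : y ^ 2 * L' ^ 2 = d.al γ ^ 2 * q ^ 2 := by
        rw [hy]
        calc _ = d.al γ ^ 2 * q ^ 2 * (L' * l) ^ 2 := by ring
          _ = _ := by rw [hLl]; ring
      rw [mul_assoc, this, div_mul_eq_mul_div, div_le_iff₀ hγ]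
      exact (le_mul_of_one_le_right (mul_nonneg hal.le (sq_nonneg q)) hag).trans_eq (by ring)
    have a2 : L' ^ 2 ≤ γ ^ d.m * G * l ^ j := by
      have b1 : L' ^ 2 = L' ^ d.m * l ^ j := by
        rw [hj, pow_add]
        calc L' ^ 2 = L' ^ 2 * (L' * l) ^ j := by rw [hLl]; simp
          _ = _ := by rw [mul_pow]; ring
      rw [b1, hG, ← mul_pow]
      gcongr
    have a3 : v x ^ 2 * l ^ j ≤ (1 + T) ^ 2 * (γ * u) := by
      have b1 : 1 ≤ (γ * (1 + T) * l) ^ 2 := one_le_pow₀ hgl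
      calc v x ^ 2 * l ^ j ≤ v x ^ 2 * l ^ j * (γ * (1 + T) * l) ^ 2 :=
            le_mul_of_one_le_right (by positivity) b1
        _ = (1 + T) ^ 2 * (γ ^ 2 * u) := by rw [hu, hj]; ring
        _ ≤ _ := by gcongr
    have a4 := sq2 y (d.H / d.m)
    calc _ = M * v x ^ 2 * (d.al γ / γ * q ^ 2) := by ring
      _ ≤ M * v x ^ 2 * (2 * (2 * (y - d.H / d.m) ^ 2 + 2 * (d.H / d.m) ^ 2) *
          (γ ^ d.m * G * l ^ j)) := by
        refine mul_le_mul_of_nonneg_left (a1.trans ?_) (by positivity)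
        gcongr
      _ = γ ^ d.m * G * (4 * M * w + 4 * M * (d.H / d.m) ^ 2 * (v x ^ 2 * l ^ j)) := by
        rw [hw, hj2]; ring
      _ ≤ _ := by
        rw [mul_assoc (4 * M * (d.H / d.m) ^ 2)]
        gcongr
  set A := √u * √(l ^ (d.m - 2) * d.Gam v v x) with hA
  have hA0 : 0 ≤ A := by positivity
  have e4 : |d.Gam (fun y => v y ^ 2) (d.Q z) x| ≤ γ ^ d.m * G * (2 * B * A) := by
    have a1 : d.Gam (fun y => v y ^ 2) (d.Q z) x = 2 * v x * d.Gam v (d.Q z) x :=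
      Gam_comp (ψ := fun t => t ^ 2) (hv.differentiable one_ne_zero x)
        (by simpa using hasDerivAt_pow 2 (v x)) _
    have a2 : A = |v x| * √(d.Gam v v x) * l ^ (j + 1) := by
      rw [hA, ← Real.sqrt_mul hu0, hu, hj2, hj, Real.sqrt_eq_iff_mul_self_eq (by
        have := Gam_nonneg (d := d) v x; positivity) (by positivity)]
      calc _ = (v x * v x) * d.Gam v v x * (l ^ (j + 1)) ^ 2 := by ring
        _ = (|v x| * |v x|) * (√(d.Gam v v x) * √(d.Gam v v x)) * (l ^ (j + 1)) ^ 2 := by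
          rw [abs_mul_abs_self, Real.mul_self_sqrt (Gam_nonneg v x)]
        _ = _ := by ring
    have a3 : γ ≤ γ ^ d.m * G * l ^ (j + 1) := by
      have b1 : 1 ≤ (γ * (1 + T) * l) ^ (j + 1) := one_le_pow₀ hgl
      calc γ ≤ γ * ((1 + T) * (γ * (1 + T) * l) ^ (j + 1)) := le_mul_of_one_le_right hγ.le
            (one_le_mul_of_one_le_of_one_le (le_add_of_nonneg_right hT.le) b1)
        _ = _ := by rw [hG, hj, mul_pow, mul_pow]; ring
    rw [a1, abs_mul, abs_mul, abs_two, a2]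
    calc _ ≤ 2 * |v x| * (√(d.Gam v v x) * (γ * B)) := by
          have := (o.abs_GamQ_le v z x).trans
            (mul_le_mul_of_nonneg_left hs (Real.sqrt_nonneg _))
          gcongr
      _ ≤ 2 * |v x| * (√(d.Gam v v x) * (γ ^ d.m * G * l ^ (j + 1) * B)) := by gcongr
      _ = _ := by ring
  have hγu : 0 ≤ γ * u := by positivity
  calc _ ≤ γ ^ d.m * (C1 * (γ * u) + 4 * M * G * w + 2 * B * G * A) := by
        refine (add_le_add (add_le_add (add_le_add e1 e3) e4) e2).trans_eq ?_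
        rw [hC1]; ring
    _ ≤ γ ^ d.m * ((C1 + 4 * M * G + 2 * B * G + 1) * (γ * u + w + A)) :=
        mul_le_mul_of_nonneg_left
          (fin3 hC10 (by positivity) (by positivity) hγu hw0 hA0) hgm.le
    _ = _ := by ring

end RevAux

open RevAux Dat in
theorem rev_pf (hl : LipStmt) : RevStmt := by
  intro n d o κ F F' a T hK
  have hT : 0 < T := hK.a0.trans hK.lt
  have haT := hK.lt.le
  have hm := o.m3
  obtain ⟨M, hM⟩ := isCompact_Icc.exists_bound_of_continuousOn hK.cont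
  have hM0 : 0 ≤ M := (norm_nonneg _).trans (hM a ⟨le_rfl, haT⟩)
  obtain ⟨C, hC, hE⟩ := errs o hT hM0
  have hcm := o.cm_pos
  have hth := o.th_pos
  have hFa : d.m * F a ≤ 1 := by
    have := hK.inn 0 ⟨le_rfl, hK.a0.le⟩
    simp at this
    linarith [hK.k0]
  have hF0 : ∀ s ∈ Icc a T, 0 ≤ F s ∧ d.m * F s ≤ 1 ∧ F s ≤ 1 := fun s hs => by
    have h1 := anti hK.toPf hs ⟨haT, le_rfl⟩ hs.2
    have h2 := anti hK.toPf ⟨le_rfl, haT⟩ hs hs.1
    rw [hK.zero] at h1
    refine ⟨h1, by nlinarith, by nlinarith⟩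
  set B := 2 * (1 + T) ^ (d.m - 1) / d.th with hB
  have hB0 : 0 < B := by positivity
  refine ⟨C * (2 + 1 / d.cm) + B, by positivity, fun z hz γ hγ hγ1 v hv => ?_⟩
  have hal := al_pos (d := d) hγ
  set c := d.al γ / γ with hc
  have hc0 : 0 < c := by positivity
  have hS : ∀ x, d.Q z x < T / c ↔ d.al γ * d.Q z x < T * γ := fun x => by
    rw [lt_div_iff₀ hc0, hc, ← mul_div_assoc, div_lt_iff₀ hγ, mul_comm]
  have hS' : {x | d.Q z x < T / c} = {x | d.al γ * d.Q z x < T * γ} := by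
    ext x; exact hS x
  have hmx : ∀ x, c * max (d.Q z x) (a / c) = max (c * d.Q z x) a := fun x => by
    rw [mul_max_of_nonneg _ _ hc0.le, mul_div_cancel₀ _ hc0.ne']
  have ht : ∀ x, d.Q z x < T / c → c * d.Q z x < T := fun x hx => by
    rwa [lt_div_iff₀ hc0, mul_comm] at hx
  have hmem : ∀ x, d.Q z x < T / c → max (c * d.Q z x) a ∈ Icc a T := fun x hx =>
    ⟨le_max_right _ _, max_le (ht x hx).le haT⟩
  have hag := hag (d := d) hγ
  have hL : ∀ x, d.L z γ x = γ * (1 + c * d.Q z x) := fun x => by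
    unfold L; rw [hc]; field_simp
  have h1 := (hl n d o z hz (fun x => v x ^ 2) _ _ _ _ (hv.pow 2) (fun x _ => sq_nonneg _)
    (scale hK.toPf hc0)).2 (fun x => γ ^ d.m * B * d.kk z γ v x)
    (contDiff_const.mul (o.kk1 hγ z hv))
    (fun x _ => mul_nonneg (by positivity) (o.kk_nonneg hγ z v x)) fun x _ hx => by
      have hl0 := o.lam_pos hγ z x
      have hgl : 1 ≤ γ * (1 + T) * d.lam z γ x := by
        have h2 : d.L z γ x ≤ γ * (1 + T) := by
          rw [hL]; have := ht x hx; gcongr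
        have h3 : d.L z γ x * d.lam z γ x = 1 := mul_inv_cancel₀ (o.L_pos hγ z x).ne'
        nlinarith
      have h4 : 1 ≤ (γ * (1 + T) * d.lam z γ x) ^ (d.m - 1) := one_le_pow₀ hgl
      have h5 : γ ^ d.m = γ ^ (d.m - 1) * γ := by
        rw [← pow_succ]; congr 1; have := o.hm; omega
      have h6 : γ ^ d.m * B * d.kk z γ v x =
          v x ^ 2 * ((2 * d.al γ * γ) * (γ * (1 + T) * d.lam z γ x) ^ (d.m - 1)) := by
        unfold kk; rw [h5, hB, mul_pow, mul_pow]; field_simp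
      show v x ^ 2 * F (c * max (d.Q z x) (a / c)) ≤ _
      rw [h6, hmx]
      refine mul_le_mul_of_nonneg_left ((hF0 _ (hmem x hx)).2.2.trans ?_) (sq_nonneg _)
      exact one_le_mul_of_one_le_of_one_le hag h4
  rw [Lam_const_mul z _ (o.kk1 hγ z hv)] at h1
  have hSm : MeasurableSet {x | d.Q z x < T / c} :=
    measurableSet_lt (o.Qc z).measurable measurable_const
  have bv := o.bm_cont hv.continuous
  have bl := o.bm_lam hγ z
  have bu := (bv.pow 2).mul (bl.pow d.m)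
  have bw := ((bv.pow 2).mul (bl.pow (d.m - 2))).mul
    (((((o.bm_q z).const_mul (d.al γ)).mul bl).sub (bm_const (d.H / d.m))).pow 2)
  have bg := (bl.pow (d.m - 2)).mul (o.bm_Gam hv hv)
  have bA := bu.sqrt.mul bg.sqrt
  have bE := ((bu.const_mul γ).add bw).add bA
  have bF : d.BM fun x => F (max a (min (c * d.Q z x) T)) :=
    ((o.bm_Q z).const_mul c).comp (cont_cl haT fun s hs => (hK.der s hs).continuousAt.continuousWithinAt)
  have bF' : d.BM fun x => if a / c < d.Q z x then c * F' (max a (min (c * d.Q z x) T)) else 0 :=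
    BM.ite (measurableSet_lt measurable_const (o.Qc z).measurable)
      ((((o.bm_Q z).const_mul c).comp (cont_cl haT hK.cont)).const_mul c) (bm_const 0)
  have h2 : d.LamF z (fun x => v x ^ 2) (fun s => F (c * s)) (fun s => c * F' (c * s)) (a / c)
      (T / c) ≤ ∫ x in {x | d.Q z x < T / c}, (γ ^ d.m * (v x ^ 2 * d.lam z γ x ^ d.m) -
      κ * v x ^ 2 + C * γ ^ d.m * (γ * (v x ^ 2 * d.lam z γ x ^ d.m) +
      v x ^ 2 * d.lam z γ x ^ (d.m - 2) * (d.al γ * d.q z x * d.lam z γ x - d.H / d.m) ^ 2 +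
      √(v x ^ 2 * d.lam z γ x ^ d.m) * √(d.lam z γ x ^ (d.m - 2) * d.Gam v v x))) ∂d.μ := by
    unfold LamF
    rw [setIntegral_congr_fun hSm (g := fun x => v x ^ 2 * F (max a (min (c * d.Q z x) T)) *
      (d.m * (1 + d.b ^ 2 * d.Q z x)) + v x ^ 2 *
      (if a / c < d.Q z x then c * F' (max a (min (c * d.Q z x) T)) else 0) *
      d.Gam (d.Q z) (d.Q z) x + F (max a (min (c * d.Q z x) T)) *
      d.Gam (fun x => v x ^ 2) (d.Q z) x - d.H * v x ^ 2 * F (max a (min (c * d.Q z x) T)) *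
      d.q z x) fun x hx => by
        have e : min (c * d.Q z x) T = c * d.Q z x := min_eq_left (ht x hx).le
        simp only [hmx, e, max_comm a]
        split_ifs with h
        · rw [max_eq_left (by rw [div_lt_iff₀ hc0] at h; linarith)]
        · rfl]
    refine o.setInt_mono hSm ((((((bv.pow 2).mul bF).mul (((bm_const 1).add
      ((o.bm_Q z).const_mul _)).const_mul _)).add (((bv.pow 2).mul bF').mul
      (o.bm_Gam (o.Q1 z) (o.Q1 z)))).add (bF.mul (o.bm_Gam (hv.pow 2) (o.Q1 z)))).sub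
      ((((bv.pow 2).const_mul _).mul bF).mul (o.bm_q z)))
      (((bu.const_mul _).sub ((bv.pow 2).const_mul κ)).add (bE.const_mul _)) fun x _ hx => ?_
    have e : min (c * d.Q z x) T = c * d.Q z x := min_eq_left (ht x hx).le
    have hQ := o.Q_nonneg z x
    have hcq : 0 ≤ c * d.Q z x := by positivity
    have hmm := hmem x hx
    rw [max_comm] at hmm
    obtain ⟨f0, f1, f2⟩ := hF0 _ hmm
    rw [e]
    have hR : (1 + c * d.Q z x)⁻¹ ^ d.m = γ ^ d.m * d.lam z γ x ^ d.m := by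
      rw [← mul_pow]; congr 1; unfold lam; rw [hL]; field_simp
    have k1 := pt1 (h := v x ^ 2) (D := if a / c < d.Q z x then c * F' (max a (c * d.Q z x)) else 0)
      (g := d.Gam (fun x => v x ^ 2) (d.Q z) x) (cM := c * M)
      (R := (1 + c * d.Q z x)⁻¹ ^ d.m - κ) (sq_nonneg _) f0 f2 f1
      (by split_ifs
          · exact mul_nonpos_of_nonneg_of_nonpos hc0.le (hK.np _ hmm)
          · exact le_rfl)
      (by split_ifs
          · have := (neg_le_abs _).trans (hM _ hmm)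
            nlinarith
          · simp; positivity)
      hQ o.hH.le rfl (o.eik z x)
      (by split_ifs with h
          · have h' : a ≤ c * d.Q z x := by rw [div_lt_iff₀ hc0] at h; linarith
            rw [max_eq_right h'] at hmm ⊢
            have := hK.out _ hmm
            linarith
          · have h' : c * d.Q z x ≤ a := by rw [not_lt, le_div_iff₀ hc0] at h; linarith
            rw [max_eq_left h']
            have := hK.inn _ ⟨hcq, h'⟩
            linarith)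
    have k2 := hE z γ hγ hγ1 v hv x ((hS x).1 hx)
    rw [hR] at k1
    linarith
  have i := fun {f : Eu n → ℝ} (h : d.BM f) => (h.integrable o).integrableOn (s := {x | d.Q z x < T / c})
  rw [integral_add (i ((bu.const_mul _).sub ((bv.pow 2).const_mul κ))) (i (bE.const_mul _)),
    integral_sub (i (bu.const_mul _)) (i ((bv.pow 2).const_mul κ)), integral_const_mul,
    integral_const_mul, integral_const_mul] at h2
  have hl0 := fun x => (o.lam_pos hγ z x).le
  have r1 : ∫ x in {x | d.Q z x < T / c}, v x ^ 2 * d.lam z γ x ^ d.m ∂d.μ ≤ d.Uv z γ v :=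
    setIntegral_le_integral (bu.integrable o) (Eventually.of_forall fun x => by
      have := hl0 x; positivity)
  have r2 := setIntegral_le_integral (s := {x | d.Q z x < T / c}) (bE.integrable o)
    (Eventually.of_forall fun x => by have := hl0 x; positivity)
  rw [integral_add (((bu.const_mul γ).add bw).integrable o) (bA.integrable o),
    integral_add ((bu.const_mul γ).integrable o) (bw.integrable o), integral_const_mul] at r2
  have r3 := o.int_cs bu.sqrt bg.sqrt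
  have q1 : ∫ x, √(v x ^ 2 * d.lam z γ x ^ d.m) ^ 2 ∂d.μ = d.Uv z γ v := by
    unfold Uv; congr 1; ext x; exact Real.sq_sqrt (by have := hl0 x; positivity)
  have q2 : ∫ x, √(d.lam z γ x ^ (d.m - 2) * d.Gam v v x) ^ 2 ∂d.μ = d.D1 z γ v := by
    unfold D1; congr 1; ext x
    exact Real.sq_sqrt (mul_nonneg (pow_nonneg (hl0 x) _) (Gam_nonneg _ _))
  rw [q1, q2] at r3
  obtain ⟨-, d1, d2, d3⟩ := o.le_Df hγ hz hv
  obtain ⟨-, s1, s2, s3⟩ := o.le_Er hγ hz hv
  have d4 : d.D2 z γ v ≤ 1 / d.cm * d.Er z γ v := by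
    rw [one_div, ← div_eq_inv_mul, le_div_iff₀ hcm]; linarith
  have r4 := r2.trans (add_le_add (add_le_add s3 d4) (r3.trans s2))
  have hg : 0 < γ ^ d.m := by positivity
  have r5 := mul_le_mul_of_nonneg_left r4 (mul_pos hC hg).le
  have r6 := mul_le_mul_of_nonneg_left r1 hg.le
  have r7 := mul_le_mul_of_nonneg_left (d3.trans s1) (mul_pos hg hB0).le
  rw [← hS']
  linarith

end Vale.Agent.P219
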