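import Vale.Agent.P219.Step

/-! The sharp Sobolev inequality and its use for constants. -/

open scoped Topology
open MeasureTheory Set Filter

namespace Vale.Agent.P219

open StepAux Dat

namespace SharpAux

variable {n : ℕ} {d : Dat n}

theorem key (hs : StepStmt) (ht : TermStmt) (o : d.Ok) {β : ℝ} (hβ : 0 < β) {f : Eu n → ℝ}
    (hf : d.Adm f) : d.cm * sph d.m ^ (2 / (d.m : ℝ)) ≤ d.Y (d.W0 + β) f := by
  obtain ⟨c, hc, C, hC, hs⟩ := hs n d o
  have hcm := o.cm_pos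
  have hbd : BddBelow (d.Y (d.W0 + β) '' {f | d.Adm f}) := by
    refine ⟨-(|d.W0 + β| * (1 + d.μ.real univ)), ?_⟩
    rintro _ ⟨g, hg, rfl⟩
    rw [Y_eq o hg.1]
    have h1 : 0 ≤ ∫ x, d.Gam g g x ∂d.μ := integral_nonneg fun x => Gam_nonneg g x
    have h2 : 0 ≤ ∫ x, g x ^ 2 ∂d.μ := integral_nonneg fun x => sq_nonneg _
    have h3 := mul_le_mul_of_nonneg_right (neg_abs_le (d.W0 + β)) h2
    have h4 := mul_le_mul_of_nonneg_left (int_sq_le o hg) (abs_nonneg (d.W0 + β))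
    linarith
  set s := sInf (d.Y (d.W0 + β) '' {f | d.Adm f}) with hsd
  have hle : ∀ g, d.Adm g → s ≤ d.Y (d.W0 + β) g := fun g hg => csInf_le hbd ⟨g, hg, rfl⟩
  refine le_trans ?_ (hle f hf)
  set e : ℕ → ℝ := fun j => 1 / ((j : ℝ) + 2) with he
  have he0 : ∀ j, 0 < e j := fun j => by positivity
  have he1 : ∀ j, e j ≤ 1 / 2 := fun j =>
    one_div_le_one_div_of_le two_pos (by linarith [Nat.cast_nonneg (α := ℝ) j])
  have he2 : Tendsto e atTop (𝓝 0) :=
    tendsto_const_nhds.div_atTop (tendsto_atTop_add_const_right _ _ tendsto_natCast_atTop_atTop)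
  have he3 : ∀ j, e j ^ 3 ≤ 1 := fun j => pow_le_one₀ (he0 j).le (by linarith [he1 j])
  have hex : ∀ j, ∃ g, d.Adm g ∧ d.Y (d.W0 + β) g < s + e j ^ 3 := fun j => by
    obtain ⟨_, ⟨g, hg, rfl⟩, h⟩ := exists_lt_of_csInf_lt
      (⟨_, f, hf, rfl⟩ : (d.Y (d.W0 + β) '' {f | d.Adm f}).Nonempty)
      (show s < s + e j ^ 3 by have := he0 j; linarith [pow_pos this 3])
    exact ⟨g, hg, h⟩
  choose g hg hg' using hex
  choose z hz γ hγ v hv hv0 _ hN hY hE using fun j => hs β s (g j) hβ.le (hg j) hle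
  have hD := fun j => (o.le_Df (hγ j) (hz j) (hv j)).1
  have hF := fun j => o.F2_nonneg (hγ j) (z j) (v j)
  have hU := fun j => o.Uv_nonneg (hγ j) (z j) (v j)
  have hUY : ∀ j, d.cm * d.Uv (z j) (γ j) (v j) ≤ s + e j ^ 3 := fun j => by
    have := mul_nonneg hβ.le (hF j)
    linarith [hY j, hg' j, hD j]
  have hT : Tendsto (fun j => d.Df (z j) (γ j) (v j) + β * d.F2 (z j) (γ j) (v j)) atTop (𝓝 0) := by
    have h0 : Tendsto (fun j => e j * ((1 + C * (s + 2 + β)) / c)) atTop (𝓝 0) := by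
      simpa using he2.mul_const ((1 + C * (s + 2 + β)) / c)
    refine squeeze_zero (fun j => add_nonneg (hD j) (mul_nonneg hβ.le (hF j))) (fun j => ?_) h0
    have h1 := hE j (e j) (he0 j) (he1 j)
    have h2 : C * e j ^ 3 * (d.Y (d.W0 + β) (g j) + 1 + β) ≤ C * e j ^ 3 * (s + 2 + β) := by
      have := he0 j
      have : d.Y (d.W0 + β) (g j) + 1 + β ≤ s + 2 + β := by linarith [hg' j, he3 j]
      gcongr
    have h3 := he0 j
    rw [← mul_div_assoc, le_div_iff₀ hc]
    refine le_of_mul_le_mul_left ?_ (pow_pos h3 2)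
    linarith [hg' j]
  have hT1 : Tendsto (fun j => d.Df (z j) (γ j) (v j)) atTop (𝓝 0) :=
    squeeze_zero hD (fun j => le_add_of_nonneg_right (mul_nonneg hβ.le (hF j))) hT
  have hT2 : Tendsto (fun j => d.F2 (z j) (γ j) (v j)) atTop (𝓝 0) := by
    refine squeeze_zero hF (fun j => ?_) (by simpa using hT.div_const β)
    rw [le_div_iff₀ hβ]
    linarith [hD j]
  have h := ht n d o z γ v ((s + 1) / d.cm) hz hγ hv hv0 hN
    (fun j => by rw [le_div_iff₀ hcm]; linarith [hUY j, he3 j]) hT1 hT2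
  refine le_of_forall_pos_le_add fun η hη => ?_
  have h4 : ∀ᶠ j in atTop, e j ^ 3 ≤ η / 2 :=
    (he2.pow 3).eventually (eventually_le_nhds (by simpa using hη))
  obtain ⟨j, j1, j2⟩ := ((h (η / 2 / d.cm) (by positivity)).and h4).exists
  have h5 := mul_le_mul_of_nonneg_left j1 hcm.le
  rw [mul_sub, mul_div_cancel₀ _ hcm.ne'] at h5
  linarith [hUY j]

end SharpAux

theorem sharp_pf (hs : StepStmt) (ht : TermStmt) : SharpStmt := by
  intro n d o f hf
  refine le_of_forall_pos_le_add fun η hη => ?_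
  have hA : 0 < 1 + d.μ.real univ := by have := o.mass_pos; positivity
  have h := SharpAux.key hs ht o (div_pos hη hA) hf
  have h1 := mul_le_mul_of_nonneg_left (int_sq_le o hf) (div_pos hη hA).le
  rw [div_mul_cancel₀ _ hA.ne'] at h1
  rw [Y_eq o hf.1] at h ⊢
  linarith

theorem sob_pf (hs : StepStmt) (hh : SharpStmt) (he : EqStmt) : SobStmt := by
  intro n d o
  haveI := o.fin
  have hA := o.mass_pos
  have hp := o.two_lt_p
  have hm := o.m3
  have hcm := o.cm_pos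
  set A := d.μ.real univ with hAd
  set c := A ^ (-(1 / d.p)) with hc
  have hc0 : 0 < c := Real.rpow_pos_of_pos hA _
  have hf : d.Adm fun _ => c := by
    refine ⟨contDiff_const, fun _ => hc0, ?_⟩
    rw [integral_const, hc, ← Real.rpow_mul hA.le, smul_eq_mul, ← hAd,
      show -(1 / d.p) * d.p = -1 by field_simp, Real.rpow_neg_one, mul_inv_cancel₀ hA.ne']
  have hY : d.Y d.W0 (fun _ => c) =
      d.cm * ((d.H ^ 2 / d.m ^ 2 - d.b ^ 2) * A ^ (2 / (d.m : ℝ))) := by
    have : A * c ^ 2 = A ^ (2 / (d.m : ℝ)) := by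
      rw [hc, ← Real.rpow_natCast, ← Real.rpow_mul hA.le, ← Real.rpow_one_add' hA.le]
      · congr 1
        have : (d.m : ℝ) - 2 ≠ 0 := by linarith
        unfold p; field_simp; ring
      · have h2 : (2 : ℝ) / d.p < 1 := by rw [div_lt_one (by linarith)]; exact hp
        have : 1 + -(1 / d.p) * ((2 : ℕ) : ℝ) = 1 - 2 / d.p := by push_cast; ring
        rw [this]; linarith
    rw [Y_eq o contDiff_const, ← this]
    simp only [Gam_const, integral_const, smul_eq_mul, W0, ← hAd]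
    ring
  refine ⟨le_of_mul_le_mul_left (hY ▸ hh n d o _ hf) hcm, fun hle => ?_⟩
  obtain ⟨c1, hc1, C, hC, hs⟩ := hs n d o
  obtain ⟨z, hz, γ, hγ, v, hv, -, hfv, -, -, hE⟩ := hs 0 (d.cm * sph d.m ^ (2 / (d.m : ℝ))) _ le_rfl
    hf fun g hg => by simpa using hh n d o g hg
  refine ⟨z, he n d o z hz γ hγ v c hc0 hfv ?_⟩
  simp only [add_zero, zero_mul] at hE
  set y := d.Y d.W0 fun _ => c
  have hy : y - d.cm * sph d.m ^ (2 / (d.m : ℝ)) ≤ 0 := by
    have := mul_le_mul_of_nonneg_left hle hcm.le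
    linarith
  have h0 : Tendsto (fun ε : ℝ => ε * (C * (y + 1) / c1)) (𝓝[>] 0) (𝓝 0) := by
    have : Tendsto (fun ε : ℝ => ε * (C * (y + 1) / c1)) (𝓝 0) (𝓝 (0 * (C * (y + 1) / c1))) :=
      (continuous_id.mul continuous_const).tendsto 0
    simpa using this.mono_left nhdsWithin_le_nhds
  refine ge_of_tendsto h0 ?_
  filter_upwards [Ioc_mem_nhdsGT (show (0 : ℝ) < 1 / 2 by norm_num)] with ε hε
  have h1 := hE ε hε.1 hε.2
  rw [← mul_div_assoc, le_div_iff₀ hc1]
  refine le_of_mul_le_mul_left ?_ (pow_pos hε.1 2)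
  linarith

end Vale.Agent.P219
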