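import Vale.Agent.P219.Alg

open scoped ENNReal RealInnerProductSpace Topology
open MeasureTheory Set Filter

namespace Vale.Agent.P219

namespace Sob1Aux

/-- A cut-off profile. -/
theorem ex_psi : ∃ (ψ : ℝ → ℝ) (M : ℝ), ContDiff ℝ 1 ψ ∧ 0 < M ∧ (∀ s, 0 ≤ ψ s ∧ ψ s ≤ 1) ∧
    (∀ s, s ≤ 1 → ψ s = 0 ∧ deriv ψ s = 0) ∧ (∀ s, 2 ≤ s → ψ s = 1 ∧ deriv ψ s = 0) ∧
    ∀ s, |deriv ψ s| ≤ M := by
  set ψ : ℝ → ℝ := fun s => Real.smoothTransition (s - 1) with hψ
  have h1 : ContDiff ℝ 1 ψ :=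
    (Real.smoothTransition.contDiff (n := 1)).comp (contDiff_id.sub contDiff_const)
  have h2 : ∀ s, 0 ≤ ψ s ∧ ψ s ≤ 1 := fun s =>
    ⟨Real.smoothTransition.nonneg _, Real.smoothTransition.le_one _⟩
  have h3 : ∀ s, s ≤ 1 → ψ s = 0 ∧ deriv ψ s = 0 := by
    intro s hs
    have h : ψ s = 0 := Real.smoothTransition.zero_of_nonpos (by linarith)
    exact ⟨h, IsLocalMin.deriv_eq_zero (Eventually.of_forall fun y => by
      rw [h]; exact (h2 y).1)⟩
  have h4 : ∀ s, 2 ≤ s → ψ s = 1 ∧ deriv ψ s = 0 := by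
    intro s hs
    have h : ψ s = 1 := Real.smoothTransition.one_of_one_le (by linarith)
    exact ⟨h, IsLocalMax.deriv_eq_zero (Eventually.of_forall fun y => by
      rw [h]; exact (h2 y).2)⟩
  have h5 : Continuous (deriv ψ) := h1.continuous_deriv le_rfl
  obtain ⟨C, hC⟩ := (isCompact_Icc (a := (1 : ℝ)) (b := 2)).exists_bound_of_continuousOn
    h5.continuousOn
  refine ⟨ψ, max C 1, h1, lt_max_of_lt_right one_pos, h2, h3, h4, fun s => ?_⟩
  rcases le_total s 1 with h | h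
  · rw [(h3 s h).2, abs_zero]
    positivity
  rcases le_total 2 s with h' | h'
  · rw [(h4 s h').2, abs_zero]
    positivity
  · exact (hC s ⟨h, h'⟩).trans (le_max_left _ _)

theorem sum_val {ψ : ℝ → ℝ} (h1 : ∀ s, ψ s ≤ 1) (h0 : ∀ s, s ≤ 1 → ψ s = 0) {δ s : ℝ}
    (hδ : 0 < δ) (hs : 0 ≤ s) (N : ℕ) :
    ∑ k ∈ Finset.range N, δ * 2 ^ k * ψ (s / (δ * 2 ^ k)) ≤ δ * 2 ^ N ∧
      ∑ k ∈ Finset.range N, δ * 2 ^ k * ψ (s / (δ * 2 ^ k)) ≤ 2 * s := by
  induction N with
  | zero =>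
    simp only [Finset.range_zero, Finset.sum_empty]
    exact ⟨by positivity, by positivity⟩
  | succ N ih =>
    have ht : 0 < δ * 2 ^ N := by positivity
    have h2 : δ * 2 ^ N * ψ (s / (δ * 2 ^ N)) ≤ δ * 2 ^ N := mul_le_of_le_one_right ht.le (h1 _)
    rw [Finset.sum_range_succ, pow_succ]
    refine ⟨by linarith [ih.1], ?_⟩
    rcases le_total s (δ * 2 ^ N) with h | h
    · rw [h0 _ ((div_le_one ht).2 h), mul_zero, add_zero]
      exact ih.2
    · linarith [ih.1]

theorem sum_der {g : ℝ → ℝ} {M : ℝ} (hM : ∀ s, |g s| ≤ M) (h0 : ∀ s, s ≤ 1 → g s = 0)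
    (h2 : ∀ s, 2 ≤ s → g s = 0) {δ s : ℝ} (hδ : 0 < δ) (N : ℕ) :
    ∑ k ∈ Finset.range N, |g (s / (δ * 2 ^ k))| ≤ M ∧
      (δ * 2 ^ N ≤ s → ∑ k ∈ Finset.range N, |g (s / (δ * 2 ^ k))| = 0) := by
  induction N with
  | zero =>
    simp only [Finset.range_zero, Finset.sum_empty]
    exact ⟨(abs_nonneg _).trans (hM 0), fun _ => trivial⟩
  | succ N ih =>
    have ht : 0 < δ * 2 ^ N := by positivity
    rw [Finset.sum_range_succ, pow_succ]
    constructor
    · rcases le_total s (δ * 2 ^ N) with h | h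
      · rw [h0 _ ((div_le_one ht).2 h), abs_zero, add_zero]
        exact ih.1
      · rw [ih.2 h, zero_add]
        exact hM _
    · intro h
      rw [ih.2 (by linarith), h2 _ ((le_div_iff₀ ht).2 (by linarith)), abs_zero, add_zero]

theorem layer {q δ s : ℝ} (hq : 0 ≤ q) (hδ : 0 < δ) (hs : 0 ≤ s) (N : ℕ)
    (h : s ≤ 2 * (δ * 2 ^ N)) :
    s ^ q ≤ (2 * δ) ^ q + ∑ k ∈ Finset.range N,
      (4 * (δ * 2 ^ k)) ^ q * (if 2 * (δ * 2 ^ k) ≤ s then 1 else 0) := by
  induction N with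
  | zero =>
    simp only [Finset.range_zero, Finset.sum_empty, add_zero]
    exact Real.rpow_le_rpow hs (by simpa using h) hq
  | succ N ih =>
    rw [Finset.sum_range_succ]
    split_ifs with h1
    · have h2 : s ^ q ≤ (4 * (δ * 2 ^ N)) ^ q :=
        Real.rpow_le_rpow hs (by rw [pow_succ] at h; linarith) hq
      have h3 : 0 ≤ ∑ k ∈ Finset.range N,
          (4 * (δ * 2 ^ k)) ^ q * (if 2 * (δ * 2 ^ k) ≤ s then (1 : ℝ) else 0) :=
        Finset.sum_nonneg fun k _ => by positivity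
      have h4 : 0 ≤ (2 * δ) ^ q := by positivity
      linarith
    · rw [mul_zero, add_zero]
      exact ih (not_le.1 h1).le

theorem sum_rpow_le {q : ℝ} (hq : 1 ≤ q) (a : ℕ → ℝ) (ha : ∀ k, 0 ≤ a k) (N : ℕ) :
    ∑ k ∈ Finset.range N, a k ^ q ≤ (∑ k ∈ Finset.range N, a k) ^ q := by
  induction N with
  | zero =>
    simp only [Finset.range_zero, Finset.sum_empty]
    positivity
  | succ N ih =>
    rw [Finset.sum_range_succ, Finset.sum_range_succ]
    have h := Real.add_rpow_le_rpow_add (Finset.sum_nonneg fun k (_ : k ∈ Finset.range N) => ha k)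
      (ha N) hq
    linarith

end Sob1Aux

open Sob1Aux in
theorem sob1_pf (hw : WeakStmt) : Sob1Stmt := by
  intro n d o
  obtain ⟨C, hC, hW⟩ := hw n d o
  obtain ⟨ψ, M, hψ, hM, hψ01, hψ0, hψ2, hψM⟩ := ex_psi
  have := o.fin
  refine ⟨4 * C * (M + 2), by positivity, fun u hu hu0 => ?_⟩
  have hm := o.m3
  set q : ℝ := (d.m : ℝ) / (d.m - 1) with hq
  set θ : ℝ := ((d.m : ℝ) - 1) / d.m with hθ
  have hm1 : (0 : ℝ) < d.m - 1 := by linarith
  have hm0 : (0 : ℝ) < d.m := by linarith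
  have hq1 : 1 ≤ q := (one_le_div hm1).2 (by linarith)
  have hq0 : 0 < q := by linarith
  have hθ0 : 0 < θ := div_pos hm1 hm0
  have hθq : θ * q = 1 := by
    rw [hθ, hq]
    field_simp
  have bu : d.BM u := o.bm_cont hu.continuous
  have bG : d.BM fun x => √(d.Gam u u x) := (o.bm_Gam hu hu).sqrt
  set A : ℝ := ∫ x, (√(d.Gam u u x) + u x) ∂d.μ with hA
  have hA0 : 0 ≤ A := o.int_nonneg fun x _ => add_nonneg (Real.sqrt_nonneg _) (hu0 x)
  have key : ∀ δ : ℝ, 0 < δ →
      ∫ x, u x ^ q ∂d.μ ≤ (2 * δ) ^ q * d.μ.real univ + (4 * C * (M + 2) * A) ^ q := by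
    intro δ hδ
    obtain ⟨B, hB⟩ := bu.2
    obtain ⟨N, hN⟩ := pow_unbounded_of_one_lt (B / δ) (by norm_num : (1 : ℝ) < 2)
    have hN' : ∀ x ∈ d.K, u x ≤ 2 * (δ * 2 ^ N) := by
      intro x hx
      have h1 := (le_abs_self _).trans (hB x hx)
      rw [div_lt_iff₀ hδ] at hN
      have h2 : 0 < δ * 2 ^ N := by positivity
      linarith
    set t : ℕ → ℝ := fun k => δ * 2 ^ k with ht
    have ht0 : ∀ k, 0 < t k := fun k => by positivity
    set v : ℕ → Eu n → ℝ := fun k x => t k * ψ (u x / t k) with hv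
    have hv1 : ∀ k, ContDiff ℝ 1 (v k) := fun k =>
      contDiff_const.mul (hψ.comp (hu.div_const _))
    have hv0 : ∀ k x, 0 ≤ v k x := fun k x => mul_nonneg (ht0 k).le (hψ01 _).1
    have hvG : ∀ k x, √(d.Gam (v k) (v k) x) = |deriv ψ (u x / t k)| * √(d.Gam u u x) := by
      intro k x
      have h1 : HasDerivAt (fun s => t k * ψ (s / t k)) (deriv ψ (u x / t k)) (u x) := by
        have h2 := ((hψ.differentiable one_ne_zero (u x / t k)).hasDerivAt.comp (u x)
          ((hasDerivAt_id (u x)).div_const (t k))).const_mul (t k)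
        have h4 := (ht0 k).ne'
        have h5 : t k * (deriv ψ (u x / t k) * (1 / t k)) = deriv ψ (u x / t k) := by
          field_simp
        rw [← h5]
        exact h2
      have h3 := Dat.Gam_comp_self (d := d) (hu.differentiable one_ne_zero x) h1
      change √(d.Gam (fun y => t k * ψ (u y / t k)) (fun y => t k * ψ (u y / t k)) x) = _
      rw [h3, Real.sqrt_mul (sq_nonneg _), Real.sqrt_sq_eq_abs]
    set a : ℕ → ℝ := fun k => ∫ x, (√(d.Gam (v k) (v k) x) + v k x) ∂d.μ with ha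
    have ba : ∀ k, d.BM fun x => √(d.Gam (v k) (v k) x) + v k x := fun k =>
      (o.bm_Gam (hv1 k) (hv1 k)).sqrt.add (o.bm_cont (hv1 k).continuous)
    have ha0 : ∀ k, 0 ≤ a k := fun k =>
      o.int_nonneg fun x _ => add_nonneg (Real.sqrt_nonneg _) (hv0 k x)
    have hsum : ∑ k ∈ Finset.range N, a k ≤ (M + 2) * A := by
      rw [ha, ← integral_finsetSum _ fun k _ => (ba k).integrable o, hA, ← integral_const_mul]
      refine o.int_mono (Dat.bm_sum _ fun k _ => ba k) ((bG.add bu).const_mul _) fun x _ => ?_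
      rw [Finset.sum_add_distrib]
      simp only [hvG]
      rw [← Finset.sum_mul]
      have h1 := (sum_val (fun s => (hψ01 s).2) (fun s hs => (hψ0 s hs).1) hδ (hu0 x) N).2
      have h2 := (sum_der hψM (fun s hs => (hψ0 s hs).2) (fun s hs => (hψ2 s hs).2)
        (s := u x) hδ N).1
      have h3 := mul_le_mul_of_nonneg_right h2 (Real.sqrt_nonneg (d.Gam u u x))
      have h4 := mul_nonneg hM.le (hu0 x)
      have h5 := Real.sqrt_nonneg (d.Gam u u x)
      change _ + ∑ k ∈ Finset.range N, δ * 2 ^ k * ψ (u x / (δ * 2 ^ k)) ≤ _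
      change (∑ k ∈ Finset.range N, |deriv ψ (u x / (δ * 2 ^ k))|) * _ + _ ≤ _
      nlinarith
    have hS : ∀ k, MeasurableSet {x | 2 * t k ≤ u x} := fun k =>
      measurableSet_le measurable_const hu.continuous.measurable
    have hlev : ∀ k, (4 * t k) ^ q * d.μ.real {x | 2 * t k ≤ u x} ≤ (4 * C) ^ q * a k ^ q := by
      intro k
      have h1 := hW (v k) (hv1 k) (hv0 k) (t k) (ht0 k)
      have h2 : d.μ.real {x | 2 * t k ≤ u x} ≤ d.μ.real {x | t k ≤ v k x} := by
        refine measureReal_mono fun x hx => ?_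
        change t k ≤ t k * ψ (u x / t k)
        rw [(hψ2 _ ((le_div_iff₀ (ht0 k)).2 hx)).1, mul_one]
      have h3 : 0 ≤ d.μ.real {x | t k ≤ v k x} := measureReal_nonneg
      have h4 := Real.rpow_le_rpow (mul_nonneg (ht0 k).le (Real.rpow_nonneg h3 _)) h1 hq0.le
      rw [Real.mul_rpow (ht0 k).le (Real.rpow_nonneg h3 _), ← Real.rpow_mul h3, hθq,
        Real.rpow_one, Real.mul_rpow hC.le (ha0 k)] at h4
      rw [Real.mul_rpow (by norm_num) (ht0 k).le, Real.mul_rpow (by norm_num) hC.le, mul_assoc,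
        mul_assoc]
      refine mul_le_mul_of_nonneg_left (le_trans ?_ h4) (by positivity)
      exact mul_le_mul_of_nonneg_left h2 (Real.rpow_nonneg (ht0 k).le _)
    have bI : ∀ k, d.BM fun x => (4 * t k) ^ q * (if 2 * t k ≤ u x then (1 : ℝ) else 0) :=
      fun k => (Dat.BM.ite (hS k) (Dat.bm_const 1) (Dat.bm_const 0)).const_mul _
    have hI : ∀ k, ∫ x, (4 * t k) ^ q * (if 2 * t k ≤ u x then (1 : ℝ) else 0) ∂d.μ =
        (4 * t k) ^ q * d.μ.real {x | 2 * t k ≤ u x} := by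
      intro k
      rw [integral_const_mul, ← integral_indicator_one (hS k)]
      congr 2
    calc ∫ x, u x ^ q ∂d.μ ≤ ∫ x, ((2 * δ) ^ q + ∑ k ∈ Finset.range N,
          (4 * t k) ^ q * (if 2 * t k ≤ u x then (1 : ℝ) else 0)) ∂d.μ :=
          o.int_mono (bu.rpow hq0.le) ((Dat.bm_const _).add (Dat.bm_sum _ fun k _ => bI k))
            fun x hx => layer hq0.le hδ (hu0 x) N (hN' x hx)
      _ = (2 * δ) ^ q * d.μ.real univ +
          ∑ k ∈ Finset.range N, (4 * t k) ^ q * d.μ.real {x | 2 * t k ≤ u x} := by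
          rw [integral_add (integrable_const _) ((Dat.bm_sum _ fun k _ => bI k).integrable o),
            integral_finsetSum _ fun k _ => (bI k).integrable o, integral_const, smul_eq_mul,
            mul_comm]
          simp only [hI]
      _ ≤ (2 * δ) ^ q * d.μ.real univ + (4 * C * (M + 2) * A) ^ q := by
          refine add_le_add le_rfl ((Finset.sum_le_sum fun k _ => hlev k).trans ?_)
          rw [← Finset.mul_sum, mul_assoc, Real.mul_rpow (x := 4 * C) (by positivity)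
            (by positivity)]
          refine mul_le_mul_of_nonneg_left ((sum_rpow_le hq1 a ha0 N).trans ?_) (by positivity)
          exact Real.rpow_le_rpow (Finset.sum_nonneg fun k _ => ha0 k) hsum hq0.le
  have hlim : Tendsto (fun δ : ℝ => (2 * δ) ^ q * d.μ.real univ + (4 * C * (M + 2) * A) ^ q)
      (𝓝[>] 0) (𝓝 ((2 * 0) ^ q * d.μ.real univ + (4 * C * (M + 2) * A) ^ q)) := by
    refine tendsto_nhdsWithin_of_tendsto_nhds (Continuous.tendsto ?_ 0)
    exact (((continuous_const.mul continuous_id).rpow_const fun _ => Or.inr hq0.le).mul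
      continuous_const).add continuous_const
  have h1 := ge_of_tendsto hlim (eventually_nhdsWithin_of_forall fun δ hδ => key δ hδ)
  rw [mul_zero, Real.zero_rpow hq0.ne', zero_mul, zero_add] at h1
  have h2 : 0 ≤ ∫ x, u x ^ q ∂d.μ := o.int_nonneg fun x _ => Real.rpow_nonneg (hu0 x) _
  have h3 := Real.rpow_le_rpow h2 h1 hθ0.le
  rwa [← Real.rpow_mul (by positivity), mul_comm q, hθq, Real.rpow_one] at h3

end Vale.Agent.P219
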