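import Vale.Agent.P219.Alg

/-! The `L²` Sobolev inequality from the `L¹` inequality. -/

open scoped ENNReal RealInnerProductSpace Topology
open MeasureTheory Set Filter

namespace Vale.Agent.P219

theorem sob2_pf (h1 : Sob1Stmt) : Sob2Stmt := by
  intro n d o
  obtain ⟨C, hC, h⟩ := h1 n d o
  have hm := o.m3
  obtain ⟨g, hg⟩ : ∃ g : ℝ, g = 2 * (d.m - 1) / (d.m - 2) := ⟨_, rfl⟩
  have hm2 : (0 : ℝ) < d.m - 2 := by linarith
  have hm1 : (0 : ℝ) < d.m - 1 := by linarith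
  have hm0 : (0 : ℝ) < d.m := by linarith
  have hg1 : 1 ≤ g := by
    rw [hg, le_div_iff₀ hm2]
    linarith
  have e1 : g * (d.m / (d.m - 1)) = d.p := by
    rw [hg, Dat.p]
    field_simp
  have e2 : (g - 1) * (2 : ℕ) = d.p := by
    rw [hg, Dat.p]
    field_simp
    push_cast
    ring
  have e3 : ((d.m : ℝ) - 1) / d.m = 1 / d.p + 1 / 2 := by
    rw [Dat.p]
    field_simp
    ring
  have hp : 0 < d.p := by linarith [o.two_lt_p]
  refine ⟨2 * C ^ 2 * g ^ 2, by positivity, fun u hu hu0 => ?_⟩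
  have hw : ContDiff ℝ 1 fun x => u x ^ g := hu.rpow_const_of_le (m := 1) (by simpa using hg1)
  have h2 := h _ hw fun x => Real.rpow_nonneg (hu0 x) _
  have bu : d.BM u := o.bm_cont hu.continuous
  have b1 : d.BM fun x => u x ^ (g - 1) := bu.rpow (by linarith)
  have b2 : d.BM fun x => √(d.Gam u u x) := (o.bm_Gam hu hu).sqrt
  have k1 : ∀ x, (u x ^ g) ^ ((d.m : ℝ) / (d.m - 1)) = u x ^ d.p := fun x => by
    rw [← Real.rpow_mul (hu0 x), e1]
  have k2 : ∀ x, √(d.Gam (fun x => u x ^ g) (fun x => u x ^ g) x) + u x ^ g =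
      g * (u x ^ (g - 1) * √(d.Gam u u x)) + u x ^ (g - 1) * u x := by
    intro x
    rw [Dat.Gam_comp_self (ψ := fun t => t ^ g) (hu.differentiable (by norm_num) x)
      (Real.hasDerivAt_rpow_const (Or.inr hg1)), Real.sqrt_mul (sq_nonneg _),
      Real.sqrt_sq (mul_nonneg (by linarith) (Real.rpow_nonneg (hu0 x) _)),
      ← Real.rpow_add_one' (hu0 x) (by linarith), sub_add_cancel, mul_assoc]
  have k3 : ∀ x, (u x ^ (g - 1)) ^ 2 = u x ^ d.p := fun x => by
    rw [← Real.rpow_mul_natCast (hu0 x), e2]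
  have k4 : ∀ x, √(d.Gam u u x) ^ 2 = d.Gam u u x := fun x => Real.sq_sqrt (Dat.Gam_nonneg u x)
  have c1 := o.int_cs b1 b2
  have c2 := o.int_cs b1 bu
  simp only [k3, k4] at c1 c2
  simp only [k1, k2] at h2
  rw [integral_add (((b1.mul b2).const_mul g).integrable o) ((b1.mul bu).integrable o),
    integral_const_mul] at h2
  have hI : 0 ≤ ∫ x, u x ^ d.p ∂d.μ := integral_nonneg fun x => Real.rpow_nonneg (hu0 x) _
  have hA : 0 ≤ ∫ x, d.Gam u u x ∂d.μ := integral_nonneg fun x => Dat.Gam_nonneg u x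
  have hB : 0 ≤ ∫ x, u x ^ 2 ∂d.μ := integral_nonneg fun x => sq_nonneg _
  generalize ∫ x, u x ^ d.p ∂d.μ = I at *
  generalize ∫ x, d.Gam u u x ∂d.μ = A at *
  generalize ∫ x, u x ^ 2 ∂d.μ = B at *
  rcases hI.eq_or_lt with rfl | hI
  · rw [Real.zero_rpow (by positivity)]
    positivity
  rw [Real.sqrt_mul hI.le] at c1 c2
  rw [e3, Real.rpow_add hI, ← Real.sqrt_eq_rpow] at h2
  have hs : 0 < √I := Real.sqrt_pos.2 hI
  have h3 : I ^ (1 / d.p) ≤ C * (g * √A + √B) := by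
    refine le_of_mul_le_mul_right (h2.trans ?_) hs
    have := mul_le_mul_of_nonneg_left c1 (show 0 ≤ g by linarith)
    nlinarith
  have h4 : I ^ (2 / d.p) = (I ^ (1 / d.p)) ^ 2 := by
    rw [← Real.rpow_mul_natCast hI.le]
    congr 1
    push_cast
    ring
  rw [h4]
  refine (pow_le_pow_left₀ (Real.rpow_nonneg hI.le _) h3 2).trans ?_
  have h5 : (g * √A + √B) ^ 2 ≤ 2 * g ^ 2 * (A + B) := by
    have a1 := Real.sq_sqrt hA
    have a2 := Real.sq_sqrt hB
    have a3 : 1 ≤ g ^ 2 := one_le_pow₀ hg1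
    nlinarith [sq_nonneg (g * √A - √B)]
  rw [mul_pow]
  nlinarith [sq_nonneg C]

end Vale.Agent.P219
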