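import Vale.Agent.P219.Alg

/-! One step of the scheme. -/

open scoped Topology
open MeasureTheory Set Filter

namespace Vale.Agent.P219

namespace StepAux

open Dat

variable {n : ℕ} {d : Dat n}

theorem sq_le (o : d.Ok) {t : ℝ} (ht : 0 < t) : t ^ 2 ≤ t ^ d.p + 1 := by
  have hp := o.two_lt_p
  have h0 := Real.rpow_pos_of_pos ht d.p
  rcases le_total t 1 with h | h
  · nlinarith
  · have := Real.rpow_le_rpow_of_exponent_le h hp.le
    rw [Real.rpow_two] at this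
    linarith

theorem bm_p (o : d.Ok) {f : Eu n → ℝ} (hf : d.Adm f) : d.BM fun x => f x ^ d.p :=
  (o.bm_cont hf.1.continuous).rpow (by linarith [o.two_lt_p])

theorem int_sq_le (o : d.Ok) {f : Eu n → ℝ} (hf : d.Adm f) :
    ∫ x, f x ^ 2 ∂d.μ ≤ 1 + d.μ.real univ := by
  haveI := o.fin
  have := o.int_mono ((o.bm_cont hf.1.continuous).pow 2) ((bm_p o hf).add (bm_const 1))
    fun x _ => sq_le o (hf.2.1 x)
  rw [integral_add ((bm_p o hf).integrable o) (integrable_const _), hf.2.2] at this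
  simpa using this

theorem Y_eq (o : d.Ok) {f : Eu n → ℝ} (hf : ContDiff ℝ 1 f) (W : ℝ) :
    d.Y W f = ∫ x, d.Gam f f x ∂d.μ + W * ∫ x, f x ^ 2 ∂d.μ := by
  unfold Y
  rw [integral_add ((o.bm_Gam hf hf).integrable o)
    ((((o.bm_cont hf.continuous).pow 2).const_mul W).integrable o), integral_const_mul]

end StepAux

open StepAux Dat in
theorem step_pf (hb : BalStmt) (hx : XiStmt) (hh : HardyStmt) (ha : AvgStmt) : StepStmt := by
  intro n d o
  obtain ⟨c, hc, C, hC, ha⟩ := ha n d o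
  have hcm := o.cm_pos
  set A := 1 + d.μ.real univ with hA
  have hA0 : 0 < A := by have := o.mass_pos; positivity
  refine ⟨c, hc, C * (1 + 1 / d.cm + 2 * |d.W0| * A + A), by positivity, fun β s f hβ hf hs => ?_⟩
  have hp := o.two_lt_p
  obtain ⟨z, hz, γ, hγ, hbal⟩ := hb n d o (fun x => f x ^ d.p)
    (hf.1.continuous.rpow_const fun x => Or.inr (by linarith))
    (fun x => Real.rpow_nonneg (hf.2.1 x).le _) hf.2.2
  have hph := o.ph_pos hγ z
  have hv : ContDiff ℝ 1 fun x => f x / d.ph z γ x := hf.1.div (o.ph1 hγ z) fun x => (hph x).ne'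
  have hv0 : ∀ x, 0 < f x / d.ph z γ x := fun x => div_pos (hf.2.1 x) (hph x)
  have hfv : ∀ x, f x = f x / d.ph z γ x * d.ph z γ x := fun x => by
    rw [div_mul_cancel₀ _ (hph x).ne']
  set v := fun x => f x / d.ph z γ x with hvd
  have hN : d.Np z γ v = 1 := by
    rw [← hf.2.2]; unfold Np
    congr 1; ext x
    rw [← o.ph_p hγ, ← Real.mul_rpow (hv0 x).le (hph x).le, ← hfv]
  have hF : d.F2 z γ v = ∫ x, f x ^ 2 ∂d.μ := by
    unfold F2
    congr 1; ext x
    rw [← o.ph_sq hγ, ← mul_pow, ← hfv]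
  have hU : d.Uv z γ v = ∫ x, (f x * d.lam z γ x) ^ 2 ∂d.μ := by
    unfold Uv
    congr 1; ext x
    have : d.lam z γ x ^ d.m = d.lam z γ x ^ (d.m - 2) * d.lam z γ x ^ 2 := by
      rw [← pow_add]; congr 1; have := o.hm; omega
    rw [this, ← o.ph_sq hγ, ← mul_assoc, ← mul_pow, ← hfv, mul_pow]
  have hH := hh n d o z γ hγ v hv
  rw [show (fun x => v x * d.ph z γ x) = f from funext fun x => (hfv x).symm] at hH
  have hY : d.Y (d.W0 + β) f = d.cm * d.Uv z γ v + d.Df z γ v + β * d.F2 z γ v := by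
    rw [← hH, Y_eq o hf.1, Y_eq o hf.1, hF]; ring
  refine ⟨z, hz, γ, hγ, v, hv, hv0, hfv, hN, hY, fun ε hε hε' => ?_⟩
  obtain ⟨x1, x2, x3⟩ := hx n d o z γ hγ
  have h1 := ha (d.W0 + β) s f _ _ hf (o.lam1 hγ z).continuous x1 x2 x3 hbal hs ε hε hε'
  rw [← hU] at h1
  have hD := (o.le_Df hγ hz hv).1
  have hU0 := o.Uv_nonneg hγ z v
  have hF0 := o.F2_nonneg hγ z v
  have hFA : d.F2 z γ v ≤ A := hF ▸ int_sq_le o hf
  have hY2 := Y_eq o hf.1 (d.W0 + β)
  rw [← hF] at h1 hY2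
  set y := d.Y (d.W0 + β) f
  have hβF := mul_nonneg hβ hF0
  have hy0 : 0 ≤ y := by have := mul_nonneg hcm.le hU0; linarith
  have e1 : d.Uv z γ v ≤ 1 / d.cm * y := by
    rw [one_div, ← div_eq_inv_mul, le_div_iff₀ hcm]; linarith
  have e2 : |d.W0| * d.F2 z γ v ≤ |d.W0| * A := by gcongr
  have e3 : ∫ x, d.Gam f f x ∂d.μ ≤ y + |d.W0| * A := by
    have := mul_le_mul_of_nonneg_right (neg_le_abs d.W0) hF0
    linarith
  have e4 : |d.W0 + β| * d.F2 z γ v ≤ |d.W0| * A + β * A := by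
    rw [← add_mul]
    have := abs_add_le d.W0 β
    rw [abs_of_nonneg hβ] at this
    gcongr
  have e5 : ∫ x, d.Gam f f x ∂d.μ + |d.W0 + β| * d.F2 z γ v + d.Uv z γ v ≤
      (1 + 1 / d.cm + 2 * |d.W0| * A + A) * (y + 1 + β) := by
    have k1 : 0 ≤ 1 / d.cm := by positivity
    have k2 : 0 ≤ |d.W0| * A := by positivity
    nlinarith [mul_nonneg k1 hβ, mul_nonneg k2 hy0, mul_nonneg k2 hβ, mul_nonneg hA0.le hy0]
  have e6 := mul_le_mul_of_nonneg_left e5 (show 0 ≤ C * ε ^ 3 by positivity)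
  have e7 : y - d.cm * d.Uv z γ v = d.Df z γ v + β * d.F2 z γ v := by linarith
  rw [e7] at h1
  linarith

end Vale.Agent.P219
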