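import Vale.Agent.P219.Alg

/-! Elementary Taylor estimates. -/

open Set

namespace Vale.Agent.P219

namespace TaylorAux

theorem step {f f' : ℝ → ℝ} {C : ℝ} {k : ℕ} (hC : 0 ≤ C) (h0 : f 0 = 0)
    (hd : ∀ s, |s| ≤ 1 / 2 → HasDerivAt f (f' s) s) (hb : ∀ s, |s| ≤ 1 / 2 → |f' s| ≤ C * |s| ^ k)
    (s : ℝ) (hs : |s| ≤ 1 / 2) : |f s| ≤ C * |s| ^ (k + 1) := by
  have h := (convex_Icc (-|s|) |s|).norm_image_sub_le_of_norm_hasDerivWithin_le
    (f := f) (f' := f') (C := C * |s| ^ k) (x := 0) (y := s)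
    (fun x hx => (hd x ((abs_le.mpr hx).trans hs)).hasDerivWithinAt)
    (fun x hx => (hb x ((abs_le.mpr hx).trans hs)).trans
      (mul_le_mul_of_nonneg_left (pow_le_pow_left₀ (abs_nonneg _) (abs_le.mpr hx) k) hC))
    ⟨neg_nonpos.mpr (abs_nonneg s), abs_nonneg s⟩ (abs_le.mp le_rfl)
  rw [h0, sub_zero, sub_zero, Real.norm_eq_abs, Real.norm_eq_abs] at h
  rw [pow_succ, ← mul_assoc]
  exact h

theorem dp (q s : ℝ) (hs : |s| ≤ 1 / 2) :
    HasDerivAt (fun s : ℝ => (1 + s) ^ q) (q * (1 + s) ^ (q - 1)) s := by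
  have h1 : (1 + s) ≠ 0 := by
    have := (abs_le.mp hs).1
    linarith
  simpa [mul_comm] using ((hasDerivAt_id s).const_add 1).rpow_const (p := q) (Or.inl h1)

theorem dm (q s : ℝ) (hs : |s| ≤ 1 / 2) :
    HasDerivAt (fun s : ℝ => (1 - s) ^ q) (-(q * (1 - s) ^ (q - 1))) s := by
  have h1 : (1 - s) ≠ 0 := by
    have := (abs_le.mp hs).2
    linarith
  simpa [mul_comm] using ((hasDerivAt_id s).const_sub 1).rpow_const (p := q) (Or.inl h1)

theorem bd (q : ℝ) : ∃ M, 0 ≤ M ∧ ∀ s : ℝ, |s| ≤ 1 / 2 → |(1 + s) ^ q| ≤ M := by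
  have hc : ContinuousOn (fun s : ℝ => (1 + s) ^ q) (Icc (-(1 / 2)) (1 / 2)) := fun s hs =>
    (dp q s (abs_le.mpr hs)).continuousAt.continuousWithinAt
  obtain ⟨M, hM⟩ := isCompact_Icc.exists_bound_of_continuousOn hc
  exact ⟨max M 0, le_max_right _ _, fun s hs => (hM s (abs_le.mp hs)).trans (le_max_left _ _)⟩

end TaylorAux

open TaylorAux in
theorem taylor_pf : TaylorStmt := by
  intro r
  obtain ⟨M, hM, hb⟩ := bd (r - 2 - 1)
  have hC : 0 ≤ |r - 2| * (2 * M) := by positivity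
  have h3 := step (f := fun s => (1 + s) ^ (r - 2) + (1 - s) ^ (r - 2) - 2) (k := 0) hC
    (by norm_num) (fun s hs => ((dp (r - 2) s hs).add (dm (r - 2) s hs)).sub_const 2)
    (fun s hs => by
      have h1 := hb s hs
      have h2 := hb (-s) (by rwa [abs_neg])
      rw [← sub_eq_add_neg] at h2
      rw [← sub_eq_add_neg, ← mul_sub, abs_mul, pow_zero, mul_one]
      exact mul_le_mul_of_nonneg_left ((abs_sub _ _).trans (by linarith)) (abs_nonneg _))
  set C := |r - 2| * (2 * M) with hCd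
  have hC2 : 0 ≤ |r * (r - 1)| * C := by positivity
  have h2 := step
    (f := fun s => r * ((1 + s) ^ (r - 1) - (1 - s) ^ (r - 1)) + 2 * r * (1 - r) * s)
    (f' := fun s => r * (r - 1) * ((1 + s) ^ (r - 2) + (1 - s) ^ (r - 2) - 2)) (k := 1) hC2
    (by norm_num) (fun s hs => by
      have := (((dp (r - 1) s hs).sub (dm (r - 1) s hs)).const_mul r).add
        ((hasDerivAt_id s).const_mul (2 * r * (1 - r)))
      have e : r - 1 - 1 = r - 2 := by ring
      rw [e] at this
      exact this.congr_deriv (by ring))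
    (fun s hs => by
      rw [abs_mul, mul_assoc]
      exact mul_le_mul_of_nonneg_left (h3 s hs) (abs_nonneg _))
  have h1 := step (f := fun s => (1 + s) ^ r + (1 - s) ^ r - 2 + r * (1 - r) * s ^ 2)
    (f' := fun s => r * ((1 + s) ^ (r - 1) - (1 - s) ^ (r - 1)) + 2 * r * (1 - r) * s) (k := 2) hC2
    (by norm_num) (fun s hs => by
      have := (((dp r s hs).add (dm r s hs)).sub_const 2).add
        ((hasDerivAt_pow 2 s).const_mul (r * (1 - r)))
      exact this.congr_deriv (by push_cast; ring))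
    h2
  refine ⟨|r * (r - 1)| * C + C + 1, by positivity, fun s hs => ⟨?_, ?_, ?_⟩⟩
  · exact (h1 s hs).trans (mul_le_mul_of_nonneg_right (by linarith) (by positivity))
  · have := h2 s hs
    rw [sq_abs] at this
    exact this.trans (mul_le_mul_of_nonneg_right (by linarith) (by positivity))
  · have := (le_abs_self _).trans (h3 s hs)
    rw [zero_add, pow_one] at this
    have h4 : C * |s| ≤ (|r * (r - 1)| * C + C + 1) * |s| :=
      mul_le_mul_of_nonneg_right (by linarith) (abs_nonneg _)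
    linarith

end Vale.Agent.P219
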