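import Vale.Agent.P219.Alg

/-! The terminal step. -/

open scoped Topology
open MeasureTheory Set Filter

namespace Vale.Agent.P219

namespace TermAux

open Dat

theorem phi0 {S u m p : ℝ} (hS : 0 < S) (hm : 3 ≤ m) (hp : p = 2 * m / (m - 2)) (hu : 0 < u)
    (hlt : u < S ^ (2 / m)) : √(u / S) ^ (p - 2) * u < 1 := by
  have hm2 : 0 < m - 2 := by linarith
  have hp2 : p - 2 = 4 / (m - 2) := by rw [hp]; field_simp; ring
  have hp0 : 0 ≤ p - 2 := by rw [hp2]; positivity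
  have h1 : √(S ^ (2 / m) / S) ^ (p - 2) * S ^ (2 / m) = 1 := by
    rw [Real.sqrt_eq_rpow, ← Real.rpow_sub_one hS.ne', ← Real.rpow_mul hS.le,
      ← Real.rpow_mul hS.le, ← Real.rpow_add hS, hp2]
    have : (2 / m - 1) * (1 / 2) * (4 / (m - 2)) + 2 / m = 0 := by
      field_simp; ring
    rw [this, Real.rpow_zero]
  rw [← h1]
  have h2 : √(u / S) ^ (p - 2) ≤ √(S ^ (2 / m) / S) ^ (p - 2) :=
    Real.rpow_le_rpow (Real.sqrt_nonneg _) (Real.sqrt_le_sqrt (by gcongr)) hp0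
  have h3 : 0 < √(S ^ (2 / m) / S) ^ (p - 2) := by positivity
  calc _ ≤ √(S ^ (2 / m) / S) ^ (p - 2) * u := by gcongr
    _ < _ := by gcongr

theorem exists_h {S u p : ℝ} (hp : 0 ≤ p - 2) (h0 : √(u / S) ^ (p - 2) * u < 1) :
    ∃ h > 0, (√((1 + h) * (u + h) / S + h) + 2 * h) ^ (p - 2) * u + h < 1 := by
  have hc : Continuous fun h : ℝ => (√((1 + h) * (u + h) / S + h) + 2 * h) ^ (p - 2) * u + h := by
    refine (((Real.continuous_rpow_const hp).comp ?_).mul continuous_const).add continuous_id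
    fun_prop
  have h1 : ∀ᶠ h in 𝓝 (0 : ℝ),
      (√((1 + h) * (u + h) / S + h) + 2 * h) ^ (p - 2) * u + h < 1 :=
    hc.continuousAt.eventually_lt continuousAt_const (by simpa using h0)
  obtain ⟨h, h2, h3⟩ := ((h1.filter_mono nhdsWithin_le_nhds).and
    (self_mem_nhdsWithin (s := Ioi (0 : ℝ)))).exists
  exact ⟨h, h3, h2⟩

theorem exists_w {A C h r q : ℝ} (hh : 0 < h) (hr : 0 < r) (hq : 0 < q) :
    ∃ w > 0, A * (C * (w ^ r + w)) ^ q ≤ h := by
  have hc : Continuous fun w : ℝ => A * (C * (w ^ r + w)) ^ q :=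
    continuous_const.mul ((Real.continuous_rpow_const hq.le).comp
      (continuous_const.mul ((Real.continuous_rpow_const hr.le).add continuous_id)))
  have h1 : ∀ᶠ w in 𝓝 (0 : ℝ), A * (C * (w ^ r + w)) ^ q < h :=
    hc.continuousAt.eventually_lt continuousAt_const
      (by simpa [Real.zero_rpow hr.ne', Real.zero_rpow hq.ne'] using hh)
  obtain ⟨w, h2, h3⟩ := ((h1.filter_mono nhdsWithin_le_nhds).and
    (self_mem_nhdsWithin (s := Ioi (0 : ℝ)))).exists
  exact ⟨w, h3, h2.le⟩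

theorem exists_T {C w e : ℝ} (hw : 0 < w) (he : e < 0) : ∃ T > 0, C * (1 + T) ^ e ≤ w := by
  have h0 : Tendsto (fun T : ℝ => C * (1 + T) ^ e) atTop (𝓝 (C * 0)) := by
    refine Tendsto.const_mul _ ?_
    have := (tendsto_rpow_neg_atTop (neg_pos.2 he)).comp
      (tendsto_atTop_add_const_left atTop 1 tendsto_id)
    simpa [Function.comp_def] using this
  obtain ⟨T, h1, h2⟩ := ((h0.eventually (eventually_le_nhds (by simpa using hw))).and
    (eventually_gt_atTop 0)).exists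
  exact ⟨T, h2, h1⟩

variable {n : ℕ} {d : Dat n}

theorem U_le (o : d.Ok) {γ : ℝ} (hγ : 0 < γ) (z : Eu n) {v : Eu n → ℝ} (hv : ContDiff ℝ 1 v) :
    γ ^ 2 * d.Uv z γ v ≤ d.F2 z γ v := by
  unfold Uv F2
  rw [← integral_const_mul]
  have hb := (o.bm_cont hv.continuous).pow 2
  refine o.int_mono ((hb.mul ((o.bm_lam hγ z).pow _)).const_mul _)
    (hb.mul ((o.bm_lam hγ z).pow _)) fun x _ => ?_
  have h1 := o.lam_pos hγ z x
  have h2 : γ * d.lam z γ x ≤ 1 := by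
    have := mul_le_mul_of_nonneg_left (o.lam_le hγ z x) hγ.le
    rwa [mul_inv_cancel₀ hγ.ne'] at this
  have h3 : d.lam z γ x ^ d.m = d.lam z γ x ^ (d.m - 2) * d.lam z γ x ^ 2 := by
    rw [← pow_add]; congr 1; have := o.hm; omega
  have h4 : (γ * d.lam z γ x) ^ 2 ≤ 1 := pow_le_one₀ (by positivity) h2
  rw [h3]
  calc _ = v x ^ 2 * d.lam z γ x ^ (d.m - 2) * (γ * d.lam z γ x) ^ 2 := by ring
    _ ≤ _ := mul_le_of_le_one_right (by positivity) h4

end TermAux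

open TermAux Dat in
theorem term_pf (hl : LevStmt) (ht : TruncStmt) : TermStmt := by
  intro n d o z γ v C0 hz hγ hv hpos hN hU hD hF ε hε
  obtain ⟨C1, hC1, hl⟩ := hl n d o
  obtain ⟨C2, hC2, ht⟩ := ht n d o
  have hS := sph_pos d.m
  have hm := o.m3
  have hp := o.two_lt_p
  have hU0 := fun j => o.Uv_nonneg (hγ j) (z j) (v j)
  have hF0 := fun j => o.F2_nonneg (hγ j) (z j) (v j)
  have hD0 := fun j => o.le_Df (hγ j) (hz j) (hv j)
  have hE0 := fun j => o.le_Er (hγ j) (hz j) (hv j)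
  set u := sph d.m ^ (2 / (d.m : ℝ)) - ε with hu
  rcases le_or_gt u 0 with hu0 | hu0
  · exact Eventually.of_forall fun j => hu0.trans (hU0 j)
  have hDF : Tendsto (fun j => d.Df (z j) (γ j) (v j) + d.F2 (z j) (γ j) (v j)) atTop (𝓝 0) := by
    simpa using hD.add hF
  have hγ0 : Tendsto γ atTop (𝓝 0) := by
    have h1 : Tendsto (fun j => √(2 * C2 * d.F2 (z j) (γ j) (v j))) atTop (𝓝 0) := by
      simpa using (hF.const_mul (2 * C2)).sqrt
    have h2 : ∀ᶠ j in atTop, C2 * (d.Df (z j) (γ j) (v j) + d.F2 (z j) (γ j) (v j)) ≤ 1 / 2 :=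
      (hDF.const_mul C2).eventually (eventually_le_nhds (by simp))
    refine squeeze_zero' (Eventually.of_forall fun j => (hγ j).le) (h2.mono fun j hj => ?_) h1
    refine Real.le_sqrt_of_sq_le ?_
    have h3 := (ht _ (hz j) _ (hγ j) _ (hv j) (hpos j) (hN j)).1
    have h4 := U_le o (hγ j) (z j) (hv j)
    have h5 : 1 / 2 ≤ C2 * d.Uv (z j) (γ j) (v j) := by linarith
    have h6 := mul_le_mul_of_nonneg_left h5 (sq_nonneg (γ j))
    have h7 := mul_le_mul_of_nonneg_left h4 hC2.le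
    nlinarith
  have hE : Tendsto (fun j => d.Er (z j) (γ j) (v j)) atTop (𝓝 0) := by
    have h1 : Tendsto (fun j => d.Df (z j) (γ j) (v j) + √(C0 * d.Df (z j) (γ j) (v j)) +
        γ j * C0) atTop (𝓝 0) := by
      simpa using (hD.add (hD.const_mul C0).sqrt).add (hγ0.mul_const C0)
    refine squeeze_zero (fun j => (hE0 j).1) (fun j => ?_) h1
    unfold Er
    have h2 : √(d.Uv (z j) (γ j) (v j) * d.D1 (z j) (γ j) (v j)) ≤
        √(C0 * d.Df (z j) (γ j) (v j)) := Real.sqrt_le_sqrt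
      (mul_le_mul (hU j) (hD0 j).2.1 (o.D1_nonneg (hγ j) _ _) ((hU0 j).trans (hU j)))
    have h3 := mul_le_mul_of_nonneg_left (hU j) (hγ j).le
    linarith
  obtain ⟨h, hh, hΦ⟩ := exists_h (by linarith : 0 ≤ d.p - 2)
    (phi0 hS hm rfl hu0 (by rw [hu]; linarith))
  set sm := √((1 + h) * (u + h) / sph d.m + h) with hsm
  obtain ⟨w, hw, hψ⟩ := exists_w (A := ((sm + 2 * h) / h) ^ d.p) (C := C2) (r := 2 / (d.m : ℝ))
    (q := d.p / 2) hh (by positivity) (by positivity)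
  obtain ⟨T, hT, hT'⟩ := exists_T (C := C1) (w := w / 2) (e := 1 - (d.m : ℝ) / 2) (by positivity)
    (by linarith)
  obtain ⟨C, hC, γ0, hγ00, hl⟩ := hl h hh T hT
  have e1 : ∀ᶠ j in atTop, γ j ≤ γ0 := hγ0.eventually (eventually_le_nhds hγ00)
  have e2 : ∀ᶠ j in atTop, C * d.Er (z j) (γ j) (v j) ≤ h :=
    (hE.const_mul C).eventually (eventually_le_nhds (by simpa using hh))
  have e3 : ∀ᶠ j in atTop, C * d.Er (z j) (γ j) (v j) / h ≤ w / 2 :=
    ((hE.const_mul C).div_const h).eventually (eventually_le_nhds (by simpa using hw))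
  have e4 : ∀ᶠ j in atTop, d.Df (z j) (γ j) (v j) + d.F2 (z j) (γ j) (v j) ≤ w :=
    hDF.eventually (eventually_le_nhds hw)
  filter_upwards [e1, e2, e3, e4] with j j1 j2 j3 j4
  by_contra hlt
  rw [not_le] at hlt
  set U := d.Uv (z j) (γ j) (v j) with hUd
  set thr := (1 + h) * (U + C * d.Er (z j) (γ j) (v j)) / sph d.m + h with hthr
  have hUj := hU0 j
  have hEj := (hE0 j).1
  have hthr0 : 0 < thr := by rw [hthr]; positivity
  have hs0 : 0 < √thr := Real.sqrt_pos.2 hthr0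
  have hs1 : √thr ≤ sm := by
    refine Real.sqrt_le_sqrt ?_
    rw [hthr]
    gcongr
  have hset : {x | √thr ≤ v j x} = {x | thr ≤ v j x ^ 2} := by
    ext x
    simp only [mem_setOf_eq]
    rw [Real.sqrt_le_left (hpos j x).le]
  have hω := hl _ (hz j) _ (hγ j) j1 _ (hv j) h hh
  have h2 := (ht _ (hz j) _ (hγ j) _ (hv j) (hpos j) (hN j)).2 _ hs0 h hh
  rw [hset] at h2
  set ω := ∫ x in {x | thr ≤ v j x ^ 2}, d.lam (z j) (γ j) x ^ d.m ∂d.μ with hωd
  have hω0 : 0 ≤ ω := integral_nonneg fun x => pow_nonneg (o.lam_pos (hγ j) _ x).le _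
  have hω1 : ω ≤ w := by linarith
  have hDj := (hD0 j).1
  have hFj := hF0 j
  have h3 : (√thr + 2 * h) ^ (d.p - 2) * U ≤ (sm + 2 * h) ^ (d.p - 2) * u := by
    have : 0 ≤ d.p - 2 := by linarith
    gcongr
  have h4 : ((√thr + 2 * h) / h) ^ d.p * (C2 * (ω ^ (2 / (d.m : ℝ)) + d.Df (z j) (γ j) (v j) +
      d.F2 (z j) (γ j) (v j))) ^ (d.p / 2) ≤
      ((sm + 2 * h) / h) ^ d.p * (C2 * (w ^ (2 / (d.m : ℝ)) + w)) ^ (d.p / 2) := by
    have h5 : ω ^ (2 / (d.m : ℝ)) ≤ w ^ (2 / (d.m : ℝ)) := by gcongr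
    have h6 : ω ^ (2 / (d.m : ℝ)) + d.Df (z j) (γ j) (v j) + d.F2 (z j) (γ j) (v j) ≤
        w ^ (2 / (d.m : ℝ)) + w := by linarith
    gcongr
  linarith

end Vale.Agent.P219
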