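import Vale.Agent.P219.Alg

/-! Truncation. -/

open scoped ENNReal RealInnerProductSpace Topology
open MeasureTheory Set Filter

namespace Vale.Agent.P219

namespace TruncAux

theorem cutoff (s η : ℝ) (hs : 0 < s) (hη : 0 < η) : ∃ P φ : ℝ → ℝ, ContDiff ℝ 1 P ∧
    (∀ x, HasDerivAt P (φ x) x) ∧ (∀ x, 0 ≤ φ x ∧ φ x ≤ 1) ∧ (∀ x, 0 ≤ P x) ∧
    (∀ x, x ≤ s → P x = 0) ∧ (∀ x, 0 ≤ x → P x ≤ x) ∧ ∀ x, x - s - η ≤ P x := by
  obtain ⟨φ, hφ⟩ : ∃ φ : ℝ → ℝ, φ = fun y => Real.smoothTransition ((y - s) / η) := ⟨_, rfl⟩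
  have hc : Continuous φ := by
    rw [hφ]
    exact Real.smoothTransition.continuous.comp (by fun_prop)
  have hb : ∀ x, 0 ≤ φ x ∧ φ x ≤ 1 := fun x => by
    rw [hφ]
    exact ⟨Real.smoothTransition.nonneg _, Real.smoothTransition.le_one _⟩
  have h0 : ∀ x, x ≤ s → φ x = 0 := fun x hx => by
    rw [hφ]
    exact Real.smoothTransition.zero_of_nonpos (div_nonpos_of_nonpos_of_nonneg (by linarith) hη.le)
  have h1 : ∀ x, s + η ≤ x → φ x = 1 := fun x hx => by
    rw [hφ]
    exact Real.smoothTransition.one_of_one_le ((one_le_div hη).2 (by linarith))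
  have hd : ∀ x, HasDerivAt (fun x => ∫ y in s..x, φ y) (φ x) x := fun x =>
    (hc.integral_hasStrictDerivAt s x).hasDerivAt
  have hz : ∀ x, x ≤ s → ∫ y in s..x, φ y = 0 := by
    intro x hx
    rw [intervalIntegral.integral_congr (g := fun _ => (0 : ℝ))]
    · simp
    · intro y hy
      rw [uIcc_of_ge hx] at hy
      exact h0 y hy.2
  have hn : ∀ x, 0 ≤ ∫ y in s..x, φ y := by
    intro x
    rcases le_total x s with hx | hx
    · rw [hz x hx]
    · exact intervalIntegral.integral_nonneg hx fun y _ => (hb y).1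
  refine ⟨_, φ, ?_, hd, hb, hn, hz, fun x hx => ?_, fun x => ?_⟩
  · rw [contDiff_one_iff_deriv]
    refine ⟨fun x => (hd x).differentiableAt, ?_⟩
    rw [show deriv (fun x => ∫ y in s..x, φ y) = φ from funext fun x => (hd x).deriv]
    exact hc
  · rcases le_total x s with h | h
    · rw [hz x h]
      exact hx
    · have := intervalIntegral.integral_mono_on (μ := volume) h (hc.intervalIntegrable s x)
        ((continuous_const (y := (1 : ℝ))).intervalIntegrable s x) fun y _ => (hb y).2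
      simp only [intervalIntegral.integral_const, smul_eq_mul, mul_one] at this
      linarith
  · rcases le_total x (s + η) with h | h
    · linarith [hn x]
    · rw [← intervalIntegral.integral_add_adjacent_intervals (hc.intervalIntegrable s (s + η))
        (hc.intervalIntegrable (s + η) x),
        intervalIntegral.integral_congr (a := s + η) (b := x) (g := fun _ => (1 : ℝ))]
      · simp only [intervalIntegral.integral_const, smul_eq_mul, mul_one]
        linarith [hn (s + η)]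
      · intro y hy
        rw [uIcc_of_le h] at hy
        exact h1 y hy.1

theorem young {w t p : ℝ} (hw : 0 ≤ w) (ht : 0 < t) (hp : 2 < p) :
    w ^ 2 ≤ t ^ 2 + t ^ (2 - p) * w ^ p := by
  have h0 : 0 ≤ t ^ (2 - p) * w ^ p := by positivity
  rcases le_total w t with h | h
  · have := pow_le_pow_left₀ hw h 2
    linarith
  · have hw' : 0 < w := ht.trans_le h
    have h1 : w ^ (2 - p) ≤ t ^ (2 - p) := Real.rpow_le_rpow_of_nonpos ht h (by linarith)
    have h2 : w ^ 2 = w ^ (2 - p) * w ^ p := by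
      rw [← Real.rpow_add hw', sub_add_cancel, Real.rpow_two]
    have h3 := mul_le_mul_of_nonneg_right h1 (Real.rpow_nonneg hw p)
    nlinarith [sq_nonneg t]

theorem split {v w s η p : ℝ} (hv : 0 < v) (hw : 0 ≤ w) (hs : 0 < s) (hη : 0 < η) (hp : 2 < p)
    (h : v - s - η ≤ w) :
    v ^ p ≤ (s + 2 * η) ^ (p - 2) * v ^ 2 + ((s + 2 * η) / η) ^ p * w ^ p := by
  rcases le_total v (s + 2 * η) with h1 | h1
  · have h2 : v ^ p = v ^ (p - 2) * v ^ 2 := by
      rw [← Real.rpow_two, ← Real.rpow_add hv, sub_add_cancel]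
    have h3 : v ^ (p - 2) ≤ (s + 2 * η) ^ (p - 2) := Real.rpow_le_rpow hv.le h1 (by linarith)
    have h4 := mul_le_mul_of_nonneg_right h3 (sq_nonneg v)
    have h5 : 0 ≤ ((s + 2 * η) / η) ^ p * w ^ p := by positivity
    linarith
  · have h2 : v ≤ (s + 2 * η) / η * w := by
      rw [div_mul_eq_mul_div, le_div_iff₀ hη]
      nlinarith
    have h3 := Real.rpow_le_rpow hv.le h2 (show 0 ≤ p by linarith)
    rw [Real.mul_rpow (by positivity) hw] at h3
    have h5 : 0 ≤ (s + 2 * η) ^ (p - 2) * v ^ 2 := by positivity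
    linarith

theorem base (hs : Sob2Stmt) (hh : HardyStmt) {n : ℕ} {d : Dat n} (o : d.Ok) :
    ∃ C > 0, ∀ z ∈ d.K, ∀ γ > 0, ∀ w : Eu n → ℝ, ContDiff ℝ 1 w → (∀ x, 0 ≤ w x) →
      d.Np z γ w ^ (2 / d.p) ≤ C * (d.Uv z γ w + d.Df z γ w + d.F2 z γ w) := by
  obtain ⟨C, hC, h⟩ := hs n d o
  have hcm := o.cm_pos
  refine ⟨C * (d.cm + 1 + |1 - d.W0|), by positivity, fun z hz γ hγ w hw hw0 => ?_⟩
  have hu : ContDiff ℝ 1 fun x => w x * d.ph z γ x := hw.mul (o.ph1 hγ z)
  have h1 := h _ hu fun x => mul_nonneg (hw0 x) (o.ph_pos hγ z x).le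
  have h2 := hh n d o z γ hγ w hw
  have k1 : ∀ x, (w x * d.ph z γ x) ^ d.p = w x ^ d.p * d.lam z γ x ^ d.m := fun x => by
    rw [Real.mul_rpow (hw0 x) (o.ph_pos hγ z x).le, o.ph_p hγ]
  have k2 : ∀ x, (w x * d.ph z γ x) ^ 2 = w x ^ 2 * d.lam z γ x ^ (d.m - 2) := fun x => by
    rw [mul_pow, o.ph_sq hγ]
  unfold Dat.Y at h2
  rw [integral_add ((o.bm_Gam hu hu).integrable o)
    ((((o.bm_cont hu.continuous).pow 2).const_mul _).integrable o), integral_const_mul] at h2
  simp only [k1, k2] at h1 h2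
  change d.Np z γ w ^ (2 / d.p) ≤ C * (_ + d.F2 z γ w) at h1
  change _ + d.W0 * d.F2 z γ w = _ at h2
  have a1 := o.Uv_nonneg hγ z w
  have a2 := o.F2_nonneg hγ z w
  have a3 := (o.le_Df hγ hz hw).1
  refine h1.trans ?_
  rw [mul_assoc]
  refine mul_le_mul_of_nonneg_left ?_ hC.le
  have a4 := mul_le_mul_of_nonneg_right (le_abs_self (1 - d.W0)) a2
  have a5 := abs_nonneg (1 - d.W0)
  nlinarith [mul_nonneg a5 a1, mul_nonneg a5 a3, mul_nonneg hcm.le a2, mul_nonneg hcm.le a3]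

end TruncAux

open TruncAux in
theorem trunc_pf (hs : Sob2Stmt) (hh : HardyStmt) : TruncStmt := by
  intro n d o
  obtain ⟨C, hC, h⟩ := base hs hh o
  have hp := o.two_lt_p
  have hm := o.m3
  refine ⟨2 * C, by positivity, fun z hz γ hγ v hv hv0 hN => ⟨?_, fun s hs0 η hη => ?_⟩⟩
  · have h1 := h z hz γ hγ v hv fun x => (hv0 x).le
    rw [hN, Real.one_rpow] at h1
    linarith
  obtain ⟨P, φ, hP, hPd, hφ, hP0, hPz, hPle, hPge⟩ := cutoff s η hs0 hη
  have hw : ContDiff ℝ 1 fun x => P (v x) := hP.comp hv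
  have h1 := h z hz γ hγ _ hw fun x => hP0 _
  have bv : d.BM v := o.bm_cont hv.continuous
  have bw : d.BM fun x => P (v x) := o.bm_cont hw.continuous
  have bl := o.bm_lam hγ z
  have hl := o.lam_pos hγ z
  have hsq : ∀ x, P (v x) ^ 2 ≤ v x ^ 2 := fun x =>
    pow_le_pow_left₀ (hP0 _) (hPle _ (hv0 x).le) 2
  have hF : d.F2 z γ (fun x => P (v x)) ≤ d.F2 z γ v :=
    o.int_mono ((bw.pow 2).mul (bl.pow _)) ((bv.pow 2).mul (bl.pow _)) fun x _ =>
      mul_le_mul_of_nonneg_right (hsq x) (pow_nonneg (hl x).le _)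
  have hD1 : d.D1 z γ (fun x => P (v x)) ≤ d.D1 z γ v := by
    refine o.int_mono ((bl.pow _).mul (o.bm_Gam hw hw)) ((bl.pow _).mul (o.bm_Gam hv hv))
      fun x _ => mul_le_mul_of_nonneg_left ?_ (pow_nonneg (hl x).le _)
    rw [Dat.Gam_comp_self (hv.differentiable (by norm_num) x) (hPd (v x))]
    exact mul_le_of_le_one_left (Dat.Gam_nonneg v x) (pow_le_one₀ (hφ _).1 (hφ _).2)
  have bq : d.BM fun x => (d.al γ * d.q z x * d.lam z γ x - d.H / d.m) ^ 2 :=
    ((((o.bm_q z).const_mul _).mul bl).sub (Dat.bm_const _)).pow 2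
  have hD2 : d.D2 z γ (fun x => P (v x)) ≤ d.D2 z γ v :=
    o.int_mono (((bw.pow 2).mul (bl.pow _)).mul bq) (((bv.pow 2).mul (bl.pow _)).mul bq)
      fun x _ => mul_le_mul_of_nonneg_right
        (mul_le_mul_of_nonneg_right (hsq x) (pow_nonneg (hl x).le _)) (sq_nonneg _)
  have hL : d.Lam z (d.kk z γ v) ≤ d.Lam z (d.kk z γ fun x => P (v x)) :=
    o.Lam_anti hz (o.kk1 hγ z hv) (o.kk1 hγ z hw) fun x _ => mul_le_mul_of_nonneg_left
      (mul_le_mul_of_nonneg_right (hsq x) (pow_nonneg (hl x).le _))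
      (mul_nonneg o.th_pos.le (Dat.al_pos hγ).le)
  have hD : d.Df z γ (fun x => P (v x)) ≤ d.Df z γ v := by
    unfold Dat.Df
    have := mul_le_mul_of_nonneg_left hD2 o.cm_pos.le
    linarith
  have hp0 : 0 ≤ d.p := by linarith
  have hI1 : d.Np z γ (fun x => P (v x)) ≤ 1 := by
    rw [← hN]
    exact o.int_mono ((bw.rpow hp0).mul (bl.pow _)) ((bv.rpow hp0).mul (bl.pow _)) fun x _ =>
      mul_le_mul_of_nonneg_right (Real.rpow_le_rpow (hP0 _) (hPle _ (hv0 x).le) hp0)
        (pow_nonneg (hl x).le _)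
  have hI0 : 0 ≤ d.Np z γ (fun x => P (v x)) :=
    integral_nonneg fun x => mul_nonneg (Real.rpow_nonneg (hP0 _) _) (pow_nonneg (hl x).le _)
  have hS : MeasurableSet {x | s ≤ v x} := measurableSet_le measurable_const bv.1
  have hω : 0 ≤ ∫ x in {x | s ≤ v x}, d.lam z γ x ^ d.m ∂d.μ :=
    integral_nonneg fun x => pow_nonneg (hl x).le _
  have hU : ∀ t > 0, d.Uv z γ (fun x => P (v x)) ≤
      t ^ 2 * (∫ x in {x | s ≤ v x}, d.lam z γ x ^ d.m ∂d.μ) + t ^ (2 - d.p) := by
    intro t ht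
    have b1 := ((bl.pow d.m).indicator hS).const_mul (t ^ 2)
    have b2 := ((bw.rpow hp0).mul (bl.pow d.m)).const_mul (t ^ (2 - d.p))
    have h2 := o.int_mono ((bw.pow 2).mul (bl.pow d.m)) (b1.add b2) (by
      intro x _
      by_cases hx : x ∈ {x | s ≤ v x}
      · rw [indicator_of_mem hx]
        have := mul_le_mul_of_nonneg_right (young (hP0 (v x)) ht hp) (pow_nonneg (hl x).le d.m)
        linarith
      · rw [indicator_of_notMem hx, hPz _ (le_of_lt (not_le.1 hx)), Real.zero_rpow (by linarith)]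
        simp)
    rw [integral_add (b1.integrable o) (b2.integrable o), integral_const_mul, integral_const_mul,
      integral_indicator hS] at h2
    have h3 := mul_le_mul_of_nonneg_left hI1 (Real.rpow_nonneg ht.le (2 - d.p))
    unfold Dat.Np at h3
    unfold Dat.Uv
    linarith
  have hsp := o.int_mono ((bv.rpow hp0).mul (bl.pow d.m))
    ((((bv.pow 2).mul (bl.pow d.m)).const_mul ((s + 2 * η) ^ (d.p - 2))).add
      (((bw.rpow hp0).mul (bl.pow d.m)).const_mul (((s + 2 * η) / η) ^ d.p))) (by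
      intro x _
      have := mul_le_mul_of_nonneg_right (split (hv0 x) (hP0 (v x)) hs0 hη hp (hPge _))
        (pow_nonneg (hl x).le d.m)
      linarith)
  rw [integral_add ((((bv.pow 2).mul (bl.pow d.m)).const_mul _).integrable o)
    ((((bw.rpow hp0).mul (bl.pow d.m)).const_mul _).integrable o), integral_const_mul,
    integral_const_mul] at hsp
  change d.Np z γ v ≤ _ * d.Uv z γ v + _ * d.Np z γ (fun x => P (v x)) at hsp
  generalize ∫ x in {x | s ≤ v x}, d.lam z γ x ^ d.m ∂d.μ = ω at *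
  have hU2 : d.Uv z γ (fun x => P (v x)) ≤ 2 * ω ^ (2 / (d.m : ℝ)) := by
    rcases hω.eq_or_lt with rfl | hω
    · rw [Real.zero_rpow (by positivity), mul_zero]
      refine le_of_forall_pos_le_add fun ε hε => ?_
      have := hU (ε ^ (2 - d.p)⁻¹) (Real.rpow_pos_of_pos hε _)
      rwa [mul_zero, Real.rpow_inv_rpow hε.le (by linarith)] at this
    · have := hU (ω ^ (-1 / d.p)) (Real.rpow_pos_of_pos hω _)
      have hm2 : (d.m : ℝ) - 2 ≠ 0 := by linarith
      have hm0 : (d.m : ℝ) ≠ 0 := by linarith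
      have e1 : -1 / d.p * (2 : ℕ) + 1 = 2 / d.m := by
        rw [Dat.p]
        field_simp
        push_cast
        ring
      have e2 : -1 / d.p * (2 - d.p) = 2 / d.m := by
        rw [Dat.p]
        field_simp
        ring
      rw [← Real.rpow_mul_natCast hω.le, ← Real.rpow_add_one hω.ne', ← Real.rpow_mul hω.le,
        e1, e2] at this
      linarith
  have a2 := o.F2_nonneg hγ z v
  have a3 := (o.le_Df hγ hz hv).1
  have h2 : d.Np z γ (fun x => P (v x)) ^ (2 / d.p) ≤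
      2 * C * (ω ^ (2 / (d.m : ℝ)) + d.Df z γ v + d.F2 z γ v) := by
    refine h1.trans ?_
    nlinarith
  have h3 := Real.rpow_le_rpow (Real.rpow_nonneg hI0 _) h2 (show 0 ≤ d.p / 2 by linarith)
  rw [← Real.rpow_mul hI0, show 2 / d.p * (d.p / 2) = 1 by field_simp, Real.rpow_one] at h3
  have h4 := mul_le_mul_of_nonneg_left h3
    (Real.rpow_nonneg (show 0 ≤ (s + 2 * η) / η by positivity) d.p)
  linarith

end Vale.Agent.P219
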