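import Vale.Agent.P219.Alg

open scoped ENNReal RealInnerProductSpace Topology
open MeasureTheory Set Filter

namespace Vale.Agent.P219

namespace UDAux

theorem der {a t : ℝ} (h : 0 < t + a) :
    HasDerivAt (fun t => (√(t + a))⁻¹) (-((√(t + a))⁻¹ ^ 3) / 2) t := by
  have h0 : 0 < √(t + a) := Real.sqrt_pos.2 h
  refine ((((hasDerivAt_id t).add_const a).sqrt h.ne').inv h0.ne').congr_deriv ?_
  simp only [id]
  field_simp

theorem pw {s : ℝ} (h : 0 < s) (j : ℕ) :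
    s ^ (-(((j + 2 : ℕ) : ℝ) / 2) - 1) = (√s)⁻¹ ^ (j + 4) := by
  rw [Real.sqrt_eq_rpow, ← Real.rpow_neg h.le, ← Real.rpow_natCast, ← Real.rpow_mul h.le]
  congr 1; push_cast; ring

theorem pt {j : ℕ} {u a Q β B Γ y : ℝ} (hu : 0 < u) (ha : 0 < a) (hQ : 0 ≤ Q) (hβ : 0 ≤ β)
    (hB : 0 ≤ B) (e : u ^ 2 * (Q + a) = 1) (hΓ : Γ ≤ 2 * Q + β * Q ^ 2) (hy : y * u ≤ B) :
    (j + 2) * a * u ^ (j + 4) - 2 * B ^ 2 * (2 * B) ^ j ≤
      (u ^ (j + 2) + 2 * B * u ^ (j + 1)) * ((j + 2) * (1 + β * Q)) +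
      (-((j + 2) / 2 * u ^ (j + 4)) - 2 * B * ((j + 1) / 2 * u ^ (j + 3))) * Γ -
      (u ^ (j + 2) + 2 * B * u ^ (j + 1)) * y := by
  have hw : 0 < u ^ j := by positivity
  have e2 : u ^ (j + 2) = u ^ (j + 4) * (Q + a) := by
    rw [show u ^ (j + 4) = u ^ (j + 2) * u ^ 2 by ring, mul_assoc, e, mul_one]
  have e1 : u ^ (j + 1) = u ^ (j + 3) * (Q + a) := by
    rw [show u ^ (j + 3) = u ^ (j + 1) * u ^ 2 by ring, mul_assoc, e, mul_one]
  have hj : (0 : ℝ) ≤ j := Nat.cast_nonneg j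
  have p1 : (j + 2) * a * u ^ (j + 4) ≤ u ^ (j + 2) * ((j + 2) * (1 + β * Q)) -
      (j + 2) / 2 * u ^ (j + 4) * Γ := by
    have h1 : 0 ≤ (j + 2) * u ^ (j + 4) * ((Q + a) * (1 + β * Q) - Γ / 2 - a) :=
      mul_nonneg (by positivity) (by nlinarith [mul_nonneg hβ hQ, mul_nonneg (mul_nonneg hβ hQ) hQ])
    rw [e2]; linarith
  have p2 : u ^ (j + 1) ≤ u ^ (j + 1) * ((j + 2) * (1 + β * Q)) -
      (j + 1) / 2 * u ^ (j + 3) * Γ := by
    have h0 : 0 ≤ (Q + a) * (1 + β * Q) - Γ / 2 := by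
      nlinarith [mul_nonneg hβ hQ, mul_nonneg (mul_nonneg hβ hQ) hQ]
    have h1 : 0 ≤ u ^ (j + 3) * ((j + 1) * ((Q + a) * (1 + β * Q) - Γ / 2) + (Q + a) * (β * Q)) :=
      mul_nonneg (by positivity) (by positivity)
    rw [e1]; linarith
  have p3 : (u ^ (j + 2) + 2 * B * u ^ (j + 1)) * y ≤ (u ^ (j + 1) + 2 * B * u ^ j) * B := by
    have := mul_le_mul_of_nonneg_left hy (show 0 ≤ u ^ (j + 1) + 2 * B * u ^ j by positivity)
    calc _ = (u ^ (j + 1) + 2 * B * u ^ j) * (y * u) := by ring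
      _ ≤ _ := this
  have p4 : -(2 * B ^ 2 * (2 * B) ^ j) ≤ B * u ^ (j + 1) - 2 * B ^ 2 * u ^ j := by
    rcases le_total u (2 * B) with h | h
    · have := mul_le_mul_of_nonneg_left (pow_le_pow_left₀ hu.le h j)
        (show 0 ≤ 2 * B ^ 2 by positivity)
      have : 0 ≤ B * u ^ (j + 1) := by positivity
      linarith
    · have := mul_le_mul_of_nonneg_left h (show 0 ≤ B * u ^ j by positivity)
      have : 0 ≤ 2 * B ^ 2 * (2 * B) ^ j := by positivity
      rw [pow_succ u j]; linarith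
  have p5 := mul_le_mul_of_nonneg_left p2 (show 0 ≤ 2 * B by positivity)
  linarith

end UDAux

open UDAux Dat in
theorem ud_pf : UDStmt := by
  intro n d o
  haveI := o.fin
  obtain ⟨M, hM, hQM⟩ := o.Qmax
  obtain ⟨j, hj⟩ : ∃ j, d.m = j + 2 := ⟨d.m - 2, by have := o.hm; omega⟩
  have hH := o.hH
  set B := d.H * √(2 + d.b ^ 2 * M) with hB
  have hB0 : 0 ≤ B := by positivity
  set C := 2 * B ^ 2 * (2 * B) ^ j with hC
  have hC0 : 0 ≤ C := by positivity
  refine ⟨C * d.μ.real univ + 1, by positivity, fun z hz a ha => ?_⟩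
  have hs : ∀ x, 0 < d.Q z x + a := fun x => by linarith [o.Q_nonneg z x]
  have hr : ∀ x, 0 < √(d.Q z x + a) := fun x => Real.sqrt_pos.2 (hs x)
  have hu : ContDiff ℝ 1 fun x => (√(d.Q z x + a))⁻¹ :=
    (((o.Q1 z).add contDiff_const).sqrt fun x => (hs x).ne').inv fun x => (hr x).ne'
  have hk : ContDiff ℝ 1 fun x =>
      (√(d.Q z x + a))⁻¹ ^ (j + 2) + 2 * B * (√(d.Q z x + a))⁻¹ ^ (j + 1) :=
    (hu.pow _).add (contDiff_const.mul (hu.pow _))
  have h1 := o.fv z hz _ hk fun x _ => by have := hr x; positivity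
  have hb : d.BM fun x => (√(d.Q z x + a))⁻¹ ^ (j + 4) := o.bm_cont (hu.continuous.pow _)
  have h2 := (o.int_mono ((hb.const_mul ((j + 2) * a)).sub (bm_const C)) (o.bm_Lam z hk)
    fun x hx => ?_).trans h1
  · rw [integral_sub ((hb.const_mul _).integrable o) (integrable_const _), integral_const_mul,
      integral_const, smul_eq_mul] at h2
    simp only [hj, pw (hs _)]
    rw [le_div_iff₀ ha]
    have h3 : 0 ≤ ∫ x, (√(d.Q z x + a))⁻¹ ^ (j + 4) ∂d.μ :=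
      integral_nonneg fun x => by have := hr x; positivity
    nlinarith [mul_nonneg (Nat.cast_nonneg (α := ℝ) j) (mul_nonneg ha.le h3), mul_nonneg ha.le h3]
  · have hd := ((der (hs x)).pow (j + 2)).add (((der (hs x)).pow (j + 1)).const_mul (2 * B))
    have hG := Gam_comp (d := d) (ψ := fun t => (√(t + a))⁻¹ ^ (j + 2) +
      2 * B * (√(t + a))⁻¹ ^ (j + 1)) (o.Qd z x) hd (d.Q z)
    rw [hG, hj]
    have hy : d.H * d.q z x * (√(d.Q z x + a))⁻¹ ≤ B := by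
      rw [mul_inv_le_iff₀ (hr x), hB, mul_assoc, ← Real.sqrt_mul (by positivity)]
      refine mul_le_mul_of_nonneg_left ((le_abs_self _).trans ((o.abs_q_le z x).trans
        (Real.sqrt_le_sqrt ?_))) hH.le
      have q0 := o.Q_nonneg z x
      have q1 := mul_le_mul_of_nonneg_left (hQM z hz x hx) (mul_nonneg (sq_nonneg d.b) q0)
      have q2 : 0 ≤ d.b ^ 2 * M * a := by positivity
      unfold s2; nlinarith
    have := pt (j := j) (inv_pos.2 (hr x)) ha (o.Q_nonneg z x) (sq_nonneg d.b) hB0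
      (by rw [inv_pow, Real.sq_sqrt (hs x).le, inv_mul_cancel₀ (hs x).ne']) (o.GamQ_le z x) hy
    refine this.trans (le_of_eq ?_)
    simp only [Nat.add_sub_cancel, show j + 2 - 1 = j + 1 from rfl]
    push_cast
    ring

end Vale.Agent.P219
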