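import Vale.Agent.P219.Alg

/-! Weak type Sobolev inequality. -/

open scoped ENNReal RealInnerProductSpace Topology
open MeasureTheory Set Filter

namespace Vale.Agent.P219

namespace WeakAux

variable {n : ℕ} {d : Dat n}

/-- the kernel has small integral over small sets -/
theorem small (o : d.Ok) {C : ℝ} {y : Eu n} (hi : Integrable (d.ker y) d.μ)
    (hC : ∀ a > 0, ∫ x in {x | d.Q y x < a}, d.ker y x ∂d.μ ≤ C * √a) {S : Set (Eu n)}
    (hS : MeasurableSet S) (hs : 0 < d.μ.real S) :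
    ∫ x in S, d.ker y x ∂d.μ ≤ (C + 1) * d.μ.real S ^ (1 / (d.m : ℝ)) := by
  haveI := o.fin
  have hm := o.m3
  have hm0 : (d.m : ℝ) ≠ 0 := o.m_pos.ne'
  obtain ⟨r, hr⟩ : ∃ r, r = d.μ.real S ^ (2 / (d.m : ℝ)) := ⟨_, rfl⟩
  have hr0 : 0 < r := hr ▸ Real.rpow_pos_of_pos hs _
  have hB : MeasurableSet {x | d.Q y x < r} :=
    measurableSet_lt (o.Qc y).measurable measurable_const
  have e1 : √r = d.μ.real S ^ (1 / (d.m : ℝ)) := by
    rw [hr, Real.sqrt_eq_rpow, ← Real.rpow_mul hs.le]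
    congr 1
    field_simp
  have e2 : d.μ.real S * r ^ ((1 - (d.m : ℝ)) / 2) = d.μ.real S ^ (1 / (d.m : ℝ)) := by
    rw [hr, ← Real.rpow_mul hs.le, ← Real.rpow_one_add' hs.le]
    · congr 1
      field_simp
      ring
    · have : 1 + 2 / (d.m : ℝ) * ((1 - (d.m : ℝ)) / 2) = 1 / (d.m : ℝ) := by
        field_simp
        ring
      rw [this]
      exact one_div_ne_zero hm0
  have i1 : Integrable ({x | d.Q y x < r}.indicator (d.ker y)) d.μ := hi.indicator hB
  have i2 : Integrable (S.indicator fun _ => r ^ ((1 - (d.m : ℝ)) / 2)) d.μ :=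
    (integrable_const _).indicator hS
  have h1 : ∫ x in S, d.ker y x ∂d.μ ≤ ∫ x, ({x | d.Q y x < r}.indicator (d.ker y) x +
      S.indicator (fun _ => r ^ ((1 - (d.m : ℝ)) / 2)) x) ∂d.μ := by
    rw [← integral_indicator hS]
    refine integral_mono (hi.indicator hS) (i1.add i2) fun x => ?_
    have k0 := o.ker_nonneg y x
    have r0 : 0 ≤ r ^ ((1 - (d.m : ℝ)) / 2) := Real.rpow_nonneg hr0.le _
    by_cases hx : x ∈ S
    · by_cases hq : d.Q y x < r
      · simp [hx, hq, r0]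
      · simp only [hx, indicator_of_mem, mem_setOf_eq, hq, not_false_eq_true, indicator_of_notMem,
          zero_add]
        exact Real.rpow_le_rpow_of_nonpos hr0 (not_lt.1 hq) (by linarith)
    · by_cases hq : d.Q y x < r
      · simp [hx, hq, k0]
      · simp [hx, hq]
  rw [integral_add i1 i2, integral_indicator hB, integral_indicator hS, setIntegral_const,
    smul_eq_mul, e2] at h1
  have := hC r hr0
  rw [e1] at this
  linarith

theorem prod_int (o : d.Ok) {C : ℝ} (hi : ∀ z ∈ d.K, Integrable (d.ker z) d.μ)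
    (hC : ∀ z ∈ d.K, ∫ x, d.ker z x ∂d.μ ≤ C) {w : Eu n → ℝ} (hw : d.BM w) (S : Set (Eu n)) :
    Integrable (fun p : Eu n × Eu n => w p.2 * d.ker p.1 p.2) ((d.μ.restrict S).prod d.μ) := by
  haveI := o.fin
  obtain ⟨D, hD⟩ := hw.2
  have h1 : Integrable (fun p : Eu n × Eu n => d.ker p.1 p.2) ((d.μ.restrict S).prod d.μ) := by
    rw [integrable_prod_iff o.meas_ker.aestronglyMeasurable]
    refine ⟨ae_restrict_of_ae (o.supp.mono hi), ?_⟩
    refine (integrable_const C).mono'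
      o.meas_ker.norm.stronglyMeasurable.integral_prod_right'.aestronglyMeasurable
      (ae_restrict_of_ae (o.supp.mono fun z hz => ?_))
    have e : ∀ x, ‖d.ker z x‖ = d.ker z x := fun x => Real.norm_of_nonneg (o.ker_nonneg z x)
    simp only [e]
    rw [Real.norm_of_nonneg (integral_nonneg fun x => o.ker_nonneg z x)]
    exact hC z hz
  refine h1.bdd_mul (c := D) (hw.1.comp measurable_snd).aestronglyMeasurable ?_
  exact Measure.quasiMeasurePreserving_snd.ae (o.supp.mono hD)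

end WeakAux

open WeakAux in
theorem weak_pf (hm : MonoStmt) (hk : KBStmt) : WeakStmt := by
  intro n d o
  haveI := o.fin
  obtain ⟨M, hM, hQ⟩ := o.Qmax
  obtain ⟨C, hC, hK⟩ := hk n d o
  have hmp := o.m_pos
  have hH := o.hH
  obtain ⟨c, hc⟩ : ∃ c, c = om d.m * 2 ^ ((d.m : ℝ) / 2) := ⟨_, rfl⟩
  have hc0 : 0 < c := hc ▸ mul_pos (om_pos _) (by positivity)
  obtain ⟨A, hA⟩ : ∃ A, A = (M + 1) ^ (-((d.m : ℝ) / 2)) * (1 + d.b ^ 2 * (M + 1)) := ⟨_, rfl⟩
  have hA0 : 0 < A := by rw [hA]; positivity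
  obtain ⟨B, hB⟩ : ∃ B, B = √(2 + d.b ^ 2 * (M + 1)) / d.m := ⟨_, rfl⟩
  have hB0 : 0 ≤ B := by rw [hB]; positivity
  obtain ⟨T, hT⟩ : ∃ T, T = d.μ.real univ ^ (((d.m : ℝ) - 1) / d.m) := ⟨_, rfl⟩
  have hT0 : 0 < T := hT ▸ Real.rpow_pos_of_pos o.mass_pos _
  have hexp : 0 < ((d.m : ℝ) - 1) / d.m := div_pos (by linarith [o.m3]) hmp
  refine ⟨(A * T + B * (C + 1) * (1 + d.H)) / c, by positivity, fun u hu u0 t ht => ?_⟩
  have bu : d.BM u := o.bm_cont hu.continuous
  have bg : d.BM fun x => √(d.Gam u u x) := (o.bm_Gam hu hu).sqrt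
  have bw : d.BM fun x => √(d.Gam u u x) + d.H * u x := bg.add (bu.const_mul _)
  have w0 : ∀ x, 0 ≤ √(d.Gam u u x) + d.H * u x := fun x => by have := u0 x; positivity
  obtain ⟨J, hJ⟩ : ∃ J, J = ∫ x, (√(d.Gam u u x) + u x) ∂d.μ := ⟨_, rfl⟩
  have hJ0 : 0 ≤ J := hJ ▸ integral_nonneg fun x => add_nonneg (Real.sqrt_nonneg _) (u0 x)
  have hJ1 : ∫ x, u x ∂d.μ ≤ J :=
    hJ ▸ o.int_mono bu (bg.add bu) fun x _ => le_add_of_nonneg_left (Real.sqrt_nonneg _)
  have hJ2 : ∫ x, (√(d.Gam u u x) + d.H * u x) ∂d.μ ≤ (1 + d.H) * J := by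
    rw [hJ, ← integral_const_mul]
    refine o.int_mono bw ((bg.add bu).const_mul _) fun x _ => ?_
    nlinarith [u0 x, Real.sqrt_nonneg (d.Gam u u x)]
  rw [← hJ]
  have hS : MeasurableSet {x | t ≤ u x} := measurableSet_le measurable_const bu.1
  generalize hSd : {x | t ≤ u x} = S at hS
  rcases (measureReal_nonneg (μ := d.μ) (s := S)).eq_or_lt with hs | hs
  · rw [← hs, Real.zero_rpow hexp.ne', mul_zero]
    positivity
  have hfull : ∀ z ∈ d.K, ∫ x, d.ker z x ∂d.μ ≤ C * √(M + 1) := fun z hz => by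
    refine le_trans (le_of_eq ?_) ((hK z hz).2 (M + 1) (by positivity)).2
    rw [Measure.restrict_eq_self_of_ae_mem]
    exact o.supp.mono fun x hx => lt_of_le_of_lt (hQ z hz x hx) (lt_add_one M)
  have hP := prod_int o (fun z hz => (hK z hz).1) hfull bw S
  have h1 : ∀ᵐ z ∂(d.μ.restrict S), c * t ≤ A * J +
      B * ∫ x, (√(d.Gam u u x) + d.H * u x) * d.ker z x ∂d.μ := by
    filter_upwards [ae_restrict_of_ae (hm n d o), ae_restrict_mem hS, hP.prod_right_ae]
      with z a1 a2 a3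
    have a4 := a1 u hu (fun x _ => u0 x) (M + 1) (by positivity)
    rw [← hc, ← hA, ← hB] at a4
    rw [← hSd] at a2
    have a5 : c * t ≤ c * u z := mul_le_mul_of_nonneg_left a2 hc0.le
    have a6 : ∫ x in {x | d.Q z x < M + 1}, u x ∂d.μ ≤ J :=
      (setIntegral_le_integral (bu.integrable o) (Eventually.of_forall u0)).trans hJ1
    have a7 := setIntegral_le_integral (s := {x | d.Q z x < M + 1}) a3
      (Eventually.of_forall fun x => mul_nonneg (w0 x) (o.ker_nonneg z x))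
    have a8 := mul_le_mul_of_nonneg_left a6 hA0.le
    have a9 := mul_le_mul_of_nonneg_left a7 hB0
    linarith
  have hI : Integrable (fun z => B * ∫ x, (√(d.Gam u u x) + d.H * u x) * d.ker z x ∂d.μ)
      (d.μ.restrict S) := hP.integral_prod_left.const_mul B
  have h2 : ∫ _ in S, c * t ∂d.μ ≤ ∫ z in S, (A * J +
      B * ∫ x, (√(d.Gam u u x) + d.H * u x) * d.ker z x ∂d.μ) ∂d.μ :=
    integral_mono_ae (integrable_const _) ((integrable_const _).add hI) h1
  have h3 : ∫ z in S, ∫ x, (√(d.Gam u u x) + d.H * u x) * d.ker z x ∂d.μ ∂d.μ ≤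
      (C + 1) * d.μ.real S ^ (1 / (d.m : ℝ)) * ((1 + d.H) * J) := by
    rw [integral_integral_swap hP]
    refine le_trans ?_ (mul_le_mul_of_nonneg_left hJ2 (by positivity))
    rw [← integral_const_mul]
    refine integral_mono_ae hP.integral_prod_right ((bw.integrable o).const_mul _)
      (o.supp.mono fun x hx => ?_)
    simp only [integral_const_mul, fun z => o.ker_symm z x]
    rw [mul_comm]
    exact mul_le_mul_of_nonneg_right
      (small o (hK x hx).1 (fun a ha => ((hK x hx).2 a ha).2) hS hs) (w0 x)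
  rw [integral_add (integrable_const _) hI, integral_const_mul B,
    setIntegral_const, setIntegral_const, smul_eq_mul, smul_eq_mul] at h2
  have e : d.μ.real S = d.μ.real S ^ (1 / (d.m : ℝ)) * d.μ.real S ^ (((d.m : ℝ) - 1) / d.m) := by
    rw [← Real.rpow_add hs]
    have : 1 / (d.m : ℝ) + ((d.m : ℝ) - 1) / d.m = 1 := by
      field_simp
      ring
    rw [this, Real.rpow_one]
  have hle : d.μ.real S ^ (((d.m : ℝ) - 1) / d.m) ≤ T :=
    hT ▸ Real.rpow_le_rpow hs.le (measureReal_mono (subset_univ S)) hexp.le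
  have hp : 0 < d.μ.real S ^ (1 / (d.m : ℝ)) := Real.rpow_pos_of_pos hs _
  generalize d.μ.real S ^ (1 / (d.m : ℝ)) = p at *
  generalize d.μ.real S ^ (((d.m : ℝ) - 1) / d.m) = q at *
  rw [div_mul_eq_mul_div, le_div_iff₀ hc0]
  refine le_of_mul_le_mul_left ?_ hp
  have h4 := mul_le_mul_of_nonneg_left h3 hB0
  have h5 : p * q * (A * J) ≤ p * T * (A * J) := by gcongr
  rw [e] at h2
  nlinarith

end Vale.Agent.P219
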