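import Vale.Agent.P219.Alg

/-! The map `Xi` to the unit sphere is a contraction for the conformal metric. -/

open scoped ENNReal RealInnerProductSpace Topology
open MeasureTheory Set Filter

namespace Vale.Agent.P219

namespace XiAux

theorem proj_sq {n : ℕ} {ι : Type} [Fintype ι] (W : ι → Eu n → ℝ) (L : Eu n → ℝ) (x t : Eu n)
    (hW : ∀ j, DifferentiableAt ℝ (W j) x) (hL : DifferentiableAt ℝ L x) (h0 : L x ≠ 0)
    (hs : ∀ y, ∑ j, W j y ^ 2 = L y ^ 2) :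
    ∑ j, fderiv ℝ (fun y => W j y * (L y)⁻¹) x t ^ 2 =
      (∑ j, fderiv ℝ (W j) x t ^ 2 - fderiv ℝ L x t ^ 2) * (L x)⁻¹ ^ 2 := by
  have h1 : HasFDerivAt (fun y => ∑ j, W j y ^ 2)
      (∑ j, (2 * W j x) • fderiv ℝ (W j) x) x := by
    refine HasFDerivAt.fun_sum fun j _ => ?_
    have := (hW j).hasFDerivAt.pow 2
    simpa using this
  have h2 : HasFDerivAt (fun y => L y ^ 2) ((2 * L x) • fderiv ℝ L x) x := by
    have := hL.hasFDerivAt.pow 2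
    simpa using this
  have h3 : (fun y => ∑ j, W j y ^ 2) = fun y => L y ^ 2 := funext hs
  rw [h3] at h1
  have h4 := congrArg (fun A : Eu n →L[ℝ] ℝ => A t) (h1.unique h2)
  simp only [ContinuousLinearMap.sum_apply, ContinuousLinearMap.smul_apply, smul_eq_mul] at h4
  have h5 : HasFDerivAt (fun y => (L y)⁻¹) ((-(L x ^ 2)⁻¹) • fderiv ℝ L x) x :=
    (hasDerivAt_inv h0).comp_hasFDerivAt x hL.hasFDerivAt
  have h6 : ∀ j, fderiv ℝ (fun y => W j y * (L y)⁻¹) x t =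
      W j x * (-(L x ^ 2)⁻¹ * fderiv ℝ L x t) + (L x)⁻¹ * fderiv ℝ (W j) x t := by
    intro j
    have := ((hW j).hasFDerivAt.fun_mul h5).fderiv
    rw [this]
    simp only [ContinuousLinearMap.add_apply, ContinuousLinearMap.smul_apply, smul_eq_mul]
  have h7 : ∀ j, fderiv ℝ (fun y => W j y * (L y)⁻¹) x t ^ 2 =
      W j x ^ 2 * (-(L x ^ 2)⁻¹ * fderiv ℝ L x t) ^ 2 +
        2 * W j x * fderiv ℝ (W j) x t * ((L x)⁻¹ * (-(L x ^ 2)⁻¹ * fderiv ℝ L x t)) +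
        fderiv ℝ (W j) x t ^ 2 * (L x)⁻¹ ^ 2 := by
    intro j
    rw [h6]
    ring
  simp only [h7, Finset.sum_add_distrib, ← Finset.sum_mul]
  rw [hs x, h4]
  field_simp
  ring

variable {n : ℕ} {d : Dat n} {γ : ℝ}

/-- homogeneous coordinates -/
noncomputable def Wc (d : Dat n) (z : Eu n) (γ : ℝ) (j : Option (Fin n)) (x : Eu n) : ℝ :=
  j.elim (d.ell z γ x) fun i => d.X z x i

theorem ell1 (o : d.Ok) (z : Eu n) (γ : ℝ) : ContDiff ℝ 1 (d.ell z γ) :=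
  contDiff_const.sub (contDiff_const.mul (o.Q1 z))

theorem X1 (o : d.Ok) (z : Eu n) (i : Fin n) : ContDiff ℝ 1 fun x => d.X z x i :=
  (EuclideanSpace.proj (𝕜 := ℝ) i).contDiff.comp (o.Xsm z)

theorem Wc1 (o : d.Ok) (z : Eu n) (γ : ℝ) (j : Option (Fin n)) : ContDiff ℝ 1 (Wc d z γ j) := by
  cases j with
  | none => exact ell1 o z γ
  | some i => exact X1 o z i

theorem Wc_sq (o : d.Ok) (hγ : 0 < γ) (z x : Eu n) : ∑ j, Wc d z γ j x ^ 2 = d.L z γ x ^ 2 := by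
  rw [Fintype.sum_option]
  have h1 : ∑ i, Wc d z γ (some i) x ^ 2 = d.s2 z x := by
    rw [← o.Xnorm, EuclideanSpace.real_norm_sq_eq]
    rfl
  have h2 : Wc d z γ none x = d.ell z γ x := rfl
  rw [h1, h2]
  unfold Dat.ell Dat.s2 Dat.L Dat.al
  field_simp
  ring

theorem dX (o : d.Ok) (z x t : Eu n) (i : Fin n) :
    fderiv ℝ (fun y => d.X z y i) x t = fderiv ℝ (d.X z) x t i := by
  have h := ((EuclideanSpace.proj (𝕜 := ℝ) i).hasFDerivAt).comp x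
    ((o.Xsm z).differentiable one_ne_zero x).hasFDerivAt
  have h2 : fderiv ℝ (fun y => d.X z y i) x = _ := h.fderiv
  rw [h2]
  rfl

theorem dell (o : d.Ok) (z x t : Eu n) (γ : ℝ) : fderiv ℝ (d.ell z γ) x t =
    -((1 - d.b ^ 2 * γ ^ 2) / (2 * γ) * fderiv ℝ (d.Q z) x t) := by
  have h := ((o.Qd z x).hasFDerivAt.const_mul ((1 - d.b ^ 2 * γ ^ 2) / (2 * γ))).const_sub γ
  have h2 : fderiv ℝ (d.ell z γ) x = _ := h.fderiv
  rw [h2]
  simp

theorem dL (o : d.Ok) (z x t : Eu n) (γ : ℝ) : fderiv ℝ (d.L z γ) x t =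
    d.al γ * fderiv ℝ (d.Q z) x t := by
  have h := ((o.Qd z x).hasFDerivAt.const_mul (d.al γ)).const_add γ
  have h2 : fderiv ℝ (d.L z γ) x = _ := h.fderiv
  rw [h2]
  simp

theorem point (o : d.Ok) (hγ : 0 < γ) (z x t : Eu n) :
    ∑ j, fderiv ℝ (d.Xi z γ j) x t ^ 2 =
      (‖fderiv ℝ (d.X z) x t‖ ^ 2 - d.b ^ 2 * fderiv ℝ (d.Q z) x t ^ 2) * d.lam z γ x ^ 2 := by
  have h := proj_sq (Wc d z γ) (d.L z γ) x t
    (fun j => (Wc1 o z γ j).differentiable one_ne_zero x)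
    ((o.L1 z γ).differentiable one_ne_zero x) (o.L_pos hγ z x).ne' (Wc_sq o hγ z)
  have h1 : ∑ j, fderiv ℝ (Wc d z γ j) x t ^ 2 =
      fderiv ℝ (d.ell z γ) x t ^ 2 + ‖fderiv ℝ (d.X z) x t‖ ^ 2 := by
    rw [Fintype.sum_option, EuclideanSpace.real_norm_sq_eq]
    have h2 : ∀ i, fderiv ℝ (Wc d z γ (some i)) x t = fderiv ℝ (d.X z) x t i := dX o z x t
    simp only [h2]
    rfl
  rw [h1, dell o, dL o] at h
  refine Eq.trans h ?_
  unfold Dat.lam Dat.al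
  congr 1
  field_simp
  ring

end XiAux

open XiAux in
theorem xi_pf : XiStmt := by
  intro n d o z γ hγ
  refine ⟨fun j => (Wc1 o z γ j).mul (o.lam1 hγ z), fun x => ?_, fun x => ?_⟩
  · have h1 : ∀ j, d.Xi z γ j x ^ 2 = Wc d z γ j x ^ 2 * (d.L z γ x)⁻¹ ^ 2 := fun j =>
      mul_pow _ _ _
    simp only [h1, ← Finset.sum_mul]
    rw [Wc_sq o hγ]
    have := (o.L_pos hγ z x).ne'
    field_simp
  · have h1 : ∑ j, d.Gam (d.Xi z γ j) (d.Xi z γ j) x =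
        ∑ i, ∑ j, fderiv ℝ (d.Xi z γ j) x (d.τ x i) ^ 2 := by
      rw [Finset.sum_comm]
      unfold Dat.Gam
      simp only [sq]
    have h2 : d.Gam (d.Q z) (d.Q z) x = ∑ i, fderiv ℝ (d.Q z) x (d.τ x i) ^ 2 := by
      unfold Dat.Gam
      simp only [sq]
    have h3 := o.Xcon z x
    rw [h1]
    simp only [point o hγ, ← Finset.sum_mul, Finset.sum_sub_distrib, ← Finset.mul_sum]
    rw [← h2]
    exact mul_le_mul_of_nonneg_right (by linarith) (sq_nonneg _)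

end Vale.Agent.P219
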