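import Vale.Agent.P219.Avg
import Vale.Agent.P219.BMin
import Vale.Agent.P219.BRiesz
import Vale.Agent.P219.BVar
import Vale.Agent.P219.Bal
import Vale.Agent.P219.Beta
import Vale.Agent.P219.Const
import Vale.Agent.P219.Core
import Vale.Agent.P219.DMain
import Vale.Agent.P219.Eq
import Vale.Agent.P219.Frame
import Vale.Agent.P219.Fv
import Vale.Agent.P219.GMain
import Vale.Agent.P219.Hardy
import Vale.Agent.P219.KB
import Vale.Agent.P219.Kappa
import Vale.Agent.P219.Lev
import Vale.Agent.P219.Lip
import Vale.Agent.P219.Mono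
import Vale.Agent.P219.NearPt
import Vale.Agent.P219.Ok
import Vale.Agent.P219.Pot
import Vale.Agent.P219.Prof
import Vale.Agent.P219.Rev
import Vale.Agent.P219.RigBall
import Vale.Agent.P219.RigVol
import Vale.Agent.P219.Sharp
import Vale.Agent.P219.Step
import Vale.Agent.P219.Sob1
import Vale.Agent.P219.Sob2
import Vale.Agent.P219.Taylor
import Vale.Agent.P219.Term
import Vale.Agent.P219.Trunc
import Vale.Agent.P219.UD
import Vale.Agent.P219.Weak
import Vale.Agent.P219.Xi

/-! Assembly in dimension at least four. -/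

namespace Vale.Agent.P219

theorem sob_all : SobStmt :=
  have kb := kb_pf ud_pf
  have mono := mono_pf lip_pf kb
  have step := step_pf (bal_pf kb) xi_pf hardy_pf (avg_pf taylor_pf)
  have lev := lev_pf ud_pf (nearPt_pf mono (kappa_pf beta_pf) (rev_pf lip_pf) kb) (pot_pf kb)
  have trunc := trunc_pf (sob2_pf (sob1_pf (weak_pf mono kb))) hardy_pf
  sob_pf step (sharp_pf step (term_pf lev trunc)) eq_pf

theorem core_all : CoreStmt :=
  core_pf prof_pf geo_pf frame_pf (riesz_pf frame_pf) min_pf
    (ok_pf (fv_pf var_pf) (dens_pf frame_pf)) sob_all (rigBall_pf const_pf) rigVol_pf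

end Vale.Agent.P219
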