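import Vale.Agent.P219.Alg

/-! The monotonicity formula. -/

open scoped ENNReal RealInnerProductSpace Topology
open MeasureTheory Set Filter

namespace Vale.Agent.P219

namespace MonoAux

theorem ptA {m b2 Q a a1 h G : ℝ} (hm : 0 < m) (hb : 0 ≤ b2) (hQ : 0 ≤ Q) (h1 : Q < a1)
    (ha : 0 < a) (hh : 0 ≤ h) (hG : G ≤ 2 * Q + b2 * Q ^ 2) :
    m * a ^ (-(m / 2)) * (if Q < a then h else 0) - m * (a1 ^ (-(m / 2)) * (1 + b2 * a1)) * h ≤
      h * (max Q a ^ (-(m / 2)) - a1 ^ (-(m / 2))) * (m * (1 + b2 * Q)) +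
        h * (if a < Q then -(m / 2) * Q ^ (-(m / 2) - 1) else 0) * G := by
  have p1 : 0 ≤ a1 ^ (-(m / 2)) := Real.rpow_nonneg (hQ.trans h1.le) _
  have pa : 0 ≤ a ^ (-(m / 2)) := Real.rpow_nonneg ha.le _
  have e1 : h * m * a1 ^ (-(m / 2)) * (b2 * Q) ≤ h * m * a1 ^ (-(m / 2)) * (b2 * a1) :=
    mul_le_mul_of_nonneg_left (mul_le_mul_of_nonneg_left h1.le hb) (by positivity)
  by_cases hc : a < Q
  · have hQ0 : 0 < Q := ha.trans hc
    rw [if_pos hc, if_neg hc.le.not_gt, max_eq_left hc.le]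
    have e2 : Q ^ (-(m / 2)) = Q ^ (-(m / 2) - 1) * Q := by
      rw [Real.rpow_sub_one hQ0.ne', div_mul_cancel₀ _ hQ0.ne']
    have p2 : 0 ≤ Q ^ (-(m / 2) - 1) := Real.rpow_nonneg hQ _
    have e3 : h * (m / 2) * Q ^ (-(m / 2) - 1) * G ≤
        h * (m / 2) * Q ^ (-(m / 2) - 1) * (2 * Q + b2 * Q ^ 2) :=
      mul_le_mul_of_nonneg_left hG (by positivity)
    have e4 : 0 ≤ h * (m / 2) * Q ^ (-(m / 2) - 1) * (b2 * Q ^ 2) := by positivity
    rw [e2]
    linarith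
  · rw [if_neg hc, max_eq_right (not_lt.1 hc)]
    have e2 : (if Q < a then h else 0) ≤ h := by split_ifs; exacts [le_rfl, hh]
    have e3 := mul_le_mul_of_nonneg_left e2 (mul_nonneg hm.le pa)
    have e4 : 0 ≤ h * m * a ^ (-(m / 2)) * (b2 * Q) := by positivity
    linarith

theorem ptB {m b2 Q a a1 : ℝ} (hm : 0 < m) (hb : 0 ≤ b2) (hQ : 0 ≤ Q) (h1 : Q < a1)
    (ha : 0 < a) (ha1 : a < a1) :
    0 ≤ max Q a ^ (-(m / 2)) - a1 ^ (-(m / 2)) ∧
    (max Q a ^ (-(m / 2)) - a1 ^ (-(m / 2))) * √(2 * Q + b2 * Q ^ 2) ≤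
      √(2 + b2 * a1) * Q ^ ((1 - m) / 2) := by
  have hn : -(m / 2) ≤ 0 := by linarith
  refine ⟨sub_nonneg.2 (Real.rpow_le_rpow_of_nonpos (lt_max_of_lt_right ha)
    (max_le h1.le ha1.le) hn), ?_⟩
  rcases hQ.eq_or_lt with rfl | hQ0
  · have := Real.rpow_nonneg (le_refl (0 : ℝ)) ((1 - m) / 2)
    rw [show 2 * (0 : ℝ) + b2 * 0 ^ 2 = 0 by ring, Real.sqrt_zero, mul_zero]
    positivity
  · have e1 : max Q a ^ (-(m / 2)) ≤ Q ^ (-(m / 2)) :=
      Real.rpow_le_rpow_of_nonpos hQ0 (le_max_left _ _) hn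
    have p1 : 0 ≤ a1 ^ (-(m / 2)) := Real.rpow_nonneg (hQ.trans h1.le) _
    have e2 : √(2 * Q + b2 * Q ^ 2) ≤ √(2 + b2 * a1) * Q ^ (1 / 2 : ℝ) := by
      rw [← Real.sqrt_eq_rpow, ← Real.sqrt_mul' _ hQ]
      refine Real.sqrt_le_sqrt ?_
      have := mul_le_mul_of_nonneg_left h1.le (mul_nonneg hb hQ)
      linarith
    calc _ ≤ Q ^ (-(m / 2)) * (√(2 + b2 * a1) * Q ^ (1 / 2 : ℝ)) :=
          mul_le_mul (by linarith) e2 (Real.sqrt_nonneg _) (Real.rpow_nonneg hQ _)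
      _ = _ := by
          rw [show (1 - m) / 2 = -(m / 2) + 1 / 2 by ring, Real.rpow_add hQ0]
          ring

theorem pf {θ a a1 : ℝ} (hθ : 0 < θ) (ha : 0 < a) (ha1 : a < a1) :
    Pf (fun s => s ^ (-θ) - a1 ^ (-θ)) (fun s => -θ * s ^ (-θ - 1)) a a1 where
  lt := ha1
  der s hs := (Real.hasDerivAt_rpow_const (Or.inl (ha.trans_le hs.1).ne')).sub_const _
  cont := continuousOn_const.mul
    (continuousOn_id.rpow_const fun s hs => Or.inl (ha.trans_le hs.1).ne')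
  np s hs := mul_nonpos_of_nonpos_of_nonneg (by linarith) (Real.rpow_nonneg (ha.le.trans hs.1) _)
  zero := sub_self _

variable {n : ℕ} {d : Dat n} {z : Eu n} {h : Eu n → ℝ}

theorem key (hl : LipStmt) (o : d.Ok) (hz : z ∈ d.K) (hi : Integrable (d.ker z) d.μ)
    (hh : ContDiff ℝ 1 h) (h0 : ∀ x ∈ d.K, 0 ≤ h x) {a a1 : ℝ} (ha : 0 < a) (ha1 : a < a1) :
    a ^ (-((d.m : ℝ) / 2)) * ∫ x in {x | d.Q z x < a}, h x ∂d.μ ≤
      a1 ^ (-((d.m : ℝ) / 2)) * (1 + d.b ^ 2 * a1) * ∫ x in {x | d.Q z x < a1}, h x ∂d.μ +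
      √(2 + d.b ^ 2 * a1) / d.m *
        ∫ x in {x | d.Q z x < a1}, (√(d.Gam h h x) + d.H * h x) * d.ker z x ∂d.μ := by
  have hm := o.m_pos
  have hL := (hl n d o z hz h _ _ a a1 hh h0 (pf (half_pos hm) ha ha1)).1
  have mS : ∀ t, MeasurableSet {x | d.Q z x < t} := fun t =>
    (isOpen_lt (o.Qc z) continuous_const).measurableSet
  have bh : d.BM h := o.bm_cont hh.continuous
  have cm : ∀ r : ℝ, Continuous fun x => max (d.Q z x) a ^ r := fun r =>
    ((o.Qc z).max continuous_const).rpow_const fun x => Or.inl (lt_max_of_lt_right ha).ne'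
  have bF : d.BM fun x => max (d.Q z x) a ^ (-((d.m : ℝ) / 2)) - a1 ^ (-((d.m : ℝ) / 2)) :=
    o.bm_cont ((cm _).sub continuous_const)
  have bF' : d.BM fun x => if a < d.Q z x then
      -((d.m : ℝ) / 2) * d.Q z x ^ (-((d.m : ℝ) / 2) - 1) else 0 := by
    have := Dat.BM.ite (P := fun x => a < d.Q z x)
      (isOpen_lt continuous_const (o.Qc z)).measurableSet
      ((o.bm_cont (cm (-((d.m : ℝ) / 2) - 1))).const_mul (-((d.m : ℝ) / 2))) (Dat.bm_const 0)
    refine (congrArg d.BM (funext fun x => ?_)).mp this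
    split_ifs with hx
    · rw [max_eq_left hx.le]
    · rfl
  have bI := ((((bh.mul bF).mul
    (((Dat.bm_const 1).add ((o.bm_Q z).const_mul (d.b ^ 2))).const_mul d.m)).add
    ((bh.mul bF').mul (o.bm_Gam (o.Q1 z) (o.Q1 z)))).add (bF.mul (o.bm_Gam hh (o.Q1 z)))).sub
    (((bh.const_mul d.H).mul bF).mul (o.bm_q z))
  have bw : d.BM fun x => √(d.Gam h h x) + d.H * h x := (o.bm_Gam hh hh).sqrt.add (bh.const_mul _)
  have iw : Integrable (fun x => (√(d.Gam h h x) + d.H * h x) * d.ker z x) d.μ := by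
    obtain ⟨C, hC⟩ := bw.2
    exact hi.bdd_mul bw.1.aestronglyMeasurable (o.supp.mono fun x hx => hC x hx)
  have bi : d.BM fun x => if d.Q z x < a then h x else 0 := Dat.BM.ite (mS a) bh (Dat.bm_const 0)
  have i1 := ((bi.integrable o).const_mul (d.m * a ^ (-((d.m : ℝ) / 2)))).integrableOn
    (s := {x | d.Q z x < a1})
  have i2 := ((bh.integrable o).const_mul
    (d.m * (a1 ^ (-((d.m : ℝ) / 2)) * (1 + d.b ^ 2 * a1)))).integrableOn (s := {x | d.Q z x < a1})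
  have i3 := (iw.const_mul √(2 + d.b ^ 2 * a1)).integrableOn (s := {x | d.Q z x < a1})
  have hle := (setIntegral_mono_on_ae ((i1.sub i2).sub i3) (bI.integrable o).integrableOn (mS a1)
    (o.supp.mono fun x hx hx1 => by
      have hA := ptA hm (sq_nonneg d.b) (o.Q_nonneg z x) hx1 ha (h0 x hx) (o.GamQ_le z x)
      obtain ⟨hB0, hB⟩ := ptB hm (sq_nonneg d.b) (o.Q_nonneg z x) hx1 ha ha1
      have w0 : 0 ≤ √(d.Gam h h x) + d.H * h x :=
        add_nonneg (Real.sqrt_nonneg _) (mul_nonneg o.hH.le (h0 x hx))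
      have e1 := mul_le_mul_of_nonneg_left hB w0
      have e2 := mul_le_mul_of_nonneg_left (abs_le.1 (o.abs_GamQ_le h z x)).1 hB0
      have e3 := mul_le_mul_of_nonneg_left (abs_le.1 (o.abs_q_le z x)).2
        (mul_nonneg (mul_nonneg o.hH.le (h0 x hx)) hB0)
      simp only [Pi.sub_apply]
      unfold Dat.ker
      unfold Dat.s2 at e2 e3
      linarith)).trans hL
  have eI : ∫ x in {x | d.Q z x < a1}, (if d.Q z x < a then h x else 0) ∂d.μ =
      ∫ x in {x | d.Q z x < a}, h x ∂d.μ := by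
    have := setIntegral_indicator (μ := d.μ) (s := {x | d.Q z x < a1}) (f := h) (mS a)
    have hs : {x | d.Q z x < a} ⊆ {x | d.Q z x < a1} := fun x (hx : d.Q z x < a) => hx.trans ha1
    rw [inter_eq_right.2 hs] at this
    rw [← this]
    exact integral_congr_ae (Eventually.of_forall fun x => by simp [indicator])
  rw [integral_sub' (i1.sub i2) i3, integral_sub' i1 i2, integral_const_mul, integral_const_mul,
    integral_const_mul, eI] at hle
  refine le_of_mul_le_mul_left ?_ hm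
  rw [mul_add, ← mul_assoc (d.m : ℝ) (_ / _), mul_div_cancel₀ _ hm.ne']
  linarith

end MonoAux

theorem mono_pf (hl : LipStmt) (hk : KBStmt) : MonoStmt := by
  intro n d o
  obtain ⟨C, -, hC⟩ := hk n d o
  haveI := o.fin
  filter_upwards [o.supp, o.ld] with z hz hd h hh h0 a1 ha1
  have hom := om_pos d.m
  have main : ∀ η > 0, max (h z - η) 0 * ((1 - η) * om d.m * 2 ^ ((d.m : ℝ) / 2)) ≤
      a1 ^ (-((d.m : ℝ) / 2)) * (1 + d.b ^ 2 * a1) * ∫ x in {x | d.Q z x < a1}, h x ∂d.μ +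
      √(2 + d.b ^ 2 * a1) / d.m *
        ∫ x in {x | d.Q z x < a1}, (√(d.Gam h h x) + d.H * h x) * d.ker z x ∂d.μ := by
    intro η hη
    obtain ⟨a0, ha0, hmin⟩ := (o.cpt.inter_right (isClosed_le hh.continuous
      (continuous_const (y := h z - η)))).exists_forall_le' (o.Qc z).continuousOn (a := 0)
      fun x hx => o.pos z x fun e => by
        have : h x ≤ h z - η := hx.2
        rw [e] at this
        linarith
    obtain ⟨a, h1, ha, hlt⟩ := ((hd η hη).and_eventually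
      (Ioo_mem_nhdsGT (lt_min ha0 ha1))).exists
    have mS : MeasurableSet {x | d.Q z x < a} :=
      (isOpen_lt (o.Qc z) continuous_const).measurableSet
    have h2 := o.setInt_mono mS (Dat.bm_const (max (h z - η) 0)) (o.bm_cont hh.continuous)
      fun x hx hxa => max_le (not_lt.1 fun hc => by
        have h3 := hmin x ⟨hx, hc.le⟩
        have h4 : d.Q z x < a := hxa
        linarith [hlt.trans_le (min_le_left _ _)]) (h0 x hx)
    rw [setIntegral_const, smul_eq_mul] at h2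
    refine le_trans ?_ (MonoAux.key hl o hz (hC z hz).1 hh h0 ha (hlt.trans_le (min_le_right _ _)))
    have h3 := (mul_le_mul_of_nonneg_right h1 (le_max_right (h z - η) 0)).trans h2
    refine le_trans (le_of_eq ?_) (mul_le_mul_of_nonneg_left h3 (Real.rpow_nonneg ha.le _))
    have h4 : 0 < a ^ ((d.m : ℝ) / 2) := Real.rpow_pos_of_pos ha _
    rw [Real.mul_rpow zero_le_two ha.le, Real.rpow_neg ha.le]
    field_simp
  have ht : Tendsto (fun η : ℝ => max (h z - η) 0 * ((1 - η) * om d.m * 2 ^ ((d.m : ℝ) / 2)))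
      (𝓝[>] 0) (𝓝 (max (h z - 0) 0 * ((1 - 0) * om d.m * 2 ^ ((d.m : ℝ) / 2)))) :=
    tendsto_nhdsWithin_of_tendsto_nhds (Continuous.tendsto (by fun_prop) 0)
  have := le_of_tendsto ht (eventually_mem_nhdsWithin.mono main)
  rwa [sub_zero, sub_zero, one_mul, max_eq_left (h0 z hz), mul_comm] at this

end Vale.Agent.P219
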