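import Vale.Agent.P219.Base

/-! Part D (lower density of the perimeter measure): statements. -/

open scoped ENNReal RealInnerProductSpace Topology
open MeasureTheory Set Filter Metric

namespace Vale.Agent.P219.D

/-- The flat model: normal coordinate and tangential coordinates (sup norm, product measure). -/
abbrev F (m : ℕ) : Type := ℝ × Eu m

variable {m n : ℕ}

/-- The normal coordinate. -/
noncomputable abbrev nc (m : ℕ) : F m →L[ℝ] ℝ := ContinuousLinearMap.fst ℝ ℝ (Eu m)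

/-- The flat Gauss-Green formula: the gradient of the indicator of `Ω` is `-β μ`. -/
structure GG {V : Type} [NormedAddCommGroup V] [NormedSpace ℝ V] [MeasureSpace V]
    (Ω : Set V) (μ : Measure V) (β : V → V →L[ℝ] ℝ) : Prop where
  meas : MeasurableSet Ω
  fin : IsFiniteMeasure μ
  int : Integrable β μ
  gauss : ∀ φ : V → ℝ, ContDiff ℝ 1 φ → HasCompactSupport φ → ∀ v,
    ∫ y in Ω, fderiv ℝ φ y v = ∫ y, φ y * β y v ∂μ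

/-- Weighted measure of the slice of `Ω` at height `s`. -/
noncomputable def sl (ζ : Eu m → ℝ) (Ω : Set (F m)) (s : ℝ) : ℝ :=
  ∫ x, ζ x * Ω.indicator (fun _ => (1 : ℝ)) (s, x)

/-- The conormal divided by the density. -/
noncomputable def nu (G : Met n) (N : Eu n → Eu n) (z : Eu n) : Eu n →L[ℝ] ℝ :=
  (wt G z)⁻¹ • G z (N z)

/-- Approximation of an indicator by a test function. -/
def ApxS : Prop := ∀ (V : Type) [NormedAddCommGroup V] [NormedSpace ℝ V] [FiniteDimensional ℝ V]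
  [MeasurableSpace V] [BorelSpace V] (lam : Measure V) [IsLocallyFiniteMeasure lam] (U A : Set V),
  IsOpen U → MeasurableSet A → A ⊆ U → lam A ≠ ⊤ → ∀ η : ℝ, 0 < η →
  ∃ φ : V → ℝ, ContDiff ℝ 1 φ ∧ HasCompactSupport φ ∧ Function.support φ ⊆ U ∧
    (∀ y, 0 ≤ φ y ∧ φ y ≤ 1) ∧ ∫ y, |φ y - A.indicator (fun _ => (1 : ℝ)) y| ∂lam ≤ η

/-- Translation estimate. -/
def TransS : Prop := ∀ (m : ℕ) (Ω : Set (F m)) (μ : Measure (F m)) (β : F m → F m →L[ℝ] ℝ),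
  GG Ω μ β → ∀ (U W : Set (F m)) (v : F m), IsOpen U → Bornology.IsBounded U → MeasurableSet W →
  (∀ y ∈ U, ∀ σ ∈ Icc (0 : ℝ) 1, y + σ • v ∈ W) →
  volume.real {y | y ∈ U ∧ y ∉ Ω ∧ y + v ∈ Ω} ≤ ∫ y in W, |β y v| ∂μ

/-- A plateau function with prescribed derivative. -/
def PsiS : Prop := ∀ (ρ : ℝ) (α₁ α₂ : ℝ → ℝ), 0 < ρ → Continuous α₁ → Continuous α₂ →
  (∀ s, 0 ≤ α₁ s) → (∀ s, 0 ≤ α₂ s) → Function.support α₁ ⊆ Ioo (-(2 * ρ)) (-ρ) →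
  Function.support α₂ ⊆ Ioo ρ (2 * ρ) → ∫ s, α₁ s = ∫ s, α₂ s →
  ∃ ψ : ℝ → ℝ, ContDiff ℝ 1 ψ ∧ HasCompactSupport ψ ∧ (∀ s, deriv ψ s = α₁ s - α₂ s) ∧
    (∀ s, 0 ≤ ψ s ∧ ψ s ≤ ∫ s, α₁ s) ∧ (∀ s, |s| ≤ ρ → ψ s = ∫ s, α₁ s) ∧
    ∀ s, 2 * ρ ≤ |s| → ψ s = 0

/-- A weak lower bound is an almost everywhere lower bound. -/
def OneS : Prop := ∀ (a b d Z : ℝ) (q : ℝ → ℝ), Measurable q → (∀ s, |q s| ≤ Z) →
  (∀ α : ℝ → ℝ, Continuous α → (∀ s, 0 ≤ α s) → Function.support α ⊆ Ioo a b →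
    d * ∫ s, α s ≤ ∫ s, α s * q s) → ∀ᵐ s, s ∈ Ioo a b → d ≤ q s

/-- The derivative of the slice function. -/
def SliceS : Prop := ∀ (m : ℕ) (Ω : Set (F m)) (μ : Measure (F m)) (β : F m → F m →L[ℝ] ℝ),
  GG Ω μ β → ∀ ζ : Eu m → ℝ, ContDiff ℝ 1 ζ → HasCompactSupport ζ → (∀ x, 0 ≤ ζ x) →
  Measurable (sl ζ Ω) ∧ (∀ s, 0 ≤ sl ζ Ω s ∧ sl ζ Ω s ≤ ∫ x, ζ x) ∧
  ∀ ψ : ℝ → ℝ, ContDiff ℝ 1 ψ → HasCompactSupport ψ →
    ∫ s, deriv ψ s * sl ζ Ω s = ∫ y, ψ y.1 * ζ y.2 * β y (1, 0) ∂μ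

/-- Slices are almost full or almost empty. -/
def VarS : Prop := ∀ (m : ℕ) (Ω : Set (F m)) (μ : Measure (F m)) (β : F m → F m →L[ℝ] ℝ),
  GG Ω μ β → ∀ ζ : Eu m → ℝ, Continuous ζ → (∀ x, 0 ≤ ζ x ∧ ζ x ≤ 1) →
  Function.support ζ ⊆ ball 0 1 →
  ∫ s in Ioo (-1 : ℝ) 1, sl ζ Ω s * ((∫ x, ζ x) - sl ζ Ω s) ≤
    2 * volume.real (ball (0 : Eu m) 2) * ∫ y in ball 0 3, ‖β y - nc m‖ ∂μ

/-- The density estimate at unit scale. -/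
def UnitS : Prop := ∀ (m : ℕ) (ε : ℝ), 0 < ε → ∃ ρ δ : ℝ, 0 < ρ ∧ 0 < δ ∧
  ∀ (Ω : Set (F m)) (μ : Measure (F m)) (β : F m → F m →L[ℝ] ℝ), GG Ω μ β →
  0 < μ.real (ball 0 ρ) → ∫ y in ball 0 3, ‖β y - nc m‖ ∂μ ≤ δ * μ.real (ball 0 ρ) →
  (1 - ε) * om m ≤ μ.real {y | y.1 ^ 2 + ‖y.2‖ ^ 2 ≤ 1}

/-- Adapted linear coordinates. -/
def LinS : Prop := ∀ (m : ℕ) (G : Met (m + 1)) (x N : Eu (m + 1)), Rm G → G x N N = 1 →
  ∃ T : F m ≃L[ℝ] Eu (m + 1), (∀ y, G x (T y) (T y) = y.1 ^ 2 + ‖y.2‖ ^ 2) ∧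
    (∀ y, G x N (T y) = y.1) ∧
    Measure.map T volume = ENNReal.ofReal (wt G x) • (volume : Measure (Eu (m + 1)))

/-- The Gauss-Green formula in flat form. -/
def NuS : Prop := ∀ (n : ℕ) (G : Met n) (Ω : Set (Eu n)) (μ : Measure (Eu n)) (N : Eu n → Eu n),
  Rm G → MeasurableSet Ω → Bornology.IsBounded Ω → Bd G Ω μ N →
  (∀ x, 0 < wt G x) ∧ GG Ω μ (nu G N)

/-- Affine change of variables and scaling. -/
def ChgS : Prop := ∀ (m : ℕ) (Ω : Set (Eu (m + 1))) (μ : Measure (Eu (m + 1)))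
  (β : Eu (m + 1) → Eu (m + 1) →L[ℝ] ℝ) (x : Eu (m + 1)) (T : F m ≃L[ℝ] Eu (m + 1)) (c r : ℝ),
  GG Ω μ β → 0 < c → 0 < r →
  Measure.map T volume = ENNReal.ofReal c • (volume : Measure (Eu (m + 1))) →
  GG {y : F m | x + r • T y ∈ Ω}
    (ENNReal.ofReal (r ^ m)⁻¹ • Measure.map (fun z => r⁻¹ • T.symm (z - x)) μ)
    fun y => c • (β (x + r • T y)).comp (T : F m →L[ℝ] Eu (m + 1))

/-- Lebesgue points at doubling scales. -/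
def DiffS : Prop := ∀ (n : ℕ) (μ : Measure (Eu n)) (f : Eu n → Eu n →L[ℝ] ℝ), IsFiniteMeasure μ →
  Integrable f μ → ∀ᵐ x ∂μ, ∀ K ρ δ : ℝ, 0 < K → 0 < ρ → 0 < δ → ∃ᶠ r in 𝓝[>] (0 : ℝ),
    0 < μ.real (ball x (ρ * r)) ∧
    ∫ z in closedBall x (K * r), ‖f z - f x‖ ∂μ ≤ δ * μ.real (ball x (ρ * r))

end Vale.Agent.P219.D
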