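import Vale.Agent.P219.Base
import Vale.Agent.P255.Jac_x

/-! Part G: definitions, statements of the pieces and basic calculus facts. -/

open scoped ContDiff RealInnerProductSpace Topology
open Set Filter

set_option maxSynthPendingDepth 3

namespace Vale.Agent.P219.G

open Vale.Agent.P255

variable {n : ℕ}

/-- `F (r²) = qf b r` and `r k (r²) = sn b r`. -/
structure Ent (b : ℝ) (F k : ℝ → ℝ) : Prop where
  Fsm : ContDiff ℝ ∞ F
  ksm : ContDiff ℝ ∞ k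
  dF : ∀ t, HasDerivAt F (k t / 2) t
  dk : ∀ t, 0 ≤ t → k t + 2 * t * deriv k t = 1 + b ^ 2 * F t
  F0 : F 0 = 0
  k0 : k 0 = 1
  k1 : ∀ t, 0 ≤ t → 1 ≤ k t
  Fge : ∀ t, 0 ≤ t → t / 2 ≤ F t
  sq : ∀ t, 0 ≤ t → t * k t ^ 2 = 2 * F t + b ^ 2 * F t ^ 2
  Fq : ∀ r, F (r ^ 2) = qf b r
  ks : ∀ r, r * k (r ^ 2) = sn b r

/-- The geodesic flow: `Γ ((z, v), t)` is the geodesic with initial data `(z, v)` at time `t`. -/
structure Fl (G : Met n) (Γ : (Eu n × Eu n) × ℝ → Eu n) : Prop where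
  smooth : ContDiff ℝ ∞ Γ
  zero : ∀ z v, Γ ((z, v), 0) = z
  vel0 : ∀ z v, deriv (fun t => Γ ((z, v), t)) 0 = v
  geo : ∀ p s, cov G (fun t => Γ (p, t)) (deriv fun t => Γ (p, t)) s = 0
  aff : ∀ p a c s, Γ ((Γ (p, a), c • deriv (fun t => Γ (p, t)) a), s) = Γ (p, a + c * s)

/-- The geodesics issuing from `z`. -/
def fam (Γ : (Eu n × Eu n) × ℝ → Eu n) (z : Eu n) (a : Eu n × ℝ) : Eu n := Γ ((z, a.1), a.2)

/-- Velocity. -/
noncomputable def TT (Γ : (Eu n × Eu n) × ℝ → Eu n) (z v : Eu n) (s : ℝ) : Eu n :=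
  fderiv ℝ (fam Γ z) (v, s) (0, 1)

/-- Jacobi fields vanishing at `0`. -/
noncomputable def JJ (Γ : (Eu n × Eu n) × ℝ → Eu n) (z v w : Eu n) (s : ℝ) : Eu n :=
  fderiv ℝ (fam Γ z) (v, s) (w, 0)

/-- Squared length of the Jacobi field. -/
noncomputable def AA (G : Met n) (Γ : (Eu n × Eu n) × ℝ → Eu n) (z v w : Eu n) (s : ℝ) : ℝ :=
  G (fam Γ z (v, s)) (JJ Γ z v w s) (JJ Γ z v w s)

/-- Exponential map. -/
def xp (Γ : (Eu n × Eu n) × ℝ → Eu n) (z v : Eu n) : Eu n := Γ ((z, v), 1)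

/-- Energy and the Gauss lemma. -/
structure Gs (G : Met n) (Γ : (Eu n × Eu n) × ℝ → Eu n) : Prop where
  energy : ∀ z v s, G (fam Γ z (v, s)) (TT Γ z v s) (TT Γ z v s) = G z v v
  gauss : ∀ z v w s, G (fam Γ z (v, s)) (TT Γ z v s) (JJ Γ z v w s) = s * G z v w

/-- Comparison for Jacobi fields. -/
structure Cp (G : Met n) (b : ℝ) (F k : ℝ → ℝ) (Γ : (Eu n × Eu n) × ℝ → Eu n) : Prop where
  rauch : ∀ z v w, k (G z v v) ^ 2 * (G z w w - G z v w ^ 2 / G z v v) + G z v w ^ 2 / G z v v ≤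
    AA G Γ z v w 1
  hess : ∀ z v w, 2 * (1 + b ^ 2 * F (G z v v)) * (AA G Γ z v w 1 - G z v w ^ 2 / G z v v) ≤
    k (G z v v) * (deriv (AA G Γ z v w) 1 - 2 * (G z v w ^ 2 / G z v v))

/-- `l z` is the inverse of the exponential map at `z`. -/
structure Iv (Γ : (Eu n × Eu n) × ℝ → Eu n) (l : Eu n → Eu n → Eu n) : Prop where
  lsm : ContDiff ℝ ∞ fun p : Eu n × Eu n => l p.1 p.2
  le : ∀ z v, l z (xp Γ z v) = v
  el : ∀ z x, xp Γ z (l z x) = x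

/-- What is used of the exponential maps `e z` and their inverses `l z`. -/
structure Lg (G : Met n) (b : ℝ) (F k : ℝ → ℝ) (e l : Eu n → Eu n → Eu n) : Prop where
  esm : ∀ z, ContDiff ℝ ∞ (e z)
  lsm : ContDiff ℝ ∞ fun p : Eu n × Eu n => l p.1 p.2
  le : ∀ z v, l z (e z v) = v
  el : ∀ z x, e z (l z x) = x
  e0 : ∀ z, e z 0 = z
  de0 : ∀ z u, fderiv ℝ (e z) 0 u = u
  sym : ∀ z x, G x (l x z) (l x z) = G z (l z x) (l z x)
  gauss : ∀ z v u, G (e z v) (-l (e z v) z) (fderiv ℝ (e z) v u) = G z v u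
  geo : ∀ z v s, cov G (fun t : ℝ => e z (t • v)) (deriv fun t : ℝ => e z (t • v)) s = 0
  speed : ∀ z v s, G (e z (s • v)) (deriv (fun t : ℝ => e z (t • v)) s)
    (deriv (fun t : ℝ => e z (t • v)) s) = G z v v
  vel1 : ∀ z v, deriv (fun t : ℝ => e z (t • v)) 1 = -l (e z v) z
  rauch : ∀ z v u, k (G z v v) ^ 2 * (G z u u - G z v u ^ 2 / G z v v) + G z v u ^ 2 / G z v v ≤
    G (e z v) (fderiv ℝ (e z) v u) (fderiv ℝ (e z) v u)
  hess : ∀ z v u, 2 * (1 + b ^ 2 * F (G z v v)) *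
      (G (e z v) (fderiv ℝ (e z) v u) (fderiv ℝ (e z) v u) - G z v u ^ 2 / G z v v) ≤
    k (G z v v) *
      (lie G (fun y => -l y z) (e z v) (fderiv ℝ (e z) v u) - 2 * (G z v u ^ 2 / G z v v))

/-- All data of the last layer. -/
structure Ctx (G : Met n) (b : ℝ) (F k : ℝ → ℝ) (e l : Eu n → Eu n → Eu n)
    (A : Eu n → Eu n ≃L[ℝ] Eu n) : Prop where
  hb : 0 ≤ b
  rm : Rm G
  ent : Ent b F k
  lg : Lg G b F k e l
  iso : ∀ x u v, G x (A x u) (A x v) = ⟪u, v⟫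

/-- Squared distance. -/
noncomputable def DD (G : Met n) (l : Eu n → Eu n → Eu n) (z x : Eu n) : ℝ := G z (l z x) (l z x)

/-- `qf` of the distance. -/
noncomputable def QQ (G : Met n) (F : ℝ → ℝ) (l : Eu n → Eu n → Eu n) (z x : Eu n) : ℝ :=
  F (DD G l z x)

/-- The gradient of `QQ`. -/
noncomputable def VV (G : Met n) (k : ℝ → ℝ) (l : Eu n → Eu n → Eu n) (z x : Eu n) : Eu n :=
  k (DD G l z x) • -l x z

/-- The map to the model. -/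
noncomputable def XX (G : Met n) (k : ℝ → ℝ) (l : Eu n → Eu n → Eu n)
    (A : Eu n → Eu n ≃L[ℝ] Eu n) (z x : Eu n) : Eu n :=
  k (DD G l z x) • (A z).symm (l z x)

/-! ### Statements -/

def EntStmt : Prop := ∀ b : ℝ, 0 ≤ b → ∃ F k, Ent b F k

def FlowStmt : Prop := ∀ (n : ℕ) (G : Met n) (κ : ℝ), CH G κ → ∃ Γ, Fl G Γ

def CmpStmt : Prop := ∀ (A D s c : ℝ → ℝ) (W β : ℝ), Differentiable ℝ A →
  (∀ r, HasDerivAt (deriv A) (D r) r) →
  (∀ r t, 0 ≤ D r / 2 - t * deriv A r + t ^ 2 * A r - β * A r) → A 0 = 0 → deriv A 0 = 0 →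
  W ≤ D 0 / 2 → (∀ r, HasDerivAt s (c r) r) → (∀ r, HasDerivAt c (β * s r) r) → s 0 = 0 →
  c 0 = 1 → (∀ r, 0 < r → 0 < s r) → 2 * c 1 * A 1 ≤ s 1 * deriv A 1 ∧ s 1 ^ 2 * W ≤ A 1

def CurvStmt : Prop := ∀ (n : ℕ) (G : Met n) (κ : ℝ), CH G κ → ∀ y u v,
  G y (riem G y u v v) u ≤ κ * (G y u u * G y v v - G y u v ^ 2)

def GaussStmt : Prop := ∀ (n : ℕ) (G : Met n) (Γ : (Eu n × Eu n) × ℝ → Eu n), Rm G → Fl G Γ →
  Gs G Γ

def CovStmt : Prop := ∀ (n : ℕ) (G : Met n) (Γ : (Eu n × Eu n) × ℝ → Eu n), Rm G → Fl G Γ →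
  (∀ y u v, G y (riem G y u v v) u ≤ 0) → ∀ z, Function.Bijective (xp Γ z) ∧
    ∀ v w, fderiv ℝ (xp Γ z) v w = 0 → w = 0

def JacStmt : Prop := ∀ (n : ℕ) (G : Met n) (b : ℝ) (F k : ℝ → ℝ)
  (Γ : (Eu n × Eu n) × ℝ → Eu n), Rm G → Ent b F k → Fl G Γ → Gs G Γ →
  (∀ y u v, G y (riem G y u v v) u ≤ -b ^ 2 * (G y u u * G y v v - G y u v ^ 2)) →
  ∀ z v w, G z v w = 0 →
    2 * (1 + b ^ 2 * F (G z v v)) * AA G Γ z v w 1 ≤ k (G z v v) * deriv (AA G Γ z v w) 1 ∧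
    k (G z v v) ^ 2 * G z w w ≤ AA G Γ z v w 1

def GenStmt : Prop := ∀ (n : ℕ) (G : Met n) (b : ℝ) (F k : ℝ → ℝ)
  (Γ : (Eu n × Eu n) × ℝ → Eu n), Rm G → Fl G Γ → Gs G Γ →
  (∀ z v w, G z v w = 0 →
    2 * (1 + b ^ 2 * F (G z v v)) * AA G Γ z v w 1 ≤ k (G z v v) * deriv (AA G Γ z v w) 1 ∧
    k (G z v v) ^ 2 * G z w w ≤ AA G Γ z v w 1) → Cp G b F k Γ

def LogStmt : Prop := ∀ (n : ℕ) (Γ : (Eu n × Eu n) × ℝ → Eu n), ContDiff ℝ ∞ Γ →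
  (∀ z, Function.Bijective (xp Γ z) ∧ ∀ v w, fderiv ℝ (xp Γ z) v w = 0 → w = 0) →
  ∃ l, Iv Γ l

def LgStmt : Prop := ∀ (n : ℕ) (G : Met n) (b : ℝ) (F k : ℝ → ℝ)
  (Γ : (Eu n × Eu n) × ℝ → Eu n) (l : Eu n → Eu n → Eu n), Rm G → Fl G Γ → Gs G Γ →
  Cp G b F k Γ → Iv Γ l → Lg G b F k (xp Γ) l

def QStmt : Prop := ∀ (n : ℕ) (G : Met n) (b : ℝ) (F k : ℝ → ℝ) (e l : Eu n → Eu n → Eu n)
  (A : Eu n → Eu n ≃L[ℝ] Eu n), Ctx G b F k e l A →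
  (∀ z x, x ≠ z → 0 < QQ G F l z x) ∧ (∀ z a, IsCompact {x | QQ G F l z x ≤ a}) ∧
  ∀ z, ∀ ε > 0, ∀ᶠ x in 𝓝 z, QQ G F l z x ≤ (1 + ε) * G z (x - z) (x - z) / 2

def HessStmt : Prop := ∀ (n : ℕ) (G : Met n) (b : ℝ) (F k : ℝ → ℝ) (e l : Eu n → Eu n → Eu n)
  (A : Eu n → Eu n ≃L[ℝ] Eu n), Ctx G b F k e l A →
  ∀ z x ξ, 2 * (1 + b ^ 2 * QQ G F l z x) * G x ξ ξ ≤ lie G (VV G k l z) x ξ

def CosStmt : Prop := ∀ (n : ℕ) (G : Met n) (b : ℝ) (F k : ℝ → ℝ) (e l : Eu n → Eu n → Eu n)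
  (A : Eu n → Eu n ≃L[ℝ] Eu n), Ctx G b F k e l A →
  (∀ z x ξ, 2 * (1 + b ^ 2 * QQ G F l z x) * G x ξ ξ ≤ lie G (VV G k l z) x ξ) →
  ∀ o z x, QQ G F l o x + QQ G F l z x + b ^ 2 * QQ G F l o x * QQ G F l z x - QQ G F l o z ≤
    G x (VV G k l o x) (VV G k l z x)

def TriStmt : Prop := ∀ b p q r t : ℝ, 0 ≤ p → 0 ≤ q → 0 ≤ r →
  p + q + b ^ 2 * p * q - r ≤ t → t ^ 2 ≤ (2 * p + b ^ 2 * p ^ 2) * (2 * q + b ^ 2 * q ^ 2) →
  √p ≤ (√q + √r) * (1 + b ^ 2 * (q + r))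

def XStmt : Prop := ∀ (n : ℕ) (G : Met n) (b : ℝ) (F k : ℝ → ℝ) (e l : Eu n → Eu n → Eu n)
  (A : Eu n → Eu n ≃L[ℝ] Eu n), Ctx G b F k e l A →
  (∀ z x ξ, ‖fderiv ℝ (XX G k l A z) x ξ‖ ^ 2 ≤
    G x ξ ξ + b ^ 2 * fderiv ℝ (QQ G F l z) x ξ ^ 2) ∧
  ∀ z v u, mg b v u ≤ G (e z (A z v)) (fderiv ℝ (fun v => e z (A z v)) v u)
    (fderiv ℝ (fun v => e z (A z v)) v u)

/-! ### Basic facts -/

theorem Rm.cm {G : Met n} (h : Rm G) : CM G univ :=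
  ⟨isOpen_univ, h.smooth.contDiffOn, fun y _ => h.symm y, fun y _ => h.pos y⟩

theorem Rm.nn {G : Met n} (h : Rm G) (x v : Eu n) : 0 ≤ G x v v := by
  by_cases hv : v = 0
  · simp [hv]
  · exact (h.pos x v hv).le

/-- Cauchy-Schwarz. -/
theorem Rm.cs {G : Met n} (h : Rm G) (x v w : Eu n) : G x v w ^ 2 ≤ G x v v * G x w w := by
  by_cases hv : v = 0
  · simp [hv]
  have h1 := h.pos x v hv
  have h2 := Rm.nn h x (G x v v • w - G x v w • v)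
  simp only [map_sub, map_smul, sub_apply, smul_apply, smul_eq_mul, h.symm x w v] at h2
  nlinarith

theorem le_inf3 : (3 : WithTop ℕ∞) ≤ ∞ := ENat.LEInfty.out

theorem le_inf2 : (2 : WithTop ℕ∞) ≤ ∞ := ENat.LEInfty.out

theorem le_inf1 : (1 : WithTop ℕ∞) ≤ ∞ := ENat.LEInfty.out

section Flow

variable {G : Met n} {Γ : (Eu n × Eu n) × ℝ → Eu n}

theorem Fl.famsm (h : Fl G Γ) (z : Eu n) : ContDiff ℝ ∞ (fam Γ z) :=
  h.smooth.comp ((contDiff_const.prodMk contDiff_fst).prodMk contDiff_snd)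

theorem Fl.fam3 (h : Fl G Γ) (z : Eu n) (a : Eu n × ℝ) : ContDiffAt ℝ 3 (fam Γ z) a :=
  ((h.famsm z).of_le le_inf3).contDiffAt

theorem Fl.xpsm (h : Fl G Γ) (z : Eu n) : ContDiff ℝ ∞ (xp Γ z) :=
  (h.famsm z).comp (contDiff_id.prodMk contDiff_const)

theorem Fl.hasT (h : Fl G Γ) (z v : Eu n) (s : ℝ) :
    HasDerivAt (fun t => Γ ((z, v), t)) (TT Γ z v s) s :=
  JacX.slice ((h.fam3 z (v, s)).differentiableAt (by simp))

theorem Fl.deriv_eq (h : Fl G Γ) (z v : Eu n) : deriv (fun t => Γ ((z, v), t)) = TT Γ z v :=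
  funext fun s => (h.hasT z v s).deriv

theorem Fl.T0 (h : Fl G Γ) (z v : Eu n) : TT Γ z v 0 = v := by
  rw [← h.deriv_eq, h.vel0]

/-- Homogeneity. -/
theorem Fl.hom (h : Fl G Γ) (z v : Eu n) (c s : ℝ) : Γ ((z, c • v), s) = Γ ((z, v), c * s) := by
  have := h.aff (z, v) 0 c s
  rwa [h.zero, h.vel0, zero_add] at this

/-- Partial derivative in the velocity. -/
theorem Fl.hasJ (h : Fl G Γ) (z v : Eu n) (s : ℝ) :
    HasFDerivAt (fun u => Γ ((z, u), s))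
      ((fderiv ℝ (fam Γ z) (v, s)).comp (ContinuousLinearMap.inl ℝ (Eu n) ℝ)) v :=
  HasFDerivAt.comp (g := fam Γ z) (f := fun u : Eu n => (u, s)) v
    ((h.fam3 z (v, s)).differentiableAt (by simp)).hasFDerivAt (hasFDerivAt_prodMk_left v s)

theorem Fl.fderiv_xp (h : Fl G Γ) (z v w : Eu n) : fderiv ℝ (xp Γ z) v w = JJ Γ z v w 1 :=
  congrArg (fun L => L w) (h.hasJ z v 1).fderiv

theorem Fl.J0 (h : Fl G Γ) (z v w : Eu n) : JJ Γ z v w 0 = 0 := by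
  have h1 := h.hasJ z v 0
  simp only [h.zero] at h1
  exact congrArg (fun L => L w) (h1.unique (hasFDerivAt_const _ _))

/-- `J` is a Jacobi field. -/
theorem Fl.gj (hG : Rm G) (h : Fl G Γ) (z v w : Eu n) (s : ℝ) :
    GJ G univ (fun t => Γ ((z, v), t)) (JJ Γ z v w) s :=
  JacX.gj_coord (f := fam Γ z) (Rm.cm hG) (mem_univ _) (h.fam3 z _)
    (Eventually.of_forall fun a => h.geo (z, a.1) a.2) w

/-- The derivative of `J`. -/
theorem Fl.hasDJ (h : Fl G Γ) (z v w : Eu n) (s : ℝ) :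
    HasDerivAt (JJ Γ z v w) (fderiv ℝ (fderiv ℝ (fam Γ z)) (v, s) (0, 1) (w, 0)) s :=
  JacX.slice1 (h.fam3 z _) _

/-- The derivative of the velocity in `v` is the time derivative of `J`. -/
theorem Fl.hasDT (h : Fl G Γ) (z v : Eu n) (s : ℝ) : ∃ L : Eu n →L[ℝ] Eu n,
    HasFDerivAt (fun u => TT Γ z u s) L v ∧ ∀ w, L w = deriv (JJ Γ z v w) s := by
  refine ⟨_, HasFDerivAt.comp (g := fun a => fderiv ℝ (fam Γ z) a (0, 1))
    (f := fun u : Eu n => (u, s)) v (JacX.hasD1 (h.fam3 z (v, s)) (0, 1))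
    (hasFDerivAt_prodMk_left v s), fun w => ?_⟩
  rw [(h.hasDJ z v w s).deriv, JacX.symm2 (h.fam3 z _)]
  rfl

theorem Fl.DJ0 (h : Fl G Γ) (z v w : Eu n) : deriv (JJ Γ z v w) 0 = w := by
  obtain ⟨L, h1, h2⟩ := h.hasDT z v 0
  simp only [h.T0] at h1
  rw [← h2, h1.unique (hasFDerivAt_id v)]
  rfl

end Flow

section Last

variable {G : Met n} {b : ℝ} {F k : ℝ → ℝ} {e l : Eu n → Eu n → Eu n}
  {A : Eu n → Eu n ≃L[ℝ] Eu n}

theorem Ent.hk (h : Ent b F k) (t : ℝ) : HasDerivAt k (deriv k t) t :=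
  (h.ksm.differentiable (by simp) t).hasDerivAt

/-- The derivative of `r ↦ r k (r² a)`. -/
theorem Ent.hs (h : Ent b F k) {a : ℝ} (ha : 0 ≤ a) (r : ℝ) :
    HasDerivAt (fun r => r * k (r ^ 2 * a)) (1 + b ^ 2 * F (r ^ 2 * a)) r := by
  have h1 : HasDerivAt (fun r : ℝ => r ^ 2 * a) (2 * r * a) r := by
    simpa using (hasDerivAt_pow 2 r).mul_const a
  refine ((hasDerivAt_id r).mul ((h.hk _).comp r h1)).congr_deriv ?_
  rw [← h.dk _ (by positivity)]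
  simp only [id, Function.comp_apply]
  ring

/-- The derivative of `r ↦ F (r² a)`. -/
theorem Ent.hq (h : Ent b F k) (a r : ℝ) :
    HasDerivAt (fun r => F (r ^ 2 * a)) (a * (r * k (r ^ 2 * a))) r := by
  have h1 : HasDerivAt (fun r : ℝ => r ^ 2 * a) (2 * r * a) r := by
    simpa using (hasDerivAt_pow 2 r).mul_const a
  refine ((h.dF _).comp r h1).congr_deriv ?_
  ring

theorem Lg.l1 (h : Lg G b F k e l) (z : Eu n) : ContDiff ℝ ∞ (l z) :=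
  h.lsm.comp (contDiff_const.prodMk contDiff_id)

theorem Lg.l2 (h : Lg G b F k e l) (z : Eu n) : ContDiff ℝ ∞ fun y => l y z :=
  h.lsm.comp (contDiff_id.prodMk contDiff_const)

theorem Lg.hl (h : Lg G b F k e l) (z x : Eu n) : HasFDerivAt (l z) (fderiv ℝ (l z) x) x :=
  ((h.l1 z).differentiable (by simp) x).hasFDerivAt

theorem Lg.he (h : Lg G b F k e l) (z v : Eu n) : HasFDerivAt (e z) (fderiv ℝ (e z) v) v :=
  ((h.esm z).differentiable (by simp) v).hasFDerivAt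

theorem Lg.l0 (h : Lg G b F k e l) (z : Eu n) : l z z = 0 := by
  have := h.le z 0
  rwa [h.e0] at this

theorem Lg.del (h : Lg G b F k e l) (z x ξ : Eu n) :
    fderiv ℝ (e z) (l z x) (fderiv ℝ (l z) x ξ) = ξ := by
  have h1 := (h.he z (l z x)).comp x (h.hl z x)
  have h2 : e z ∘ l z = id := funext fun y => h.el z y
  rw [h2] at h1
  exact congrArg (fun L => L ξ) (h1.unique (hasFDerivAt_id x))

theorem Lg.dl0 (h : Lg G b F k e l) (z ξ : Eu n) : fderiv ℝ (l z) z ξ = ξ := by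
  have := h.del z z ξ
  rwa [h.l0, h.de0] at this

/-- The Gauss lemma at the end point. -/
theorem Lg.gx (h : Lg G b F k e l) (z x ξ : Eu n) :
    G z (l z x) (fderiv ℝ (l z) x ξ) = G x (-l x z) ξ := by
  have := h.gauss z (l z x) (fderiv ℝ (l z) x ξ)
  rw [h.del, h.el] at this
  exact this.symm

theorem Ctx.D0 (h : Ctx G b F k e l A) (z x : Eu n) : 0 ≤ DD G l z x := Rm.nn h.rm _ _

theorem Ctx.Q0 (h : Ctx G b F k e l A) (z x : Eu n) : 0 ≤ QQ G F l z x :=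
  (div_nonneg (h.D0 z x) two_pos.le).trans (h.ent.Fge _ (h.D0 z x))

theorem Ctx.Dsymm (h : Ctx G b F k e l A) (z x : Eu n) : DD G l x z = DD G l z x := h.lg.sym z x

theorem Ctx.Dsm (h : Ctx G b F k e l A) : ContDiff ℝ ∞ fun p : Eu n × Eu n => DD G l p.1 p.2 :=
  ((h.rm.smooth.comp contDiff_fst).clm_apply h.lg.lsm).clm_apply h.lg.lsm

theorem Ctx.Dsm1 (h : Ctx G b F k e l A) (z : Eu n) : ContDiff ℝ ∞ (DD G l z) :=
  h.Dsm.comp (contDiff_const.prodMk contDiff_id)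

theorem Ctx.Qsm1 (h : Ctx G b F k e l A) (z : Eu n) : ContDiff ℝ ∞ (QQ G F l z) :=
  h.ent.Fsm.comp (h.Dsm1 z)

theorem Ctx.Vsm (h : Ctx G b F k e l A) (z : Eu n) : ContDiff ℝ ∞ (VV G k l z) :=
  (h.ent.ksm.comp (h.Dsm1 z)).smul (h.lg.l2 z).neg

theorem Ctx.Xsm (h : Ctx G b F k e l A) (z : Eu n) : ContDiff ℝ ∞ (XX G k l A z) :=
  (h.ent.ksm.comp (h.Dsm1 z)).smul ((A z).symm.contDiff.comp (h.lg.l1 z))

/-- The differential of the squared distance. -/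
theorem Ctx.hD (h : Ctx G b F k e l A) (z x : Eu n) :
    HasFDerivAt (DD G l z) ((2 : ℝ) • G x (-l x z)) x := by
  have h1 := ((G z).hasFDerivAt.comp x (h.lg.hl z x)).clm_apply (h.lg.hl z x)
  refine h1.congr_fderiv (ContinuousLinearMap.ext fun ξ => ?_)
  simp only [add_apply, ContinuousLinearMap.comp_apply, ContinuousLinearMap.flip_apply,
    Function.comp_apply, smul_apply, smul_eq_mul]
  rw [h.rm.symm z (fderiv ℝ (l z) x ξ), h.lg.gx]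
  ring

/-- `VV` is the gradient of `QQ`. -/
theorem Ctx.hQ (h : Ctx G b F k e l A) (z x : Eu n) :
    HasFDerivAt (QQ G F l z) (G x (VV G k l z x)) x := by
  refine ((h.ent.dF _).comp_hasFDerivAt x (h.hD z x)).congr_fderiv ?_
  rw [VV, map_smul, smul_smul]
  congr 1
  ring

/-- The differential of `k ∘ DD`. -/
theorem Ctx.hK (h : Ctx G b F k e l A) (z x : Eu n) :
    HasFDerivAt (fun y => k (DD G l z y)) ((2 * deriv k (DD G l z x)) • G x (-l x z)) x := by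
  refine ((h.ent.hk _).comp_hasFDerivAt x (h.hD z x)).congr_fderiv ?_
  rw [smul_smul, mul_comm]

theorem Ctx.eik (h : Ctx G b F k e l A) (z x : Eu n) :
    G x (VV G k l z x) (VV G k l z x) = 2 * QQ G F l z x + b ^ 2 * QQ G F l z x ^ 2 := by
  have h1 := h.ent.sq _ (h.D0 z x)
  have h2 : G x (l x z) (l x z) = DD G l z x := h.lg.sym z x
  simp only [VV, QQ, map_smul, map_neg, smul_apply, neg_apply, smul_eq_mul, h2]
  linarith

end Last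

end Vale.Agent.P219.G
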