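import Vale.Agent.P219.Trig

/-! Definitions and statements of the analytic part (sharp Sobolev inequality on `μ`). -/

open scoped ENNReal RealInnerProductSpace Topology
open MeasureTheory Set Filter

namespace Vale.Agent.P219

variable {n : ℕ}

namespace Dat

variable (d : Dat n)

/-- Sobolev exponent. -/
noncomputable def p : ℝ := 2 * d.m / (d.m - 2)

/-- `m (m-2) / 4`. -/
noncomputable def cm : ℝ := d.m * (d.m - 2) / 4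

/-- `(m-2) / 2`. -/
noncomputable def th : ℝ := (d.m - 2) / 2

/-- The potential. -/
noncomputable def W0 : ℝ := d.cm * (d.H ^ 2 / d.m ^ 2 - d.b ^ 2)

/-- `α(γ)`; `2 α γ = 1 + b² γ²`. -/
noncomputable def al (γ : ℝ) : ℝ := (1 + d.b ^ 2 * γ ^ 2) / (2 * γ)

/-- Reciprocal conformal factor. -/
noncomputable def L (z : Eu n) (γ : ℝ) (x : Eu n) : ℝ := γ + d.al γ * d.Q z x

/-- Conformal factor. -/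
noncomputable def lam (z : Eu n) (γ : ℝ) (x : Eu n) : ℝ := (d.L z γ x)⁻¹

/-- The bubble `λ^((m-2)/2)`. -/
noncomputable def ph (z : Eu n) (γ : ℝ) (x : Eu n) : ℝ := d.L z γ x ^ (-d.th)

/-- Last homogeneous coordinate; `ell² + s2 = L²`. -/
noncomputable def ell (z : Eu n) (γ : ℝ) (x : Eu n) : ℝ :=
  γ - (1 - d.b ^ 2 * γ ^ 2) / (2 * γ) * d.Q z x

/-- The map to the unit sphere. -/
noncomputable def Xi (z : Eu n) (γ : ℝ) (j : Option (Fin n)) (x : Eu n) : ℝ :=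
  (j.elim (d.ell z γ x) fun i => d.X z x i) * d.lam z γ x

/-- The quadratic functional with constant potential `W`. -/
noncomputable def Y (W : ℝ) (f : Eu n → ℝ) : ℝ := ∫ x, (d.Gam f f x + W * f x ^ 2) ∂d.μ

/-- Admissible functions. -/
def Adm (f : Eu n → ℝ) : Prop := ContDiff ℝ 1 f ∧ (∀ x, 0 < f x) ∧ ∫ x, f x ^ d.p ∂d.μ = 1

/-- `∫ λ² f²` for `f = v φ`. -/
noncomputable def Uv (z : Eu n) (γ : ℝ) (v : Eu n → ℝ) : ℝ :=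
  ∫ x, v x ^ 2 * d.lam z γ x ^ d.m ∂d.μ

/-- `∫ f²` for `f = v φ`. -/
noncomputable def F2 (z : Eu n) (γ : ℝ) (v : Eu n → ℝ) : ℝ :=
  ∫ x, v x ^ 2 * d.lam z γ x ^ (d.m - 2) ∂d.μ

/-- `∫ f^p` for `f = v φ`. -/
noncomputable def Np (z : Eu n) (γ : ℝ) (v : Eu n → ℝ) : ℝ :=
  ∫ x, v x ^ d.p * d.lam z γ x ^ d.m ∂d.μ

/-- Gradient deficit. -/
noncomputable def D1 (z : Eu n) (γ : ℝ) (v : Eu n → ℝ) : ℝ :=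
  ∫ x, d.lam z γ x ^ (d.m - 2) * d.Gam v v x ∂d.μ

/-- Normal deficit. -/
noncomputable def D2 (z : Eu n) (γ : ℝ) (v : Eu n → ℝ) : ℝ :=
  ∫ x, v x ^ 2 * d.lam z γ x ^ (d.m - 2) *
    (d.al γ * d.q z x * d.lam z γ x - d.H / d.m) ^ 2 ∂d.μ

/-- The test function of the Hardy identity. -/
noncomputable def kk (z : Eu n) (γ : ℝ) (v : Eu n → ℝ) (x : Eu n) : ℝ :=
  d.th * d.al γ * (v x ^ 2 * d.lam z γ x ^ (d.m - 1))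

/-- Total deficit. -/
noncomputable def Df (z : Eu n) (γ : ℝ) (v : Eu n → ℝ) : ℝ :=
  d.D1 z γ v + d.cm * d.D2 z γ v - d.Lam z (d.kk z γ v)

/-- The error of the terminal step. -/
noncomputable def Er (z : Eu n) (γ : ℝ) (v : Eu n → ℝ) : ℝ :=
  d.Df z γ v + √(d.Uv z γ v * d.D1 z γ v) + γ * d.Uv z γ v

/-- The singular kernel. -/
noncomputable def ker (z x : Eu n) : ℝ := d.Q z x ^ ((1 - (d.m : ℝ)) / 2)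

/-- The first variation functional at the Lipschitz function `h · F(max Q a) 1_{Q < a1}`. -/
noncomputable def LamF (z : Eu n) (h : Eu n → ℝ) (F F' : ℝ → ℝ) (a a1 : ℝ) : ℝ :=
  ∫ x in {x | d.Q z x < a1},
    (h x * F (max (d.Q z x) a) * (d.m * (1 + d.b ^ 2 * d.Q z x)) +
      h x * (if a < d.Q z x then F' (d.Q z x) else 0) * d.Gam (d.Q z) (d.Q z) x +
      F (max (d.Q z x) a) * d.Gam h (d.Q z) x - d.H * h x * F (max (d.Q z x) a) * d.q z x) ∂d.μ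

/-- The potential error at `x`. -/
noncomputable def Pot (z : Eu n) (γ T R : ℝ) (v : Eu n → ℝ) (x : Eu n) : ℝ :=
  ∫ y in {y | d.al γ * d.Q z y < T * γ ∧ d.Q x y < R * γ ^ 2},
    (√(d.Gam (fun w => v w ^ 2) (fun w => v w ^ 2) y) + d.H * v y ^ 2) * d.ker x y ∂d.μ

/-- Measurable and bounded on `K`. -/
def BM (f : Eu n → ℝ) : Prop := Measurable f ∧ ∃ C, ∀ x ∈ d.K, |f x| ≤ C

end Dat

/-- A nonincreasing `C¹` profile on `[a, a1]` vanishing at `a1`. -/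
structure Pf (F F' : ℝ → ℝ) (a a1 : ℝ) : Prop where
  lt : a < a1
  der : ∀ s ∈ Icc a a1, HasDerivAt F (F' s) s
  cont : ContinuousOn F' (Icc a a1)
  np : ∀ s ∈ Icc a a1, F' s ≤ 0
  zero : F a1 = 0

/-- The profile of the reverse step. -/
structure Kp (m : ℕ) (κ : ℝ) (F F' : ℝ → ℝ) (a T : ℝ) : Prop extends Pf F F' a T where
  a0 : 0 < a
  k0 : 0 < κ
  out : ∀ s ∈ Icc a T, m * F s + 2 * s * F' s ≤ (1 + s)⁻¹ ^ m - κ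
  inn : ∀ s ∈ Icc 0 a, m * F a ≤ (1 + s)⁻¹ ^ m - κ

/-- Upper density. -/
def UDStmt : Prop := ∀ (n : ℕ) (d : Dat n), d.Ok → ∃ C > 0, ∀ z ∈ d.K, ∀ a > 0,
  ∫ x, (d.Q z x + a) ^ (-((d.m : ℝ) / 2) - 1) ∂d.μ ≤ C / a

/-- Kernel bounds. -/
def KBStmt : Prop := ∀ (n : ℕ) (d : Dat n), d.Ok → ∃ C > 0, ∀ z ∈ d.K,
  Integrable (d.ker z) d.μ ∧ ∀ a > 0, d.μ.real {x | d.Q z x ≤ a} ≤ C * a ^ ((d.m : ℝ) / 2) ∧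
    ∫ x in {x | d.Q z x < a}, d.ker z x ∂d.μ ≤ C * √a

/-- First variation for Lipschitz radial profiles. -/
def LipStmt : Prop := ∀ (n : ℕ) (d : Dat n), d.Ok → ∀ z ∈ d.K, ∀ (h : Eu n → ℝ) (F F' : ℝ → ℝ)
  (a a1 : ℝ), ContDiff ℝ 1 h → (∀ x ∈ d.K, 0 ≤ h x) → Pf F F' a a1 →
  d.LamF z h F F' a a1 ≤ 0 ∧ ∀ k, ContDiff ℝ 1 k → (∀ x ∈ d.K, 0 ≤ k x) →
    (∀ x ∈ d.K, d.Q z x < a1 → h x * F (max (d.Q z x) a) ≤ k x) → d.Lam z k ≤ d.LamF z h F F' a a1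

/-- Monotonicity formula. -/
def MonoStmt : Prop := ∀ (n : ℕ) (d : Dat n), d.Ok → ∀ᵐ z ∂d.μ, ∀ (h : Eu n → ℝ),
  ContDiff ℝ 1 h → (∀ x ∈ d.K, 0 ≤ h x) → ∀ a1 > 0,
  om d.m * 2 ^ ((d.m : ℝ) / 2) * h z ≤
    a1 ^ (-((d.m : ℝ) / 2)) * (1 + d.b ^ 2 * a1) * ∫ x in {x | d.Q z x < a1}, h x ∂d.μ +
    √(2 + d.b ^ 2 * a1) / d.m *
      ∫ x in {x | d.Q z x < a1}, (√(d.Gam h h x) + d.H * h x) * d.ker z x ∂d.μ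

/-- Weak type Sobolev inequality. -/
def WeakStmt : Prop := ∀ (n : ℕ) (d : Dat n), d.Ok → ∃ C > 0, ∀ u : Eu n → ℝ, ContDiff ℝ 1 u →
  (∀ x, 0 ≤ u x) → ∀ t > 0,
  t * d.μ.real {x | t ≤ u x} ^ (((d.m : ℝ) - 1) / d.m) ≤ C * ∫ x, (√(d.Gam u u x) + u x) ∂d.μ

/-- `L¹` Sobolev inequality. -/
def Sob1Stmt : Prop := ∀ (n : ℕ) (d : Dat n), d.Ok → ∃ C > 0, ∀ u : Eu n → ℝ, ContDiff ℝ 1 u →
  (∀ x, 0 ≤ u x) →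
  (∫ x, u x ^ ((d.m : ℝ) / (d.m - 1)) ∂d.μ) ^ (((d.m : ℝ) - 1) / d.m) ≤
    C * ∫ x, (√(d.Gam u u x) + u x) ∂d.μ

/-- `L²` Sobolev inequality. -/
def Sob2Stmt : Prop := ∀ (n : ℕ) (d : Dat n), d.Ok → ∃ C > 0, ∀ u : Eu n → ℝ, ContDiff ℝ 1 u →
  (∀ x, 0 ≤ u x) →
  (∫ x, u x ^ d.p ∂d.μ) ^ (2 / d.p) ≤ C * (∫ x, d.Gam u u x ∂d.μ + ∫ x, u x ^ 2 ∂d.μ)

/-- Conformal barycentre. -/
def BalStmt : Prop := ∀ (n : ℕ) (d : Dat n), d.Ok → ∀ ρ : Eu n → ℝ, Continuous ρ →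
  (∀ x, 0 ≤ ρ x) → ∫ x, ρ x ∂d.μ = 1 →
  ∃ z ∈ d.K, ∃ γ > 0, ∀ j, ∫ x, ρ x * d.Xi z γ j x ∂d.μ = 0

/-- The map `Xi` is a contraction into the unit sphere. -/
def XiStmt : Prop := ∀ (n : ℕ) (d : Dat n), d.Ok → ∀ z, ∀ γ > 0,
  (∀ j, ContDiff ℝ 1 (d.Xi z γ j)) ∧ (∀ x, ∑ j, d.Xi z γ j x ^ 2 = 1) ∧
  ∀ x, ∑ j, d.Gam (d.Xi z γ j) (d.Xi z γ j) x ≤ d.m * d.lam z γ x ^ 2

/-- Hardy identity. -/
def HardyStmt : Prop := ∀ (n : ℕ) (d : Dat n), d.Ok → ∀ z, ∀ γ > 0, ∀ v : Eu n → ℝ,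
  ContDiff ℝ 1 v → d.Y d.W0 (fun x => v x * d.ph z γ x) = d.cm * d.Uv z γ v + d.Df z γ v

/-- Taylor expansions. -/
def TaylorStmt : Prop := ∀ r : ℝ, ∃ C > 0, ∀ s : ℝ, |s| ≤ 1 / 2 →
  |(1 + s) ^ r + (1 - s) ^ r - 2 + r * (1 - r) * s ^ 2| ≤ C * |s| ^ 3 ∧
  |r * ((1 + s) ^ (r - 1) - (1 - s) ^ (r - 1)) + 2 * r * (1 - r) * s| ≤ C * s ^ 2 ∧
  (1 + s) ^ (r - 2) + (1 - s) ^ (r - 2) ≤ 2 + C * |s|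

/-- Averaging. -/
def AvgStmt : Prop := ∀ (n : ℕ) (d : Dat n), d.Ok → ∃ c > 0, ∃ C > 0, ∀ (W s : ℝ)
  (f l : Eu n → ℝ) (Ξ : Option (Fin n) → Eu n → ℝ), d.Adm f → Continuous l →
  (∀ j, ContDiff ℝ 1 (Ξ j)) → (∀ x, ∑ j, Ξ j x ^ 2 = 1) →
  (∀ x, ∑ j, d.Gam (Ξ j) (Ξ j) x ≤ d.m * l x ^ 2) → (∀ j, ∫ x, f x ^ d.p * Ξ j x ∂d.μ = 0) →
  (∀ f', d.Adm f' → s ≤ d.Y W f') → ∀ ε : ℝ, 0 < ε → ε ≤ 1 / 2 →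
  s ≤ d.Y W f - c * ε ^ 2 * (d.Y W f - d.cm * ∫ x, (f x * l x) ^ 2 ∂d.μ) +
    C * ε ^ 3 * (∫ x, d.Gam f f x ∂d.μ + |W| * ∫ x, f x ^ 2 ∂d.μ + ∫ x, (f x * l x) ^ 2 ∂d.μ)

/-- Stereographic formula for the area of the sphere. -/
def BetaStmt : Prop := ∀ m : ℕ, 1 ≤ m →
  IntegrableOn (fun s : ℝ => (1 + s)⁻¹ ^ m * s ^ ((m : ℝ) / 2 - 1)) (Ioi 0) ∧
  sph m = m * om m * 2 ^ (m - 1) * ∫ s in Ioi (0 : ℝ), (1 + s)⁻¹ ^ m * s ^ ((m : ℝ) / 2 - 1)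

/-- The profile of the reverse step exists with an almost sharp constant. -/
def KappaStmt : Prop := ∀ m : ℕ, 1 ≤ m → ∀ ε > 0, ∀ᶠ T in atTop, ∃ κ F F' a, Kp m κ F F' a T ∧
  (1 - ε) * sph m ≤ κ * om m * 2 ^ m * T ^ ((m : ℝ) / 2)

/-- Reverse step. -/
def RevStmt : Prop := ∀ (n : ℕ) (d : Dat n), d.Ok → ∀ (κ : ℝ) (F F' : ℝ → ℝ) (a T : ℝ),
  Kp d.m κ F F' a T → ∃ C > 0, ∀ z ∈ d.K, ∀ γ, 0 < γ → γ ≤ 1 → ∀ v : Eu n → ℝ, ContDiff ℝ 1 v →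
  κ * ∫ x in {x | d.al γ * d.Q z x < T * γ}, v x ^ 2 ∂d.μ ≤
    γ ^ d.m * (d.Uv z γ v + C * d.Er z γ v)

/-- Pointwise bound near the centre. -/
def NearPtStmt : Prop := ∀ (n : ℕ) (d : Dat n), d.Ok → ∀ ε > 0, ∀ T > 0,
  ∃ C > 0, ∃ T2 > 0, ∃ R > 0, ∃ γ0 > 0, ∀ z ∈ d.K, ∀ γ, 0 < γ → γ ≤ γ0 → ∀ v : Eu n → ℝ,
  ContDiff ℝ 1 v → ∀ᵐ x ∂d.μ, d.al γ * d.Q z x ≤ T * γ →
    v x ^ 2 ≤ (1 + ε) * (d.Uv z γ v + C * d.Er z γ v) / sph d.m + C * d.Pot z γ T2 R v x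

/-- The potential error is small on average. -/
def PotStmt : Prop := ∀ (n : ℕ) (d : Dat n), d.Ok → ∀ T > 0, ∀ R > 0, ∃ C > 0, ∀ z ∈ d.K, ∀ γ,
  0 < γ → γ ≤ 1 → ∀ v : Eu n → ℝ, ContDiff ℝ 1 v →
  Integrable (d.Pot z γ T R v) d.μ ∧ (∀ᵐ x ∂d.μ, 0 ≤ d.Pot z γ T R v x) ∧
    ∫ x, d.Pot z γ T R v x ∂d.μ ≤ C * γ ^ d.m * d.Er z γ v

/-- Level sets have small conformal measure. -/
def LevStmt : Prop := ∀ (n : ℕ) (d : Dat n), d.Ok → ∃ C0 > 0, ∀ ε > 0, ∀ T > 0,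
  ∃ C > 0, ∃ γ0 > 0, ∀ z ∈ d.K, ∀ γ, 0 < γ → γ ≤ γ0 → ∀ v : Eu n → ℝ, ContDiff ℝ 1 v → ∀ δ > 0,
  ∫ x in {x | (1 + ε) * (d.Uv z γ v + C * d.Er z γ v) / sph d.m + δ ≤ v x ^ 2},
    d.lam z γ x ^ d.m ∂d.μ ≤ C * d.Er z γ v / δ + C0 * (1 + T) ^ (1 - (d.m : ℝ) / 2)

/-- Truncation. -/
def TruncStmt : Prop := ∀ (n : ℕ) (d : Dat n), d.Ok → ∃ C > 0, ∀ z ∈ d.K, ∀ γ > 0,
  ∀ v : Eu n → ℝ, ContDiff ℝ 1 v → (∀ x, 0 < v x) → d.Np z γ v = 1 →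
  1 ≤ C * (d.Uv z γ v + d.Df z γ v + d.F2 z γ v) ∧ ∀ s > 0, ∀ η > 0,
  1 ≤ (s + 2 * η) ^ (d.p - 2) * d.Uv z γ v + ((s + 2 * η) / η) ^ d.p *
    (C * ((∫ x in {x | s ≤ v x}, d.lam z γ x ^ d.m ∂d.μ) ^ (2 / (d.m : ℝ)) + d.Df z γ v +
      d.F2 z γ v)) ^ (d.p / 2)

/-- Terminal step. -/
def TermStmt : Prop := ∀ (n : ℕ) (d : Dat n), d.Ok → ∀ (z : ℕ → Eu n) (γ : ℕ → ℝ)
  (v : ℕ → Eu n → ℝ) (C0 : ℝ), (∀ j, z j ∈ d.K) → (∀ j, 0 < γ j) → (∀ j, ContDiff ℝ 1 (v j)) →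
  (∀ j x, 0 < v j x) → (∀ j, d.Np (z j) (γ j) (v j) = 1) → (∀ j, d.Uv (z j) (γ j) (v j) ≤ C0) →
  Tendsto (fun j => d.Df (z j) (γ j) (v j)) atTop (𝓝 0) →
  Tendsto (fun j => d.F2 (z j) (γ j) (v j)) atTop (𝓝 0) →
  ∀ ε > 0, ∀ᶠ j in atTop, sph d.m ^ (2 / (d.m : ℝ)) - ε ≤ d.Uv (z j) (γ j) (v j)

/-- One step of the scheme: balancing, averaging and the Hardy identity. -/
def StepStmt : Prop := ∀ (n : ℕ) (d : Dat n), d.Ok → ∃ c > 0, ∃ C > 0, ∀ (β s : ℝ) (f : Eu n → ℝ),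
  0 ≤ β → d.Adm f → (∀ f', d.Adm f' → s ≤ d.Y (d.W0 + β) f') →
  ∃ z ∈ d.K, ∃ γ > 0, ∃ v : Eu n → ℝ, ContDiff ℝ 1 v ∧ (∀ x, 0 < v x) ∧
    (∀ x, f x = v x * d.ph z γ x) ∧ d.Np z γ v = 1 ∧
    d.Y (d.W0 + β) f = d.cm * d.Uv z γ v + d.Df z γ v + β * d.F2 z γ v ∧
    ∀ ε : ℝ, 0 < ε → ε ≤ 1 / 2 → c * ε ^ 2 * (d.Df z γ v + β * d.F2 z γ v) ≤
      d.Y (d.W0 + β) f - s + C * ε ^ 3 * (d.Y (d.W0 + β) f + 1 + β)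

/-- The sharp Sobolev inequality. -/
def SharpStmt : Prop := ∀ (n : ℕ) (d : Dat n), d.Ok → ∀ f, d.Adm f →
  d.cm * sph d.m ^ (2 / (d.m : ℝ)) ≤ d.Y d.W0 f

/-- Vanishing deficit for a constant. -/
def EqStmt : Prop := ∀ (n : ℕ) (d : Dat n), d.Ok → ∀ z ∈ d.K, ∀ γ > 0, ∀ (v : Eu n → ℝ) (c : ℝ),
  0 < c → (∀ x, c = v x * d.ph z γ x) → d.Df z γ v ≤ 0 →
  ∀ᵐ x ∂d.μ, d.m * (1 + d.b ^ 2 * d.Q z x) = d.H * √(d.s2 z x)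

end Vale.Agent.P219
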