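import Vale.Agent.P219.Wt
import Vale.Agent.P219.BRBas
import Vale.Agent.P234.Bridge

/-! P219 part U: interfaces for the passage from a global chart to a manifold. -/

open scoped Manifold ContDiff ENNReal RealInnerProductSpace Topology
open MeasureTheory Set Filter

set_option maxSynthPendingDepth 3

namespace Vale.Agent.P219.U

open Vale.Agent.P255 Vale.Agent.P234

section Defs

variable {E : Type} [NormedAddCommGroup E] [NormedSpace ℝ E]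
  {M : Type} [MetricSpace M] [ChartedSpace E M] {n : ℕ}

/-- The distance of `M` is the length distance of `g`. -/
structure LM (g : M → E →L[ℝ] E →L[ℝ] ℝ) : Prop extends IsRM g where
  le : ∀ (γ : ℝ → M) (a b : ℝ), a ≤ b → ContMDiffOn 𝓘(ℝ, ℝ) 𝓘(ℝ, E) 1 γ (Icc a b) →
    edist (γ a) (γ b) ≤ BridgeAux.ln g γ a b
  ex : ∀ (x y : M) (r : ℝ≥0∞), edist x y < r → ∃ γ : ℝ → M, γ 0 = x ∧ γ 1 = y ∧
    ContMDiff 𝓘(ℝ, ℝ) 𝓘(ℝ, E) 1 γ ∧ BridgeAux.ln g γ 0 1 < r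

/-- Geodesic completeness. -/
def Cpl (g : M → E →L[ℝ] E →L[ℝ] ℝ) : Prop :=
  ∀ m v, ∃ γ : ℝ → M, IsGeodesicOn g γ univ ∧ γ 0 = m ∧ vel E γ 0 = v

/-- `Ψ` is a global chart, `G` the pulled back metric, and `Ψ` is expanding. -/
structure GC (g : M → E →L[ℝ] E →L[ℝ] ℝ) (Ψ : Eu n ≃ₜ M) (G : Met n) : Prop where
  dim : Module.finrank ℝ E = n
  sm : ContMDiff 𝓘(ℝ, Eu n) 𝓘(ℝ, E) ∞ Ψ
  sm' : ContMDiff 𝓘(ℝ, E) 𝓘(ℝ, Eu n) ∞ Ψ.symm
  pull : ∀ x u v, G x u v = g (Ψ x) (dM E Ψ x u) (dM E Ψ x v)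
  exp : ∀ x u, ‖u‖ ^ 2 ≤ G x u u

/-- Near `y` the distance of `M` is almost the norm of `G y`. -/
def BiL (G : Met n) (Ψ : Eu n → M) : Prop :=
  ∀ y, ∀ η > 0, ∀ᶠ z : Eu n × Eu n in 𝓝 (y, y),
    dist (Ψ z.1) (Ψ z.2) ≤ (1 + η) * √(G y (z.1 - z.2) (z.1 - z.2)) ∧
    √(G y (z.1 - z.2) (z.1 - z.2)) ≤ (1 + η) * dist (Ψ z.1) (Ψ z.2)

/-- `ν` dominates the volume of Lipschitz images in `ℝ^m`. -/
def Low (G : Met n) (m : ℕ) (ν : Measure (Eu n)) : Prop :=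
  ∀ y, ∀ η > 0, ∃ W ∈ 𝓝 y, ∀ A ⊆ W, MeasurableSet A → ∀ (π : Eu n → Eu m) (K : ℝ), 0 ≤ K →
    (∀ a ∈ A, ∀ b ∈ A, ‖π a - π b‖ ≤ K * √(G y (a - b) (a - b))) →
    volume (π '' A) ≤ ENNReal.ofReal (((1 + η) * K) ^ m) * ν A

/-- An open subset of Euclidean space with `C¹` boundary. -/
def SmB (Ω : Set (Eu n)) : Prop :=
  IsOpen Ω ∧ ∀ p ∈ frontier Ω, ∃ (U : Set (Eu n)) (f : Eu n → ℝ), IsOpen U ∧ p ∈ U ∧
    ContDiffOn ℝ 1 f U ∧ fderiv ℝ f p ≠ 0 ∧ Ω ∩ U = {x ∈ U | f x < 0}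

end Defs

/-- File `UCpl`. -/
def CplStmt : Prop := ∀ (E : Type) [NormedAddCommGroup E] [NormedSpace ℝ E]
  [FiniteDimensional ℝ E] (M : Type) [MetricSpace M] [CompleteSpace M] [ChartedSpace E M]
  [IsManifold 𝓘(ℝ, E) ∞ M] (g : M → E →L[ℝ] E →L[ℝ] ℝ), LM g → Cpl g

/-- File `UExp`. -/
def ExpStmt : Prop := ∀ (E : Type) [NormedAddCommGroup E] [NormedSpace ℝ E]
  [FiniteDimensional ℝ E] (M : Type) [MetricSpace M] [SimplyConnectedSpace M] [ChartedSpace E M]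
  [IsManifold 𝓘(ℝ, E) ∞ M] (g : M → E →L[ℝ] E →L[ℝ] ℝ) (n : ℕ), Module.finrank ℝ E = n →
  IsRM g → NPC g → Cpl g → ∃ (Ψ : Eu n ≃ₜ M) (G : Met n), GC g Ψ G

/-- File `UNat`: curvature and geodesics under a local isometry between two spaces. -/
def NatStmt : Prop := ∀ (E F : Type) [NormedAddCommGroup E] [NormedSpace ℝ E]
  [FiniteDimensional ℝ E] [NormedAddCommGroup F] [NormedSpace ℝ F] [FiniteDimensional ℝ F]
  (G : E → E →L[ℝ] E →L[ℝ] ℝ) (G' : F → F →L[ℝ] F →L[ℝ] ℝ) (U : Set E) (U' : Set F) (τ : E → F),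
  CM G U → CM G' U' → ContDiffOn ℝ ∞ τ U → MapsTo τ U U' →
  (∀ y ∈ U, Function.Surjective (fderiv ℝ τ y)) →
  (∀ y ∈ U, ∀ v w, G y v w = G' (τ y) (fderiv ℝ τ y v) (fderiv ℝ τ y w)) →
  (∀ y ∈ U, ∀ u v, sec G y u v = sec G' (τ y) (fderiv ℝ τ y u) (fderiv ℝ τ y v)) ∧
  ∀ (c : ℝ → E) (s : ℝ), c s ∈ U → ContDiffAt ℝ 2 c s →
    cov G' (τ ∘ c) (deriv (τ ∘ c)) s = fderiv ℝ τ (c s) (cov G c (deriv c) s)

/-- File `UCH` (from `NatStmt`). -/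
def CHStmt : Prop := ∀ (E : Type) [NormedAddCommGroup E] [NormedSpace ℝ E]
  [FiniteDimensional ℝ E] (M : Type) [MetricSpace M] [ChartedSpace E M]
  [IsManifold 𝓘(ℝ, E) ∞ M] (g : M → E →L[ℝ] E →L[ℝ] ℝ) (n : ℕ) (Ψ : Eu n ≃ₜ M) (G : Met n)
  (κ : ℝ), IsRM g → Cpl g → SecLE g κ → GC g Ψ G → CH G κ

/-- File `UBiL`. -/
def BiLStmt : Prop := ∀ (E : Type) [NormedAddCommGroup E] [NormedSpace ℝ E]
  [FiniteDimensional ℝ E] (M : Type) [MetricSpace M] [ChartedSpace E M]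
  [IsManifold 𝓘(ℝ, E) ∞ M] (g : M → E →L[ℝ] E →L[ℝ] ℝ) (n : ℕ) (Ψ : Eu n ≃ₜ M) (G : Met n),
  LM g → GC g Ψ G → Rm G → (∀ a b, ‖a - b‖ ≤ dist (Ψ a) (Ψ b)) ∧ BiL G Ψ

/-- File `UVol`. -/
def VolStmt : Prop := ∀ (M : Type) [MetricSpace M] [MeasurableSpace M] [BorelSpace M] (n : ℕ)
  (Ψ : Eu n ≃ₜ M) (G : Met n), Rm G → BiL G Ψ →
  (∀ A, MeasurableSet A →
    (μHE[n] : Measure M) (Ψ '' A) = ∫⁻ x in A, ENNReal.ofReal (wt G x)) ∧
  ∀ m, Low G m (Measure.map Ψ.symm (μHE[m] : Measure M))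

/-- File `ULin`: coordinates adapted to `G p` and to the linear form `ℓ`. -/
def LinStmt : Prop := ∀ (m : ℕ) (G : Met (m + 1)) (p : Eu (m + 1)) (ℓ : Eu (m + 1) →L[ℝ] ℝ),
  Rm G → ℓ ≠ 0 → ∃ (S : Eu (m + 1) ≃L[ℝ] (Eu m × ℝ)) (c : ℝ), 0 < c ∧
    (∀ u, G p u u = ‖(S u).1‖ ^ 2 + (S u).2 ^ 2) ∧ (∀ u, ℓ u = c * (S u).2) ∧
    (∀ D : Eu (m + 1) →L[ℝ] Eu (m + 1), ∑ i, D (ee i) i =
      ∑ i, (S (D (S.symm (ee i, 0)))).1 i + (S (D (S.symm (0, 1)))).2) ∧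
    Measure.map S volume = ENNReal.ofReal (wt G p)⁻¹ • volume

/-- File `UDir`: a directional derivative integrated over a subgraph. -/
def DirStmt : Prop := ∀ (m : ℕ) (S : Eu (m + 1) ≃L[ℝ] (Eu m × ℝ)) (c K : ℝ≥0∞) (a : Eu m)
  (W Ω : Set (Eu (m + 1))) (f φ : Eu (m + 1) → ℝ) (ν : Measure (Eu (m + 1))),
  c ≠ ⊤ → K ≠ ⊤ → Measure.map S volume = c • volume → IsOpen W → Convex ℝ W → MeasurableSet Ω →
  DifferentiableOn ℝ f W → (∀ x ∈ W, 0 < fderiv ℝ f x (S.symm (a, 1))) →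
  Ω ∩ W = {x ∈ W | f x < 0} → ContDiff ℝ 1 φ → HasCompactSupport φ → tsupport φ ⊆ W →
  (∀ A ⊆ {x ∈ W | f x = 0}, MeasurableSet A →
    volume ((fun x => (S x).1 - (S x).2 • a) '' A) ≤ K * ν A) →
  ‖∫ x in Ω, fderiv ℝ φ x (S.symm (a, 1))‖ₑ ≤ c * K * ∫⁻ x in {x ∈ W | f x = 0}, ‖φ x‖ₑ ∂ν

/-- File `ULoc` (from `LinStmt` and `DirStmt`). -/
def LocStmt : Prop := ∀ (m : ℕ) (G : Met (m + 1)) (ν : Measure (Eu (m + 1)))
  (Ω : Set (Eu (m + 1))) (p : Eu (m + 1)), Rm G → Low G m ν → SmB Ω → p ∈ frontier Ω →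
  ∀ ε > 0, ∃ W ∈ 𝓝 p, ∀ Y, ContDiff ℝ 1 Y → HasCompactSupport Y → tsupport Y ⊆ W →
    ENNReal.ofReal (flux G Ω Y) ≤
      ENNReal.ofReal (1 + ε) * ∫⁻ x in frontier Ω, ENNReal.ofReal √(G x (Y x) (Y x)) ∂ν

/-- File `UPer` (from `LocStmt`). -/
def PerStmt : Prop := ∀ (m : ℕ) (G : Met (m + 1)) (ν : Measure (Eu (m + 1)))
  (Ω : Set (Eu (m + 1))), Rm G → Low G m ν → SmB Ω → per G Ω ≤ ν (frontier Ω)

/-- File `UReg`. -/
def RegStmt : Prop := ∀ (n : ℕ) (Ω : Set (Eu n)) (Φ : Eu n ≃ₜ Eu n) (r : ℝ), 0 < r → SmB Ω →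
  Ω =ᵐ[volume] (Φ '' Metric.ball 0 r : Set (Eu n)) → Ω = Φ '' Metric.ball 0 r

section Basic

variable {E : Type} [NormedAddCommGroup E] [NormedSpace ℝ E] [FiniteDimensional ℝ E]
  {M : Type} [MetricSpace M] [ChartedSpace E M] [IsManifold 𝓘(ℝ, E) ∞ M]

open scoped Bundle in
theorem lm_of_metric (g : RMetric E M) (hd : IsGeodesicDist g) :
    LM (E := E) (M := M) g.inner := by
  let _ : Bundle.RiemannianBundle (fun x : M => TangentSpace 𝓘(ℝ, E) x) := ⟨g.toRiemannianMetric⟩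
  have key : ∀ (γ : ℝ → M) (a b : ℝ), Manifold.pathELength 𝓘(ℝ, E) γ a b =
      BridgeAux.ln (E := E) (M := M) g.inner γ a b := fun γ a b => by
    rw [Manifold.pathELength_eq_lintegral_mfderiv_Icc]
    refine lintegral_congr fun t => ?_
    rw [← ofReal_norm, norm_eq_sqrt_real_inner]
    rfl
  refine ⟨isRM_of_metric g, fun γ a b hab hγ => ?_, fun x y r hr => ?_⟩
  · rw [hd, ← key]
    exact Manifold.riemannianEDist_le_pathELength hγ rfl rfl hab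
  · rw [hd] at hr
    obtain ⟨γ, h0, h1, h2, h3, -⟩ :=
      Manifold.exists_lt_locally_constant_of_riemannianEDist_lt hr zero_lt_one
    exact ⟨γ, h0, h1, h2, key γ 0 1 ▸ h3⟩

omit [FiniteDimensional ℝ E] [IsManifold 𝓘(ℝ, E) ∞ M] in
/-- Curves of bounded speed are Lipschitz. -/
theorem LM.len {g : M → E →L[ℝ] E →L[ℝ] ℝ} (hg : LM g) (γ : ℝ → M) {a b L : ℝ} (hab : a ≤ b)
    (h : ∀ t ∈ Icc a b, ContMDiffAt 𝓘(ℝ, ℝ) 𝓘(ℝ, E) 1 γ t ∧ nr g (γ t) (vel E γ t) ≤ L) :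
    dist (γ a) (γ b) ≤ L * (b - a) := by
  have hL : 0 ≤ L := (Real.sqrt_nonneg _).trans (h a (left_mem_Icc.2 hab)).2
  have h1 := hg.le γ a b hab fun t ht => (h t ht).1.contMDiffWithinAt
  have h2 : BridgeAux.ln g γ a b ≤ ∫⁻ _ in Icc a b, ENNReal.ofReal L :=
    setLIntegral_mono' measurableSet_Icc fun t ht => ENNReal.ofReal_le_ofReal (h t ht).2
  rw [setLIntegral_const, Real.volume_Icc, ← ENNReal.ofReal_mul hL] at h2
  have h3 := h1.trans h2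
  rwa [edist_dist, ENNReal.ofReal_le_ofReal_iff (mul_nonneg hL (sub_nonneg.2 hab))] at h3

end Basic

/-- Hausdorff measure under a relative Lipschitz bound. -/
theorem lip {X Y Z : Type} [MetricSpace X] [MeasurableSpace X] [BorelSpace X] [MetricSpace Y]
    [MeasurableSpace Y] [BorelSpace Y] [Nonempty Z] {f : Z → X} {k : Z → Y} {A : Set Z} {K : ℝ}
    (hK : 0 ≤ K) (h : ∀ a ∈ A, ∀ b ∈ A, dist (f a) (f b) ≤ K * dist (k a) (k b)) (n : ℕ) :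
    (μHE[n] : Measure X) (f '' A) ≤ ENNReal.ofReal (K ^ n) * (μHE[n] : Measure Y) (k '' A) := by
  have h1 : ∀ a ∈ A, f (Function.invFunOn k A (k a)) = f a := by
    intro a ha
    have := h _ (Function.invFunOn_mem (f := k) ⟨a, ha, rfl⟩) a ha
    rw [Function.invFunOn_eq (f := k) ⟨a, ha, rfl⟩, dist_self, mul_zero] at this
    exact dist_le_zero.1 this
  have h2 : f '' A = (fun y => f (Function.invFunOn k A y)) '' (k '' A) := by
    rw [image_image]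
    exact image_congr fun a ha => (h1 a ha).symm
  have h3 : LipschitzOnWith K.toNNReal (fun y => f (Function.invFunOn k A y)) (k '' A) := by
    refine LipschitzOnWith.of_dist_le' ?_
    rintro _ ⟨a, ha, rfl⟩ _ ⟨b, hb, rfl⟩
    rw [h1 a ha, h1 b hb]
    exact h a ha b hb
  have h4 := h3.hausdorffMeasure_image_le (d := n) (Nat.cast_nonneg n)
  rw [h2, Measure.euclideanHausdorffMeasure_def, Measure.euclideanHausdorffMeasure_def,
    Measure.coe_nnreal_smul_apply, Measure.coe_nnreal_smul_apply, mul_left_comm,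
    ENNReal.ofReal_pow hK]
  rw [ENNReal.rpow_natCast] at h4
  exact mul_le_mul_right h4 _

theorem lim {a b : ℝ≥0∞} (m : ℕ) (h : ∀ η : ℝ, 0 < η → a ≤ ENNReal.ofReal ((1 + η) ^ m) * b) :
    a ≤ b := by
  have h1 : Tendsto (fun η : ℝ => ENNReal.ofReal ((1 + η) ^ m)) (𝓝[>] 0) (𝓝 1) := by
    have h0 : Continuous fun η : ℝ => ENNReal.ofReal ((1 + η) ^ m) :=
      ENNReal.continuous_ofReal.comp (by fun_prop)
    simpa using (h0.tendsto 0).mono_left (nhdsWithin_le_nhds (s := Ioi 0))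
  have h2 := ENNReal.Tendsto.mul_const (b := b) h1 (Or.inl one_ne_zero)
  rw [one_mul] at h2
  exact ge_of_tendsto h2 (eventually_mem_nhdsWithin.mono h)

/-- The metric near `y` is almost the metric at `y`. -/
theorem near {n : ℕ} {G : Met n} (hG : Rm G) (y : Eu n) {η : ℝ} (hη : 0 < η) :
    ∀ᶠ x in 𝓝 y, ∀ u, √(G x u u) ≤ (1 + η) * √(G y u u) ∧ √(G y u u) ≤ (1 + η) * √(G x u u) := by
  obtain ⟨c, hc, h1⟩ := hG.coercive (isCompact_singleton (x := y))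
  have h2 : ContinuousAt G y := hG.smooth.continuous.continuousAt
  have hδ : 0 < c * (η / (1 + η)) := by positivity
  filter_upwards [h2.eventually (Metric.ball_mem_nhds _ hδ)] with x hx u
  have h3 : ‖G x - G y‖ ≤ c * (η / (1 + η)) := by
    rw [← dist_eq_norm]
    exact (Metric.mem_ball.1 hx).le
  have h4 := (G x - G y).le_opNorm₂ u u
  have h5 : ‖G x - G y‖ * ‖u‖ * ‖u‖ ≤ η / (1 + η) * G y u u :=
    calc _ ≤ c * (η / (1 + η)) * ‖u‖ * ‖u‖ := by gcongr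
      _ = η / (1 + η) * (c * ‖u‖ ^ 2) := by ring
      _ ≤ _ := by gcongr; exact h1 y rfl u
  obtain ⟨h6, h7⟩ := abs_le.1 (h4.trans h5)
  simp only [sub_apply] at h6 h7
  have h8 := hG.nonneg y u
  have h9 := hG.nonneg x u
  have h10 : η / (1 + η) * G y u u * (1 + η) = η * G y u u := by field_simp
  have h11 : (0 : ℝ) < 1 + η := by linarith
  have h12 : G y u u ≤ (1 + η) * G x u u := by nlinarith
  have h13 : G x u u ≤ (1 + η) * G y u u := by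
    have : η / (1 + η) * G y u u ≤ η * G y u u :=
      mul_le_mul_of_nonneg_right (div_le_self hη.le (by linarith)) h8
    linarith
  have key : ∀ s t : ℝ, 0 ≤ t → s ≤ (1 + η) * t → √s ≤ (1 + η) * √t := fun s t ht h => by
    rw [Real.sqrt_le_iff, mul_pow, Real.sq_sqrt ht]
    exact ⟨by positivity, by nlinarith [mul_nonneg (mul_nonneg h11.le hη.le) ht]⟩
  exact ⟨key _ _ h8 h13, key _ _ h9 h12⟩

end Vale.Agent.P219.U
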