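import Vale.Agent.P219.StmU

/-! P219 part U: assembly. -/

open scoped Manifold ContDiff ENNReal RealInnerProductSpace Topology
open MeasureTheory Set Filter

set_option maxSynthPendingDepth 3

namespace Vale.Agent.P219.U

open Vale.Agent.P255 Vale.Agent.P234

section

variable {E : Type} [NormedAddCommGroup E] [NormedSpace ℝ E]
  {M : Type} [MetricSpace M] [ChartedSpace E M] {n : ℕ}
  {g : M → E →L[ℝ] E →L[ℝ] ℝ} {Ψ : Eu n ≃ₜ M} {G : Met n}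

theorem GC.smB (h : GC g Ψ G) {Ω : Set M} (hΩ : SmoothBdry E Ω) : SmB (Ψ ⁻¹' Ω) := by
  refine ⟨hΩ.1.preimage Ψ.continuous, fun p hp => ?_⟩
  rw [← Ψ.preimage_frontier] at hp
  obtain ⟨U, f, h1, h2, h3, h4, h5⟩ := hΩ.2 _ hp
  have h6 : ContMDiffOn 𝓘(ℝ, Eu n) 𝓘(ℝ, ℝ) ∞ (f ∘ Ψ) (Ψ ⁻¹' U) :=
    h3.comp h.sm.contMDiffOn fun x hx => hx
  refine ⟨Ψ ⁻¹' U, f ∘ Ψ, h1.preimage Ψ.continuous, h2,
    (contMDiffOn_iff_contDiffOn.1 h6).of_le (by exact_mod_cast le_top), fun h7 => h4 ?_, ?_⟩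
  · have a1 : MDifferentiableAt 𝓘(ℝ, Eu n) 𝓘(ℝ, ℝ) (f ∘ Ψ) (Ψ.symm (Ψ p)) := by
      rw [Ψ.symm_apply_apply]
      exact (h6.contMDiffAt ((h1.preimage Ψ.continuous).mem_nhds h2)).mdifferentiableAt (by simp)
    have a2 := mfderiv_comp (Ψ p) a1 ((h.sm' (Ψ p)).mdifferentiableAt (by simp))
    have a3 : (f ∘ Ψ) ∘ Ψ.symm = f := by
      funext x
      simp
    rw [a3, Ψ.symm_apply_apply, mfderiv_eq_fderiv, h7] at a2
    rw [a2]
    exact ContinuousLinearMap.zero_comp _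
  · rw [← preimage_inter, h5]
    rfl

theorem GC.model (h : GC g Ψ G) {Ω : Set M} {b r : ℝ} {Φ : Eu n ≃ₜ Eu n} (hr : 0 < r)
    (hΦ : ContDiff ℝ ∞ Φ) (hΩ : Ψ ⁻¹' Ω = Φ '' Metric.ball 0 r)
    (hm : ∀ v ∈ Metric.ball (0 : Eu n) r, ∀ u,
      G (Φ v) (fderiv ℝ Φ v u) (fderiv ℝ Φ v u) = mg b v u) :
    IsModelBall (E := E) n b g Ω := by
  refine ⟨r, Ψ ∘ Φ, hr, (h.sm.comp hΦ.contMDiff).contMDiffOn, ?_, fun v hv u => ?_⟩
  · have h1 : Ω = (Ψ ∘ Φ) '' Metric.ball 0 r := by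
      rw [image_comp, ← hΩ, image_preimage_eq _ Ψ.surjective]
    rw [h1]
    exact (Ψ.injective.comp Φ.injective).injOn.bijOn_image
  · have a1 := mfderiv_comp v ((h.sm (Φ v)).mdifferentiableAt (by simp))
      ((hΦ.contMDiff v).mdifferentiableAt (by simp))
    rw [← hm v hv u, h.pull, a1, mfderiv_eq_fderiv]
    rfl

end

theorem final_of (hc : CoreStmt) (h1 : CplStmt) (h2 : ExpStmt) (h3 : CHStmt) (h4 : BiLStmt)
    (h5 : VolStmt) (h6 : PerStmt) (h7 : RegStmt) : FinalStmt := by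
  intro E _ _ _ M _ _ _ _ _ _ _ g hd n hn h4n κ hκ hs Ω hΩ hb
  have hl := lm_of_metric g hd
  have hcp := h1 E M _ hl
  have hK : NPC (E := E) (M := M) g.inner := fun e he y hy =>
    (hl.toIsRM.cm he).nonpos hy fun u v huv => (hs e he y hy u v huv).trans hκ
  obtain ⟨Ψ, G, hG⟩ := h2 E M _ n hn hl.toIsRM hK hcp
  have hCH := h3 E M _ n Ψ G κ hl.toIsRM hcp hs hG
  obtain ⟨hlip, hbl⟩ := h4 E M _ n Ψ G hl hG hCH.toRm
  obtain ⟨hv, hlow⟩ := h5 M n Ψ G hCH.toRm hbl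
  obtain ⟨m, rfl⟩ : ∃ m, n = m + 1 := ⟨n - 1, by omega⟩
  have hS := hG.smB hΩ
  have hb' : Bornology.IsBounded (Ψ ⁻¹' Ω) := by
    obtain ⟨C, hC⟩ := Metric.isBounded_iff.1 hb
    exact Metric.isBounded_iff.2 ⟨C, fun a ha b hb => by
      rw [dist_eq_norm]
      exact (hlip a b).trans (hC ha hb)⟩
  have hm := hS.1.measurableSet
  have hint : IntegrableOn (wt G) (Ψ ⁻¹' Ω) :=
    (hCH.toRm.wt_cont.continuousOn.integrableOn_compact hb'.isCompact_closure).mono_set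
      subset_closure
  have hvol : (μHE[m + 1] : Measure M) Ω = ENNReal.ofReal (vol G (Ψ ⁻¹' Ω)) := by
    rw [vol, ofReal_integral_eq_lintegral_ofReal hint
      (Eventually.of_forall fun x => (hCH.toRm.wt_pos x).le), ← hv _ hm,
      image_preimage_eq _ Ψ.surjective]
  have hv0 : 0 ≤ vol G (Ψ ⁻¹' Ω) := integral_nonneg fun x => (hCH.toRm.wt_pos x).le
  have hper : per G (Ψ ⁻¹' Ω) ≤ (μHE[m + 1 - 1] : Measure M) (frontier Ω) := by
    have a := h6 m G _ _ hCH.toRm (hlow m) hS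
    rwa [Measure.map_apply Ψ.symm.measurable isClosed_frontier.measurableSet,
      ← Ψ.preimage_frontier, ← preimage_comp, Ψ.self_comp_symm, preimage_id] at a
  obtain ⟨c1, c2⟩ := hc _ G κ _ h4n hκ hCH hm hb'
  rw [hvol, ENNReal.toReal_ofReal hv0]
  refine ⟨ENNReal.ofReal_ne_top, c1.trans hper, fun hne he => ?_⟩
  have hpos : 0 < vol G (Ψ ⁻¹' Ω) := by
    rw [vol, setIntegral_pos_iff_support_of_nonneg_ae
      (Eventually.of_forall fun x => (hCH.toRm.wt_pos x).le) hint]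
    have : Function.support (wt G) = univ := eq_univ_of_forall fun x => (hCH.toRm.wt_pos x).ne'
    rw [this, univ_inter]
    exact hS.1.measure_pos _ (hne.preimage Ψ.surjective)
  obtain ⟨r, Φ, a1, a2, a3, a4⟩ := c2 hpos (le_antisymm (he ▸ hper) c1)
  exact hG.model a1 a2 (h7 _ _ Φ r a1 hS a3) a4

end Vale.Agent.P219.U
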