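import Vale.Agent.P219.StmU

/-! P219 part U: the distance of the manifold read in the global chart. -/

open scoped Manifold ContDiff ENNReal Topology
open MeasureTheory Set Filter

set_option maxSynthPendingDepth 3

namespace Vale.Agent.P219.U

open Vale.Agent.P255 Vale.Agent.P234

namespace BiL

variable {E : Type} [NormedAddCommGroup E] [NormedSpace ℝ E]
  {M : Type} [MetricSpace M] [ChartedSpace E M] {n : ℕ} {g : M → E →L[ℝ] E →L[ℝ] ℝ}
  {Ψ : Eu n ≃ₜ M} {G : Met n}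

theorem cs (h : Rm G) (x v w : Eu n) : |G x v w| ≤ √(G x v v) * √(G x w w) := by
  have h1 := discrim_le_zero (a := G x v v) (b := 2 * G x v w) (c := G x w w) fun t => by
    have h2 := h.nonneg x (t • v + w)
    simp only [map_add, map_smul, add_apply, smul_apply, smul_eq_mul, h.symm x w v] at h2
    linarith
  rw [← Real.sqrt_mul (h.nonneg x v)]
  refine Real.abs_le_sqrt ?_
  rw [discrim] at h1
  linarith

theorem velc (hΨ : GC g Ψ G) {c : ℝ → Eu n} {t : ℝ} (hc : DifferentiableAt ℝ c t) :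
    nr g (Ψ (c t)) (vel E (Ψ ∘ c) t) = √(G (c t) (deriv c t) (deriv c t)) := by
  have h1 : vel E (Ψ ∘ c) t = dM E Ψ (c t) (deriv c t) := by
    unfold vel dM
    rw [mfderiv_comp t ((hΨ.sm (c t)).mdifferentiableAt (by simp)) hc.mdifferentiableAt,
      mfderiv_eq_fderiv]
    rfl
  rw [nr, hΨ.pull, h1]

theorem path (hg : LM g) (hΨ : GC g Ψ G) (a b : Eu n) {r : ℝ} (hr : dist (Ψ a) (Ψ b) < r) :
    ∃ c : ℝ → Eu n, c 0 = a ∧ c 1 = b ∧ ContDiff ℝ 1 c ∧
      (∫⁻ t in Icc (0 : ℝ) 1, ENNReal.ofReal √(G (c t) (deriv c t) (deriv c t))) ≤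
        ENNReal.ofReal r ∧ ∀ t ∈ Icc (0 : ℝ) 1, ‖c t - a‖ ≤ r := by
  have hr0 : 0 < r := dist_nonneg.trans_lt hr
  obtain ⟨γ, h0, h1, h2, h3⟩ := hg.ex (Ψ a) (Ψ b) (ENNReal.ofReal r)
    (by rwa [edist_dist, ENNReal.ofReal_lt_ofReal_iff hr0])
  have hc : ContDiff ℝ 1 (Ψ.symm ∘ γ) :=
    ((hΨ.sm'.of_le (by exact_mod_cast le_top)).comp h2).contDiff
  have e : γ = Ψ ∘ (Ψ.symm ∘ γ) := by funext t; simp
  have e0 : (Ψ.symm ∘ γ) 0 = a := by simp [h0]
  have e1 : (Ψ.symm ∘ γ) 1 = b := by simp [h1]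
  generalize Ψ.symm ∘ γ = c at hc e e0 e1
  subst e
  have h4 : (∫⁻ t in Icc (0 : ℝ) 1, ENNReal.ofReal √(G (c t) (deriv c t) (deriv c t))) ≤
      ENNReal.ofReal r := by
    refine le_of_eq_of_le (lintegral_congr fun t => ?_) h3.le
    rw [← velc hΨ (hc.differentiable one_ne_zero t)]
    rfl
  refine ⟨c, e0, e1, hc, h4, fun t ht => ?_⟩
  have h5 := enorm_sub_le_lintegral_deriv_of_contDiffOn_Icc (f := c) hc.contDiffOn ht.1
  have h6 : ∫⁻ s in Icc (0 : ℝ) t, ‖deriv c s‖ₑ ≤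
      ∫⁻ s in Icc (0 : ℝ) t, ENNReal.ofReal √(G (c s) (deriv c s) (deriv c s)) :=
    lintegral_mono fun s => by
      rw [← ofReal_norm]
      exact ENNReal.ofReal_le_ofReal (Real.le_sqrt_of_sq_le (hΨ.exp _ _))
  have h7 := ((h5.trans h6).trans (lintegral_mono_set (Icc_subset_Icc_right ht.2))).trans h4
  rwa [← ofReal_norm, ENNReal.ofReal_le_ofReal_iff hr0.le, e0] at h7

theorem upper (hg : LM g) (hΨ : GC g Ψ G) {S : Set (Eu n)} (hS : Convex ℝ S) {a b : Eu n}
    (ha : a ∈ S) (hb : b ∈ S) {L : ℝ} (h : ∀ x ∈ S, √(G x (a - b) (a - b)) ≤ L) :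
    dist (Ψ a) (Ψ b) ≤ L := by
  have hc : ContDiff ℝ 1 fun t : ℝ => b + t • (a - b) := by fun_prop
  have hd : ∀ t : ℝ, HasDerivAt (fun t : ℝ => b + t • (a - b)) (a - b) t := fun t => by
    simpa using ((hasDerivAt_id t).smul_const (a - b)).const_add b
  have h1 := hg.len (Ψ ∘ fun t : ℝ => b + t • (a - b)) (L := L) zero_le_one fun t ht =>
    ⟨((hΨ.sm.of_le (by exact_mod_cast le_top)).comp hc.contMDiff) t, by
      refine (velc hΨ (hd t).differentiableAt).trans_le ?_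
      rw [(hd t).deriv]
      exact h _ (hS.add_smul_sub_mem hb ha ht)⟩
  simpa [dist_comm] using h1

theorem lower (hg : LM g) (hΨ : GC g Ψ G) (hG : Rm G) {y a b : Eu n} {δ K r : ℝ} (hK : 0 ≤ K)
    (h : ∀ x ∈ Metric.ball y δ, ∀ u, √(G y u u) ≤ K * √(G x u u)) (hb : dist b y + r < δ)
    (hr : dist (Ψ b) (Ψ a) < r) : √(G y (a - b) (a - b)) ≤ K * r := by
  have hr0 : 0 < r := dist_nonneg.trans_lt hr
  obtain ⟨c, h0, h1, h2, h3, h4⟩ := path hg hΨ b a hr
  have hs := Real.sqrt_nonneg (G y (a - b) (a - b))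
  have h5 := enorm_sub_le_lintegral_deriv_of_contDiffOn_Icc (f := fun t => G y (a - b) (c t))
    ((G y (a - b)).contDiff.comp h2).contDiffOn zero_le_one
  have h6 : ∫⁻ t in Icc (0 : ℝ) 1, ‖deriv (fun t => G y (a - b) (c t)) t‖ₑ ≤
      ∫⁻ t in Icc (0 : ℝ) 1, ENNReal.ofReal (√(G y (a - b) (a - b)) * K) *
        ENNReal.ofReal √(G (c t) (deriv c t) (deriv c t)) :=
    setLIntegral_mono' measurableSet_Icc fun t ht => by
      have a1 : HasDerivAt (fun t => G y (a - b) (c t)) (G y (a - b) (deriv c t)) t :=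
        (G y (a - b)).hasFDerivAt.comp_hasDerivAt t (h2.differentiable one_ne_zero t).hasDerivAt
      have a2 : c t ∈ Metric.ball y δ := by
        have := dist_triangle (c t) b y
        have := h4 t ht
        rw [← dist_eq_norm] at this
        rw [Metric.mem_ball]
        linarith
      rw [a1.deriv, ← ofReal_norm, ← ENNReal.ofReal_mul (mul_nonneg hs hK), Real.norm_eq_abs,
        mul_assoc]
      exact ENNReal.ofReal_le_ofReal
        ((cs hG _ _ _).trans (mul_le_mul_of_nonneg_left (h _ a2 _) hs))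
  rw [lintegral_const_mul' _ _ ENNReal.ofReal_ne_top] at h6
  have h7 := (h5.trans h6).trans (mul_le_mul_right h3 _)
  rw [← ENNReal.ofReal_mul (mul_nonneg hs hK), ← ofReal_norm,
    ENNReal.ofReal_le_ofReal_iff (by positivity), h0, h1, ← map_sub,
    Real.norm_of_nonneg (hG.nonneg _ _), mul_assoc] at h7
  rcases hs.eq_or_lt with h8 | h8
  · rw [← h8]; positivity
  · refine le_of_mul_le_mul_left ?_ h8
    rwa [Real.mul_self_sqrt (hG.nonneg _ _)]

end BiL

theorem biL_pf : BiLStmt := by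
  intro E _ _ _ M _ _ _ g n Ψ G hg hΨ hG
  refine ⟨fun a b => le_of_forall_gt_imp_ge_of_dense fun r hr => ?_, fun y η hη => ?_⟩
  · obtain ⟨c, -, h1, -, -, h4⟩ := BiL.path hg hΨ b a (by rwa [dist_comm])
    simpa only [h1] using h4 1 (right_mem_Icc.2 zero_le_one)
  obtain ⟨δ, hδ, h⟩ := Metric.eventually_nhds_iff_ball.1 (near hG y hη)
  have h1 : ∀ᶠ z : Eu n × Eu n in 𝓝 (y, y), dist z.1 y < δ :=
    (continuous_fst.dist continuous_const).continuousAt.eventually_lt continuousAt_const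
      (by simpa using hδ)
  have h2 : ∀ᶠ z : Eu n × Eu n in 𝓝 (y, y), dist z.2 y + dist (Ψ z.2) (Ψ z.1) < δ :=
    ContinuousAt.eventually_lt (f := fun z : Eu n × Eu n => dist z.2 y + dist (Ψ z.2) (Ψ z.1))
      (by fun_prop) continuousAt_const (by simpa using hδ)
  filter_upwards [h1, h2] with z a1 a2
  have hK : 0 < 1 + η := by linarith
  refine ⟨BiL.upper hg hΨ (convex_ball y δ) a1
    ((le_add_of_nonneg_right dist_nonneg).trans_lt a2) fun x hx => (h x hx _).1, ?_⟩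
  rw [← div_le_iff₀' hK, dist_comm]
  refine le_of_forall_gt_imp_ge_of_dense fun r hr => ?_
  obtain ⟨r', b1, b2⟩ := exists_between (lt_min hr (lt_sub_iff_add_lt'.2 a2))
  rw [div_le_iff₀' hK]
  refine (BiL.lower hg hΨ hG hK.le (fun x hx u => (h x hx u).2)
    (lt_sub_iff_add_lt'.1 (b2.trans_le (min_le_right _ _))) b1).trans ?_
  exact mul_le_mul_of_nonneg_left (b2.le.trans (min_le_left _ _)) hK.le

end Vale.Agent.P219.U
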