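import Vale.Agent.P219.StmU

/-! P219 part U: the pulled back metric is a Cartan-Hadamard metric. -/

open scoped Manifold ContDiff ENNReal RealInnerProductSpace Topology
open MeasureTheory Set Filter

set_option maxSynthPendingDepth 3

namespace Vale.Agent.P219.U

open Vale.Agent.P255 Vale.Agent.P234

namespace CH

variable {E : Type} [NormedAddCommGroup E] [NormedSpace ℝ E] [FiniteDimensional ℝ E]
  {M : Type} [MetricSpace M] [ChartedSpace E M] [IsManifold 𝓘(ℝ, E) ∞ M]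
  {g : M → E →L[ℝ] E →L[ℝ] ℝ} {n : ℕ} {Ψ : Eu n ≃ₜ M} {G : Met n}
  {e : OpenPartialHomeomorph M E}

theorem tau_sm (h : GC g Ψ G) (he : e ∈ atlas E M) {y : Eu n} (hy : Ψ y ∈ e.source) :
    ContDiffAt ℝ ∞ (e ∘ Ψ) y :=
  contDiffAt_chart_comp le_rfl he hy (h.sm y)

theorem tau_d (h : GC g Ψ G) (he : e ∈ atlas E M) {y : Eu n} (hy : Ψ y ∈ e.source) (u : Eu n) :
    dC e (Ψ y) (dM E Ψ y u) = fderiv ℝ (e ∘ Ψ) y u :=
  dC_dM he hy Ψ.continuous.continuousAt ((tau_sm h he hy).differentiableAt (by simp)) u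

theorem pull_chart (h : GC g Ψ G) (he : e ∈ atlas E M) {y : Eu n} (hy : Ψ y ∈ e.source)
    (v w : Eu n) :
    G y v w = gc g e ((e ∘ Ψ) y) (fderiv ℝ (e ∘ Ψ) y v) (fderiv ℝ (e ∘ Ψ) y w) := by
  rw [← tau_d h he hy, ← tau_d h he hy, Function.comp_apply, gc_dC g he hy, h.pull]

theorem tau_inj (h : GC g Ψ G) (he : e ∈ atlas E M) {y : Eu n} (hy : Ψ y ∈ e.source) :
    Function.Injective (fderiv ℝ (e ∘ Ψ) y) := by
  rw [injective_iff_map_eq_zero]
  intro u hu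
  have h1 := h.exp y u
  rw [pull_chart h he hy, hu, map_zero] at h1
  exact norm_eq_zero.1 (pow_eq_zero_iff two_ne_zero |>.1 (le_antisymm h1 (sq_nonneg _)))

theorem tau_surj (h : GC g Ψ G) (he : e ∈ atlas E M) {y : Eu n} (hy : Ψ y ∈ e.source) :
    Function.Surjective (fderiv ℝ (e ∘ Ψ) y) := by
  have h1 : Module.finrank ℝ (Eu n) = Module.finrank ℝ E := by
    rw [h.dim, finrank_euclideanSpace_fin]
  exact (LinearMap.injective_iff_surjective_of_finrank_eq_finrank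
    (f := (fderiv ℝ (e ∘ Ψ) y : Eu n →ₗ[ℝ] E)) h1).1 (tau_inj h he hy)

theorem rm (hg : IsRM g) (h : GC g Ψ G) : Rm G := by
  refine ⟨?_, fun x v w => by rw [h.pull, h.pull, hg.symm], fun x v hv => ?_⟩
  · refine contDiff_clm_apply_iff.2 fun v => contDiff_clm_apply_iff.2 fun w => ?_
    refine contDiff_iff_contDiffAt.2 fun x => ?_
    have he := chart_mem_atlas E (Ψ x)
    have hx : Ψ x ∈ (chartAt E (Ψ x)).source := mem_chart_source E _
    have h1 := tau_sm h he hx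
    have h2 : ContDiffAt ℝ ∞ (gc g (chartAt E (Ψ x))) ((chartAt E (Ψ x) ∘ Ψ) x) :=
      (hg.smooth _ he).contDiffAt
        ((chartAt E (Ψ x)).open_target.mem_nhds ((chartAt E (Ψ x)).map_source hx))
    have h3 := h1.fderiv_right (m := ∞) le_rfl
    have h4 := ((h2.comp x h1).clm_apply (h3.clm_apply (contDiffAt_const (c := v)))).clm_apply
      (h3.clm_apply (contDiffAt_const (c := w)))
    refine h4.congr_of_eventuallyEq ?_
    filter_upwards [Ψ.continuous.continuousAt.preimage_mem_nhds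
      ((chartAt E (Ψ x)).open_source.mem_nhds hx)] with y hy
    exact pull_chart h he hy v w
  · exact lt_of_lt_of_le (pow_pos (norm_pos_iff.2 hv) 2) (h.exp x v)

theorem nat (hN : NatStmt) (hg : IsRM g) (h : GC g Ψ G) (he : e ∈ atlas E M) :
    (∀ y, Ψ y ∈ e.source → ∀ u v, sec G y u v =
      sec (gc g e) ((e ∘ Ψ) y) (fderiv ℝ (e ∘ Ψ) y u) (fderiv ℝ (e ∘ Ψ) y v)) ∧
    ∀ (c : ℝ → Eu n) (s : ℝ), Ψ (c s) ∈ e.source → ContDiffAt ℝ 2 c s →
      cov (gc g e) ((e ∘ Ψ) ∘ c) (deriv ((e ∘ Ψ) ∘ c)) s =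
        fderiv ℝ (e ∘ Ψ) (c s) (cov G c (deriv c) s) := by
  have hR := rm hg h
  exact hN (Eu n) E G (gc g e) (Ψ ⁻¹' e.source) e.target (e ∘ Ψ)
    ⟨e.open_source.preimage Ψ.continuous, hR.smooth.contDiffOn, fun y _ => hR.symm y,
      fun y _ => hR.pos y⟩ (hg.cm he) (fun y hy => (tau_sm h he hy).contDiffWithinAt)
    (fun y hy => e.map_source hy) (fun y hy => tau_surj h he hy)
    (fun y hy => pull_chart h he hy)

theorem complete (hN : NatStmt) (hg : IsRM g) (hc : Cpl g) (h : GC g Ψ G) (x v : Eu n) :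
    ∃ γ : ℝ → Eu n, ContDiff ℝ 2 γ ∧ γ 0 = x ∧ deriv γ 0 = v ∧
      ∀ s, cov G γ (deriv γ) s = 0 := by
  obtain ⟨γ, hγ, h0, hv⟩ := hc (Ψ x) (dM E Ψ x v)
  have hΨ : ∀ s, Ψ ((Ψ.symm ∘ γ) s) = γ s := fun s => Ψ.apply_symm_apply _
  have hcomp : ∀ e : OpenPartialHomeomorph M E, (e ∘ Ψ) ∘ (Ψ.symm ∘ γ) = e ∘ γ := by
    intro e
    funext s
    simp only [Function.comp_apply, Homeomorph.apply_symm_apply]
  have h2 : (2 : WithTop ℕ∞) ≤ ((⊤ : ℕ∞) : WithTop ℕ∞) :=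
    WithTop.coe_le_coe.2 (le_top : (2 : ℕ∞) ≤ ⊤)
  have hs : ∀ s, ContDiffAt ℝ 2 (Ψ.symm ∘ γ) s := by
    intro s
    have he := chart_mem_atlas E (γ s)
    have hx : γ s ∈ (chartAt E (γ s)).source := mem_chart_source E _
    have h1 := contMDiffAt_of_chart h2 he hx (hγ.continuousAt isOpen_univ (mem_univ s))
      (hγ.2 _ he s (mem_univ s) hx).1
    rw [← contMDiffAt_iff_contDiffAt]
    exact ((h.sm' (γ s)).of_le h2).comp s h1
  have hx0 : (Ψ.symm ∘ γ) 0 = x := by rw [Function.comp_apply, h0, Ψ.symm_apply_apply]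
  refine ⟨Ψ.symm ∘ γ, contDiff_iff_contDiffAt.2 hs, hx0, ?_, fun s => ?_⟩
  · have he := chart_mem_atlas E (Ψ x)
    have hx : Ψ x ∈ (chartAt E (Ψ x)).source := mem_chart_source E _
    apply tau_inj h he hx
    have h3 : DifferentiableAt ℝ (chartAt E (Ψ x) ∘ Ψ) ((Ψ.symm ∘ γ) 0) := by
      rw [hx0]
      exact (tau_sm h he hx).differentiableAt (by simp)
    have h4 := (h3.hasFDerivAt.comp_hasDerivAt 0
      ((hs 0).differentiableAt (by simp)).hasDerivAt).deriv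
    rw [hcomp, hx0] at h4
    rw [← h4, ← hγ.dC_vel isOpen_univ (mem_univ 0) he (by rw [h0]; exact hx), h0, hv,
      tau_d h he hx]
  · have he := chart_mem_atlas E (γ s)
    have hx : γ s ∈ (chartAt E (γ s)).source := mem_chart_source E _
    have hx' : Ψ ((Ψ.symm ∘ γ) s) ∈ (chartAt E (γ s)).source := by rw [hΨ]; exact hx
    have h3 := (nat hN hg h he).2 (Ψ.symm ∘ γ) s hx' (hs s)
    rw [hcomp, (hγ.2 _ he s (mem_univ s) hx).2] at h3
    exact (injective_iff_map_eq_zero _).1 (tau_inj h he hx') _ h3.symm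

theorem curv (hN : NatStmt) (hg : IsRM g) {κ : ℝ} (hκ : SecLE g κ) (h : GC g Ψ G) (x u v : Eu n)
    (huv : LinearIndependent ℝ ![u, v]) : sec G x u v ≤ κ := by
  have he := chart_mem_atlas E (Ψ x)
  have hx : Ψ x ∈ (chartAt E (Ψ x)).source := mem_chart_source E _
  rw [(nat hN hg h he).1 x hx]
  refine hκ _ he _ ((chartAt E (Ψ x)).map_source hx) _ _ ?_
  have h1 := huv.map' (fderiv ℝ (chartAt E (Ψ x) ∘ Ψ) x : Eu n →ₗ[ℝ] E)
    (LinearMap.ker_eq_bot.2 (tau_inj h he hx))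
  have h2 : (fderiv ℝ (chartAt E (Ψ x) ∘ Ψ) x : Eu n →ₗ[ℝ] E) ∘ ![u, v] =
      ![fderiv ℝ (chartAt E (Ψ x) ∘ Ψ) x u, fderiv ℝ (chartAt E (Ψ x) ∘ Ψ) x v] := by
    funext i
    fin_cases i <;> rfl
  rwa [h2] at h1

end CH

theorem ch_pf (h : NatStmt) : CHStmt := by
  intro E _ _ _ M _ _ _ g n Ψ G κ hg hc hκ hG
  exact ⟨CH.rm hg hG, CH.complete h hg hc hG, CH.curv h hg hκ hG⟩

end Vale.Agent.P219.U
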