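import Vale.Agent.P219.StmU
import Vale.Agent.P255.Geo2

/-! P219 part U: metric completeness implies geodesic completeness. -/

open scoped Manifold ContDiff ENNReal RealInnerProductSpace Topology
open MeasureTheory Set Filter

set_option maxSynthPendingDepth 3

namespace Vale.Agent.P219.U

open Vale.Agent.P255 Vale.Agent.P234

namespace Cpl

variable {E : Type} [NormedAddCommGroup E] [NormedSpace ℝ E] [FiniteDimensional ℝ E]
  {M : Type} [MetricSpace M] [ChartedSpace E M] [IsManifold 𝓘(ℝ, E) ∞ M]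
  {g : M → E →L[ℝ] E →L[ℝ] ℝ}

theorem loc (h : IsRM g) (p : M) {c : ℝ} (hc : 0 ≤ c) : ∃ N ∈ 𝓝 p, ∃ ε > 0, ∀ m ∈ N, ∀ v,
    g m v v ≤ c → ∃ γ, IsGeodesicOn g γ (Ioo (-ε) ε) ∧ γ 0 = m ∧ vel E γ 0 = v := by
  obtain ⟨N, hN, η, hη, ε, hε, hu⟩ := h.local_Geo2 p
  obtain ⟨t, ht, ht'⟩ : ∃ t : ℝ, 0 < t ∧ t * (t * c) ≤ η := by
    refine ⟨min 1 (η / (c + 1)), lt_min one_pos (by positivity), ?_⟩
    have h1 : min 1 (η / (c + 1)) * c ≤ η := by
      refine (mul_le_mul_of_nonneg_right (min_le_right _ _) hc).trans ?_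
      rw [div_mul_eq_mul_div, div_le_iff₀ (by positivity)]
      nlinarith
    have h2 : 0 ≤ min 1 (η / (c + 1)) * c :=
      mul_nonneg (le_min one_pos.le (by positivity)) hc
    exact (mul_le_of_le_one_left h2 (min_le_left _ _)).trans h1
  refine ⟨N, hN, t * ε, by positivity, fun m hm v hv => ?_⟩
  obtain ⟨γ, k1, k2, k3⟩ := hu m hm (t • v) (by
    have : t * (t * g m v v) ≤ t * (t * c) := by gcongr
    simpa only [map_smul, smul_apply, smul_eq_mul] using this.trans ht')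
  have h0 : (0 : ℝ) + t⁻¹ * 0 ∈ Ioo (-ε) ε := by
    rw [mul_zero, add_zero]; exact ⟨by linarith, hε⟩
  refine ⟨fun s => γ (0 + t⁻¹ * s), geo_mono_Geo2 (h.geo_affine k1 0 t⁻¹) fun s hs => ?_,
    by simpa using k2, ?_⟩
  · simp only [mem_preimage, mem_Ioo, zero_add]
    rw [lt_inv_mul_iff₀ ht, inv_mul_lt_iff₀ ht]
    exact ⟨by linarith [hs.1], hs.2⟩
  · rw [k1.vel_affine isOpen_Ioo 0 t⁻¹ 0 h0, mul_zero, add_zero, k3, smul_smul,
      inv_mul_cancel₀ ht.ne', one_smul]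

theorem lip (hg : LM g) {γ : ℝ → M} {J : Set ℝ} (hJo : IsOpen J) (hJc : IsPreconnected J)
    (hγ : IsGeodesicOn g γ J) {c : ℝ} (hc : ∀ s ∈ J, g (γ s) (vel E γ s) (vel E γ s) = c) :
    ∀ a ∈ J, ∀ b ∈ J, dist (γ a) (γ b) ≤ √c * dist a b := by
  have key : ∀ a ∈ J, ∀ b ∈ J, a ≤ b → dist (γ a) (γ b) ≤ √c * (b - a) := by
    intro a ha b hb hab
    refine hg.len γ hab fun t ht => ?_
    have htJ : t ∈ J := hJc.ordConnected.out ha hb ht
    refine ⟨contMDiffAt_of_chart (by exact_mod_cast le_top) (chart_mem_atlas E (γ t))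
      (mem_chart_source E (γ t)) (hγ.1.continuousAt (hJo.mem_nhds htJ))
      ((hγ.2 _ (chart_mem_atlas E (γ t)) t htJ (mem_chart_source E (γ t))).1.of_le
        (by norm_num)), ?_⟩
    rw [nr, hc t htJ]
  intro a ha b hb
  rcases le_total a b with hab | hab
  · rw [Real.dist_eq, abs_sub_comm, abs_of_nonneg (sub_nonneg.2 hab)]
    exact key a ha b hb hab
  · rw [Real.dist_eq, abs_of_nonneg (sub_nonneg.2 hab), dist_comm]
    exact key b hb a ha hab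

theorem limit [CompleteSpace M] {γ : ℝ → M} {J : Set ℝ} {L s₀ : ℝ}
    (hL : ∀ a ∈ J, ∀ b ∈ J, dist (γ a) (γ b) ≤ √L * dist a b) (hs₀ : s₀ ∈ closure J) :
    ∃ p, Tendsto γ (𝓝[J] s₀) (𝓝 p) := by
  have hl : LipschitzOnWith (Real.toNNReal (√L)) γ J :=
    LipschitzOnWith.of_dist_le_mul fun a ha b hb => by
      rw [Real.coe_toNNReal _ (Real.sqrt_nonneg _)]; exact hL a ha b hb
  have hne : (𝓝[J] s₀).NeBot := mem_closure_iff_nhdsWithin_neBot.1 hs₀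
  have h1 : Cauchy (𝓝[J] s₀) := cauchy_nhds.mono nhdsWithin_le_nhds
  exact CompleteSpace.complete (h1.map_of_le hl.uniformContinuousOn
    (le_principal_iff.2 self_mem_nhdsWithin))

end Cpl

theorem cpl_pf : CplStmt := by
  intro E _ _ _ M _ _ _ _ g hg m v
  classical
  have h : IsRM g := hg.toIsRM
  have hv0 : 0 ≤ g m v v := by
    by_cases hv : v = 0
    · simp [hv]
    · exact (h.pos m v hv).le
  let P : Set ℝ → (ℝ → M) → Prop := fun I γ => IsOpen I ∧ IsPreconnected I ∧ (0 : ℝ) ∈ I ∧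
    IsGeodesicOn g γ I ∧ γ 0 = m ∧ vel E γ 0 = v
  have hag : ∀ I γ I' γ', P I γ → P I' γ' → EqOn γ γ' (I ∩ I') := by
    rintro I γ I' γ' ⟨a1, a2, a3, a4, a5, a6⟩ ⟨b1, b2, b3, b4, b5, b6⟩
    exact h.geo_unique (a1.inter b1) (inter_Geo2 a2 b2) (geo_mono_Geo2 a4 inter_subset_left)
      (geo_mono_Geo2 b4 inter_subset_right) ⟨a3, b3⟩ (a5.trans b5.symm) (a6.trans b6.symm)
  let J : Set ℝ := {s | ∃ p : Set ℝ × (ℝ → M), P p.1 p.2 ∧ s ∈ p.1}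
  let γ : ℝ → M := fun s => if hs : s ∈ J then hs.choose.2 s else m
  have hγ : ∀ I β, P I β → EqOn γ β I := by
    intro I β hP s hs
    have h1 : s ∈ J := ⟨(I, β), hP, hs⟩
    simp only [γ, dif_pos h1]
    exact hag _ _ _ _ h1.choose_spec.1 hP ⟨h1.choose_spec.2, hs⟩
  obtain ⟨N₀, hN₀, ε₀, hε₀, hu₀⟩ := Cpl.loc h m hv0
  obtain ⟨β₀, k1, k2, k3⟩ := hu₀ m (mem_of_mem_nhds hN₀) v le_rfl
  have h00 : (0 : ℝ) ∈ Ioo (-ε₀) ε₀ := ⟨by linarith, hε₀⟩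
  have hP0 : P (Ioo (-ε₀) ε₀) β₀ := ⟨isOpen_Ioo, isPreconnected_Ioo, h00, k1, k2, k3⟩
  have hJo : IsOpen J := by
    rw [isOpen_iff_mem_nhds]
    rintro s ⟨p, hp, hs⟩
    exact mem_of_superset (hp.1.mem_nhds hs) fun t ht => ⟨p, hp, ht⟩
  have hJ0 : (0 : ℝ) ∈ J := ⟨(_, β₀), hP0, h00⟩
  have hJc : IsPreconnected J := by
    refine isPreconnected_of_forall 0 ?_
    rintro s ⟨p, hp, hs⟩
    exact ⟨p.1, fun t ht => ⟨p, hp, ht⟩, hp.2.2.1, hs, hp.2.1⟩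
  have hJg : IsGeodesicOn g γ J := by
    refine geo_local_Geo2 ?_
    rintro s ⟨p, hp, hs⟩
    exact ⟨p.2, p.1, hp.1.mem_nhds hs, hp.2.2.2.1, hγ _ _ hp⟩
  have hγ0 : γ 0 = m := (hγ _ _ hP0 h00).trans k2
  have hγ1 : vel E γ 0 = v :=
    (vel_congr_Geo2 ((hγ _ _ hP0).eventuallyEq_of_mem (isOpen_Ioo.mem_nhds h00))).trans k3
  have hen : ∀ s ∈ J, g (γ s) (vel E γ s) (vel E γ s) = g m v v := by
    intro s hs
    have := h.geo_energy hJo hJc hJg hs hJ0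
    rwa [hγ0, hγ1] at this
  have hJcl : IsClosed J := by
    refine isClosed_of_closure_subset fun s₀ hs₀ => ?_
    obtain ⟨p, hp⟩ := Cpl.limit (Cpl.lip hg hJo hJc hJg hen) hs₀
    obtain ⟨N, hN, ε, hε, hu⟩ := Cpl.loc h p hv0
    have h0 : (0 : ℝ) ∈ Ioo (-ε) ε := ⟨by linarith, hε⟩
    have hne : (𝓝[J] s₀).NeBot := mem_closure_iff_nhdsWithin_neBot.1 hs₀
    obtain ⟨s₁, hs₁, hsN, hd⟩ : ∃ s₁, s₁ ∈ J ∧ γ s₁ ∈ N ∧ s₁ ∈ Metric.ball s₀ ε :=
      ((eventually_mem_nhdsWithin (a := s₀) (s := J)).and ((hp.eventually_mem hN).and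
        (mem_nhdsWithin_of_mem_nhds (Metric.ball_mem_nhds s₀ hε)))).exists
    obtain ⟨β, b1, b2, b3⟩ := hu (γ s₁) hsN (vel E γ s₁) (hen s₁ hs₁).le
    have b4 := h.geo_affine b1 (-s₁) 1
    have hK : (fun s : ℝ => -s₁ + 1 * s) ⁻¹' Ioo (-ε) ε = Ioo (s₁ - ε) (s₁ + ε) := by
      ext x
      simp only [mem_preimage, mem_Ioo]
      constructor <;> rintro ⟨h5, h6⟩ <;> constructor <;> linarith
    rw [hK] at b4
    have hs₁' : s₁ ∈ Ioo (s₁ - ε) (s₁ + ε) := ⟨by linarith, by linarith⟩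
    have e0 : -s₁ + 1 * s₁ = 0 := by ring
    have b5 := b1.vel_affine isOpen_Ioo (-s₁) 1 s₁ (by rw [e0]; exact h0)
    rw [e0, one_smul, b3] at b5
    have b6 : EqOn γ (fun s => β (-s₁ + 1 * s)) (J ∩ Ioo (s₁ - ε) (s₁ + ε)) :=
      h.geo_unique (hJo.inter isOpen_Ioo) (inter_Geo2 hJc isPreconnected_Ioo)
        (geo_mono_Geo2 hJg inter_subset_left) (geo_mono_Geo2 b4 inter_subset_right)
        ⟨hs₁, hs₁'⟩ (by simp only [e0, b2]) b5.symm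
    have c1 : EqOn (fun s => if s ∈ J then γ s else β (-s₁ + 1 * s)) γ J := fun s hs => if_pos hs
    have c2 : EqOn (fun s => if s ∈ J then γ s else β (-s₁ + 1 * s)) (fun s => β (-s₁ + 1 * s))
        (Ioo (s₁ - ε) (s₁ + ε)) := by
      intro s hs
      by_cases hsJ : s ∈ J
      · exact (if_pos hsJ).trans (b6 ⟨hsJ, hs⟩)
      · exact if_neg hsJ
    have hP : P (J ∪ Ioo (s₁ - ε) (s₁ + ε)) fun s => if s ∈ J then γ s else β (-s₁ + 1 * s) := by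
      refine ⟨hJo.union isOpen_Ioo, hJc.union s₁ hs₁ hs₁' isPreconnected_Ioo, Or.inl hJ0,
        geo_local_Geo2 ?_, (c1 hJ0).trans hγ0,
        (vel_congr_Geo2 (c1.eventuallyEq_of_mem (hJo.mem_nhds hJ0))).trans hγ1⟩
      rintro s (hs | hs)
      · exact ⟨γ, J, hJo.mem_nhds hs, hJg, c1⟩
      · exact ⟨_, _, isOpen_Ioo.mem_nhds hs, b4, c2⟩
    refine ⟨(_, _), hP, Or.inr ?_⟩
    rw [Metric.mem_ball, Real.dist_eq, abs_lt] at hd
    exact ⟨by linarith [hd.2], by linarith [hd.1]⟩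
  have hJu : J = univ := IsClopen.eq_univ ⟨hJcl, hJo⟩ ⟨0, hJ0⟩
  exact ⟨γ, hJu ▸ hJg, hγ0, hγ1⟩

end Vale.Agent.P219.U
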