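import Vale.Agent.P219.StmU

/-! P219 part U: a directional derivative integrated over a subgraph. -/

open scoped Manifold ContDiff ENNReal RealInnerProductSpace Topology
open MeasureTheory Set Filter

set_option maxSynthPendingDepth 3

namespace Vale.Agent.P219.U

namespace Dir

/-- The one dimensional statement. -/
theorem one {g ψ : ℝ → ℝ} {I O : Set ℝ} (hg : ContDiff ℝ 1 g) (hc : HasCompactSupport g)
    (hI : Convex ℝ I) (h0 : ∀ s, s ∉ I → deriv g s = 0) (hψ : ContinuousOn ψ I)
    (hm : StrictMonoOn ψ I) (hO : ∀ s ∈ I, s ∈ O ↔ ψ s < 0) :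
    (∫ s, O.indicator (deriv g) s) = 0 ∨
      ∃ s ∈ I, ψ s = 0 ∧ (∫ s, O.indicator (deriv g) s) = g s := by
  by_cases h : ∃ s ∈ I, ψ s = 0
  · obtain ⟨s₀, hs₀, hz⟩ := h
    refine Or.inr ⟨s₀, hs₀, hz, ?_⟩
    have e : O.indicator (deriv g) = (Iio s₀).indicator (deriv g) := by
      funext s
      by_cases hs : s ∈ I
      · have : s ∈ O ↔ s ∈ Iio s₀ := by
          rw [hO s hs, ← hz, hm.lt_iff_lt hs hs₀, mem_Iio]
        by_cases h1 : s ∈ O
        · rw [indicator_of_mem h1, indicator_of_mem (this.1 h1)]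
        · rw [indicator_of_notMem h1, indicator_of_notMem (fun h2 => h1 (this.2 h2))]
      · simp only [indicator, h0 s hs, ite_self]
    rw [e, integral_indicator measurableSet_Iio, ← integral_Iic_eq_integral_Iio,
      hc.integral_Iic_deriv_eq hg]
  · left
    by_cases h1 : ∃ s ∈ I, ψ s < 0
    · obtain ⟨s₁, hs₁, hneg⟩ := h1
      have hall : ∀ s ∈ I, ψ s < 0 := by
        intro s hs
        by_contra hh
        obtain ⟨t, ht, hz⟩ := hI.isPreconnected.intermediate_value hs₁ hs hψ
          (show (0 : ℝ) ∈ Icc (ψ s₁) (ψ s) from ⟨hneg.le, not_lt.1 hh⟩)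
        exact h ⟨t, ht, hz⟩
      have e : O.indicator (deriv g) = deriv g := by
        funext s
        by_cases hs : s ∈ I
        · exact indicator_of_mem ((hO s hs).2 (hall s hs)) _
        · simp only [indicator, h0 s hs, ite_self]
      rw [e]
      exact integral_eq_zero_of_hasDerivAt_of_integrable
        (fun x => (hg.differentiable one_ne_zero x).hasDerivAt)
        ((hg.continuous_deriv le_rfl).integrable_of_hasCompactSupport hc.deriv)
        (hg.continuous.integrable_of_hasCompactSupport hc)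
    · have e : O.indicator (deriv g) = fun _ => 0 := by
        funext s
        by_cases hs : s ∈ I
        · exact indicator_of_notMem (fun h2 => h1 ⟨s, hs, (hO s hs).1 h2⟩) _
        · simp only [indicator, h0 s hs, ite_self]
      rw [e, integral_zero]

/-- Shear and Fubini. -/
theorem shear {m : ℕ} (a : Eu m) (H : Eu m × ℝ → ℝ) (h1 : Integrable H volume)
    (h2 : Integrable (fun z : Eu m × ℝ => H (z.1 + z.2 • a, z.2)) volume) :
    ∫ z, H z = ∫ y, ∫ s, H (y + s • a, s) := by
  rw [Measure.volume_eq_prod] at h1 h2 ⊢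
  rw [integral_prod_symm H h1, ← integral_prod _ h2, integral_prod_symm _ h2]
  refine integral_congr_ae (Eventually.of_forall fun s => ?_)
  exact (integral_add_right_eq_self (fun y => H (y, s)) (s • a)).symm

/-- Layer cake comparison. -/
theorem cake {α β : Type} [MeasurableSpace α] [MeasurableSpace β] (μ : Measure α)
    (ν : Measure β) (F : α → ℝ) (φ : β → ℝ) (K : ℝ≥0∞) (hK : K ≠ ⊤) (hF : AEMeasurable F μ)
    (hφ : Measurable φ) (h : ∀ t : ℝ, 0 < t → μ {y | t < ‖F y‖} ≤ K * ν {x | t < ‖φ x‖}) :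
    ∫⁻ y, ‖F y‖ₑ ∂μ ≤ K * ∫⁻ x, ‖φ x‖ₑ ∂ν := by
  simp only [← ofReal_norm]
  rw [lintegral_eq_lintegral_meas_lt μ (Eventually.of_forall fun y => norm_nonneg (F y)) hF.norm,
    lintegral_eq_lintegral_meas_lt ν (Eventually.of_forall fun y => norm_nonneg (φ y))
      hφ.norm.aemeasurable, ← lintegral_const_mul' _ _ hK]
  exact setLIntegral_mono' measurableSet_Ioi fun t ht => h t ht

end Dir

theorem dir_pf : DirStmt := by
  intro m S c K a W Ω f φ ν hc hK hS hWo hWc hΩ hf hpos hΩW hφ hφc hsupp hA
  set v : Eu (m + 1) := S.symm (a, 1) with hv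
  set Z : Set (Eu (m + 1)) := {x ∈ W | f x = 0} with hZ
  have hZm : MeasurableSet Z := by
    have h1 : IsOpen (W ∩ f ⁻¹' {0}ᶜ) :=
      hf.continuousOn.isOpen_inter_preimage hWo isOpen_compl_singleton
    have h2 : Z = W \ (W ∩ f ⁻¹' {0}ᶜ) := by
      ext x
      simp only [hZ, mem_ofPred_eq, Set.mem_sdiff, mem_inter_iff, mem_preimage, mem_compl_iff,
        mem_singleton_iff]
      tauto
    rw [h2]
    exact hWo.measurableSet.diff h1.measurableSet
  -- the integrand
  set d : Eu (m + 1) → ℝ := fun x => fderiv ℝ φ x v with hd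
  have hdc : Continuous d := (hφ.continuous_fderiv one_ne_zero).clm_apply continuous_const
  have hds : HasCompactSupport d := hφc.fderiv_apply (𝕜 := ℝ) v
  set X : Eu m × ℝ → Eu (m + 1) := fun z => S.symm (z.1 + z.2 • a, z.2) with hX
  have hXc : Continuous X := by fun_prop
  have hXe : Topology.IsClosedEmbedding X := by
    refine Function.LeftInverse.isClosedEmbedding
      (f := fun x => ((S x).1 - (S x).2 • a, (S x).2)) (fun z => ?_) (by fun_prop) hXc
    simp [hX]
  have hint1 : Integrable (fun z : Eu m × ℝ => Ω.indicator d (S.symm z)) volume := by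
    have h1 : Integrable (fun z : Eu m × ℝ => d (S.symm z)) volume :=
      (hdc.comp S.symm.continuous).integrable_of_hasCompactSupport
        (hds.comp_isClosedEmbedding S.symm.toHomeomorph.isClosedEmbedding)
    exact h1.indicator (S.symm.continuous.measurable hΩ)
  have hint2 : Integrable (fun z : Eu m × ℝ => Ω.indicator d (X z)) volume := by
    have h1 : Integrable (fun z : Eu m × ℝ => d (X z)) volume :=
      (hdc.comp hXc).integrable_of_hasCompactSupport (hds.comp_isClosedEmbedding hXe)
    exact h1.indicator (hXc.measurable hΩ)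
  set F : Eu m → ℝ := fun y => ∫ s, Ω.indicator d (X (y, s)) with hF
  have hFm : AEMeasurable F volume := by
    rw [Measure.volume_eq_prod] at hint2
    exact hint2.integral_prod_left.aemeasurable
  have e1 : ∫ x in Ω, d x = c.toReal • ∫ y, F y := by
    have h1 := integral_map_equiv (μ := volume) S.toHomeomorph.toMeasurableEquiv
      (fun z : Eu m × ℝ => Ω.indicator d (S.symm z))
    have h2 : Measure.map S.toHomeomorph.toMeasurableEquiv volume = c • volume := hS
    rw [h2, integral_smul_measure, Dir.shear a _ hint1 hint2] at h1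
    rw [← integral_indicator hΩ, h1]
    simp
  -- slices
  have hsl : ∀ y, F y = 0 ∨ ∃ s, X (y, s) ∈ Z ∧ F y = φ (X (y, s)) := by
    intro y
    have hXs : ∀ s : ℝ, X (y, s) = S.symm (y, 0) + s • v := by
      intro s
      rw [hX, hv, ← map_smul, ← map_add]
      simp
    have hder : ∀ s : ℝ, HasDerivAt (fun s : ℝ => X (y, s)) v s := by
      intro s
      simp only [hXs]
      simpa using ((hasDerivAt_id s).smul_const v).const_add (S.symm (y, 0))
    have hcd : ContDiff ℝ 1 fun s : ℝ => X (y, s) := by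
      simp only [hXs]
      fun_prop
    have hg : ContDiff ℝ 1 fun s : ℝ => φ (X (y, s)) := hφ.comp hcd
    have hgc : HasCompactSupport fun s : ℝ => φ (X (y, s)) := by
      refine hφc.comp_isClosedEmbedding (g := fun s : ℝ => X (y, s)) ?_
      refine Function.LeftInverse.isClosedEmbedding (f := fun x => (S x).2) (fun z => ?_)
        (by fun_prop) hcd.continuous
      simp [hX]
    have hgd : deriv (fun s : ℝ => φ (X (y, s))) = fun s => d (X (y, s)) := by
      funext s
      exact ((hφ.differentiable one_ne_zero _).hasFDerivAt.comp_hasDerivAt s (hder s)).deriv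
    have hI : Convex ℝ {s : ℝ | X (y, s) ∈ W} := by
      have h1 := hWc.affine_preimage (AffineMap.lineMap (S.symm (y, 0)) (S.symm (y, 0) + v) :
        ℝ →ᵃ[ℝ] Eu (m + 1))
      have h2 : {s : ℝ | X (y, s) ∈ W} = (AffineMap.lineMap (S.symm (y, 0)) (S.symm (y, 0) + v) :
          ℝ →ᵃ[ℝ] Eu (m + 1)) ⁻¹' W := by
        ext s
        rw [mem_ofPred_eq, mem_preimage, AffineMap.lineMap_apply, hXs, vsub_eq_sub,
          add_sub_cancel_left, vadd_eq_add, add_comm (s • v)]
      rw [h2]
      exact h1
    have hψd : ∀ s : ℝ, X (y, s) ∈ W →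
        HasDerivAt (fun s : ℝ => f (X (y, s))) (fderiv ℝ f (X (y, s)) v) s := fun s hs =>
      (hf.differentiableAt (hWo.mem_nhds hs)).hasFDerivAt.comp_hasDerivAt s (hder s)
    have hψ : ContinuousOn (fun s : ℝ => f (X (y, s))) {s : ℝ | X (y, s) ∈ W} := fun s hs =>
      (hψd s hs).continuousAt.continuousWithinAt
    have hm : StrictMonoOn (fun s : ℝ => f (X (y, s))) {s : ℝ | X (y, s) ∈ W} := by
      refine strictMonoOn_of_deriv_pos hI hψ fun s hs => ?_
      have hs' : X (y, s) ∈ W := interior_subset (s := {s : ℝ | X (y, s) ∈ W}) hs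
      rw [(hψd s hs').deriv]
      exact hpos _ hs'
    have h0 : ∀ s : ℝ, s ∉ {s : ℝ | X (y, s) ∈ W} →
        deriv (fun s : ℝ => φ (X (y, s))) s = 0 := by
      intro s hs
      rw [hgd]
      have h1 : X (y, s) ∉ tsupport φ := fun h => hs (hsupp h)
      have h2 : fderiv ℝ φ (X (y, s)) = 0 := by
        by_contra h3
        exact h1 (support_fderiv_subset ℝ (Function.mem_support.2 h3))
      simp only [hd, h2, zero_apply]
    have hO : ∀ s ∈ {s : ℝ | X (y, s) ∈ W},
        s ∈ {s : ℝ | X (y, s) ∈ Ω} ↔ f (X (y, s)) < 0 := by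
      intro s hs
      have h1 : X (y, s) ∈ Ω ∩ W ↔ X (y, s) ∈ {x ∈ W | f x < 0} := by rw [hΩW]
      exact ⟨fun h => (h1.1 ⟨h, hs⟩).2, fun h => (h1.2 ⟨hs, h⟩).1⟩
    have hFy : F y = ∫ s, {s : ℝ | X (y, s) ∈ Ω}.indicator
        (deriv fun s : ℝ => φ (X (y, s))) s := by
      rw [hgd]
      rfl
    rcases Dir.one hg hgc hI h0 hψ hm hO with h | ⟨s, hs, hz, h⟩
    · exact Or.inl (hFy.trans h)
    · exact Or.inr ⟨s, ⟨hs, hz⟩, hFy.trans h⟩
  have hcake := Dir.cake volume (ν.restrict Z) F φ K hK hFm hφ.continuous.measurable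
    fun t ht => by
      have hm : MeasurableSet {x | t < ‖φ x‖} :=
        measurableSet_lt measurable_const hφ.continuous.measurable.norm
      rw [Measure.restrict_apply hm]
      refine le_trans (measure_mono fun y hy => ?_) (hA _ inter_subset_right (hm.inter hZm))
      rcases hsl y with h | ⟨s, hs, h⟩
      · have h1 : t < ‖F y‖ := hy
        rw [h, norm_zero] at h1
        exact absurd ht (not_lt.2 h1.le)
      · refine ⟨X (y, s), ⟨?_, hs⟩, by simp [hX]⟩
        have h1 : t < ‖F y‖ := hy
        rw [h] at h1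
        exact h1
  rw [e1, enorm_smul, mul_assoc]
  refine mul_le_mul' (le_of_eq ?_) ((enorm_integral_le_lintegral_enorm _).trans hcake)
  rw [Real.enorm_eq_ofReal ENNReal.toReal_nonneg, ENNReal.ofReal_toReal hc]

end Vale.Agent.P219.U
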