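import Vale.Agent.P219.StmU
import Vale.Agent.P255.Key1
import Vale.Agent.P234.JointAux

/-! P219 part U: the exponential map is a global chart. -/

open scoped Manifold ContDiff ENNReal RealInnerProductSpace Topology
open Set Filter Module

set_option maxSynthPendingDepth 3

namespace Vale.Agent.P219.U

open Vale.Agent.P255 Vale.Agent.P234

namespace Exp

variable {E : Type} [NormedAddCommGroup E] [NormedSpace ℝ E] [FiniteDimensional ℝ E]
  {M : Type} [MetricSpace M] [ChartedSpace E M] [IsManifold 𝓘(ℝ, E) ∞ M]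
  {g : M → E →L[ℝ] E →L[ℝ] ℝ}

theorem exists_iso (B : E →L[ℝ] E →L[ℝ] ℝ) (hs : ∀ v w, B v w = B w v)
    (hp : ∀ v, v ≠ 0 → 0 < B v v) :
    ∃ ι : Eu (finrank ℝ E) ≃L[ℝ] E, ∀ a, B (ι a) (ι a) = ‖a‖ ^ 2 := by
  let B' : LinearMap.BilinForm ℝ E :=
    LinearMap.mk₂ ℝ (fun v w => B v w) (by simp) (by simp) (by simp) (by simp)
  have hB : LinearMap.IsSymm B' := ⟨fun v w => hs v w⟩
  obtain ⟨b, hb⟩ := LinearMap.BilinForm.exists_orthogonal_basis hB
  have hp' : ∀ i, 0 < √(B (b i) (b i)) := fun i => Real.sqrt_pos.2 (hp _ (b.ne_zero i))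
  let c : Fin (finrank ℝ E) → ℝˣ := fun i => Units.mk0 (√(B (b i) (b i)))⁻¹ (inv_pos.2 (hp' i)).ne'
  let f := b.unitsSMul c
  have hf : ∀ i j, B (f i) (f j) = if i = j then 1 else 0 := by
    intro i j
    simp only [f, Basis.unitsSMul_apply, Units.smul_def, c, Units.val_mk0, map_smul, smul_apply,
      smul_eq_mul]
    split_ifs with hij
    · subst hij
      have h1 := Real.mul_self_sqrt (hp _ (b.ne_zero i)).le
      have := (hp' i).ne'
      field_simp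
      linarith
    · have h1 : B (b i) (b j) = 0 := hb hij
      rw [h1, mul_zero, mul_zero]
  refine ⟨((WithLp.linearEquiv 2 ℝ _).trans f.equivFun.symm).toContinuousLinearEquiv,
    fun a => ?_⟩
  simp only [LinearEquiv.coe_toContinuousLinearEquiv', LinearEquiv.trans_apply,
    Basis.equivFun_symm_apply, WithLp.linearEquiv_apply, map_sum, map_smul,
    sum_apply, smul_apply, smul_eq_mul, hf, mul_ite, mul_zero, mul_one,
    Finset.sum_ite_eq', Finset.mem_univ, if_true, EuclideanSpace.real_norm_sq_eq]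
  exact Finset.sum_congr rfl fun i _ => (sq _).symm

theorem smooth (h : IsRM g) {m : M} {Γ : E × ℝ → M} (hΓ : GeoFam g m Γ) :
    ContMDiff 𝓘(ℝ, E × ℝ) 𝓘(ℝ, E) ∞ Γ := by
  rintro ⟨v₀, r₀⟩
  have he := chart_mem_atlas E (Γ (v₀, r₀))
  have hm := mem_chart_source E (Γ (v₀, r₀))
  refine contMDiffAt_of_chart le_rfl he hm hΓ.smooth.continuous.continuousAt ?_
  rw [contDiffAt_infty]
  intro k
  have key := JointAux.smoothN (k + 2) (by omega) h hΓ.geo v₀
    (by simp only [hΓ.zero]; exact continuousAt_const) (fun e he h1 => by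
      have h2 : (fun v => JointAux.ph e Γ (v, 0)) = fun v => (e m, dC e m v) := by
        funext v
        have h3 : Γ (v, 0) ∈ e.source := by rw [hΓ.zero, ← hΓ.zero v₀]; exact h1
        have h4 := (hΓ.geo v).dC_vel isOpen_univ (mem_univ 0) he h3
        rw [hΓ.vel0, hΓ.zero] at h4
        simp only [JointAux.ph, hΓ.zero, h4]
      rw [h2]
      exact contDiffAt_const.prodMk (dC e m).contDiff.contDiffAt) r₀
  exact (key.2 _ he hm).fst.of_le (by exact_mod_cast (by omega : k ≤ k + 2))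

theorem homeo {X Y : Type} [TopologicalSpace X] [PreconnectedSpace X] [TopologicalSpace Y]
    [SimplyConnectedSpace Y] [LocallyPathConnectedSpace Y] {p : X → Y} (hp : IsCoveringMap p)
    (x₀ : X) : ∃ Ψ : X ≃ₜ Y, ∀ x, Ψ x = p x := by
  obtain ⟨σ, ⟨h1, h2⟩, -⟩ := hp.existsUnique_continuousMap_lifts (ContinuousMap.id Y) (p x₀) x₀ rfl
  have h3 : ∀ y, p (σ y) = y := fun y => congrFun h2 y
  have h4 : σ ∘ p = id := hp.eq_of_comp_eq (σ.continuous.comp hp.continuous) continuous_id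
    (funext fun x => h3 (p x)) x₀ h1
  exact ⟨⟨⟨p, σ, fun x => congrFun h4 x, h3⟩, hp.continuous, σ.continuous⟩, fun _ => rfl⟩

theorem symm_smooth {n : ℕ} (hn : finrank ℝ E = n) (Ψ : Eu n ≃ₜ M)
    (hs : ContMDiff 𝓘(ℝ, Eu n) 𝓘(ℝ, E) ∞ Ψ) (hi : ∀ x u, dM E Ψ x u = 0 → u = 0) :
    ContMDiff 𝓘(ℝ, E) 𝓘(ℝ, Eu n) ∞ Ψ.symm := by
  intro q
  obtain ⟨x, rfl⟩ := Ψ.surjective q
  have he := chart_mem_atlas E (Ψ x)
  have hm := mem_chart_source E (Ψ x)
  set e := chartAt E (Ψ x) with hee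
  have h1 : ContDiffAt ℝ ∞ (e ∘ Ψ) x := contDiffAt_chart_comp le_rfl he hm (hs x)
  have h2 : DifferentiableAt ℝ (e ∘ Ψ) x := h1.differentiableAt (by simp)
  have hinj : Function.Injective (fderiv ℝ (e ∘ Ψ) x : Eu n →ₗ[ℝ] E) := by
    rw [injective_iff_map_eq_zero]
    intro u hu
    refine hi x u (dC_injective he hm ?_)
    rw [dC_dM he hm Ψ.continuous.continuousAt h2, map_zero]
    exact hu
  let D : Eu n ≃L[ℝ] E := (LinearMap.linearEquivOfInjective _ hinj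
    (by rw [hn, finrank_euclideanSpace_fin])).toContinuousLinearEquiv
  have hD : (D : Eu n →L[ℝ] E) = fderiv ℝ (e ∘ Ψ) x := by
    ext1 u
    rfl
  let φ : OpenPartialHomeomorph (Eu n) E := Ψ.toOpenPartialHomeomorph.trans e
  have h3 : φ.symm (e (Ψ x)) = x := by
    change Ψ.symm (e.symm (e (Ψ x))) = x
    rw [e.left_inv hm, Ψ.symm_apply_apply]
  have h4 : ContDiffAt ℝ ∞ φ.symm (e (Ψ x)) :=
    φ.contDiffAt_symm (f₀' := D) ⟨e.map_source hm, mem_univ _⟩
      (by rw [h3, hD]; exact h2.hasFDerivAt) (by rw [h3]; exact h1)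
  refine (h4.contMDiffAt.comp (Ψ x) (chart_contMDiffAt he hm)).congr_of_eventuallyEq ?_
  filter_upwards [e.open_source.mem_nhds hm] with y hy
  change Ψ.symm y = Ψ.symm (e.symm (e y))
  rw [e.left_inv hy]

end Exp

theorem exp_pf : ExpStmt := by
  intro E _ _ _ M _ _ _ _ g n hn h hK hc
  subst hn
  obtain ⟨m⟩ : Nonempty M := inferInstance
  choose γ h1 h2 h3 using hc m
  have hΓ : GeoFam g m fun p : E × ℝ => γ p.1 p.2 := ⟨h.geo_smooth h1 h2 h3, h1, h2, h3⟩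
  obtain ⟨ι, hι⟩ := Exp.exists_iso (g m) (h.symm m) (h.pos m)
  have : LocallyPathConnectedSpace M := ChartedSpace.locallyPathConnectedSpace E M
  obtain ⟨Ψ₀, hΨ₀⟩ := Exp.homeo (hΓ.isCoveringMap h hK) 0
  let Ψ : Eu (finrank ℝ E) ≃ₜ M := ι.toHomeomorph.trans Ψ₀
  let T : Eu (finrank ℝ E) → E × ℝ := fun x => (ι x, 1)
  have hT : ContDiff ℝ ∞ T := ι.contDiff.prodMk contDiff_const
  have hΨ : (Ψ : Eu (finrank ℝ E) → M) = (fun p : E × ℝ => γ p.1 p.2) ∘ T :=
    funext fun x => hΨ₀ (ι x)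
  have hs := Exp.smooth h hΓ
  have hsm : ContMDiff 𝓘(ℝ, Eu (finrank ℝ E)) 𝓘(ℝ, E) ∞ Ψ := hΨ ▸ hs.comp hT.contMDiff
  have hex : ∀ x u, ‖u‖ ^ 2 ≤ g (Ψ x) (dM E Ψ x u) (dM E Ψ x u) := by
    intro x u
    have a1 := mfderiv_comp x ((hs (T x)).mdifferentiableAt (by simp))
      ((hT.contMDiff x).mdifferentiableAt (by simp))
    have a2 : HasFDerivAt T ((ι : Eu (finrank ℝ E) →L[ℝ] E).prod 0) x :=
      ι.hasFDerivAt.prodMk (hasFDerivAt_const _ _)
    have a3 : dM E Ψ x u = dM E (fun p : E × ℝ => γ p.1 p.2) (ι x, 1) (ι u, 0) := by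
      rw [hΨ, dM, a1, mfderiv_eq_fderiv, a2.fderiv]
      rfl
    rw [a3, ← hι, hΨ]
    exact hΓ.expand h hK (ι x) (ι u)
  refine ⟨Ψ, fun x => (g (Ψ x)).bilinearComp (dM E Ψ x) (dM E Ψ x), rfl, hsm,
    Exp.symm_smooth rfl Ψ hsm fun x u hu => ?_, fun _ _ _ => rfl, hex⟩
  have := hex x u
  rw [hu, map_zero] at this
  exact norm_eq_zero.1 (pow_eq_zero_iff two_ne_zero |>.1 (le_antisymm this (sq_nonneg _)))

end Vale.Agent.P219.U
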