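import Vale.Agent.P219.StmU
import Vale.Agent.P219.Frame
import Vale.Agent.P219.RigVol

/-! P219 part U: adapted linear coordinates. -/

open scoped Manifold ContDiff ENNReal RealInnerProductSpace Topology
open MeasureTheory Set Filter

set_option maxSynthPendingDepth 3

namespace Vale.Agent.P219.U

namespace Lin

/-- Splitting off the first coordinate. -/
noncomputable def J (m : ℕ) : Eu (m + 1) ≃ₗ[ℝ] (Eu m × ℝ) where
  toFun u := (WithLp.toLp 2 fun i => u i.succ, u 0)
  invFun z := WithLp.toLp 2 (Fin.cons z.2 z.1)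
  map_add' _ _ := rfl
  map_smul' _ _ := rfl
  left_inv u := by
    ext i
    refine Fin.cases ?_ (fun i => ?_) i <;> simp
  right_inv z := by
    ext <;> simp

variable {m n : ℕ}

theorem J_apply (u : Eu (m + 1)) : J m u = (WithLp.toLp 2 fun i => u i.succ, u 0) := rfl

theorem J_mp : MeasurePreserving (J m) := by
  have h := ((PiLp.volume_preserving_toLp (Fin m)).prod (MeasurePreserving.id (volume))).comp
    (Measure.measurePreserving_swap.comp
      ((volume_preserving_piFinSuccAbove (fun _ : Fin (m + 1) => ℝ) 0).comp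
        (PiLp.volume_preserving_ofLp (Fin (m + 1)))))
  exact h

theorem J_succ (i : Fin m) : (J m).symm (ee i, 0) = ee i.succ := by
  rw [LinearEquiv.symm_apply_eq]
  refine Prod.ext ?_ (by simp [J_apply])
  ext j
  simp [J_apply]

theorem J_zero : (J m).symm (0, 1) = ee 0 := by
  rw [LinearEquiv.symm_apply_eq]
  refine Prod.ext ?_ (by simp [J_apply])
  ext j
  simp [J_apply]

theorem tr_eq (D : Eu n →ₗ[ℝ] Eu n) : LinearMap.trace ℝ _ D = ∑ i, D (ee i) i := by
  rw [LinearMap.trace_eq_matrix_trace ℝ (EuclideanSpace.basisFun (Fin n) ℝ).toBasis]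
  simp [Matrix.trace, LinearMap.toMatrix_apply]

theorem frame {G : Met (m + 1)} (hG : Rm G) (p : Eu (m + 1)) {ℓ : Eu (m + 1) →L[ℝ] ℝ}
    (hℓ : ℓ ≠ 0) : ∃ (T : Eu (m + 1) ≃L[ℝ] Eu (m + 1)) (c : ℝ), 0 < c ∧
      (∀ u v, G p (T u) (T v) = ⟪u, v⟫) ∧ ∀ u, ℓ (T u) = c * u 0 := by
  obtain ⟨A, hA⟩ := frame_pf _ G hG
  have hi : Function.Injective (A p) := (injective_iff_map_eq_zero _).2 fun u hu => by
    have := hA.iso p u u
    rw [hu, map_zero] at this
    exact inner_self_eq_zero.1 this.symm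
  let T : Eu (m + 1) ≃L[ℝ] Eu (m + 1) :=
    (LinearEquiv.ofInjectiveEndo (A p : Eu (m + 1) →ₗ[ℝ] Eu (m + 1)) hi).toContinuousLinearEquiv
  have hT : ∀ u, T u = A p u := fun _ => rfl
  obtain ⟨w, hw⟩ := (InnerProductSpace.toDual ℝ (Eu (m + 1))).surjective (ℓ.comp (A p))
  have hw' : ∀ u, ℓ (T u) = ⟪w, u⟫ := fun u => (congrArg (fun L => L u) hw).symm
  have h0 : w ≠ 0 := by
    rintro rfl
    refine hℓ (ContinuousLinearMap.ext fun u => ?_)
    simpa using hw' (T.symm u)
  obtain ⟨R, hR⟩ : ∃ R : Eu (m + 1) ≃ₗᵢ[ℝ] Eu (m + 1), R w = ‖w‖ • ee 0 :=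
    ⟨_, Submodule.reflection_sub (by simp [norm_smul])⟩
  refine ⟨R.symm.toContinuousLinearEquiv.trans T, ‖w‖, norm_pos_iff.2 h0, fun u v => ?_,
    fun u => ?_⟩
  · exact (hA.iso p _ _).trans (R.symm.inner_map_map u v)
  · refine (hw' (R.symm u)).trans ?_
    rw [← R.inner_map_map, hR, R.apply_symm_apply, real_inner_smul_left]
    simp [EuclideanSpace.inner_single_left]

end Lin

theorem lin_pf : LinStmt := by
  intro m G p ℓ hG hℓ
  obtain ⟨T, c, hc, h1, h2⟩ := Lin.frame hG p hℓ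
  refine ⟨T.symm.trans (Lin.J m).toContinuousLinearEquiv, c, hc, fun u => ?_, fun u => ?_,
    fun D => ?_, ?_⟩
  · obtain ⟨v, rfl⟩ := T.surjective u
    simp [h1, Lin.J_apply, EuclideanSpace.real_norm_sq_eq, Fin.sum_univ_succ, add_comm]
  · obtain ⟨v, rfl⟩ := T.surjective u
    simp [h2, Lin.J_apply]
  · have e := LinearMap.trace_conj' (D : Eu (m + 1) →ₗ[ℝ] Eu (m + 1)) T.symm.toLinearEquiv
    rw [Lin.tr_eq, Lin.tr_eq, Fin.sum_univ_succ, add_comm] at e
    refine e.symm.trans ?_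
    simp only [ContinuousLinearEquiv.symm_trans_apply, LinearEquiv.coe_toContinuousLinearEquiv_symm',
      Lin.J_succ, Lin.J_zero]
    rfl
  · have e := RV.det_gram_comp (G p) (T : Eu (m + 1) →L[ℝ] Eu (m + 1))
    have e1 : RV.gram ((G p).bilinearComp (T : Eu (m + 1) →L[ℝ] Eu (m + 1))
        (T : Eu (m + 1) →L[ℝ] Eu (m + 1))) = 1 := by
      ext i j
      simp [RV.gram, h1, Matrix.one_apply, EuclideanSpace.inner_single_left]
    have e2 : |(T : Eu (m + 1) →L[ℝ] Eu (m + 1)).det| * wt G p = 1 := by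
      rw [← Real.sqrt_sq_eq_abs, wt, ← Real.sqrt_mul (sq_nonneg _)]
      rw [e1, Matrix.det_one] at e
      exact Real.sqrt_eq_one.2 e.symm
    have e3 := Measure.map_linearMap_addHaar_eq_smul_addHaar (volume : Measure (Eu (m + 1)))
      (T.symm.toLinearEquiv.isUnit_det'.ne_zero)
    have e4 : |(LinearMap.det (T.symm.toLinearEquiv : Eu (m + 1) →ₗ[ℝ] Eu (m + 1)))⁻¹| =
        (wt G p)⁻¹ := by
      rw [ContinuousLinearEquiv.toLinearEquiv_symm, LinearEquiv.det_coe_symm, inv_inv]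
      exact eq_inv_of_mul_eq_one_left e2
    rw [e4] at e3
    replace e3 : Measure.map T.symm volume = ENNReal.ofReal (wt G p)⁻¹ • volume := e3
    have e5 : Measure.map (Lin.J m ∘ T.symm) volume = ENNReal.ofReal (wt G p)⁻¹ • volume := by
      rw [← Measure.map_map Lin.J_mp.measurable T.symm.continuous.measurable, e3, Measure.map_smul,
        Lin.J_mp.map_eq]
    exact e5

end Vale.Agent.P219.U
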