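import Vale.Agent.P219.StmU

/-! P219 part U: the flux near a boundary point. -/

open scoped ContDiff ENNReal RealInnerProductSpace Topology
open MeasureTheory Set Filter

set_option maxSynthPendingDepth 3

namespace Vale.Agent.P219.U

namespace Loc

variable {m : ℕ} {G : Met (m + 1)} {ν : Measure (Eu (m + 1))} {Ω W : Set (Eu (m + 1))}
  {p : Eu (m + 1)} {f : Eu (m + 1) → ℝ} {S : Eu (m + 1) ≃L[ℝ] (Eu m × ℝ)}

theorem sub_frontier (hW : IsOpen W) (hΩ : IsOpen Ω)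
    {v : Eu (m + 1)} (hpos : ∀ x ∈ W, 0 < fderiv ℝ f x v) (hΩW : Ω ∩ W = {x ∈ W | f x < 0}) :
    {x ∈ W | f x = 0} ⊆ frontier Ω := by
  rintro x ⟨hx, h0⟩
  rw [hΩ.frontier_eq]
  refine ⟨?_, fun h => ?_⟩
  · by_contra h
    have h1 : IsLocalMin f x := by
      filter_upwards [hW.mem_nhds hx, isClosed_closure.isOpen_compl.mem_nhds h] with y a b
      rw [h0]
      by_contra c
      have d : y ∈ {x ∈ W | f x < 0} := ⟨a, not_le.1 c⟩
      rw [← hΩW] at d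
      exact b (subset_closure d.1)
    have h2 := hpos x hx
    rw [h1.fderiv_eq_zero] at h2
    simp at h2
  · have d : x ∈ Ω ∩ W := ⟨h, hx⟩
    rw [hΩW] at d
    exact absurd d.2 (by rw [h0]; exact lt_irrefl _)

theorem one (hd : DirStmt) (hG : Rm G) {η K : ℝ} {a : Eu m} (hη : 0 < η) (hK : 0 ≤ K)
    (hS : Measure.map S volume = ENNReal.ofReal (wt G p)⁻¹ • volume) (hW : IsOpen W)
    (hWc : Convex ℝ W) (hΩ : IsOpen Ω) (hf : DifferentiableOn ℝ f W)
    (hpos : ∀ x ∈ W, 0 < fderiv ℝ f x (S.symm (a, 1))) (hΩW : Ω ∩ W = {x ∈ W | f x < 0})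
    (hlow : ∀ A ⊆ W, MeasurableSet A → ∀ (π : Eu (m + 1) → Eu m) (K : ℝ), 0 ≤ K →
      (∀ a ∈ A, ∀ b ∈ A, ‖π a - π b‖ ≤ K * √(G p (a - b) (a - b))) →
      volume (π '' A) ≤ ENNReal.ofReal (((1 + η) * K) ^ m) * ν A)
    (hlip : ∀ x ∈ W, ∀ y ∈ W, f x = 0 → f y = 0 →
      ‖(S (x - y)).1 - (S (x - y)).2 • a‖ ≤ K * √(G p (x - y) (x - y)))
    (hnear : ∀ x ∈ W, wt G x ≤ (1 + η) * wt G p ∧ ∀ u, √(G p u u) ≤ (1 + η) * √(G x u u))
    (l : Eu (m + 1) →L[ℝ] ℝ) (hl : ∀ u, |l u| ≤ √(G p u u)) {Y : Eu (m + 1) → Eu (m + 1)}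
    (hY : ContDiff ℝ 1 Y) (cY : HasCompactSupport Y) (sY : tsupport Y ⊆ W)
    (hI : ∫⁻ x in frontier Ω, ENNReal.ofReal √(G x (Y x) (Y x)) ∂ν ≠ ⊤) :
    |∫ x in Ω, l (fderiv ℝ (fun y => wt G y • Y y) x (S.symm (a, 1)))| ≤
      ((1 + η) * K) ^ m * (1 + η) ^ 2 *
        (∫⁻ x in frontier Ω, ENNReal.ofReal √(G x (Y x) (Y x)) ∂ν).toReal := by
  have hX := BR.wY_c1 hG hY
  have hw := hG.wt_pos p
  have hsupp : tsupport (fun y => l (wt G y • Y y)) ⊆ tsupport Y :=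
    closure_mono fun x hx h => hx (by simp [h])
  have h1 := hd m S _ (ENNReal.ofReal (((1 + η) * K) ^ m)) a W Ω f (fun y => l (wt G y • Y y)) ν
    ENNReal.ofReal_ne_top ENNReal.ofReal_ne_top hS hW hWc hΩ.measurableSet hf hpos hΩW
    (l.contDiff.comp hX) (cY.mono' (subset_closure.trans hsupp)) (hsupp.trans sY)
    fun A hA hm => hlow A (fun x hx => (hA hx).1) hm _ K hK fun x hx y hy => by
      have := hlip x (hA hx).1 y (hA hy).1 (hA hx).2 (hA hy).2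
      rw [map_sub, Prod.fst_sub, Prod.snd_sub, sub_smul] at this
      convert this using 2
      abel
  have h2 : ∀ x, fderiv ℝ (fun y => l (wt G y • Y y)) x (S.symm (a, 1)) =
      l (fderiv ℝ (fun y => wt G y • Y y) x (S.symm (a, 1))) := fun x => by
    have := (l.hasFDerivAt.comp x (hX.differentiable one_ne_zero x).hasFDerivAt).fderiv
    exact congrArg (fun T : Eu (m + 1) →L[ℝ] ℝ => T (S.symm (a, 1))) this
  simp only [h2] at h1
  have hZ : MeasurableSet {x ∈ W | f x = 0} := by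
    have := (hf.continuousOn.isOpen_inter_preimage hW (isOpen_compl_singleton (x := (0 : ℝ))))
    convert hW.measurableSet.diff this.measurableSet using 1
    ext x
    simp only [mem_ofPred_eq, Set.mem_sdiff, mem_inter_iff, mem_preimage, mem_compl_iff,
      mem_singleton_iff]
    tauto
  have h3 : ∫⁻ x in {x ∈ W | f x = 0}, ‖l (wt G x • Y x)‖ₑ ∂ν ≤
      ENNReal.ofReal ((1 + η) ^ 2 * wt G p) *
        ∫⁻ x in frontier Ω, ENNReal.ofReal √(G x (Y x) (Y x)) ∂ν := by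
    rw [← lintegral_const_mul' _ _ ENNReal.ofReal_ne_top]
    refine le_trans (setLIntegral_mono' hZ fun x hx => ?_)
      (lintegral_mono_set (sub_frontier hW hΩ hpos hΩW))
    rw [← ENNReal.ofReal_mul (by positivity), ← ofReal_norm, map_smul, smul_eq_mul,
      Real.norm_eq_abs, abs_mul, abs_of_pos (hG.wt_pos x)]
    refine ENNReal.ofReal_le_ofReal ?_
    obtain ⟨a1, a2⟩ := hnear x hx.1
    calc wt G x * |l (Y x)| ≤ ((1 + η) * wt G p) * ((1 + η) * √(G x (Y x) (Y x))) :=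
          mul_le_mul a1 ((hl _).trans (a2 _)) (abs_nonneg _) (by positivity)
      _ = _ := by ring
  have h4 := h1.trans (mul_le_mul_right h3 _)
  rw [← ENNReal.ofReal_toReal hI, ← ENNReal.ofReal_mul (by positivity),
    ← ENNReal.ofReal_mul (by positivity), ← ENNReal.ofReal_mul (by positivity), ← ofReal_norm,
    ENNReal.ofReal_le_ofReal_iff (by positivity), Real.norm_eq_abs] at h4
  refine h4.trans_eq ?_
  field_simp

theorem consts (m : ℕ) {ε : ℝ} (hε : 0 < ε) : ∃ η > (0 : ℝ), ∃ t > (0 : ℝ),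
    m * (t⁻¹ * (((1 + η) * 2) ^ m * (1 + η) ^ 2 + ((1 + η) * 1) ^ m * (1 + η) ^ 2)) +
      ((1 + η) * 1) ^ m * (1 + η) ^ 2 ≤ 1 + ε := by
  have h1 : ContinuousAt (fun η : ℝ => ((1 + η) * 1) ^ m * (1 + η) ^ 2) 0 := by fun_prop
  have h2 : ∀ᶠ η : ℝ in 𝓝 0, ((1 + η) * 1) ^ m * (1 + η) ^ 2 < 1 + ε / 2 :=
    h1.eventually (gt_mem_nhds (by simp [hε]))
  obtain ⟨η, h3, h4⟩ := ((h2.filter_mono nhdsWithin_le_nhds).and
    (self_mem_nhdsWithin (s := Ioi (0 : ℝ)))).exists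
  have h5 : (0 : ℝ) < η := h4
  obtain ⟨C, hC⟩ : ∃ C, C = ((1 + η) * 2) ^ m * (1 + η) ^ 2 + ((1 + η) * 1) ^ m * (1 + η) ^ 2 :=
    ⟨_, rfl⟩
  have h6 : 0 < C := by rw [hC]; positivity
  refine ⟨η, h5, (m + 1) * C * 2 / ε, by positivity, ?_⟩
  rw [← hC]
  have h7 : m * (((m + 1) * C * 2 / ε)⁻¹ * C) = m / (m + 1) * (ε / 2) := by field_simp
  have h8 : (m : ℝ) / (m + 1) ≤ 1 := by
    rw [div_le_one (by positivity)]
    linarith
  rw [h7]
  nlinarith

end Loc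

theorem loc_pf (hl : LinStmt) (hd : DirStmt) : LocStmt := by
  intro m G ν Ω p hG hlow hΩ hp ε hε
  obtain ⟨U, f, hU, hpU, hf, hf0, hΩU⟩ := hΩ.2 p hp
  obtain ⟨S, c, hc, hS1, hS2, hS3, hS4⟩ := hl m G p _ hG hf0
  obtain ⟨η, hη, t, ht, hηt⟩ := Loc.consts m hε
  obtain ⟨W₀, hW₀, hlow'⟩ := hlow p η hη
  obtain ⟨k, hk, hk'⟩ := hG.coercive (isCompact_singleton (x := p))
  have hfp : ContDiffAt ℝ 1 f p := hf.contDiffAt (hU.mem_nhds hpU)
  have hdc : ContinuousAt (fderiv ℝ f) p := hfp.continuousAt_fderiv one_ne_zero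
  have hdir : ∀ a : Eu m, ∀ᶠ x in 𝓝 p, 0 < fderiv ℝ f x (S.symm (a, 1)) := fun a =>
    (hdc.clm_apply continuousAt_const).eventually (lt_mem_nhds (by simpa [hS2] using hc))
  have hw := hG.wt_pos p
  have hwt : ∀ᶠ x in 𝓝 p, wt G x < (1 + η) * wt G p :=
    hG.wt_cont.continuousAt.eventually (gt_mem_nhds (by nlinarith))
  have hδ : 0 < c * √k / t := by positivity
  obtain ⟨V, hV, hV'⟩ := (hfp.hasStrictFDerivAt one_ne_zero).approximates_deriv_on_nhds
    (c := ⟨c * √k / t, hδ.le⟩) (Or.inr hδ)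
  obtain ⟨ρ, hρ, hb⟩ := Metric.eventually_nhds_iff_ball.1 ((hdir 0).and
    ((eventually_all.2 fun i => hdir (t • ee i)).and (hwt.and ((near hG p hη).and
      (Eventually.and (hU.mem_nhds hpU) (Eventually.and hW₀ hV))))))
  refine ⟨Metric.ball p ρ, Metric.ball_mem_nhds p hρ, fun Y hY cY sY => ?_⟩
  by_cases hI : ∫⁻ x in frontier Ω, ENNReal.ofReal √(G x (Y x) (Y x)) ∂ν = ⊤
  · rw [hI, ENNReal.mul_top (by simp; linarith)]
    exact le_top
  have hBU : Metric.ball p ρ ⊆ U := fun x hx => (hb x hx).2.2.2.2.1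
  have hfd : DifferentiableOn ℝ f (Metric.ball p ρ) := (hf.differentiableOn one_ne_zero).mono hBU
  have hΩB : Ω ∩ Metric.ball p ρ = {x ∈ Metric.ball p ρ | f x < 0} := by
    ext x
    have := Set.ext_iff.1 hΩU x
    have := @hBU x
    simp only [mem_inter_iff, mem_ofPred_eq] at *
    tauto
  have n1 : ∀ u, ‖(S u).1‖ ≤ √(G p u u) := fun u =>
    Real.le_sqrt_of_sq_le (by rw [hS1]; nlinarith [sq_nonneg (S u).2])
  have n2 : ∀ u, |(S u).2| ≤ √(G p u u) := fun u =>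
    Real.abs_le_sqrt (by rw [hS1]; nlinarith [sq_nonneg ‖(S u).1‖])
  have n3 : ∀ x ∈ Metric.ball p ρ, ∀ y ∈ Metric.ball p ρ, f x = 0 → f y = 0 →
      |(S (x - y)).2| * t ≤ √(G p (x - y) (x - y)) := by
    intro x hx y hy a b
    have h1 := hV' x (hb x hx).2.2.2.2.2.2 y (hb y hy).2.2.2.2.2.2
    rw [a, b, sub_self, zero_sub, norm_neg, hS2, norm_mul, Real.norm_eq_abs, Real.norm_eq_abs,
      abs_of_pos hc] at h1
    have h2 : √k * ‖x - y‖ ≤ √(G p (x - y) (x - y)) := Real.le_sqrt_of_sq_le (by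
      rw [mul_pow, Real.sq_sqrt hk.le]
      exact hk' p rfl _)
    have h3 : c * |(S (x - y)).2| ≤ c * √k / t * ‖x - y‖ := h1
    rw [div_mul_eq_mul_div, le_div_iff₀ ht, mul_assoc, mul_assoc] at h3
    exact (le_of_mul_le_mul_left h3 hc).trans h2
  have key := fun (K : ℝ) (a : Eu m) (hK : 0 ≤ K) hpos hlip l hl => Loc.one (K := K) (a := a) hd hG
    hη hK hS4 Metric.isOpen_ball (convex_ball p ρ) hΩ.1 hfd hpos hΩB
    (fun A hA => hlow' A fun x hx => (hb x (hA hx)).2.2.2.2.2.1) hlip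
    (fun x hx => ⟨(hb x hx).2.2.1.le, fun u => ((hb x hx).2.2.2.1 u).2⟩) l hl hY cY sY hI
  have k0 := key 1 0 zero_le_one (fun x hx => (hb x hx).1) fun x _ y _ _ _ => by
    simpa using n1 (x - y)
  have k1 := fun i => key 2 (t • ee i) zero_le_two (fun x hx => (hb x hx).2.1 i)
    fun x hx y hy a b => by
      refine (norm_sub_le _ _).trans ?_
      rw [norm_smul, norm_smul, Real.norm_eq_abs, Real.norm_eq_abs, abs_of_pos ht,
        PiLp.norm_single, norm_one, mul_one]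
      linarith [n1 (x - y), n3 x hx y hy a b]
  let l₀ : Eu (m + 1) →L[ℝ] ℝ :=
    (ContinuousLinearMap.snd ℝ (Eu m) ℝ).comp S.toContinuousLinearMap
  let l : Fin m → Eu (m + 1) →L[ℝ] ℝ := fun i =>
    (EuclideanSpace.proj i).comp
      ((ContinuousLinearMap.fst ℝ (Eu m) ℝ).comp S.toContinuousLinearMap)
  have hl' : ∀ i u, |l i u| ≤ √(G p u u) := fun i u => (PiLp.norm_apply_le (S u).1 i).trans (n1 u)
  have hX := BR.wY_c1 hG hY
  have hint : ∀ (l : Eu (m + 1) →L[ℝ] ℝ) (v : Eu (m + 1)),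
      IntegrableOn (fun x => l (fderiv ℝ (fun y => wt G y • Y y) x v)) Ω := fun l v =>
    ((l.continuous.comp ((hX.continuous_fderiv one_ne_zero).clm_apply
      continuous_const)).integrable_of_hasCompactSupport
        (((BR.wY_supp cY).fderiv_apply ℝ v).comp_left l.map_zero)).integrableOn
  have hfl : flux G Ω Y = ∑ i, t⁻¹ *
      ((∫ x in Ω, l i (fderiv ℝ (fun y => wt G y • Y y) x (S.symm (t • ee i, 1)))) -
        ∫ x in Ω, l i (fderiv ℝ (fun y => wt G y • Y y) x (S.symm (0, 1)))) +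
      ∫ x in Ω, l₀ (fderiv ℝ (fun y => wt G y • Y y) x (S.symm (0, 1))) := by
    have hj : ∀ i, IntegrableOn (fun x => t⁻¹ *
        (l i (fderiv ℝ (fun y => wt G y • Y y) x (S.symm (t • ee i, 1))) -
          l i (fderiv ℝ (fun y => wt G y • Y y) x (S.symm (0, 1))))) Ω := fun i =>
      ((hint _ _).sub (hint _ _)).const_mul _
    simp only [← integral_sub (hint _ _) (hint _ _), ← integral_const_mul]
    rw [← integral_finsetSum _ fun i _ => hj i,
      ← integral_add (integrable_finsetSum _ fun i _ => hj i) (hint _ _)]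
    refine integral_congr_ae (Eventually.of_forall fun x => ?_)
    refine (hS3 _).trans (congrArg₂ _ (Finset.sum_congr rfl fun i _ => ?_) rfl)
    rw [← map_sub, ← map_sub, ← map_sub, Prod.mk_sub_mk, sub_zero, sub_self,
      show ((t • ee i, 0) : Eu m × ℝ) = t • (ee i, 0) by simp, map_smul, map_smul, map_smul,
      smul_eq_mul, ← mul_assoc, inv_mul_cancel₀ ht.ne', one_mul]
    rfl
  obtain ⟨I, hI'⟩ : ∃ I, I = (∫⁻ x in frontier Ω, ENNReal.ofReal √(G x (Y x) (Y x)) ∂ν).toReal :=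
    ⟨_, rfl⟩
  have hI0 : 0 ≤ I := hI' ▸ ENNReal.toReal_nonneg
  rw [← ENNReal.ofReal_toReal hI, ← hI', ← ENNReal.ofReal_mul (by linarith)]
  rw [← hI'] at k0 k1
  refine ENNReal.ofReal_le_ofReal (le_trans ?_ (mul_le_mul_of_nonneg_right hηt hI0))
  rw [hfl, add_mul]
  refine add_le_add ?_ ((le_abs_self _).trans (k0 l₀ n2))
  refine (Finset.sum_le_card_nsmul _ _ (t⁻¹ * ((((1 + η) * 2) ^ m * (1 + η) ^ 2 +
    ((1 + η) * 1) ^ m * (1 + η) ^ 2) * I)) fun i _ => ?_).trans_eq (by simp; ring)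
  refine mul_le_mul_of_nonneg_left ?_ (by positivity)
  linarith [(abs_le.1 (k1 i (l i) (hl' i))).2, (abs_le.1 (k0 (l i) (hl' i))).1]

end Vale.Agent.P219.U
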