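import Vale.Agent.P219.StmU
import Vale.Agent.P255.Calc1

/-! P219 part U: curvature and geodesics under a local isometry between two spaces. -/

open scoped Manifold ContDiff Topology
open Set Filter

set_option maxSynthPendingDepth 3

namespace Vale.Agent.P219.U

open Vale.Agent.P255

namespace Nat

variable {E F : Type} [NormedAddCommGroup E] [NormedSpace ℝ E] [NormedAddCommGroup F]
  [NormedSpace ℝ F] {G : E → E →L[ℝ] E →L[ℝ] ℝ} {G' : F → F →L[ℝ] F →L[ℝ] ℝ} {U : Set E}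
  {U' : Set F} {τ : E → F}

theorem three (hU : IsOpen U) (hτ : ContDiffOn ℝ ∞ τ U) {y : E} (hy : y ∈ U) :
    ContDiffAt ℝ 3 τ y :=
  (hτ.contDiffAt (hU.mem_nhds hy)).of_le (WithTop.coe_le_coe.2 (le_top : (3 : ℕ∞) ≤ ⊤))

theorem two (hU : IsOpen U) (hτ : ContDiffOn ℝ ∞ τ U) {y : E} (hy : y ∈ U) :
    ContDiffAt ℝ 2 τ y :=
  (three hU hτ hy).of_le (by norm_num)

theorem two' (hU : IsOpen U) (hτ : ContDiffOn ℝ ∞ τ U) {y : E} (hy : y ∈ U) :
    ContDiffAt ℝ 2 (fderiv ℝ τ) y :=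
  (three hU hτ hy).fderiv_right (m := 2) (by norm_num)

theorem dthree (hU : IsOpen U) (hτ : ContDiffOn ℝ ∞ τ U) {y : E} (hy : y ∈ U) :
    HasFDerivAt (fderiv ℝ (fderiv ℝ τ)) (fderiv ℝ (fderiv ℝ (fderiv ℝ τ)) y) y :=
  (((two' hU hτ hy).fderiv_right (m := 1) (by norm_num)).differentiableAt one_ne_zero).hasFDerivAt

theorem dtwo (hU : IsOpen U) (hτ : ContDiffOn ℝ ∞ τ U) {y : E} (hy : y ∈ U) :
    HasFDerivAt (fderiv ℝ τ) (fderiv ℝ (fderiv ℝ τ) y) y :=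
  ((two' hU hτ hy).differentiableAt two_ne_zero).hasFDerivAt

theorem done (hU : IsOpen U) (hτ : ContDiffOn ℝ ∞ τ U) {y : E} (hy : y ∈ U) :
    HasFDerivAt τ (fderiv ℝ τ y) y :=
  ((two hU hτ hy).differentiableAt two_ne_zero).hasFDerivAt

theorem diff_iso (h : CM G U) (h' : CM G' U') (hτ : ContDiffOn ℝ ∞ τ U) (hm : MapsTo τ U U')
    (hiso : ∀ y ∈ U, ∀ v w, G y v w = G' (τ y) (fderiv ℝ τ y v) (fderiv ℝ τ y w))
    {y : E} (hy : y ∈ U) (c a b : E) :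
    fderiv ℝ G y c a b =
      fderiv ℝ G' (τ y) (fderiv ℝ τ y c) (fderiv ℝ τ y a) (fderiv ℝ τ y b) +
        G' (τ y) (fderiv ℝ (fderiv ℝ τ) y c a) (fderiv ℝ τ y b) +
        G' (τ y) (fderiv ℝ τ y a) (fderiv ℝ (fderiv ℝ τ) y c b) := by
  have h1 := ((h.differentiableAt_G hy).hasFDerivAt.clm_apply (hasFDerivAt_const a y)).clm_apply
    (hasFDerivAt_const b y)
  have h2 := (h'.differentiableAt_G (hm hy)).hasFDerivAt.comp y (done h.isOpen hτ hy)
  have h3 := fun u : E => (dtwo h.isOpen hτ hy).clm_apply (hasFDerivAt_const u y)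
  have h4 := (h2.clm_apply (h3 a)).clm_apply (h3 b)
  have h5 : (fun x => G x a b) =ᶠ[𝓝 y]
      fun x => (G' ∘ τ) x (fderiv ℝ τ x a) (fderiv ℝ τ x b) :=
    Filter.mem_of_superset (h.isOpen.mem_nhds hy) fun x hx => hiso x hx a b
  have h6 := DFunLike.congr_fun (h1.unique (h4.congr_of_eventuallyEq h5)) c
  simp only [add_apply, ContinuousLinearMap.comp_apply,
    ContinuousLinearMap.flip_apply, zero_apply, map_zero, zero_add,
    Function.comp_apply] at h6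
  linarith

variable [FiniteDimensional ℝ E] [FiniteDimensional ℝ F]

theorem chr_trans (h : CM G U) (h' : CM G' U') (hτ : ContDiffOn ℝ ∞ τ U) (hm : MapsTo τ U U')
    (hsurj : ∀ y ∈ U, Function.Surjective (fderiv ℝ τ y))
    (hiso : ∀ y ∈ U, ∀ v w, G y v w = G' (τ y) (fderiv ℝ τ y v) (fderiv ℝ τ y w))
    {y : E} (hy : y ∈ U) (v w : E) :
    fderiv ℝ (fderiv ℝ τ) y v w + chr G' (τ y) (fderiv ℝ τ y v) (fderiv ℝ τ y w) =
      fderiv ℝ τ y (chr G y v w) := by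
  have hsym : ∀ a b, fderiv ℝ (fderiv ℝ τ) y a b = fderiv ℝ (fderiv ℝ τ) y b a :=
    ((two h.isOpen hτ hy).isSymmSndFDerivAt (by simp)).eq
  refine h'.ext (hm hy) fun z' => ?_
  obtain ⟨z, rfl⟩ := hsurj y hy z'
  have k1 := h.koszul hy v w z
  have k2 := h'.koszul (hm hy) (fderiv ℝ τ y v) (fderiv ℝ τ y w) (fderiv ℝ τ y z)
  rw [diff_iso h h' hτ hm hiso hy, diff_iso h h' hτ hm hiso hy, diff_iso h h' hτ hm hiso hy,
    hiso y hy, hsym w v, hsym z v, hsym z w,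
    h'.symm _ (hm hy) (fderiv ℝ (fderiv ℝ τ) y v z)] at k1
  rw [map_add, add_apply]
  linarith

theorem chrL_trans (h : CM G U) (h' : CM G' U') (hτ : ContDiffOn ℝ ∞ τ U) (hm : MapsTo τ U U')
    (hsurj : ∀ y ∈ U, Function.Surjective (fderiv ℝ τ y))
    (hiso : ∀ y ∈ U, ∀ v w, G y v w = G' (τ y) (fderiv ℝ τ y v) (fderiv ℝ τ y w))
    {y : E} (hy : y ∈ U) (v w : E) :
    fderiv ℝ (fderiv ℝ τ) y v w + chrL G' (τ y) (fderiv ℝ τ y v) (fderiv ℝ τ y w) =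
      fderiv ℝ τ y (chrL G y v w) := by
  rw [h.chrL_apply hy, h'.chrL_apply (hm hy)]
  exact chr_trans h h' hτ hm hsurj hiso hy v w

theorem dchr (h : CM G U) (h' : CM G' U') (hτ : ContDiffOn ℝ ∞ τ U) (hm : MapsTo τ U U')
    (hsurj : ∀ y ∈ U, Function.Surjective (fderiv ℝ τ y))
    (hiso : ∀ y ∈ U, ∀ v w, G y v w = G' (τ y) (fderiv ℝ τ y v) (fderiv ℝ τ y w))
    {y : E} (hy : y ∈ U) (u v w : E) :
    fderiv ℝ (fderiv ℝ (fderiv ℝ τ)) y u v w +
      (fderiv ℝ (chrL G') (τ y) (fderiv ℝ τ y u) (fderiv ℝ τ y v) (fderiv ℝ τ y w) +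
        chrL G' (τ y) (fderiv ℝ (fderiv ℝ τ) y u v) (fderiv ℝ τ y w) +
        chrL G' (τ y) (fderiv ℝ τ y v) (fderiv ℝ (fderiv ℝ τ) y u w)) =
      fderiv ℝ (fderiv ℝ τ) y u (chrL G y v w) + fderiv ℝ τ y (fderiv ℝ (chrL G) y u v w) := by
  have h0 := ((dthree h.isOpen hτ hy).clm_apply (hasFDerivAt_const v y)).clm_apply
    (hasFDerivAt_const w y)
  have h1 := ((h.differentiableAt_chrL hy).hasFDerivAt.clm_apply (hasFDerivAt_const v y)).clm_apply
    (hasFDerivAt_const w y)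
  have h2 := (h'.differentiableAt_chrL (hm hy)).hasFDerivAt.comp y (done h.isOpen hτ hy)
  have h3 := fun u : E => (dtwo h.isOpen hτ hy).clm_apply (hasFDerivAt_const u y)
  have h4 := h0.add ((h2.clm_apply (h3 v)).clm_apply (h3 w))
  have h5 : (fun x => fderiv ℝ τ x (chrL G x v w)) =ᶠ[𝓝 y]
      (fun x => fderiv ℝ (fderiv ℝ τ) x v w) +
        fun x => (chrL G' ∘ τ) x (fderiv ℝ τ x v) (fderiv ℝ τ x w) :=
    Filter.mem_of_superset (h.isOpen.mem_nhds hy) fun x hx =>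
      (chrL_trans h h' hτ hm hsurj hiso hx v w).symm
  have h6 := DFunLike.congr_fun
    (((dtwo h.isOpen hτ hy).clm_apply h1).unique (h4.congr_of_eventuallyEq h5)) u
  simp only [add_apply, ContinuousLinearMap.comp_apply,
    ContinuousLinearMap.flip_apply, zero_apply, map_zero, zero_add,
    Function.comp_apply] at h6
  linear_combination (norm := abel1) -h6

theorem riem_trans (h : CM G U) (h' : CM G' U') (hτ : ContDiffOn ℝ ∞ τ U) (hm : MapsTo τ U U')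
    (hsurj : ∀ y ∈ U, Function.Surjective (fderiv ℝ τ y))
    (hiso : ∀ y ∈ U, ∀ v w, G y v w = G' (τ y) (fderiv ℝ τ y v) (fderiv ℝ τ y w))
    {y : E} (hy : y ∈ U) (u v w : E) :
    fderiv ℝ τ y (riem G y u v w) =
      riem G' (τ y) (fderiv ℝ τ y u) (fderiv ℝ τ y v) (fderiv ℝ τ y w) := by
  have s2 : fderiv ℝ (fderiv ℝ τ) y u v = fderiv ℝ (fderiv ℝ τ) y v u :=
    ((two h.isOpen hτ hy).isSymmSndFDerivAt (by simp)).eq u v
  have s3 : fderiv ℝ (fderiv ℝ (fderiv ℝ τ)) y u v = fderiv ℝ (fderiv ℝ (fderiv ℝ τ)) y v u :=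
    ((two' h.isOpen hτ hy).isSymmSndFDerivAt (by simp)).eq u v
  have a1 := dchr h h' hτ hm hsurj hiso hy u v w
  have a2 := dchr h h' hτ hm hsurj hiso hy v u w
  have b := fun v w => eq_sub_of_add_eq (chrL_trans h h' hτ hm hsurj hiso hy v w)
  rw [s2, s3, b u w, b u (chrL G y v w), map_sub] at a1
  rw [b v w, b v (chrL G y u w), map_sub] at a2
  rw [h.riem_eq hy, h'.riem_eq (hm hy), map_sub, map_add, map_sub]
  linear_combination (norm := abel1) a2 - a1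

theorem cov_trans (h : CM G U) (h' : CM G' U') (hτ : ContDiffOn ℝ ∞ τ U) (hm : MapsTo τ U U')
    (hsurj : ∀ y ∈ U, Function.Surjective (fderiv ℝ τ y))
    (hiso : ∀ y ∈ U, ∀ v w, G y v w = G' (τ y) (fderiv ℝ τ y v) (fderiv ℝ τ y w))
    {c : ℝ → E} {s : ℝ} (hs : c s ∈ U) (hc : ContDiffAt ℝ 2 c s) :
    cov G' (τ ∘ c) (deriv (τ ∘ c)) s = fderiv ℝ τ (c s) (cov G c (deriv c) s) := by
  have h1 : ∀ᶠ r in 𝓝 s, c r ∈ U := hc.continuousAt (h.isOpen.mem_nhds hs)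
  have h2 : ∀ᶠ r in 𝓝 s, ContDiffAt ℝ 2 c r := hc.eventually (by simp)
  have h3 : deriv (τ ∘ c) =ᶠ[𝓝 s] fun r => fderiv ℝ τ (c r) (deriv c r) := by
    filter_upwards [h1, h2] with r a b
    exact ((done h.isOpen hτ a).comp_hasDerivAt r
      (b.differentiableAt two_ne_zero).hasDerivAt).deriv
  have h4 : HasDerivAt c (deriv c s) s := (hc.differentiableAt two_ne_zero).hasDerivAt
  have h5 : HasDerivAt (deriv c) (deriv (deriv c) s) s :=
    ((hc.derivWithin (m := 1) (by norm_num)).differentiableAt one_ne_zero).hasDerivAt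
  have h6 := (((dtwo h.isOpen hτ hs).comp_hasDerivAt s h4).clm_apply h5).congr_of_eventuallyEq h3
  have h7 := chr_trans h h' hτ hm hsurj hiso hs (deriv c s) (deriv c s)
  rw [cov, cov, h6.deriv, h3.eq_of_nhds, map_add, ← h7]
  simp only [Function.comp_apply]
  abel

end Nat

theorem nat_pf : NatStmt := by
  intro E F _ _ _ _ _ _ G G' U U' τ h h' hτ hm hsurj hiso
  refine ⟨fun y hy u v => ?_, fun c s hs hc => Nat.cov_trans h h' hτ hm hsurj hiso hs hc⟩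
  unfold sec
  rw [← Nat.riem_trans h h' hτ hm hsurj hiso hy, hiso y hy, hiso y hy, hiso y hy, hiso y hy]

end Vale.Agent.P219.U
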