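import Vale.Agent.P219.StmU
import Vale.Agent.P219.BTool

/-! P219 part U: the perimeter is at most the boundary measure. -/

open scoped Manifold ContDiff ENNReal RealInnerProductSpace Topology
open MeasureTheory Set Filter

set_option maxSynthPendingDepth 3

namespace Vale.Agent.P219.U

namespace Per

variable {n : ℕ} {G : Met n} {ν : Measure (Eu n)} {Ω : Set (Eu n)} {c : ℝ≥0∞}

/-- The local bound for fields supported in `V`. -/
def Bnd (G : Met n) (ν : Measure (Eu n)) (Ω : Set (Eu n)) (c : ℝ≥0∞) (V : Set (Eu n)) : Prop :=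
  ∀ Y, ContDiff ℝ 1 Y → HasCompactSupport Y → tsupport Y ⊆ V →
    ENNReal.ofReal (flux G Ω Y) ≤
      c * ∫⁻ x in frontier Ω, ENNReal.ofReal √(G x (Y x) (Y x)) ∂ν

theorem supp_smul {Y : Eu n → Eu n} {ψ : Eu n → ℝ} {V : Set (Eu n)}
    (h : ∀ᶠ x in 𝓝ˢ (tsupport Y \ V), ψ x = 0) : tsupport (fun x => ψ x • Y x) ⊆ V := by
  intro x hx
  by_contra hV
  refine notMem_tsupport_iff_eventuallyEq.2 ?_ hx
  filter_upwards [nhds_le_nhdsSet (mem_sdiff_of_mem (tsupport_smul_subset_right ψ Y hx) hV) h]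
    with y hy
  simp [show ψ y = 0 from hy]

theorem sqrt_smul (G : Met n) (x v : Eu n) {t : ℝ} (ht : 0 ≤ t) :
    √(G x (t • v) (t • v)) = t * √(G x v v) := by
  simp only [map_smul, smul_apply, smul_eq_mul]
  rw [← mul_assoc, Real.sqrt_mul (mul_self_nonneg t), Real.sqrt_mul_self ht]

theorem union (hG : Rm G) {V W : Set (Eu n)} (hV : IsOpen V) (hW : IsOpen W)
    (h1 : Bnd G ν Ω c V) (h2 : Bnd G ν Ω c W) : Bnd G ν Ω c (V ∪ W) := by
  intro Y hY cY hs
  obtain ⟨ψ, h0, h1', hψ⟩ := exists_contMDiffMap_zero_one_nhds_of_isClosed (n := 1) 𝓘(ℝ, Eu n)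
    ((isClosed_tsupport Y).sdiff hV) ((isClosed_tsupport Y).sdiff hW)
    (disjoint_left.2 fun x hx hx' => (hs hx.1).elim hx.2 hx'.2)
  have hc : ContDiff ℝ 1 ψ := ψ.contMDiff.contDiff
  have hc' : ContDiff ℝ 1 fun x => 1 - ψ x := contDiff_const.sub hc
  have d1 : ContDiff ℝ 1 fun x => ψ x • Y x := hc.smul hY
  have d2 : ContDiff ℝ 1 fun x => (1 - ψ x) • Y x := hc'.smul hY
  have c1 : HasCompactSupport fun x => ψ x • Y x := cY.mono fun x hx h => hx (by simp [h])
  have c2 : HasCompactSupport fun x => (1 - ψ x) • Y x := cY.mono fun x hx h => hx (by simp [h])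
  have e1 := h1 _ d1 c1 (supp_smul h0)
  have e2 := h2 _ d2 c2 (supp_smul (h1'.mono fun x hx => by rw [hx, sub_self]))
  have e : flux G Ω Y = flux G Ω (fun x => ψ x • Y x) + flux G Ω fun x => (1 - ψ x) • Y x := by
    rw [← BR.flux_add hG Ω d1 c1 d2 c2]
    congr 1
    funext x
    rw [← add_smul, add_sub_cancel, one_smul]
  rw [e]
  refine ENNReal.ofReal_add_le.trans ((add_le_add e1 e2).trans_eq ?_)
  rw [← mul_add, ← lintegral_add_left]
  · congr 1
    refine lintegral_congr fun x => ?_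
    have a := (hψ x).1
    have b := sub_nonneg.2 (hψ x).2
    rw [sqrt_smul G x _ a, sqrt_smul G x _ b, ← ENNReal.ofReal_add (by positivity) (by positivity)]
    congr 1
    ring
  · exact (ENNReal.continuous_ofReal.comp (((hG.smooth.continuous.clm_apply
      d1.continuous).clm_apply d1.continuous).sqrt)).measurable

theorem inside (hG : Rm G) : Bnd G ν Ω c Ω := by
  intro Y hY cY hs
  have : flux G Ω Y = 0 := by
    unfold flux
    rw [setIntegral_eq_integral_of_forall_compl_eq_zero,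
      B.integral_dvg_eq_zero (BR.wY_c1 hG hY) (BR.wY_supp cY)]
    intro x hx
    have h : (fun y => wt G y • Y y) =ᶠ[𝓝 x] fun _ => 0 :=
      notMem_tsupport_iff_eventuallyEq.1 fun h => hx (hs (tsupport_smul_subset_right _ _ h))
    rw [BR.dvg_congr h]
    simp [dvg]
  simp [this]

theorem outside (hΩ : MeasurableSet Ω) {V : Set (Eu n)} (hV : Disjoint V Ω) :
    Bnd G ν Ω c V := by
  intro Y _ _ hs
  rw [BR.flux_congr hΩ (Z := fun _ => 0) fun x hx =>
    notMem_tsupport_iff_eventuallyEq.1 fun h => disjoint_left.1 hV (hs h) hx, BR.flux_zero]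
  simp

end Per

theorem per_pf (h : LocStmt) : PerStmt := by
  intro m G ν Ω hG hL hΩ
  refine lim 1 fun ε hε => ?_
  rw [pow_one]
  refine iSup_le fun Y => iSup_le fun hY => iSup_le fun cY => iSup_le fun h1 => ?_
  obtain ⟨V, -, hV, hB⟩ : ∃ V, IsOpen V ∧ tsupport Y ⊆ V ∧
      Per.Bnd G ν Ω (ENNReal.ofReal (1 + ε)) V := by
    refine IsCompact.induction_on (p := fun s => ∃ V, IsOpen V ∧ s ⊆ V ∧
      Per.Bnd G ν Ω (ENNReal.ofReal (1 + ε)) V) cY
      ⟨∅, isOpen_empty, Subset.rfl, Per.outside hΩ.1.measurableSet (empty_disjoint _)⟩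
      (fun s t hst ⟨V, a, b, c⟩ => ⟨V, a, hst.trans b, c⟩)
      (fun s t ⟨V, a, b, c⟩ ⟨W, a', b', c'⟩ =>
        ⟨V ∪ W, a.union a', union_subset_union b b', Per.union hG a a' c c'⟩) fun p _ => ?_
    have key : ∃ V, IsOpen V ∧ p ∈ V ∧ Per.Bnd G ν Ω (ENNReal.ofReal (1 + ε)) V := by
      by_cases hp : p ∈ frontier Ω
      · obtain ⟨W, hW, hb⟩ := h m G ν Ω p hG hL hΩ hp ε hε
        exact ⟨interior W, isOpen_interior, mem_interior_iff_mem_nhds.2 hW,
          fun Z a b c => hb Z a b (c.trans interior_subset)⟩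
      by_cases hp' : p ∈ Ω
      · exact ⟨Ω, hΩ.1, hp', Per.inside hG⟩
      refine ⟨(closure Ω)ᶜ, isClosed_closure.isOpen_compl, fun hc => hp ?_,
        Per.outside hΩ.1.measurableSet (disjoint_compl_left_iff_subset.2 subset_closure)⟩
      exact ⟨hc, fun hi => hp' (interior_subset hi)⟩
    obtain ⟨V, a, b, c⟩ := key
    exact ⟨V, mem_nhdsWithin_of_mem_nhds (a.mem_nhds b), V, a, Subset.rfl, c⟩
  refine (hB Y hY cY hV).trans (mul_le_mul_right ?_ _)
  rw [← setLIntegral_one]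
  exact lintegral_mono fun x => ENNReal.ofReal_le_one.2 (Real.sqrt_le_one.2 (h1 x))

end Vale.Agent.P219.U
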