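import Vale.Agent.P219.StmU

/-! P219 part U: an open set with smooth boundary is regular. -/

open scoped Topology
open MeasureTheory Set Filter

namespace Vale.Agent.P219.U

namespace Reg

variable {n : ℕ}

theorem sub_closure {A B : Set (Eu n)} (hA : IsOpen A) (h : A =ᵐ[volume] B) : A ⊆ closure B := by
  intro x hx
  by_contra hx'
  have h1 : IsOpen (A \ closure B) := hA.sdiff isClosed_closure
  have h2 := h1.measure_pos (volume : Measure (Eu n)) ⟨x, hx, hx'⟩
  have h3 : volume (A \ closure B) ≤ volume (A \ B) :=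
    measure_mono (sdiff_subset_sdiff_right subset_closure)
  rw [(ae_eq_set.1 h).1] at h3
  exact absurd h3 (not_le.2 h2)

theorem regular {Ω : Set (Eu n)} (h : SmB Ω) : interior (closure Ω) = Ω := by
  refine Subset.antisymm (fun p hp => ?_) (h.1.subset_interior_iff.2 subset_closure)
  by_contra hp'
  have hf : p ∈ frontier Ω := by
    rw [h.1.frontier_eq]
    exact ⟨interior_subset hp, hp'⟩
  obtain ⟨U, f, h1, h2, h3, h4, h5⟩ := h.2 p hf
  have h6 : ∀ x ∈ U, x ∈ closure Ω → f x ≤ 0 := by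
    intro x hx hx'
    by_contra h7
    have h8 : ∀ᶠ y in 𝓝 x, 0 < f y :=
      (h3.continuousOn.continuousAt (h1.mem_nhds hx)).eventually (lt_mem_nhds (not_le.1 h7))
    obtain ⟨y, ⟨a, b⟩, c⟩ := (mem_closure_iff_nhds.1 hx') _ (h8.and (h1.mem_nhds hx))
    have d : y ∈ Ω ∩ U := ⟨c, b⟩
    rw [h5] at d
    exact absurd d.2 (not_lt.2 a.le)
  have h7 : 0 ≤ f p := by
    by_contra h8
    have d : p ∈ {x ∈ U | f x < 0} := ⟨h2, not_le.1 h8⟩
    rw [← h5] at d
    exact hp' d.1
  refine h4 (IsLocalMax.fderiv_eq_zero ?_)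
  filter_upwards [h1.mem_nhds h2, mem_interior_iff_mem_nhds.1 hp] with x a b
  exact (h6 x a b).trans h7

end Reg

theorem reg_pf : RegStmt := by
  intro n Ω Φ r hr hΩ h
  have h1 : IsOpen (Φ '' Metric.ball 0 r) := Φ.isOpenMap _ Metric.isOpen_ball
  have h2 : closure Ω = closure (Φ '' Metric.ball 0 r) :=
    Subset.antisymm (closure_minimal (Reg.sub_closure hΩ.1 h) isClosed_closure)
      (closure_minimal (Reg.sub_closure h1 h.symm) isClosed_closure)
  rw [← Reg.regular hΩ, h2, ← Φ.image_closure, ← Φ.image_interior, closure_ball _ hr.ne',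
    interior_closedBall _ hr.ne']

end Vale.Agent.P219.U
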