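import Vale.Agent.P219.StmU
import Vale.Agent.P219.Frame
import Vale.Agent.P219.RigVol

/-! P219 part U: Hausdorff measures in a global chart. -/

open scoped Manifold ContDiff ENNReal RealInnerProductSpace Topology
open MeasureTheory Set Filter

set_option maxSynthPendingDepth 3

namespace Vale.Agent.P219.U

namespace Vol

variable {n : ℕ} {G : Met n}

theorem exL (h : Rm G) (y : Eu n) :
    ∃ L : Eu n ≃L[ℝ] Eu n, (∀ u, ‖L u‖ = √(G y u u)) ∧
      |LinearMap.det (L : Eu n →ₗ[ℝ] Eu n)| = wt G y := by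
  obtain ⟨A, hA⟩ := frame_pf n G h
  have hi : Function.Injective (A y : Eu n →ₗ[ℝ] Eu n) := by
    rw [← LinearMap.ker_eq_bot, LinearMap.ker_eq_bot']
    intro u hu
    have h1 := hA.iso y u u
    have h2 : A y u = 0 := hu
    rw [h2] at h1
    simp only [map_zero] at h1
    exact inner_self_eq_zero.1 h1.symm
  let T : Eu n ≃L[ℝ] Eu n := (LinearEquiv.ofInjectiveEndo _ hi).toContinuousLinearEquiv
  have hT : ∀ u, T u = A y u := fun u => rfl
  have h1 : ∀ u v, G y u v = ⟪T.symm u, T.symm v⟫ := fun u v => by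
    rw [← hA.iso y, ← hT, ← hT, T.apply_symm_apply, T.apply_symm_apply]
  refine ⟨T.symm, fun u => ?_, ?_⟩
  · rw [h1, real_inner_self_eq_norm_sq, Real.sqrt_sq (norm_nonneg _)]
  · have h2 := RV.det_gram_comp (innerSL ℝ) (T.symm : Eu n →L[ℝ] Eu n)
    have h3 : RV.gram (n := n) (innerSL ℝ) = 1 := by
      ext i j
      have h5 : RV.gram (n := n) (innerSL ℝ) i j =
          ⟪(EuclideanSpace.single i 1 : Eu n), EuclideanSpace.single j 1⟫ := rfl
      rw [h5, EuclideanSpace.inner_single_left, Matrix.one_apply]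
      simp [PiLp.single_apply]
    have h4 : RV.gram ((innerSL ℝ).bilinearComp (T.symm : Eu n →L[ℝ] Eu n)
        (T.symm : Eu n →L[ℝ] Eu n)) = Matrix.of fun i j =>
          G y (EuclideanSpace.single i 1) (EuclideanSpace.single j 1) := by
      ext i j
      simp [RV.gram, h1]
    rw [h3, h4, Matrix.det_one, mul_one] at h2
    rw [wt, h2, Real.sqrt_sq_eq_abs]
    rfl

variable {M : Type} [MetricSpace M] [MeasurableSpace M] [BorelSpace M]

theorem loc (h : Rm G) {Ψ : Eu n → M} (hb : BiL G Ψ) (y₀ : Eu n) {η : ℝ} (hη : 0 < η) :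
    ∃ N, IsOpen N ∧ y₀ ∈ N ∧ ∀ A ⊆ N, MeasurableSet A →
      (μHE[n] : Measure M) (Ψ '' A) ≤
        ENNReal.ofReal ((1 + η) ^ (n + 1)) * ∫⁻ y in A, ENNReal.ofReal (wt G y) ∧
      ∫⁻ y in A, ENNReal.ofReal (wt G y) ≤
        ENNReal.ofReal ((1 + η) ^ (n + 1)) * (μHE[n] : Measure M) (Ψ '' A) := by
  obtain ⟨L, hL1, hL⟩ := exL h y₀
  have h1 := hb y₀ η hη
  have hc : ContinuousAt (wt G) y₀ := h.wt_cont.continuousAt
  have h0 : 0 < wt G y₀ := h.wt_pos y₀
  have h2 : ∀ᶠ y in 𝓝 y₀, wt G y < (1 + η) * wt G y₀ :=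
    hc.eventually (gt_mem_nhds (by nlinarith [mul_pos hη h0]))
  have h3 : ∀ᶠ y in 𝓝 y₀, wt G y₀ < (1 + η) * wt G y :=
    (hc.const_mul (1 + η)).eventually (lt_mem_nhds (by nlinarith [mul_pos hη h0]))
  obtain ⟨N₁, hN₁, h4⟩ := mem_nhds_prod_iff.1 h1
  obtain ⟨N₂, hN₂, h4⟩ := h4
  obtain ⟨N, h5, h6, h7⟩ := mem_nhds_iff.1 (inter_mem (inter_mem hN₁ hN₂) (h2.and h3))
  have hη1 : 0 ≤ 1 + η := by linarith
  refine ⟨N, h6, h7, fun A hA hm => ?_⟩
  have h8 : ∀ a ∈ A, ∀ b ∈ A, dist (Ψ a) (Ψ b) ≤ (1 + η) * dist (L a) (L b) ∧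
      dist (L a) (L b) ≤ (1 + η) * dist (Ψ a) (Ψ b) := fun a ha b hb => by
    rw [dist_eq_norm (L a), ← map_sub, hL1]
    exact h4 (mk_mem_prod (h5 (hA ha)).1.1 (h5 (hA hb)).1.2)
  have h9 : (μHE[n] : Measure (Eu n)) (L '' A) = ENNReal.ofReal (wt G y₀) * volume A := by
    rw [EuclideanSpace.euclideanHausdorffMeasure_eq_volume, ← hL]
    exact Measure.addHaar_image_continuousLinearEquiv _ L A
  have a1 := lip hη1 (fun a ha b hb => (h8 a ha b hb).1) n
  have a2 := lip hη1 (fun a ha b hb => (h8 a ha b hb).2) n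
  rw [h9] at a1 a2
  constructor
  · refine a1.trans ?_
    rw [pow_succ, ENNReal.ofReal_mul (pow_nonneg hη1 n), mul_assoc, ← setLIntegral_const]
    refine mul_le_mul_right ?_ _
    rw [← lintegral_const_mul' _ _ ENNReal.ofReal_ne_top]
    refine setLIntegral_mono' hm fun y hy => ?_
    rw [← ENNReal.ofReal_mul hη1]
    exact ENNReal.ofReal_le_ofReal (h5 (hA hy)).2.2.le
  · rw [pow_succ', ENNReal.ofReal_mul hη1, mul_assoc]
    refine le_trans ?_ (mul_le_mul_right a2 _)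
    rw [← mul_assoc, ← setLIntegral_const, ← ENNReal.ofReal_mul hη1]
    exact setLIntegral_mono' hm fun y hy => ENNReal.ofReal_le_ofReal (h5 (hA hy)).2.1.le

theorem area (h : Rm G) (Ψ : Eu n ≃ₜ M) (hb : BiL G Ψ) {A : Set (Eu n)} (hA : MeasurableSet A) :
    (μHE[n] : Measure M) (Ψ '' A) = ∫⁻ x in A, ENNReal.ofReal (wt G x) := by
  have key : ∀ η : ℝ, 0 < η → (μHE[n] : Measure M) (Ψ '' A) ≤
      ENNReal.ofReal ((1 + η) ^ (n + 1)) * ∫⁻ y in A, ENNReal.ofReal (wt G y) ∧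
      ∫⁻ y in A, ENNReal.ofReal (wt G y) ≤
        ENNReal.ofReal ((1 + η) ^ (n + 1)) * (μHE[n] : Measure M) (Ψ '' A) := by
    intro η hη
    have h1 := fun y : Eu n => loc h hb y hη
    choose N hN1 hN2 hN3 using h1
    obtain ⟨f, hf⟩ := (HereditarilyLindelofSpace.isLindelof A).indexed_countable_subcover N hN1
      fun y _ => mem_iUnion.2 ⟨y, hN2 _⟩
    set B : ℕ → Set (Eu n) := fun i => A ∩ disjointed (fun i => N (f i)) i with hB
    have hBm : ∀ i, MeasurableSet (B i) := fun i =>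
      hA.inter (MeasurableSet.disjointed (fun i => (hN1 (f i)).measurableSet) i)
    have hBd : Pairwise (Function.onFun Disjoint B) := fun i j hij =>
      (disjoint_disjointed _ hij).mono inter_subset_right inter_subset_right
    have hAB : A = ⋃ i, B i := by
      rw [hB, ← inter_iUnion, iUnion_disjointed, inter_eq_left.2 hf]
    have hb := fun i => hN3 (f i) (B i) (inter_subset_right.trans (disjointed_subset _ i)) (hBm i)
    have e1 : (μHE[n] : Measure M) (Ψ '' A) = ∑' i, (μHE[n] : Measure M) (Ψ '' B i) := by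
      rw [hAB, image_iUnion, measure_iUnion]
      · intro i j hij
        exact (disjoint_image_iff Ψ.injective).2 (hBd hij)
      · intro i
        exact Ψ.measurableEmbedding.measurableSet_image.2 (hBm i)
    have e2 : ∫⁻ y in A, ENNReal.ofReal (wt G y) =
        ∑' i, ∫⁻ y in B i, ENNReal.ofReal (wt G y) := by
      conv_lhs => rw [hAB]
      exact lintegral_iUnion hBm hBd _
    rw [e1, e2, ← ENNReal.tsum_mul_left, ← ENNReal.tsum_mul_left]
    exact ⟨ENNReal.tsum_le_tsum fun i => (hb i).1, ENNReal.tsum_le_tsum fun i => (hb i).2⟩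
  exact le_antisymm (lim _ fun η hη => (key η hη).1) (lim _ fun η hη => (key η hη).2)

theorem low (Ψ : Eu n ≃ₜ M) (hb : BiL G Ψ) (m : ℕ) :
    Low G m (Measure.map Ψ.symm (μHE[m] : Measure M)) := by
  intro y η hη
  obtain ⟨N₁, hN₁, N₂, hN₂, h4⟩ := mem_nhds_prod_iff.1 (hb y η hη)
  refine ⟨N₁ ∩ N₂, inter_mem hN₁ hN₂, fun A hA hm π K hK hπ => ?_⟩
  have hη1 : 0 ≤ 1 + η := by linarith
  rw [Measure.map_apply Ψ.symm.continuous.measurable hm, Homeomorph.preimage_symm,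
    ← EuclideanSpace.euclideanHausdorffMeasure_eq_volume]
  refine lip (mul_nonneg hη1 hK) (fun a ha b hb => ?_) m
  rw [dist_eq_norm]
  refine (hπ a ha b hb).trans ?_
  rw [mul_comm (1 + η), mul_assoc]
  exact mul_le_mul_of_nonneg_left (h4 (mk_mem_prod (hA ha).1 (hA hb).2)).2 hK

end Vol

theorem vol_pf : VolStmt := fun _ _ _ _ _ Ψ _ h hb =>
  ⟨fun _ hA => Vol.area h Ψ hb hA, fun m => Vol.low Ψ hb m⟩

end Vale.Agent.P219.U
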