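import Vale.Agent.P219.UAsm
import Vale.Agent.P219.UCpl
import Vale.Agent.P219.UExp
import Vale.Agent.P219.UNat
import Vale.Agent.P219.UCH
import Vale.Agent.P219.UBiL
import Vale.Agent.P219.UVol
import Vale.Agent.P219.ULin
import Vale.Agent.P219.UDir
import Vale.Agent.P219.ULoc
import Vale.Agent.P219.UPer
import Vale.Agent.P219.UReg

/-! P219 part U: from the global chart to the manifold. -/

namespace Vale.Agent.P219

open U

theorem final_pf (hc : CoreStmt) (_hp : ProfStmt) : FinalStmt :=
  final_of hc cpl_pf exp_pf (ch_pf nat_pf) biL_pf vol_pf (per_pf (loc_pf lin_pf dir_pf)) reg_pf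

end Vale.Agent.P219
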